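import Mathlib
import Crest.Agent.R260.NN0_900

-- ▼ part R260/CutNu_250
section

/-!
Row 260, NN (P1) of helper680's #6155 (helper250): the cut-off functions `eta r ν` of the ball of radius `r`:
`eta = 1` where `2 / ν ≤ s`, `eta = 0` where `s ≤ 1 / ν`, `s x = r² - |x|²`, and `|D eta (v)| s ≤ C |v|` with
`C` independent of `ν`.
-/

set_option autoImplicit false
set_option linter.unusedSectionVars false

open Set Filter Topology Metric
open scoped ContDiff

noncomputable section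

namespace Crest.Agent.R260.CutNu_250

lemma st_deriv_bd : ∃ M : ℝ, 0 < M ∧ ∀ t : ℝ, |deriv Real.smoothTransition t| ≤ M := by
  have hc : Continuous (deriv Real.smoothTransition) :=
    (Real.smoothTransition.contDiff (n := 1)).continuous_deriv le_rfl
  obtain ⟨M, hM⟩ := (isCompact_Icc (a := (0 : ℝ)) (b := 1)).exists_bound_of_continuousOn
    hc.continuousOn
  refine ⟨max M 1, by positivity, fun t => ?_⟩
  by_cases ht : t ∈ Icc (0 : ℝ) 1
  · exact (hM t ht).trans (le_max_left _ _)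
  · have h1 : deriv Real.smoothTransition t = 0 := by
      rcases lt_or_ge t 0 with h | h
      · have h2 : Real.smoothTransition =ᶠ[𝓝 t] fun _ => (0 : ℝ) := by
          filter_upwards [Iio_mem_nhds h] with u hu
          exact Real.smoothTransition.zero_of_nonpos (le_of_lt hu)
        rw [h2.deriv_eq]; simp
      · have h3 : 1 < t := not_le.1 fun h3 => ht ⟨h, h3⟩
        have h2 : Real.smoothTransition =ᶠ[𝓝 t] fun _ => (1 : ℝ) := by
          filter_upwards [Ioi_mem_nhds h3] with u hu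
          exact Real.smoothTransition.one_of_one_le (le_of_lt hu)
        rw [h2.deriv_eq]; simp
    rw [h1, abs_zero]
    positivity

variable {V : Type*} [NormedAddCommGroup V] [InnerProductSpace ℝ V]

/-- the defining function of the ball -/
def sr (r : ℝ) (x : V) : ℝ := r ^ 2 - ‖x‖ ^ 2

/-- the cut-off function -/
def eta (r ν : ℝ) (x : V) : ℝ := Real.smoothTransition (ν * sr r x - 1)

/-- the cut-off function, complex valued -/
def etaC (r ν : ℝ) (x : V) : ℂ := (eta r ν x : ℂ)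

variable {r ν : ℝ}

lemma sr_smooth : ContDiff ℝ ∞ (sr r : V → ℝ) := contDiff_const.sub (contDiff_norm_sq ℝ)

lemma eta_smooth : ContDiff ℝ ∞ (eta r ν : V → ℝ) :=
  Real.smoothTransition.contDiff.comp ((contDiff_const.mul sr_smooth).sub contDiff_const)

lemma etaC_smooth : ContDiff ℝ ∞ (etaC r ν : V → ℂ) := Complex.ofRealCLM.contDiff.comp eta_smooth




lemma eta_one (hν : 0 < ν) {x : V} (h : 2 / ν ≤ sr r x) : eta r ν x = 1 := by
  refine Real.smoothTransition.one_of_one_le ?_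
  rw [div_le_iff₀' hν] at h
  linarith

lemma eta_zero (hν : 0 < ν) {x : V} (h : sr r x ≤ 1 / ν) : eta r ν x = 0 := by
  refine Real.smoothTransition.zero_of_nonpos ?_
  rw [le_div_iff₀' hν] at h
  linarith


lemma etaC_zero (hν : 0 < ν) {x : V} (h : sr r x ≤ 1 / ν) : etaC r ν x = 0 := by
  unfold etaC; rw [eta_zero hν h, Complex.ofReal_zero]

/-- for every point of the ball `eta = 1` near the point, for all large `ν` -/
lemma eta_one_ev {x : V} (hx : x ∈ ball (0 : V) r) :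
    ∃ ν₀ : ℝ, 0 < ν₀ ∧ ∀ ν ≥ ν₀, ∀ᶠ y in 𝓝 x, eta r ν y = 1 := by
  have hx' : ‖x‖ < r := by simpa using hx
  have hs : 0 < sr r x := by
    have h0 := norm_nonneg x
    unfold sr; nlinarith
  refine ⟨4 / sr r x, by positivity, fun ν hν => ?_⟩
  have hν0 : 0 < ν := lt_of_lt_of_le (by positivity) hν
  have h1 : ∀ᶠ y in 𝓝 x, sr r x / 2 < sr r y :=
    (sr_smooth (V := V) (r := r)).continuous.continuousAt.eventually
      (lt_mem_nhds (by linarith : sr r x / 2 < sr r x))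
  filter_upwards [h1] with y hy
  refine eta_one hν0 ?_
  rw [div_le_iff₀' hν0]
  rw [ge_iff_le, div_le_iff₀ hs] at hν
  have h3 : ν * (sr r x / 2) ≤ ν * sr r y := mul_le_mul_of_nonneg_left hy.le hν0.le
  linarith


lemma tsupportC_sub (hν : 0 < ν) : tsupport (etaC r ν : V → ℂ) ⊆ {x | 1 / ν ≤ sr r x} := by
  refine closure_minimal (fun x hx => ?_) (isClosed_le continuous_const sr_smooth.continuous)
  by_contra h
  exact hx (etaC_zero hν (not_le.1 h).le)

lemma sub_ball (hr : 0 < r) (hν : 0 < ν) : {x : V | 1 / ν ≤ sr r x} ⊆ ball (0 : V) r := by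
  intro x hx
  have h1 : 0 < 1 / ν := by positivity
  have h2 : 0 < sr r x := h1.trans_le hx
  unfold sr at h2
  rw [mem_ball_zero_iff]
  by_contra h
  push Not at h
  nlinarith


lemma tsupportC_ball (hr : 0 < r) (hν : 0 < ν) : tsupport (etaC r ν : V → ℂ) ⊆ ball (0 : V) r :=
  (tsupportC_sub hν).trans (sub_ball hr hν)


lemma hasCompactSupportC [FiniteDimensional ℝ V] (hr : 0 < r) (hν : 0 < ν) :
    HasCompactSupport (etaC r ν : V → ℂ) :=
  (isCompact_closedBall (0 : V) r).of_isClosed_subset (isClosed_tsupport _)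
    ((tsupportC_ball hr hν).trans ball_subset_closedBall)

/-- `TestC (ball 0 r) (etaC r ν)`, unfolded -/
lemma testC [FiniteDimensional ℝ V] (hr : 0 < r) (hν : 0 < ν) :
    ContDiff ℝ ∞ (etaC r ν : V → ℂ) ∧ HasCompactSupport (etaC r ν : V → ℂ) ∧
      tsupport (etaC r ν : V → ℂ) ⊆ ball (0 : V) r :=
  ⟨etaC_smooth, hasCompactSupportC hr hν, tsupportC_ball hr hν⟩

lemma sr_fderiv (x v : V) : fderiv ℝ (sr r) x v = -(2 * inner ℝ x v) := by
  have h1 : HasFDerivAt (fun x : V => ‖x‖ ^ 2) (2 • (innerSL ℝ x)) x :=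
    (hasStrictFDerivAt_norm_sq x).hasFDerivAt
  have h2 : HasFDerivAt (sr r : V → ℝ) (-(2 • (innerSL ℝ x))) x := h1.const_sub _
  rw [h2.fderiv]
  simp

lemma abs_sr_fderiv (x v : V) : |fderiv ℝ (sr r) x v| ≤ 2 * ‖x‖ * ‖v‖ := by
  rw [sr_fderiv, abs_neg, abs_mul, abs_of_pos (by norm_num : (0 : ℝ) < 2), mul_assoc]
  exact mul_le_mul_of_nonneg_left (abs_real_inner_le_norm x v) (by norm_num)

lemma eta_fderiv (x v : V) : fderiv ℝ (eta r ν) x v =
    deriv Real.smoothTransition (ν * sr r x - 1) * (ν * fderiv ℝ (sr r) x v) := by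
  have hs : HasFDerivAt (sr r : V → ℝ) (fderiv ℝ (sr r) x) x :=
    (sr_smooth.differentiable (by simp)).differentiableAt.hasFDerivAt
  have h1 : HasFDerivAt (fun x : V => ν * sr r x - 1) (ν • fderiv ℝ (sr r) x) x :=
    (hs.const_mul ν).sub_const 1
  have h2 : HasDerivAt Real.smoothTransition (deriv Real.smoothTransition (ν * sr r x - 1))
      (ν * sr r x - 1) :=
    ((Real.smoothTransition.contDiff (n := 1)).differentiable (by simp)).differentiableAt.hasDerivAt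
  have h3 := h2.comp_hasFDerivAt x h1
  have h4 : fderiv ℝ (eta r ν) x = _ := h3.fderiv
  rw [h4]
  simp

/-- **the bound of the derivative**, independent of `ν` -/
theorem exists_C (r : ℝ) (hr : 0 < r) : ∃ C : ℝ, 0 < C ∧ ∀ ν > 0, ∀ x v : V,
    |fderiv ℝ (eta r ν) x v| * |sr r x| ≤ C * ‖v‖ := by
  obtain ⟨M, hM0, hM⟩ := st_deriv_bd
  refine ⟨4 * M * r, by positivity, fun ν hν x v => ?_⟩
  by_cases hs : ν * sr r x - 1 ∈ Icc (0 : ℝ) 1
  · have hs1 : 0 < sr r x := by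
      by_contra h
      push Not at h
      have : ν * sr r x ≤ 0 := mul_nonpos_of_nonneg_of_nonpos hν.le h
      linarith [hs.1]
    have hx : ‖x‖ ≤ r := by
      unfold sr at hs1
      by_contra h
      push Not at h
      nlinarith
    rw [eta_fderiv, abs_mul, abs_mul, abs_of_pos hν, abs_of_pos hs1]
    have h1 := abs_sr_fderiv (r := r) x v
    have h2 : |fderiv ℝ (sr r) x v| ≤ 2 * r * ‖v‖ :=
      h1.trans (by have := norm_nonneg v; gcongr)
    have h3 : ν * sr r x ≤ 2 := by linarith [hs.2]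
    calc |deriv Real.smoothTransition (ν * sr r x - 1)| * (ν * |fderiv ℝ (sr r) x v|) * sr r x
        = |deriv Real.smoothTransition (ν * sr r x - 1)| * |fderiv ℝ (sr r) x v| *
          (ν * sr r x) := by ring
      _ ≤ M * (2 * r * ‖v‖) * 2 := by
          have := hM (ν * sr r x - 1)
          gcongr
      _ = _ := by ring
  · have h1 : fderiv ℝ (eta r ν) x v = 0 := by
      rw [eta_fderiv]
      have h2 : deriv Real.smoothTransition (ν * sr r x - 1) = 0 := by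
        set t := ν * sr r x - 1 with ht
        rcases lt_or_ge t 0 with h | h
        · have h2 : Real.smoothTransition =ᶠ[𝓝 t] fun _ => (0 : ℝ) := by
            filter_upwards [Iio_mem_nhds h] with u hu
            exact Real.smoothTransition.zero_of_nonpos (le_of_lt hu)
          rw [h2.deriv_eq]; simp
        · have h3 : 1 < t := not_le.1 fun h3 => hs ⟨h, h3⟩
          have h2 : Real.smoothTransition =ᶠ[𝓝 t] fun _ => (1 : ℝ) := by
            filter_upwards [Ioi_mem_nhds h3] with u hu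
            exact Real.smoothTransition.one_of_one_le (le_of_lt hu)
          rw [h2.deriv_eq]; simp
      rw [h2, zero_mul]
    rw [h1, abs_zero, zero_mul]
    positivity

lemma etaC_fderiv (x v : V) : fderiv ℝ (etaC r ν) x v = (fderiv ℝ (eta r ν) x v : ℂ) := by
  have h0 : HasFDerivAt (eta r ν : V → ℝ) (fderiv ℝ (eta r ν) x) x :=
    (eta_smooth.differentiable (by simp)).differentiableAt.hasFDerivAt
  have h1 : HasFDerivAt (etaC r ν : V → ℂ) (Complex.ofRealCLM.comp (fderiv ℝ (eta r ν) x)) x :=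
    Complex.ofRealCLM.hasFDerivAt.comp x h0
  rw [h1.fderiv]
  rfl

/-- the bound for the complex valued function -/
theorem exists_CC (r : ℝ) (hr : 0 < r) : ∃ C : ℝ, 0 < C ∧ ∀ ν > 0, ∀ x v : V,
    ‖fderiv ℝ (etaC r ν) x v‖ * |sr r x| ≤ C * ‖v‖ := by
  obtain ⟨C, hC, h⟩ := exists_C (V := V) r hr
  refine ⟨C, hC, fun ν hν x v => ?_⟩
  rw [etaC_fderiv, Complex.norm_real]
  exact h ν hν x v

end Crest.Agent.R260.CutNu_250
end
end

-- ▼ part R260/JFr_250

/-!
# Row 260, Newlander-Nirenberg: the redundant J-frame (helper250)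

`V = EuclideanSpace ℝ (Fin N)`, `X_j = (1/2) (e_j + i J e_j)`.
-/

set_option autoImplicit false
set_option linter.unusedSectionVars false
set_option linter.deprecated false

noncomputable section

open MeasureTheory Filter Topology Set Metric
open scoped ContDiff ComplexConjugate

namespace Crest.Agent.R260.JFr_250

open NN0_900 CutNu_250

variable {N : ℕ}

/-- abbreviation for the space -/
abbrev VV (N : ℕ) := EuclideanSpace ℝ (Fin N)

/-- the standard basis vector -/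
abbrev ee (j : Fin N) : VV N := EuclideanSpace.single j (1 : ℝ)

/-- the redundant frame of `(0,1)` fields of `J` -/
def jfam (J : VV N → VV N →L[ℝ] VV N) : Fam (Fin N) (VV N) :=
  ⟨fun j _ => (1 / 2 : ℝ) • EuclideanSpace.single j (1 : ℝ),
    fun j x => (1 / 2 : ℝ) • J x (EuclideanSpace.single j (1 : ℝ))⟩

variable (J : VV N → VV N →L[ℝ] VV N)

lemma jfam_A (j : Fin N) (x : VV N) : (jfam J).A j x = (1 / 2 : ℝ) • ee j := rfl

lemma jfam_B (j : Fin N) (x : VV N) : (jfam J).B j x = (1 / 2 : ℝ) • J x (ee j) := rfl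

lemma sum_ee (v : VV N) : ∑ j, v j • ee j = v := by
  have h := (EuclideanSpace.basisFun (Fin N) ℝ).sum_repr v
  simpa using h

/-- a real linear map killing the basis is zero -/
lemma lin_ext {W : Type*} [AddCommGroup W] [Module ℝ W] {L : VV N →ₗ[ℝ] W}
    (h : ∀ j, L (ee j) = 0) (v : VV N) : L v = 0 := by
  rw [← sum_ee v, map_sum]
  exact Finset.sum_eq_zero fun j _ => by rw [map_smul, h j, smul_zero]

/-- **(b)** the family is elliptic everywhere -/
theorem jfam_ell (Ω : Set (VV N)) : (jfam J).Ell Ω := by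
  intro x _ L hL
  ext v
  have h : ∀ j, (L : VV N →ₗ[ℝ] ℝ) (ee j) = 0 := fun j => by
    have h1 := (hL j).1
    rw [jfam_A, map_smul, smul_eq_mul] at h1
    simpa using h1
  simpa using lin_ext h v

/-- smoothness -/
theorem jfam_sm {Ω : Set (VV N)} (hJ : ContDiffOn ℝ ∞ J Ω) : (jfam J).Sm Ω :=
  ⟨fun _ => contDiffOn_const, fun j => by
    have h : ContDiffOn ℝ ∞ (fun x => (1 / 2 : ℝ) • J x (EuclideanSpace.single j (1 : ℝ))) Ω :=
      (hJ.clm_apply contDiffOn_const).const_smul _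
    exact h⟩

/-- formula for `X_j` -/
theorem X_eq (j : Fin N) (g : VV N → ℂ) (x : VV N) : (jfam J).X j g x =
    (1 / 2) * (fderiv ℝ g x (ee j) + Complex.I * fderiv ℝ g x (J x (ee j))) := by
  simp only [Fam.X, NN0_900.cd, jfam_A, jfam_B, map_smul, Complex.real_smul]
  push_cast
  ring

/-- formula for `Y_j` -/
theorem Y_eq (j : Fin N) (g : VV N → ℂ) (x : VV N) : (jfam J).Y j g x =
    (1 / 2) * (fderiv ℝ g x (ee j) - Complex.I * fderiv ℝ g x (J x (ee j))) := by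
  simp only [Fam.Y, NN0_900.cd, jfam_A, jfam_B, map_neg, map_smul, Complex.real_smul]
  push_cast
  ring

/-- the frame in any direction: `(1/2)(g'(v) + i g'(J v)) = ∑ v_j X_j g` -/
theorem sum_X (g : VV N → ℂ) (x v : VV N) :
    (1 / 2) * (fderiv ℝ g x v + Complex.I * fderiv ℝ g x (J x v)) =
      ∑ j, (v j : ℂ) * (jfam J).X j g x := by
  have h1 : fderiv ℝ g x v = ∑ j, (v j : ℂ) * fderiv ℝ g x (ee j) := by
    conv_lhs => rw [← sum_ee v, map_sum]
    exact Finset.sum_congr rfl fun j _ => by rw [map_smul, Complex.real_smul]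
  have h2 : fderiv ℝ g x (J x v) = ∑ j, (v j : ℂ) * fderiv ℝ g x (J x (ee j)) := by
    conv_lhs => rw [← sum_ee v, map_sum, map_sum]
    exact Finset.sum_congr rfl fun j _ => by rw [map_smul, map_smul, Complex.real_smul]
  rw [h1, h2, Finset.mul_sum, ← Finset.sum_add_distrib, Finset.mul_sum]
  exact Finset.sum_congr rfl fun j _ => by rw [X_eq]; ring


/-- **(a)** `X_j g = 0` for all `j` at `x` iff `g` satisfies the Cauchy-Riemann equation of `J`
at `x` -/
theorem X_zero_iff (g : VV N → ℂ) (x : VV N) : (∀ j, (jfam J).X j g x = 0) ↔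
    ∀ v, fderiv ℝ g x (J x v) = Complex.I * fderiv ℝ g x v := by
  constructor
  · intro h v
    have h1 := sum_X J g x v
    rw [Finset.sum_eq_zero fun j _ => by rw [h j, mul_zero]] at h1
    have h2 : fderiv ℝ g x v + Complex.I * fderiv ℝ g x (J x v) = 0 := by
      simpa using h1
    have h3 : Complex.I * (fderiv ℝ g x v + Complex.I * fderiv ℝ g x (J x v)) = 0 := by
      rw [h2, mul_zero]
    rw [mul_add, ← mul_assoc, Complex.I_mul_I] at h3
    linear_combination -h3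
  · intro h j
    rw [X_eq, h, ← mul_assoc, Complex.I_mul_I]
    ring



/-- bound of `J x e_j` from the quadratic closeness and `J 0` isometric -/
lemma norm_J_le {R C : ℝ} (hC : 0 ≤ C) (h0 : ∀ v, ‖J 0 v‖ = ‖v‖)
    (hq : ∀ x ∈ ball (0 : VV N) R, ∀ v, ‖J x v - J 0 v‖ ≤ C * ‖x‖ ^ 2 * ‖v‖)
    {x : VV N} (hx : x ∈ ball (0 : VV N) R) (v : VV N) : ‖J x v‖ ≤ (1 + C * R ^ 2) * ‖v‖ := by
  have h1 : ‖J x v‖ ≤ ‖J x v - J 0 v‖ + ‖J 0 v‖ := by
    simpa using norm_add_le (J x v - J 0 v) (J 0 v)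
  have h2 := hq x hx v
  have h3 : ‖x‖ ≤ R := (mem_ball_zero_iff.1 hx).le
  have h4 : C * ‖x‖ ^ 2 * ‖v‖ ≤ C * R ^ 2 * ‖v‖ := by gcongr
  rw [h0] at h1
  linarith

/-- **(c)** the cut-offs: `‖X_j η_ν‖ |s| ≤ C'`, `C'` independent of `ν` -/
theorem X_eta_le {R C : ℝ} (hC : 0 ≤ C) (h0 : ∀ v, ‖J 0 v‖ = ‖v‖)
    (hq : ∀ x ∈ ball (0 : VV N) R, ∀ v, ‖J x v - J 0 v‖ ≤ C * ‖x‖ ^ 2 * ‖v‖) {r : ℝ}
    (hr : 0 < r) : ∃ C' : ℝ, 0 < C' ∧ ∀ ν > 0, ∀ x ∈ ball (0 : VV N) R, ∀ j,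
      ‖(jfam J).X j (etaC r ν) x‖ * |sr r x| ≤ C' := by
  obtain ⟨D, hD, h⟩ := exists_CC (V := VV N) r hr
  refine ⟨(D / 2) * (1 + (1 + C * R ^ 2)), by positivity, fun ν hν x hx j => ?_⟩
  have hJ : ‖J x (ee j)‖ ≤ 1 + C * R ^ 2 := by
    simpa [ee] using norm_J_le J hC h0 hq hx (ee j)
  rw [X_eq, norm_mul, mul_assoc]
  have h1 : ‖(1 / 2 : ℂ)‖ = 1 / 2 := by norm_num
  have h2 : ‖ee j‖ = 1 := by simp [ee]
  have h3 : ‖fderiv ℝ (etaC r ν) x (ee j) + Complex.I * fderiv ℝ (etaC r ν) x (J x (ee j))‖ *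
      |sr r x| ≤ D * 1 + D * ‖J x (ee j)‖ := by
    calc ‖fderiv ℝ (etaC r ν) x (ee j) + Complex.I * fderiv ℝ (etaC r ν) x (J x (ee j))‖ * |sr r x|
        ≤ (‖fderiv ℝ (etaC r ν) x (ee j)‖ +
            ‖Complex.I * fderiv ℝ (etaC r ν) x (J x (ee j))‖) * |sr r x| :=
          mul_le_mul_of_nonneg_right (norm_add_le _ _) (abs_nonneg _)
      _ = ‖fderiv ℝ (etaC r ν) x (ee j)‖ * |sr r x| +
            ‖fderiv ℝ (etaC r ν) x (J x (ee j))‖ * |sr r x| := by
          rw [norm_mul, Complex.norm_I, one_mul, add_mul]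
      _ ≤ D * 1 + D * ‖J x (ee j)‖ := by
          refine add_le_add ?_ (h ν hν x _)
          simpa [h2] using h ν hν x (ee j)
  rw [h1]
  calc 1 / 2 * (‖fderiv ℝ (etaC r ν) x (ee j) + Complex.I * fderiv ℝ (etaC r ν) x (J x (ee j))‖ *
      |sr r x|) ≤ 1 / 2 * (D * 1 + D * ‖J x (ee j)‖) :=
        mul_le_mul_of_nonneg_left h3 (by norm_num)
    _ = (D / 2) * (1 + ‖J x (ee j)‖) := by ring
    _ ≤ (D / 2) * (1 + (1 + C * R ^ 2)) := by gcongr

/-- (c), squared and summed: `s² ∑_j |X_j η_ν|² ≤ C'` on the ball -/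
theorem sum_X_eta_le {R C : ℝ} (hC : 0 ≤ C) (h0 : ∀ v, ‖J 0 v‖ = ‖v‖)
    (hq : ∀ x ∈ ball (0 : VV N) R, ∀ v, ‖J x v - J 0 v‖ ≤ C * ‖x‖ ^ 2 * ‖v‖) {r : ℝ}
    (hr : 0 < r) : ∃ C' : ℝ, 0 < C' ∧ ∀ ν > 0, ∀ x ∈ ball (0 : VV N) R,
      (∑ j, ‖(jfam J).X j (etaC r ν) x‖ ^ 2) * sr r x ^ 2 ≤ C' := by
  obtain ⟨D, hD, h⟩ := X_eta_le J hC h0 hq hr
  refine ⟨N * D ^ 2 + 1, by positivity, fun ν hν x hx => ?_⟩
  rw [Finset.sum_mul]
  have h1 : ∀ j ∈ (Finset.univ : Finset (Fin N)),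
      ‖(jfam J).X j (etaC r ν) x‖ ^ 2 * sr r x ^ 2 ≤ D ^ 2 := by
    intro j _
    rw [← sq_abs (sr r x), ← mul_pow]
    exact pow_le_pow_left₀ (by positivity) (h ν hν x hx j) 2
  have h2 := Finset.sum_le_sum h1
  simp only [Finset.sum_const, Finset.card_univ, Fintype.card_fin, nsmul_eq_mul] at h2
  linarith

/-- **(d)** the frame on a `J 0`-complex linear function -/
theorem X_lin_eq (s₀ : VV N →L[ℝ] ℂ) (hs : ∀ v, s₀ (J 0 v) = Complex.I * s₀ v) (j : Fin N)
    (x : VV N) : (jfam J).X j (fun y => s₀ y) x =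
      (1 / 2) * (Complex.I * s₀ (J x (ee j) - J 0 (ee j))) := by
  rw [X_eq]
  have h1 : fderiv ℝ (fun y => s₀ y) x = s₀ := s₀.hasFDerivAt.fderiv
  rw [h1, map_sub, hs]
  linear_combination ((1 / 2) * s₀ (ee j)) * Complex.I_mul_I

theorem X_lin_le {R C : ℝ} (s₀ : VV N →L[ℝ] ℂ) (hs : ∀ v, s₀ (J 0 v) = Complex.I * s₀ v)
    (hq : ∀ x ∈ ball (0 : VV N) R, ∀ v, ‖J x v - J 0 v‖ ≤ C * ‖x‖ ^ 2 * ‖v‖) (j : Fin N)
    {x : VV N} (hx : x ∈ ball (0 : VV N) R) :
    ‖(jfam J).X j (fun y => s₀ y) x‖ ≤ (‖s₀‖ * C / 2) * ‖x‖ ^ 2 := by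
  rw [X_lin_eq J s₀ hs, norm_mul, norm_mul, Complex.norm_I, one_mul]
  have h1 : ‖(1 / 2 : ℂ)‖ = 1 / 2 := by norm_num
  have h2 : ‖s₀ (J x (ee j) - J 0 (ee j))‖ ≤ ‖s₀‖ * (C * ‖x‖ ^ 2 * ‖ee j‖) :=
    (s₀.le_opNorm _).trans (mul_le_mul_of_nonneg_left (hq x hx _) (norm_nonneg _))
  have h3 : ‖ee j‖ = 1 := by simp [ee]
  rw [h3] at h2
  rw [h1]
  linarith

/-- the sum of the squares: `∑_j |X_j s₀|² ≤ N (‖s₀‖ C / 2)² |x|⁴` -/
theorem sum_X_lin_le {R C : ℝ} (s₀ : VV N →L[ℝ] ℂ) (hs : ∀ v, s₀ (J 0 v) = Complex.I * s₀ v)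
    (hq : ∀ x ∈ ball (0 : VV N) R, ∀ v, ‖J x v - J 0 v‖ ≤ C * ‖x‖ ^ 2 * ‖v‖)
    {x : VV N} (hx : x ∈ ball (0 : VV N) R) :
    ∑ j, ‖(jfam J).X j (fun y => s₀ y) x‖ ^ 2 ≤ N * (‖s₀‖ * C / 2) ^ 2 * ‖x‖ ^ 4 := by
  have h1 : ∀ j ∈ (Finset.univ : Finset (Fin N)),
      ‖(jfam J).X j (fun y => s₀ y) x‖ ^ 2 ≤ ((‖s₀‖ * C / 2) * ‖x‖ ^ 2) ^ 2 := fun j _ =>
    pow_le_pow_left₀ (norm_nonneg _) (X_lin_le J s₀ hs hq j hx) 2
  refine (Finset.sum_le_sum h1).trans (le_of_eq ?_)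
  simp only [Finset.sum_const, Finset.card_univ, Fintype.card_fin, nsmul_eq_mul]
  ring

end Crest.Agent.R260.JFr_250
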