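import Crest.Agent.R260.NN0_900
import Mathlib
import Crest.Agent.R260.ACM_580

-- ▼ part R260/NN1_900
section

/-!
# Row 260, local Newlander-Nirenberg: Riesz and Cauchy-Schwarz (helper900)
-/

set_option autoImplicit false
set_option linter.unusedSectionVars false
set_option linter.deprecated false

noncomputable section

open MeasureTheory Filter Topology Set
open scoped ENNReal NNReal ContDiff ComplexConjugate

namespace Crest.Agent.R260.NN1_900

open NN0_900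

/-- Riesz: a functional bounded by the Hilbert norm of a linear map is represented. -/
theorem riesz {T H : Type*} [AddCommGroup T] [Module ℂ T] [NormedAddCommGroup H]
    [InnerProductSpace ℂ H] [CompleteSpace H] (P : T →ₗ[ℂ] H) (Λ : T →ₗ[ℂ] ℂ) {C : ℝ}
    (hC : 0 ≤ C) (hT : ∀ v, ‖Λ v‖ ≤ C * ‖P v‖) :
    ∃ z : H, ‖z‖ ≤ C ∧ ∀ v, Λ v = inner ℂ z (P v) := by
  classical
  have hker : LinearMap.ker P ≤ LinearMap.ker Λ := by
    intro v hv
    rw [LinearMap.mem_ker] at hv ⊢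
    have := hT v
    rw [hv, norm_zero, mul_zero] at this
    exact norm_le_zero_iff.1 this
  let e := P.quotKerEquivRange
  let T' : LinearMap.range P →ₗ[ℂ] ℂ := ((LinearMap.ker P).liftQ Λ hker).comp e.symm.toLinearMap
  have hT' : ∀ v, T' ⟨P v, LinearMap.mem_range_self P v⟩ = Λ v := by
    intro v
    have h1 : e.symm ⟨P v, LinearMap.mem_range_self P v⟩ = (LinearMap.ker P).mkQ v := by
      rw [LinearEquiv.symm_apply_eq]
      rfl
    simp only [T', LinearMap.comp_apply, LinearEquiv.coe_coe, h1]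
    rfl
  have hb : ∀ y : LinearMap.range P, ‖T' y‖ ≤ C * ‖y‖ := by
    rintro ⟨y, v, rfl⟩
    rw [hT' v]
    exact hT v
  let f : StrongDual ℂ (LinearMap.range P) := T'.mkContinuous C hb
  obtain ⟨g, hg1, hg2⟩ := _root_.exists_extension_norm_eq (LinearMap.range P) f
  refine ⟨(InnerProductSpace.toDual ℂ H).symm g, ?_, ?_⟩
  · rw [LinearIsometryEquiv.norm_map, hg2]
    exact T'.mkContinuous_norm_le hC hb
  · intro v
    rw [InnerProductSpace.toDual_symm_apply]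
    have := hg1 ⟨P v, LinearMap.mem_range_self P v⟩
    rw [this]
    exact (hT' v).symm

section

variable {X : Type*} [MeasurableSpace X] {μ : Measure X}

theorem sq_int {G : X → ℂ} (hG : MemLp G 2 μ) : ‖hG.toLp G‖ ^ 2 = ∫ x, ‖G x‖ ^ 2 ∂μ := by
  rw [Lp.norm_toLp, eLpNorm_eq_lintegral_rpow_enorm_toReal (by norm_num) (by norm_num),
    integral_eq_lintegral_of_nonneg_ae (f := fun x => ‖G x‖ ^ 2)
      (Eventually.of_forall fun x => by positivity) ((hG.1.norm.pow 2))]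
  have e : ∀ x, ENNReal.ofReal (‖G x‖ ^ 2) = ‖G x‖ₑ ^ (ENNReal.toReal 2) := by
    intro x
    rw [ENNReal.ofReal_pow (norm_nonneg _), ofReal_norm]
    simp
  simp_rw [e]
  rw [← ENNReal.toReal_rpow, ← Real.rpow_natCast, ← Real.rpow_mul ENNReal.toReal_nonneg]
  simp

/-- Riesz in `L²`, bilinear form -/
theorem riesz_L2 {T : Type*} [AddCommGroup T] [Module ℂ T] (P : T →ₗ[ℂ] (X → ℂ))
    (hP : ∀ t, MemLp (P t) 2 μ) (Λ : T →ₗ[ℂ] ℂ) {M : ℝ} (hM : 0 ≤ M)
    (h : ∀ t, ‖Λ t‖ ^ 2 ≤ M * ∫ x, ‖P t x‖ ^ 2 ∂μ) :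
    ∃ U : X → ℂ, MemLp U 2 μ ∧ ∫ x, ‖U x‖ ^ 2 ∂μ ≤ M ∧ ∀ t, Λ t = ∫ x, U x * P t x ∂μ := by
  let P' : T →ₗ[ℂ] Lp ℂ 2 μ :=
    { toFun := fun t => (hP t).toLp (P t)
      map_add' := by
        intro s t
        rw [← MemLp.toLp_add]
        congr 1
        exact map_add P s t
      map_smul' := by
        intro c t
        rw [RingHom.id_apply, ← MemLp.toLp_const_smul]
        congr 1
        exact map_smul P c t }
  have hb : ∀ t, ‖Λ t‖ ≤ Real.sqrt M * ‖P' t‖ := by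
    intro t
    have h1 : ‖P' t‖ ^ 2 = ∫ x, ‖P t x‖ ^ 2 ∂μ := sq_int (hP t)
    have h2 := h t
    rw [← h1] at h2
    rw [← Real.sqrt_sq (norm_nonneg (Λ t)), ← Real.sqrt_sq (norm_nonneg (P' t)),
      ← Real.sqrt_mul hM]
    exact Real.sqrt_le_sqrt h2
  obtain ⟨z, hz, hz'⟩ := riesz P' Λ (Real.sqrt_nonneg M) hb
  have hzm : MemLp z 2 μ := Lp.memLp z
  refine ⟨fun x => conj (z x), ?_, ?_, ?_⟩
  · refine ⟨Complex.continuous_conj.comp_aestronglyMeasurable hzm.1, ?_⟩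
    have : eLpNorm (fun x => conj (z x)) 2 μ = eLpNorm z 2 μ := by
      apply eLpNorm_congr_norm_ae
      exact Eventually.of_forall fun x => by simp
    rw [this]; exact hzm.2
  · have h1 := sq_int hzm
    rw [Lp.toLp_coeFn] at h1
    simp only [RCLike.norm_conj]
    rw [← h1]
    have := pow_le_pow_left₀ (norm_nonneg z) hz 2
    rwa [Real.sq_sqrt hM] at this
  · intro t
    rw [hz' t, L2.inner_def]
    apply integral_congr_ae
    filter_upwards [(hP t).coeFn_toLp] with x hx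
    have e : (P' t : X → ℂ) x = P t x := hx
    rw [e, RCLike.inner_apply, mul_comm]

/-- Cauchy-Schwarz -/
theorem cs_int {A B : X → ℝ} (hA : Integrable A μ) (hB : Integrable B μ) (hA0 : ∀ x, 0 ≤ A x)
    (hB0 : ∀ x, 0 ≤ B x) :
    Integrable (fun x => Real.sqrt (A x) * Real.sqrt (B x)) μ ∧
    (∫ x, Real.sqrt (A x) * Real.sqrt (B x) ∂μ) ^ 2 ≤ (∫ x, A x ∂μ) * ∫ x, B x ∂μ := by
  have hm : ∀ {C : X → ℝ}, Integrable C μ → (∀ x, 0 ≤ C x) →
      MemLp (fun x => Real.sqrt (C x)) 2 μ := by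
    intro C hC hC0
    rw [memLp_two_iff_integrable_sq (Real.continuous_sqrt.comp_aestronglyMeasurable hC.1)]
    refine hC.congr (Eventually.of_forall fun x => ?_)
    exact (Real.sq_sqrt (hC0 x)).symm
  have h2 : (2 : ℝ≥0∞) = ENNReal.ofReal 2 := by simp
  refine ⟨(hm hA hA0).integrable_mul (hm hB hB0), ?_⟩
  have h := integral_mul_le_Lp_mul_Lq_of_nonneg (μ := μ) Real.HolderConjugate.two_two
    (f := fun x => Real.sqrt (A x)) (g := fun x => Real.sqrt (B x))
    (Eventually.of_forall fun x => Real.sqrt_nonneg _)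
    (Eventually.of_forall fun x => Real.sqrt_nonneg _)
    (by rw [← h2]; exact hm hA hA0) (by rw [← h2]; exact hm hB hB0)
  have e : ∀ {C : X → ℝ}, (∀ x, 0 ≤ C x) → (∫ x, Real.sqrt (C x) ^ (2 : ℝ) ∂μ) = ∫ x, C x ∂μ := by
    intro C hC0
    congr 1; funext x
    rw [show (2 : ℝ) = ((2 : ℕ) : ℝ) by norm_num, Real.rpow_natCast, Real.sq_sqrt (hC0 x)]
  rw [e hA0, e hB0, ← Real.sqrt_eq_rpow, ← Real.sqrt_eq_rpow] at h
  have h0 : 0 ≤ ∫ x, Real.sqrt (A x) * Real.sqrt (B x) ∂μ :=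
    integral_nonneg fun x => mul_nonneg (Real.sqrt_nonneg _) (Real.sqrt_nonneg _)
  calc (∫ x, Real.sqrt (A x) * Real.sqrt (B x) ∂μ) ^ 2
      ≤ (Real.sqrt (∫ x, A x ∂μ) * Real.sqrt (∫ x, B x ∂μ)) ^ 2 := pow_le_pow_left₀ h0 h 2
    _ = (∫ x, A x ∂μ) * ∫ x, B x ∂μ := by
        rw [mul_pow, Real.sq_sqrt (integral_nonneg hA0), Real.sq_sqrt (integral_nonneg hB0)]

end

end Crest.Agent.R260.NN1_900
end
end

-- ▼ part R260/NN2_900
section

/-!
# Row 260, local Newlander-Nirenberg: the weak solution (helper900)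
-/

set_option autoImplicit false
set_option linter.unusedSectionVars false
set_option linter.deprecated false
set_option maxHeartbeats 400000

noncomputable section

open MeasureTheory Filter Topology Set
open scoped ENNReal NNReal ContDiff ComplexConjugate

namespace Crest.Agent.R260.NN2_900

open NN0_900 NN1_900

variable {V : Type*} [NormedAddCommGroup V] [InnerProductSpace ℝ V] [FiniteDimensional ℝ V]
  [MeasurableSpace V] [BorelSpace V] {Ω : Set V} {ι : Type*} [Fintype ι] {S : Fam ι V}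

/-- regularity of weak solutions of `∑_j X_j^t (w Y_j ·)` -/
def RegP (S : Fam ι V) (Ω : Set V) (w : V → ℝ) : Prop :=
  ∀ u : V → ℂ, LocallyIntegrableOn u Ω → (∀ κ, TestC Ω κ → ∫ x, u x * S.QQ w κ x = 0) →
    ∃ v : V → ℂ, ContDiffOn ℝ ∞ v Ω ∧ ∀ᵐ x, x ∈ Ω → v x = u x

/-- test functions as a complex vector space -/
def testSub (Ω : Set V) : Submodule ℂ (V → ℂ) where
  carrier := {g | TestC Ω g}
  add_mem' := fun ha hb => TestC.add ha hb
  zero_mem' := TestC.zero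
  smul_mem' := fun c _ h => TestC.const_mul h c

theorem diffAt (hΩ : IsOpen Ω) {f : V → ℂ} (hf : ContDiffOn ℝ ∞ f Ω) {x : V} (hx : x ∈ Ω) :
    DifferentiableAt ℝ f x :=
  (hf.contDiffAt (hΩ.mem_nhds hx)).differentiableAt (by simp)

theorem cd_smul {a b : V → V} {f : V → ℂ} {x : V} (hf : DifferentiableAt ℝ f x) (c : ℂ) :
    cd a b (fun y => c * f y) x = c * cd a b f x := by
  rw [cd_mul (differentiableAt_const c) hf]
  have : cd a b (fun _ : V => c) x = 0 := by simp [cd]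
  rw [this]; ring

theorem conj_X {j : ι} {g : V → ℂ} {x : V} (hg : DifferentiableAt ℝ g x) :
    conj (S.X j g x) = S.Y j (fun y => conj (g y)) x := (cd_conj' hg).symm

theorem conj_Y {j : ι} {g : V → ℂ} {x : V} (hg : DifferentiableAt ℝ g x) :
    conj (S.Y j g x) = S.X j (fun y => conj (g y)) x := (cd_conj hg).symm

theorem conj_dY (j : ι) (x : V) : conj (S.dY j x) = S.dX j x := by
  simp [Fam.dX, Fam.dY]

theorem conj_PP (hΩ : IsOpen Ω) (hS : S.Sm Ω) {w : V → ℝ} (hw : ContDiffOn ℝ ∞ w Ω) {g : V → ℂ}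
    (hg : TestC Ω g) (x : V) : conj (S.PP w g x) = S.QQ w (fun y => conj (g y)) x := by
  unfold Fam.PP Fam.QQ
  rw [map_sum]
  refine Finset.sum_congr rfl fun j _ => ?_
  have hF : TestC Ω (fun y => (w y : ℂ) * S.X j g y) :=
    (hS.X_test hΩ j hg).mul_on hΩ (contDiffOn_ofReal hw)
  have e : (fun y => conj ((w y : ℂ) * S.X j g y)) =
      fun y => (w y : ℂ) * S.Y j (fun y => conj (g y)) y := by
    funext y
    rw [map_mul, Complex.conj_ofReal, conj_X (hg.differentiable y)]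
  unfold Fam.Yt Fam.Xt
  rw [map_add, map_mul, conj_Y (hF.differentiable x), conj_dY, e]
  congr 2
  exact congrFun e x

theorem QQ_add (hΩ : IsOpen Ω) (hS : S.Sm Ω) {w : V → ℝ} (hw : ContDiffOn ℝ ∞ w Ω) {f g : V → ℂ}
    (hf : TestC Ω f) (hg : TestC Ω g) (x : V) :
    S.QQ w (fun y => f y + g y) x = S.QQ w f x + S.QQ w g x := by
  unfold Fam.QQ
  rw [← Finset.sum_add_distrib]
  refine Finset.sum_congr rfl fun j _ => ?_
  have hF : TestC Ω (fun y => (w y : ℂ) * S.Y j f y) :=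
    (hS.Y_test hΩ j hf).mul_on hΩ (contDiffOn_ofReal hw)
  have hG : TestC Ω (fun y => (w y : ℂ) * S.Y j g y) :=
    (hS.Y_test hΩ j hg).mul_on hΩ (contDiffOn_ofReal hw)
  have e : (fun y => (w y : ℂ) * S.Y j (fun y => f y + g y) y) =
      fun y => (w y : ℂ) * S.Y j f y + (w y : ℂ) * S.Y j g y := by
    funext y
    unfold Fam.Y
    rw [cd_add (hf.differentiable y) (hg.differentiable y)]; ring
  rw [e]
  unfold Fam.Xt Fam.X
  rw [cd_add (hF.differentiable x) (hG.differentiable x)]; ring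

theorem QQ_smul (hΩ : IsOpen Ω) (hS : S.Sm Ω) {w : V → ℝ} (hw : ContDiffOn ℝ ∞ w Ω) {f : V → ℂ}
    (hf : TestC Ω f) (c : ℂ) (x : V) :
    S.QQ w (fun y => c * f y) x = c * S.QQ w f x := by
  unfold Fam.QQ
  rw [Finset.mul_sum]
  refine Finset.sum_congr rfl fun j _ => ?_
  have hF : TestC Ω (fun y => (w y : ℂ) * S.Y j f y) :=
    (hS.Y_test hΩ j hf).mul_on hΩ (contDiffOn_ofReal hw)
  have e : (fun y => (w y : ℂ) * S.Y j (fun y => c * f y) y) =
      fun y => c * ((w y : ℂ) * S.Y j f y) := by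
    funext y
    unfold Fam.Y
    rw [cd_smul (hf.differentiable y)]; ring
  rw [e]
  unfold Fam.Xt Fam.X
  rw [cd_smul (hF.differentiable x)]; ring

/-- the weak form against smooth functions -/
theorem int_QQ (hΩ : IsOpen Ω) (hS : S.Sm Ω) {w : V → ℝ} (hw : ContDiffOn ℝ ∞ w Ω) {f κ : V → ℂ}
    (hf : ContDiffOn ℝ ∞ f Ω) (hκ : TestC Ω κ) :
    ∫ x, f x * S.QQ w κ x = - ∫ x, ∑ j, S.X j f x * ((w x : ℂ) * S.Y j κ x) := by
  have hF : ∀ j, TestC Ω (fun y => (w y : ℂ) * S.Y j κ y) := fun j =>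
    (hS.Y_test hΩ j hκ).mul_on hΩ (contDiffOn_ofReal hw)
  have e : (fun x => f x * S.QQ w κ x) =
      fun x => ∑ j, f x * S.Xt j (fun y => (w y : ℂ) * S.Y j κ y) x := by
    funext x; unfold Fam.QQ; rw [Finset.mul_sum]
  rw [e, integral_finsetSum, integral_finsetSum, ← Finset.sum_neg_distrib]
  · refine Finset.sum_congr rfl fun j _ => ?_
    have := hS.ibpX hΩ j hf (hF j)
    rw [this, neg_neg]
  · intro j _
    exact ((hF j).mul_on hΩ (hS.X_on hΩ j hf)).integrable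
  · intro j _
    exact ((hS.Xt_test hΩ j (hF j)).mul_on hΩ hf).integrable

theorem sum_cs (w : ℝ) (hw : 0 ≤ w) (a b : ι → ℂ) :
    ‖∑ j, a j * ((w : ℂ) * b j)‖ ≤
      Real.sqrt ((∑ j, ‖a j‖ ^ 2) * w) * Real.sqrt ((∑ j, ‖b j‖ ^ 2) * w) := by
  have h1 : ‖∑ j, a j * ((w : ℂ) * b j)‖ ≤ w * ∑ j, ‖a j‖ * ‖b j‖ := by
    refine (norm_sum_le _ _).trans ?_
    rw [Finset.mul_sum]
    refine Finset.sum_le_sum fun j _ => le_of_eq ?_
    rw [norm_mul, norm_mul, Complex.norm_real, Real.norm_of_nonneg hw]; ring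
  refine h1.trans ?_
  rw [← Real.sqrt_mul (mul_nonneg (Finset.sum_nonneg fun _ _ => sq_nonneg _) hw)]
  apply Real.le_sqrt_of_sq_le
  have h2 := Finset.sum_mul_sq_le_sq_mul_sq Finset.univ (fun j => ‖a j‖) (fun j => ‖b j‖)
  calc (w * ∑ j, ‖a j‖ * ‖b j‖) ^ 2 = w ^ 2 * (∑ j, ‖a j‖ * ‖b j‖) ^ 2 := by ring
    _ ≤ w ^ 2 * ((∑ j, ‖a j‖ ^ 2) * ∑ j, ‖b j‖ ^ 2) := by gcongr
    _ = _ := by ring

theorem Y_eq_zero {κ : V → ℂ} (hκ : TestC Ω κ) {x : V} (hx : x ∉ Ω) (j : ι) :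
    S.Y j κ x = 0 := by
  have : x ∉ tsupport κ := fun h => hx (hκ.2.2 h)
  simp [Fam.Y, cd, hκ.fderiv_eq_zero this]

theorem X_eq_zero {κ : V → ℂ} (hκ : TestC Ω κ) {x : V} (hx : x ∉ Ω) (j : ι) :
    S.X j κ x = 0 := by
  have : x ∉ tsupport κ := fun h => hx (hκ.2.2 h)
  simp [Fam.X, cd, hκ.fderiv_eq_zero this]

theorem norm_Y_conj {g : V → ℂ} (hg : Differentiable ℝ g) (j : ι) (x : V) :
    ‖S.Y j g x‖ = ‖S.X j (fun y => conj (g y)) x‖ := by
  rw [← conj_Y (hg x), RCLike.norm_conj]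

/-- the functional is bounded -/
theorem bound (hΩ : IsOpen Ω) (hS : S.Sm Ω) {w1 w2 : V → ℝ}
    (hw2 : ContDiffOn ℝ ∞ w2 Ω) (hw2p : ∀ x ∈ Ω, 0 < w2 x)
    (hE : ∀ g, TestC Ω g → ∫ x, (∑ j, ‖S.X j g x‖ ^ 2) * w2 x ≤ ∫ x, ‖S.PP w2 g x‖ ^ 2 / w1 x)
    {s0 : V → ℂ} (hs0 : ContDiffOn ℝ ∞ s0 Ω) {M : ℝ} (hM0 : 0 ≤ M)
    (hMi : IntegrableOn (fun x => (∑ j, ‖S.X j s0 x‖ ^ 2) * w2 x) Ω)
    (hM : ∫ x in Ω, (∑ j, ‖S.X j s0 x‖ ^ 2) * w2 x ≤ M) {κ : V → ℂ} (hκ : TestC Ω κ) :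
    ‖∫ x, s0 x * S.QQ w2 κ x‖ ^ 2 ≤ M * ∫ x, ‖S.QQ w2 κ x‖ ^ 2 / w1 x := by
  set A : V → ℝ := fun x => Ω.indicator (fun x => (∑ j, ‖S.X j s0 x‖ ^ 2) * w2 x) x with hA
  set B : V → ℝ := fun x => Ω.indicator (fun x => (∑ j, ‖S.Y j κ x‖ ^ 2) * w2 x) x with hB
  have hA0 : ∀ x, 0 ≤ A x := by
    intro x
    refine indicator_nonneg (fun y hy => ?_) x
    exact mul_nonneg (Finset.sum_nonneg fun _ _ => sq_nonneg _) (hw2p y hy).le
  have hB0 : ∀ x, 0 ≤ B x := by
    intro x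
    refine indicator_nonneg (fun y hy => ?_) x
    exact mul_nonneg (Finset.sum_nonneg fun _ _ => sq_nonneg _) (hw2p y hy).le
  have hAi : Integrable A := (integrable_indicator_iff hΩ.measurableSet).2 hMi
  have hBe : B = fun x => (∑ j, ‖S.Y j κ x‖ ^ 2) * w2 x := by
    funext x
    by_cases hx : x ∈ Ω
    · simp [hB, indicator_of_mem hx]
    · have : ∀ j, S.Y j κ x = 0 := Y_eq_zero hκ hx
      simp [hB, indicator_of_notMem hx, this]
  have hBt : TestC Ω (fun x => ((w2 x : ℂ)) * ∑ j, S.Y j κ x * conj (S.Y j κ x)) := by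
    refine TestC.mul_on hΩ (TestC.sum _ fun j _ => ?_) (contDiffOn_ofReal hw2)
    exact (hS.Y_test hΩ j hκ).conj.mul_on hΩ (hS.Y_test hΩ j hκ).1.contDiffOn
  have hBi : Integrable B := by
    have h1 := hBt.integrable.re
    refine h1.congr (Eventually.of_forall fun x => ?_)
    rw [hBe]
    simp only [RCLike.re_to_complex]
    simp_rw [Complex.mul_conj, Complex.normSq_eq_norm_sq]
    rw [← Complex.ofReal_sum, ← Complex.ofReal_mul, Complex.ofReal_re, mul_comm]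
  have hpt : ∀ x, ‖∑ j, S.X j s0 x * ((w2 x : ℂ) * S.Y j κ x)‖ ≤
      Real.sqrt (A x) * Real.sqrt (B x) := by
    intro x
    by_cases hx : x ∈ Ω
    · simp only [hA, hB, indicator_of_mem hx]
      exact sum_cs _ (hw2p x hx).le _ _
    · have : ∀ j, S.Y j κ x = 0 := Y_eq_zero hκ hx
      simp only [this, mul_zero, Finset.sum_const_zero, norm_zero]
      exact mul_nonneg (Real.sqrt_nonneg _) (Real.sqrt_nonneg _)
  obtain ⟨hi, hcs⟩ := cs_int hAi hBi hA0 hB0
  have h1 : ‖∫ x, s0 x * S.QQ w2 κ x‖ ≤ ∫ x, Real.sqrt (A x) * Real.sqrt (B x) := by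
    rw [int_QQ hΩ hS hw2 hs0 hκ, norm_neg]
    exact norm_integral_le_of_norm_le hi (Eventually.of_forall hpt)
  have h2 := pow_le_pow_left₀ (norm_nonneg _) h1 2
  have h3 : ∫ x, A x ≤ M := by
    simp only [hA]
    rw [integral_indicator hΩ.measurableSet]
    exact hM
  have h4 : ∫ x, B x ≤ ∫ x, ‖S.QQ w2 κ x‖ ^ 2 / w1 x := by
    have h5 := hE _ hκ.conj
    have e1 : ∀ x, ‖S.PP w2 (fun y => conj (κ y)) x‖ = ‖S.QQ w2 κ x‖ := by
      intro x
      rw [← RCLike.norm_conj, conj_PP hΩ hS hw2 hκ.conj]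
      simp
    simp only [e1] at h5
    refine le_trans (le_of_eq ?_) h5
    refine integral_congr_ae (Eventually.of_forall fun x => ?_)
    have e2 : ∀ j, ‖S.Y j κ x‖ = ‖S.X j (fun y => conj (κ y)) x‖ := fun j =>
      norm_Y_conj hκ.differentiable j x
    have e3 : B x = (∑ j, ‖S.Y j κ x‖ ^ 2) * w2 x := congrFun hBe x
    show B x = (∑ j, ‖S.X j (fun y => conj (κ y)) x‖ ^ 2) * w2 x
    rw [e3]
    simp only [e2]
  have hBpos : 0 ≤ ∫ x, B x := integral_nonneg hB0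
  calc ‖∫ x, s0 x * S.QQ w2 κ x‖ ^ 2 ≤ _ := h2
    _ ≤ (∫ x, A x) * ∫ x, B x := hcs
    _ ≤ M * ∫ x, B x := by gcongr
    _ ≤ _ := by gcongr

/-- **the weak solution** -/
theorem weak_sol (hΩ : IsOpen Ω) (hS : S.Sm Ω) {w1 w2 : V → ℝ}
    (hw1 : ContDiffOn ℝ ∞ w1 Ω) (hw1p : ∀ x ∈ Ω, 0 < w1 x)
    (hw2 : ContDiffOn ℝ ∞ w2 Ω) (hw2p : ∀ x ∈ Ω, 0 < w2 x)
    (hE : ∀ g, TestC Ω g → ∫ x, (∑ j, ‖S.X j g x‖ ^ 2) * w2 x ≤ ∫ x, ‖S.PP w2 g x‖ ^ 2 / w1 x)
    {s0 : V → ℂ} (hs0 : ContDiffOn ℝ ∞ s0 Ω) {M : ℝ} (hM0 : 0 ≤ M)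
    (hMi : IntegrableOn (fun x => (∑ j, ‖S.X j s0 x‖ ^ 2) * w2 x) Ω)
    (hM : ∫ x in Ω, (∑ j, ‖S.X j s0 x‖ ^ 2) * w2 x ≤ M) :
    ∃ u : V → ℂ, LocallyIntegrableOn u Ω ∧ (∀ κ, TestC Ω κ →
      ∫ x, u x * S.QQ w2 κ x = ∫ x, s0 x * S.QQ w2 κ x) ∧
      IntegrableOn (fun x => ‖u x‖ ^ 2 * w1 x) Ω ∧ ∫ x in Ω, ‖u x‖ ^ 2 * w1 x ≤ M := by
  -- the weight `1/√w1`
  set r : V → ℝ := fun x => (Real.sqrt (w1 x))⁻¹ with hr
  have hrs : ContDiffOn ℝ ∞ r Ω := by
    intro x hx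
    have h1 := (hw1 x hx)
    have h2 : ContDiffWithinAt ℝ ∞ (fun x => Real.sqrt (w1 x)) Ω x :=
      h1.sqrt (hw1p x hx).ne'
    exact h2.inv (Real.sqrt_pos.2 (hw1p x hx)).ne'
  have hr0 : ∀ x ∈ Ω, 0 < r x := fun x hx => inv_pos.2 (Real.sqrt_pos.2 (hw1p x hx))
  have hr2 : ∀ x ∈ Ω, r x ^ 2 * w1 x = 1 := by
    intro x hx
    rw [hr, inv_pow, Real.sq_sqrt (hw1p x hx).le, inv_mul_cancel₀ (hw1p x hx).ne']
  have hPt : ∀ κ : testSub Ω, TestC Ω (fun x => (r x : ℂ) * S.QQ w2 (κ : V → ℂ) x) := fun κ =>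
    (hS.QQ_test hΩ hw2 κ.2).mul_on hΩ (contDiffOn_ofReal hrs)
  let P : testSub Ω →ₗ[ℂ] (V → ℂ) :=
    { toFun := fun κ x => (r x : ℂ) * S.QQ w2 (κ : V → ℂ) x
      map_add' := by
        intro κ κ'
        funext x
        have := QQ_add hΩ hS hw2 κ.2 κ'.2 x
        simp only [Pi.add_apply]
        rw [← mul_add, ← this]
        rfl
      map_smul' := by
        intro c κ
        funext x
        have := QQ_smul hΩ hS hw2 κ.2 c x
        simp only [RingHom.id_apply, Pi.smul_apply, smul_eq_mul]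
        rw [mul_left_comm, ← this]
        rfl }
  let Λ : testSub Ω →ₗ[ℂ] ℂ :=
    { toFun := fun κ => ∫ x, s0 x * S.QQ w2 (κ : V → ℂ) x
      map_add' := by
        intro κ κ'
        rw [← integral_add]
        · congr 1; funext x
          have := QQ_add hΩ hS hw2 κ.2 κ'.2 x
          rw [← mul_add, ← this]
          rfl
        · exact ((hS.QQ_test hΩ hw2 κ.2).mul_on hΩ hs0).integrable
        · exact ((hS.QQ_test hΩ hw2 κ'.2).mul_on hΩ hs0).integrable
      map_smul' := by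
        intro c κ
        rw [RingHom.id_apply, smul_eq_mul, ← integral_const_mul]
        congr 1; funext x
        have := QQ_smul hΩ hS hw2 κ.2 c x
        rw [mul_left_comm, ← this]
        rfl }
  have hPn : ∀ κ : testSub Ω, ∫ x, ‖P κ x‖ ^ 2 = ∫ x, ‖S.QQ w2 (κ : V → ℂ) x‖ ^ 2 / w1 x := by
    intro κ
    congr 1; funext x
    show ‖(r x : ℂ) * S.QQ w2 (κ : V → ℂ) x‖ ^ 2 = _
    by_cases hx : x ∈ Ω
    · rw [norm_mul, mul_pow, Complex.norm_real, Real.norm_of_nonneg (hr0 x hx).le,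
        eq_div_iff (hw1p x hx).ne']
      have := hr2 x hx
      calc r x ^ 2 * ‖S.QQ w2 (κ : V → ℂ) x‖ ^ 2 * w1 x
          = (r x ^ 2 * w1 x) * ‖S.QQ w2 (κ : V → ℂ) x‖ ^ 2 := by ring
        _ = _ := by rw [this, one_mul]
    · have h1 : S.QQ w2 (κ : V → ℂ) x = 0 :=
        (hS.QQ_test hΩ hw2 κ.2).eq_zero fun h => hx ((hS.QQ_test hΩ hw2 κ.2).2.2 h)
      rw [h1]; simp
  obtain ⟨U, hU, hU2, hU3⟩ := riesz_L2 (μ := (volume : Measure V)) P
    (fun κ => (hPt κ).continuous.memLp_of_hasCompactSupport (hPt κ).2.1) Λ hM0 (by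
      intro κ
      rw [hPn κ]
      exact bound hΩ hS hw2 hw2p hE hs0 hM0 hMi hM κ.2)
  refine ⟨fun x => (r x : ℂ) * U x, ?_, ?_, ?_, ?_⟩
  · have hUl : LocallyIntegrableOn U Ω :=
      (hU.locallyIntegrable (by norm_num)).locallyIntegrableOn Ω
    have := hUl.continuousOn_mul (g := fun x => (r x : ℂ)) (by
      exact (contDiffOn_ofReal hrs).continuousOn) hΩ.isLocallyClosed
    exact this
  · intro κ hκ
    have h1 := hU3 ⟨κ, hκ⟩
    have h2 : (∫ x, s0 x * S.QQ w2 κ x) = Λ ⟨κ, hκ⟩ := rfl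
    rw [h2, h1]
    congr 1; funext x
    show (r x : ℂ) * U x * S.QQ w2 κ x = U x * ((r x : ℂ) * S.QQ w2 κ x)
    ring
  · have h1 : Integrable (fun x => ‖U x‖ ^ 2) := hU.integrable_norm_pow (by norm_num)
    refine (h1.integrableOn (s := Ω)).congr_fun (fun x hx => ?_) hΩ.measurableSet
    show ‖U x‖ ^ 2 = ‖(r x : ℂ) * U x‖ ^ 2 * w1 x
    rw [norm_mul, mul_pow, Complex.norm_real, Real.norm_of_nonneg (hr0 x hx).le]
    have := hr2 x hx
    calc ‖U x‖ ^ 2 = (r x ^ 2 * w1 x) * ‖U x‖ ^ 2 := by rw [this, one_mul]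
      _ = _ := by ring
  · have h1 : Integrable (fun x => ‖U x‖ ^ 2) := hU.integrable_norm_pow (by norm_num)
    have h2 : ∫ x in Ω, ‖(r x : ℂ) * U x‖ ^ 2 * w1 x = ∫ x in Ω, ‖U x‖ ^ 2 := by
      refine setIntegral_congr_fun hΩ.measurableSet fun x hx => ?_
      show ‖(r x : ℂ) * U x‖ ^ 2 * w1 x = ‖U x‖ ^ 2
      rw [norm_mul, mul_pow, Complex.norm_real, Real.norm_of_nonneg (hr0 x hx).le]
      have := hr2 x hx
      calc r x ^ 2 * ‖U x‖ ^ 2 * w1 x = (r x ^ 2 * w1 x) * ‖U x‖ ^ 2 := by ring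
        _ = _ := by rw [this, one_mul]
    rw [h2]
    refine le_trans ?_ hU2
    exact setIntegral_le_integral h1 (Eventually.of_forall fun x => by positivity)

end Crest.Agent.R260.NN2_900
end
end

-- ▼ part R260/NN3_900
section

/-!
# Row 260, local Newlander-Nirenberg: completeness, existence (helper900)
-/

set_option autoImplicit false
set_option linter.unusedSectionVars false
set_option linter.deprecated false
set_option maxHeartbeats 400000

noncomputable section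

open MeasureTheory Filter Topology Set
open scoped ENNReal NNReal ContDiff ComplexConjugate

namespace Crest.Agent.R260.NN3_900

open NN0_900 NN1_900 NN2_900

variable {V : Type*} [NormedAddCommGroup V] [InnerProductSpace ℝ V] [FiniteDimensional ℝ V]
  [MeasurableSpace V] [BorelSpace V] {Ω : Set V} {ι : Type*} [Fintype ι] {S : Fam ι V}

theorem re_mul_conj_sum (c : ℝ) (a : ι → ℂ) :
    ((c : ℂ) * ∑ j, a j * conj (a j)).re = c * ∑ j, ‖a j‖ ^ 2 := by
  simp_rw [Complex.mul_conj, Complex.normSq_eq_norm_sq]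
  rw [← Complex.ofReal_sum, ← Complex.ofReal_mul, Complex.ofReal_re]

theorem Y_real {η : V → ℝ} (hη : TestC Ω (fun x => (η x : ℂ))) (j : ι) (x : V) :
    ‖S.Y j (fun x => (η x : ℂ)) x‖ = ‖S.X j (fun x => (η x : ℂ)) x‖ := by
  rw [norm_Y_conj hη.differentiable]
  simp

/-- Caccioppoli -/
theorem caccio (hΩ : IsOpen Ω) (hS : S.Sm Ω) {w : V → ℝ} (hw : ContDiffOn ℝ ∞ w Ω)
    (hwp : ∀ x ∈ Ω, 0 < w x) {s : V → ℂ} (hs : ContDiffOn ℝ ∞ s Ω)
    (h0 : ∀ κ, TestC Ω κ → ∫ x, s x * S.QQ w κ x = 0) {η : V → ℝ}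
    (hη : TestC Ω (fun x => (η x : ℂ))) :
    Integrable (fun x => η x ^ 2 * (w x * ∑ j, ‖S.X j s x‖ ^ 2)) ∧
    Integrable (fun x => ‖s x‖ ^ 2 * (w x * ∑ j, ‖S.X j (fun x => (η x : ℂ)) x‖ ^ 2)) ∧
    ∫ x, η x ^ 2 * (w x * ∑ j, ‖S.X j s x‖ ^ 2) ≤
      4 * ∫ x, ‖s x‖ ^ 2 * (w x * ∑ j, ‖S.X j (fun x => (η x : ℂ)) x‖ ^ 2) := by
  have hsc : ContDiffOn ℝ ∞ (fun x => conj (s x)) Ω :=
    Complex.conjCLE.contDiff.comp_contDiffOn hs
  have hη2 : TestC Ω (fun x => (η x : ℂ) * (η x : ℂ)) := hη.mul_on hΩ hη.1.contDiffOn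
  set κ : V → ℂ := fun x => conj (s x) * ((η x : ℂ) * (η x : ℂ)) with hκd
  have hκ : TestC Ω κ := hη2.mul_on hΩ hsc
  have hXs : ∀ j, ContDiffOn ℝ ∞ (S.X j s) Ω := fun j => hS.X_on hΩ j hs
  have hXsc : ∀ j, ContDiffOn ℝ ∞ (fun x => conj (S.X j s x)) Ω := fun j =>
    Complex.conjCLE.contDiff.comp_contDiffOn (hXs j)
  have hYη : ∀ j, TestC Ω (S.Y j (fun x => (η x : ℂ))) := fun j => hS.Y_test hΩ j hη
  -- three test functions
  set T1 : V → ℂ := fun x => ((w x : ℂ) * ∑ j, S.X j s x * conj (S.X j s x)) *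
    ((η x : ℂ) * (η x : ℂ)) with hT1d
  set T2 : V → ℂ := fun x => ∑ j, (2 * (w x : ℂ) * (η x : ℂ) * conj (s x) * S.X j s x) *
    S.Y j (fun x => (η x : ℂ)) x with hT2d
  set T3 : V → ℂ := fun x => (s x * conj (s x)) * ((w x : ℂ) *
    ∑ j, S.Y j (fun x => (η x : ℂ)) x * conj (S.Y j (fun x => (η x : ℂ)) x)) with hT3d
  have hT1 : TestC Ω T1 := hη2.mul_on hΩ ((contDiffOn_ofReal hw).mul
    (ContDiffOn.sum fun j _ => (hXs j).mul (hXsc j)))
  have hT2 : TestC Ω T2 := TestC.sum _ fun j _ => (hYη j).mul_on hΩ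
    ((((contDiffOn_const.mul (contDiffOn_ofReal hw)).mul hη.1.contDiffOn).mul hsc).mul (hXs j))
  have hT3 : TestC Ω T3 := ((TestC.sum _ fun j _ =>
    ((hYη j).conj.mul_on hΩ (hYη j).1.contDiffOn)).mul_on hΩ (contDiffOn_ofReal hw)).mul_on hΩ
      (hs.mul hsc)
  have hηr : ∀ x, conj ((η x : ℂ)) = (η x : ℂ) := fun x => Complex.conj_ofReal _
  have hT1r : ∀ x, (T1 x).re = η x ^ 2 * (w x * ∑ j, ‖S.X j s x‖ ^ 2) := by
    intro x
    have : T1 x = ((η x ^ 2 : ℝ) : ℂ) * ((w x : ℂ) * ∑ j, S.X j s x * conj (S.X j s x)) := by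
      simp only [hT1d]; push_cast; ring
    rw [this, Complex.re_ofReal_mul, re_mul_conj_sum]
  have hT3r : ∀ x, (T3 x).re =
      ‖s x‖ ^ 2 * (w x * ∑ j, ‖S.X j (fun x => (η x : ℂ)) x‖ ^ 2) := by
    intro x
    have : T3 x = ((‖s x‖ ^ 2 : ℝ) : ℂ) * ((w x : ℂ) *
        ∑ j, S.Y j (fun x => (η x : ℂ)) x * conj (S.Y j (fun x => (η x : ℂ)) x)) := by
      simp only [hT3d]
      rw [Complex.mul_conj, Complex.normSq_eq_norm_sq]
    rw [this, Complex.re_ofReal_mul, re_mul_conj_sum]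
    simp only [Y_real hη]
  -- the pointwise identity
  have hid : ∀ x, ∑ j, S.X j s x * ((w x : ℂ) * S.Y j κ x) = T1 x + T2 x := by
    intro x
    by_cases hx : x ∈ Ω
    · have hsx := diffAt hΩ hs hx
      have hscx := diffAt hΩ hsc hx
      have hY : ∀ j, S.Y j κ x = conj (s x) * (2 * (η x : ℂ) * S.Y j (fun x => (η x : ℂ)) x) +
          ((η x : ℂ) * (η x : ℂ)) * conj (S.X j s x) := by
        intro j
        have h1 : S.Y j κ x = conj (s x) * S.Y j (fun x => (η x : ℂ) * (η x : ℂ)) x +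
            ((η x : ℂ) * (η x : ℂ)) * S.Y j (fun x => conj (s x)) x :=
          cd_mul hscx (hη2.differentiable x)
        have h2 : S.Y j (fun x => (η x : ℂ) * (η x : ℂ)) x =
            (η x : ℂ) * S.Y j (fun x => (η x : ℂ)) x + (η x : ℂ) * S.Y j (fun x => (η x : ℂ)) x :=
          cd_mul (hη.differentiable x) (hη.differentiable x)
        rw [h1, h2, ← conj_X hsx]; ring
      simp only [hY, hT1d, hT2d, Finset.mul_sum, Finset.sum_mul]
      rw [← Finset.sum_add_distrib]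
      exact Finset.sum_congr rfl fun j _ => by ring
    · have h1 : ∀ j, S.Y j κ x = 0 := Y_eq_zero hκ hx
      have h2 : T1 x = 0 := hT1.eq_zero fun h => hx (hT1.2.2 h)
      have h3 : T2 x = 0 := hT2.eq_zero fun h => hx (hT2.2.2 h)
      simp [h1, h2, h3]
  have key : ∫ x, T1 x + T2 x = 0 := by
    have h1 := h0 κ hκ
    rw [int_QQ hΩ hS hw hs hκ, neg_eq_zero] at h1
    simpa only [hid] using h1
  rw [integral_add hT1.integrable hT2.integrable] at key
  have i1 : Integrable (fun x => η x ^ 2 * (w x * ∑ j, ‖S.X j s x‖ ^ 2)) :=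
    hT1.integrable.re.congr (Eventually.of_forall fun x => by simpa using hT1r x)
  have i3 : Integrable (fun x => ‖s x‖ ^ 2 * (w x * ∑ j, ‖S.X j (fun x => (η x : ℂ)) x‖ ^ 2)) :=
    hT3.integrable.re.congr (Eventually.of_forall fun x => by simpa using hT3r x)
  refine ⟨i1, i3, ?_⟩
  have e1 : ∫ x, η x ^ 2 * (w x * ∑ j, ‖S.X j s x‖ ^ 2) = (∫ x, T1 x).re := by
    have := integral_re (𝕜 := ℂ) hT1.integrable
    simp only [RCLike.re_to_complex] at this
    rw [← this]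
    exact integral_congr_ae (Eventually.of_forall fun x => (hT1r x).symm)
  have hT2b : ∀ x, ‖T2 x‖ ≤ (1 / 2) * (η x ^ 2 * (w x * ∑ j, ‖S.X j s x‖ ^ 2)) +
      2 * (‖s x‖ ^ 2 * (w x * ∑ j, ‖S.X j (fun x => (η x : ℂ)) x‖ ^ 2)) := by
    intro x
    by_cases hx : x ∈ Ω
    · have hwx := hwp x hx
      calc ‖T2 x‖ ≤ ∑ j, ‖(2 * (w x : ℂ) * (η x : ℂ) * conj (s x) * S.X j s x) *
            S.Y j (fun x => (η x : ℂ)) x‖ := norm_sum_le _ _
        _ ≤ ∑ j, w x * ((1 / 2) * (η x ^ 2 * ‖S.X j s x‖ ^ 2) +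
            2 * (‖s x‖ ^ 2 * ‖S.X j (fun x => (η x : ℂ)) x‖ ^ 2)) := by
          refine Finset.sum_le_sum fun j _ => ?_
          simp only [norm_mul, RCLike.norm_conj, Complex.norm_real, Real.norm_of_nonneg hwx.le,
            Y_real hη, RCLike.norm_ofNat]
          set p := |η x| * ‖S.X j s x‖ with hp
          set q := ‖s x‖ * ‖S.X j (fun x => (η x : ℂ)) x‖ with hq
          have h1 : η x ^ 2 * ‖S.X j s x‖ ^ 2 = p ^ 2 := by
            rw [hp, mul_pow, sq_abs]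
          have h2 : ‖s x‖ ^ 2 * ‖S.X j (fun x => (η x : ℂ)) x‖ ^ 2 = q ^ 2 := by
            rw [hq, mul_pow]
          rw [h1, h2]
          have h3 : 2 * w x * ‖η x‖ * ‖s x‖ * ‖S.X j s x‖ *
              ‖S.X j (fun x => (η x : ℂ)) x‖ = w x * (2 * p * q) := by
            rw [hp, hq, Real.norm_eq_abs]; ring
          rw [h3]
          refine mul_le_mul_of_nonneg_left ?_ hwx.le
          nlinarith [sq_nonneg (p - 2 * q)]
        _ = _ := by
          rw [← Finset.mul_sum, Finset.sum_add_distrib, ← Finset.mul_sum, ← Finset.mul_sum,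
            ← Finset.mul_sum, ← Finset.mul_sum]
          ring
    · have h3 : T2 x = 0 := hT2.eq_zero fun h => hx (hT2.2.2 h)
      have h4 : (η x : ℂ) = 0 := hη.eq_zero fun h => hx (hη.2.2 h)
      have h5 : η x = 0 := by exact_mod_cast h4
      have h6 : ∀ j, S.X j (fun x => (η x : ℂ)) x = 0 := X_eq_zero hη hx
      simp [h3, h5, h6]
  have h7 : ‖∫ x, T2 x‖ ≤ (1 / 2) * (∫ x, η x ^ 2 * (w x * ∑ j, ‖S.X j s x‖ ^ 2)) +
      2 * ∫ x, ‖s x‖ ^ 2 * (w x * ∑ j, ‖S.X j (fun x => (η x : ℂ)) x‖ ^ 2) := by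
    refine (norm_integral_le_of_norm_le ((i1.const_mul _).add (i3.const_mul _))
      (Eventually.of_forall hT2b)).trans (le_of_eq ?_)
    rw [← integral_const_mul, ← integral_const_mul, ← integral_add (i1.const_mul _)
      (i3.const_mul _)]
    rfl
  have h8 : (∫ x, T1 x).re ≤ ‖∫ x, T2 x‖ := by
    have : (∫ x, T1 x) = - ∫ x, T2 x := eq_neg_of_add_eq_zero_left key
    rw [this]
    refine (Complex.re_le_norm _).trans ?_
    rw [norm_neg]
  rw [← e1] at h8
  linarith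

/-- completeness: a weak solution in `L²(w1)` is killed by all `X_j` -/
theorem complete (hΩ : IsOpen Ω) (hS : S.Sm Ω) {w1 w : V → ℝ} (hw : ContDiffOn ℝ ∞ w Ω)
    (hwp : ∀ x ∈ Ω, 0 < w x) {s : V → ℂ} (hs : ContDiffOn ℝ ∞ s Ω)
    (h0 : ∀ κ, TestC Ω κ → ∫ x, s x * S.QQ w κ x = 0)
    (hs1 : IntegrableOn (fun x => ‖s x‖ ^ 2 * w1 x) Ω)
    {η : ℕ → V → ℝ} (hη : ∀ ν, TestC Ω (fun x => (η ν x : ℂ)))
    (hη1 : ∀ x ∈ Ω, ∀ᶠ ν in atTop, ∀ᶠ y in 𝓝 x, η ν y = 1) {C : ℝ}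
    (hηC : ∀ ν, ∀ x ∈ Ω, w x * (∑ j, ‖S.X j (fun y => (η ν y : ℂ)) x‖ ^ 2) ≤ C * w1 x) :
    ∀ j, ∀ x ∈ Ω, S.X j s x = 0 := by
  set F : V → ℝ := fun x => w x * ∑ j, ‖S.X j s x‖ ^ 2 with hF
  have hF0 : ∀ x ∈ Ω, 0 ≤ F x := fun x hx =>
    mul_nonneg (hwp x hx).le (Finset.sum_nonneg fun _ _ => sq_nonneg _)
  have hFc : ContinuousOn F Ω := by
    refine hw.continuousOn.mul ?_
    refine continuousOn_finsetSum _ fun j _ => ?_
    exact ((hS.X_on hΩ j hs).continuousOn.norm).pow 2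
  set I : ℕ → ℝ := fun ν => ∫ x, ‖s x‖ ^ 2 * (w x * ∑ j, ‖S.X j (fun y => (η ν y : ℂ)) x‖ ^ 2)
    with hI
  have hlim : Tendsto I atTop (𝓝 0) := by
    have h1 : Tendsto I atTop (𝓝 (∫ _ : V, (0 : ℝ))) := by
      refine tendsto_integral_of_dominated_convergence
        (Ω.indicator fun x => C * (‖s x‖ ^ 2 * w1 x)) ?_ ?_ ?_ ?_
      · intro ν
        exact (caccio hΩ hS hw hwp hs h0 (hη ν)).2.1.1
      · exact (integrable_indicator_iff hΩ.measurableSet).2 (hs1.const_mul C)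
      · intro ν
        refine Eventually.of_forall fun x => ?_
        by_cases hx : x ∈ Ω
        · rw [indicator_of_mem hx, Real.norm_of_nonneg (mul_nonneg (sq_nonneg _)
            (mul_nonneg (hwp x hx).le (Finset.sum_nonneg fun _ _ => sq_nonneg _)))]
          have := mul_le_mul_of_nonneg_left (hηC ν x hx) (sq_nonneg ‖s x‖)
          linarith
        · rw [indicator_of_notMem hx]
          have : ∀ j, S.X j (fun y => (η ν y : ℂ)) x = 0 := X_eq_zero (hη ν) hx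
          simp [this]
      · refine Eventually.of_forall fun x => ?_
        by_cases hx : x ∈ Ω
        · refine tendsto_const_nhds.congr' ?_
          filter_upwards [hη1 x hx] with ν hν
          have h2 : ∀ j, S.X j (fun y => (η ν y : ℂ)) x = 0 := by
            intro j
            have : (fun y => (η ν y : ℂ)) =ᶠ[𝓝 x] fun _ => 1 := by
              filter_upwards [hν] with y hy
              rw [hy]; simp
            simp only [Fam.X, cd, this.fderiv_eq]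
            simp
          simp [h2]
        · have : ∀ ν j, S.X j (fun y => (η ν y : ℂ)) x = 0 := fun ν => X_eq_zero (hη ν) hx
          simp only [this]
          simp
    simpa using h1
  -- Fatou
  have hfat : ∫⁻ x in Ω, ENNReal.ofReal (F x) = 0 := by
    have h1 : ∀ x ∈ Ω, ENNReal.ofReal (F x) =
        liminf (fun ν => ENNReal.ofReal (η ν x ^ 2 * F x)) atTop := by
      intro x hx
      have h2 : Tendsto (fun ν => ENNReal.ofReal (η ν x ^ 2 * F x)) atTop
          (𝓝 (ENNReal.ofReal (F x))) := by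
        refine tendsto_const_nhds.congr' ?_
        filter_upwards [hη1 x hx] with ν hν
        rw [hν.self_of_nhds]; simp
      exact h2.liminf_eq.symm
    have h3 : ∫⁻ x in Ω, ENNReal.ofReal (F x) =
        ∫⁻ x in Ω, liminf (fun ν => ENNReal.ofReal (η ν x ^ 2 * F x)) atTop :=
      setLIntegral_congr_fun hΩ.measurableSet h1
    rw [h3]
    refine le_antisymm ?_ zero_le
    refine (lintegral_liminf_le' fun ν => ?_).trans ?_
    · have := (caccio hΩ hS hw hwp hs h0 (hη ν)).1.1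
      exact (this.aemeasurable.ennreal_ofReal).restrict
    · have h4 : ∀ ν, ∫⁻ x in Ω, ENNReal.ofReal (η ν x ^ 2 * F x) ≤ ENNReal.ofReal (4 * I ν) := by
        intro ν
        obtain ⟨c1, c2, c3⟩ := caccio hΩ hS hw hwp hs h0 (hη ν)
        refine (setLIntegral_le_lintegral _ _).trans ?_
        rw [← ofReal_integral_eq_lintegral_ofReal c1]
        · exact ENNReal.ofReal_le_ofReal c3
        · refine Eventually.of_forall fun x => ?_
          by_cases hx : x ∈ Ω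
          · exact mul_nonneg (sq_nonneg _) (hF0 x hx)
          · have h4 : (η ν x : ℂ) = 0 := (hη ν).eq_zero fun h => hx ((hη ν).2.2 h)
            have h5 : η ν x = 0 := by exact_mod_cast h4
            simp [h5]
      have h5 : Tendsto (fun ν => ENNReal.ofReal (4 * I ν)) atTop (𝓝 0) := by
        have := (ENNReal.continuous_ofReal.tendsto _).comp (hlim.const_mul 4)
        rw [mul_zero, ENNReal.ofReal_zero] at this
        exact this
      calc liminf (fun ν => ∫⁻ x in Ω, ENNReal.ofReal (η ν x ^ 2 * F x)) atTop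
          ≤ liminf (fun ν => ENNReal.ofReal (4 * I ν)) atTop :=
            liminf_le_liminf (Eventually.of_forall h4)
        _ = 0 := h5.liminf_eq
  have hae : F =ᵐ[volume.restrict Ω] fun _ => 0 := by
    have hm : AEMeasurable (fun x => ENNReal.ofReal (F x)) (volume.restrict Ω) :=
      ((hFc.aestronglyMeasurable hΩ.measurableSet).aemeasurable).ennreal_ofReal
    have h1 := (lintegral_eq_zero_iff' hm).1 hfat
    have h2 : ∀ᵐ x ∂(volume.restrict Ω), x ∈ Ω := ae_restrict_mem hΩ.measurableSet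
    filter_upwards [h1, h2] with x hx hxΩ
    have h3 : ENNReal.ofReal (F x) = 0 := hx
    exact le_antisymm (ENNReal.ofReal_eq_zero.1 h3) (hF0 x hxΩ)
  have hF00 : ∀ x ∈ Ω, F x = 0 := fun x hx =>
    Measure.eqOn_open_of_ae_eq hae hΩ hFc continuousOn_const hx
  intro j x hx
  have h1 := hF00 x hx
  have h2 : ∑ j, ‖S.X j s x‖ ^ 2 = 0 := by
    rcases mul_eq_zero.1 h1 with h | h
    · exact absurd h (hwp x hx).ne'
    · exact h
  have h3 := (Finset.sum_eq_zero_iff_of_nonneg (fun _ _ => sq_nonneg _)).1 h2 j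
    (Finset.mem_univ j)
  exact norm_eq_zero.1 (pow_eq_zero_iff (n := 2) (by norm_num) |>.1 h3)

/-- **existence** -/
theorem exists_sol (hΩ : IsOpen Ω) (hS : S.Sm Ω) {w1 w2 : V → ℝ}
    (hw1 : ContDiffOn ℝ ∞ w1 Ω) (hw1p : ∀ x ∈ Ω, 0 < w1 x)
    (hw2 : ContDiffOn ℝ ∞ w2 Ω) (hw2p : ∀ x ∈ Ω, 0 < w2 x) (hreg : RegP S Ω w2)
    (hE : ∀ g, TestC Ω g → ∫ x, (∑ j, ‖S.X j g x‖ ^ 2) * w2 x ≤ ∫ x, ‖S.PP w2 g x‖ ^ 2 / w1 x)
    {s0 : V → ℂ} (hs0 : ContDiffOn ℝ ∞ s0 Ω)
    (hs01 : IntegrableOn (fun x => ‖s0 x‖ ^ 2 * w1 x) Ω) {M : ℝ} (hM0 : 0 ≤ M)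
    (hMi : IntegrableOn (fun x => (∑ j, ‖S.X j s0 x‖ ^ 2) * w2 x) Ω)
    (hM : ∫ x in Ω, (∑ j, ‖S.X j s0 x‖ ^ 2) * w2 x ≤ M)
    {η : ℕ → V → ℝ} (hη : ∀ ν, TestC Ω (fun x => (η ν x : ℂ)))
    (hη1 : ∀ x ∈ Ω, ∀ᶠ ν in atTop, ∀ᶠ y in 𝓝 x, η ν y = 1) {C : ℝ}
    (hηC : ∀ ν, ∀ x ∈ Ω, w2 x * (∑ j, ‖S.X j (fun y => (η ν y : ℂ)) x‖ ^ 2) ≤ C * w1 x) :
    ∃ u : V → ℂ, ContDiffOn ℝ ∞ u Ω ∧ (∀ j, ∀ x ∈ Ω, S.X j u x = S.X j s0 x) ∧
      IntegrableOn (fun x => ‖u x‖ ^ 2 * w1 x) Ω ∧ ∫ x in Ω, ‖u x‖ ^ 2 * w1 x ≤ M := by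
  obtain ⟨u1, hu1, hu2, hu3, hu4⟩ := weak_sol hΩ hS hw1 hw1p hw2 hw2p hE hs0 hM0 hMi hM
  have hs0l : LocallyIntegrableOn s0 Ω :=
    hs0.continuousOn.locallyIntegrableOn hΩ.measurableSet
  have hloc : LocallyIntegrableOn (fun x => s0 x - u1 x) Ω := hs0l.sub hu1
  have hz : ∀ κ, TestC Ω κ → ∫ x, (s0 x - u1 x) * S.QQ w2 κ x = 0 := by
    intro κ hκ
    have hQ := hS.QQ_test hΩ hw2 hκ
    have i1 : Integrable (fun x => s0 x * S.QQ w2 κ x) := (hQ.mul_on hΩ hs0).integrable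
    have i2 : Integrable (fun x => u1 x * S.QQ w2 κ x) := by
      have h1 : IntegrableOn u1 (tsupport (S.QQ w2 κ)) :=
        hu1.integrableOn_compact_subset hQ.2.2 hQ.2.1
      have h2 : IntegrableOn (fun x => u1 x * S.QQ w2 κ x) (tsupport (S.QQ w2 κ)) :=
        h1.mul_continuousOn hQ.continuous.continuousOn hQ.2.1
      refine (integrableOn_iff_integrable_of_support_subset ?_).1 h2
      intro x hx
      by_contra hc
      apply hx
      simp only
      rw [image_eq_zero_of_notMem_tsupport hc, mul_zero]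
    have : (fun x => (s0 x - u1 x) * S.QQ w2 κ x) =
        fun x => s0 x * S.QQ w2 κ x - u1 x * S.QQ w2 κ x := by funext x; ring
    rw [this, integral_sub i1 i2, hu2 κ hκ, sub_self]
  obtain ⟨s, hs, hsu⟩ := hreg _ hloc hz
  have hsz : ∀ κ, TestC Ω κ → ∫ x, s x * S.QQ w2 κ x = 0 := by
    intro κ hκ
    have hQ := hS.QQ_test hΩ hw2 hκ
    rw [← hz κ hκ]
    apply integral_congr_ae
    filter_upwards [hsu] with x hx
    by_cases hxΩ : x ∈ Ω
    · rw [hx hxΩ]
    · have : S.QQ w2 κ x = 0 := hQ.eq_zero fun h => hxΩ (hQ.2.2 h)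
      rw [this, mul_zero, mul_zero]
  have hue : ∀ᵐ x ∂(volume.restrict Ω), s0 x - s x = u1 x := by
    rw [ae_restrict_iff' hΩ.measurableSet]
    filter_upwards [hsu] with x hx hxΩ
    rw [hx hxΩ]; ring
  have hui : IntegrableOn (fun x => ‖s0 x - s x‖ ^ 2 * w1 x) Ω := by
    refine hu3.congr ?_
    filter_upwards [hue] with x hx
    rw [hx]
  have hs1 : IntegrableOn (fun x => ‖s x‖ ^ 2 * w1 x) Ω := by
    refine Integrable.mono' ((hs01.const_mul 2).add (hui.const_mul 2)) ?_ ?_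
    · refine (ContinuousOn.aestronglyMeasurable ?_ hΩ.measurableSet)
      exact (hs.continuousOn.norm.pow 2).mul hw1.continuousOn
    · rw [ae_restrict_iff' hΩ.measurableSet]
      refine Eventually.of_forall fun x hx => ?_
      have hw := hw1p x hx
      rw [Real.norm_of_nonneg (mul_nonneg (sq_nonneg _) hw.le)]
      show ‖s x‖ ^ 2 * w1 x ≤ 2 * (‖s0 x‖ ^ 2 * w1 x) + 2 * (‖s0 x - s x‖ ^ 2 * w1 x)
      have h1 : ‖s x‖ ≤ ‖s0 x‖ + ‖s0 x - s x‖ := by
        have := norm_sub_le (s0 x) (s0 x - s x)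
        rwa [sub_sub_cancel] at this
      have h2 : ‖s x‖ ^ 2 ≤ 2 * ‖s0 x‖ ^ 2 + 2 * ‖s0 x - s x‖ ^ 2 := by
        nlinarith [norm_nonneg (s x), norm_nonneg (s0 x), norm_nonneg (s0 x - s x),
          sq_nonneg (‖s0 x‖ - ‖s0 x - s x‖)]
      nlinarith
  have hX := complete hΩ hS hw2 hw2p hs hsz hs1 hη hη1 hηC
  refine ⟨fun x => s0 x - s x, hs0.sub hs, ?_, hui, ?_⟩
  · intro j x hx
    have h1 := hX j x hx
    have h2 := diffAt hΩ hs0 hx
    have h3 := diffAt hΩ hs hx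
    have : S.X j (fun x => s0 x - s x) x = S.X j s0 x - S.X j s x := by
      simp only [Fam.X, cd]
      rw [fderiv_fun_sub h2 h3]
      simp only [ContinuousLinearMap.sub_apply]
      ring
    rw [this, h1, sub_zero]
  · refine le_trans (le_of_eq ?_) hu4
    apply integral_congr_ae
    filter_upwards [hue] with x hx
    rw [hx]

end Crest.Agent.R260.NN3_900
end
end

-- ▼ part R260/NN4_900
section

/-!
# Row 260, local Newlander-Nirenberg: the limit `ε → 0` (helper900)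
-/

set_option autoImplicit false
set_option linter.unusedSectionVars false
set_option linter.deprecated false
set_option maxHeartbeats 400000

noncomputable section

open MeasureTheory Filter Topology Set
open scoped ENNReal NNReal ContDiff ComplexConjugate

namespace Crest.Agent.R260.NN4_900

open NN0_900 NN1_900 NN2_900 NN3_900

variable {V : Type*} [NormedAddCommGroup V] [InnerProductSpace ℝ V] [FiniteDimensional ℝ V]
  [MeasurableSpace V] [BorelSpace V] {Ω : Set V} {ι : Type*} [Fintype ι] {S : Fam ι V}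

/-- continuous on `Ω`, zero outside a closed subset of `Ω` -/
theorem cont_of_zero (hΩ : IsOpen Ω) {W : Type*} [TopologicalSpace W] [Zero W]
    {f : V → W} {K : Set V} (hK : IsClosed K) (hKΩ : K ⊆ Ω) (hf : ContinuousOn f Ω)
    (h0 : ∀ x ∉ K, f x = 0) : Continuous f := by
  rw [continuous_iff_continuousAt]
  intro x
  by_cases hx : x ∈ Ω
  · exact hf.continuousAt (hΩ.mem_nhds hx)
  · have hx' : x ∈ Kᶜ := fun h => hx (hKΩ h)
    refine (continuousAt_const (y := (0 : W))).congr_of_eventuallyEq ?_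
    filter_upwards [hK.isOpen_compl.mem_nhds hx'] with y hy
    exact h0 y hy

theorem cs_of_zero {W : Type*} [Zero W] [TopologicalSpace W]
    {f : V → W} {K : Set V} (hK : IsCompact K) (h0 : ∀ x ∉ K, f x = 0) : HasCompactSupport f :=
  HasCompactSupport.intro hK fun x hx => h0 x hx

theorem Xt_add (hΩ : IsOpen Ω) (hS : S.Sm Ω) (j : ι) {f g : V → ℂ}
    (hf : TestC Ω f) (hg : TestC Ω g) (x : V) :
    S.Xt j (fun y => f y + g y) x = S.Xt j f x + S.Xt j g x := by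
  unfold Fam.Xt Fam.X
  rw [cd_add (hf.differentiable x) (hg.differentiable x)]; ring

theorem Xt_smul (j : ι) {f : V → ℂ} (hf : TestC Ω f) (c : ℂ) (x : V) :
    S.Xt j (fun y => c * f y) x = c * S.Xt j f x := by
  unfold Fam.Xt Fam.X
  rw [cd_smul (hf.differentiable x)]; ring

/-- `∑_j Xt_j h_j` -/
def RR (S : Fam ι V) (h : ι → V → ℂ) (x : V) : ℂ := ∑ j, S.Xt j (h j) x

theorem RR_test (hΩ : IsOpen Ω) (hS : S.Sm Ω) {h : ι → V → ℂ} (hh : ∀ j, TestC Ω (h j)) :
    TestC Ω (RR S h) := TestC.sum _ fun j _ => hS.Xt_test hΩ j (hh j)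

theorem int_RR (hΩ : IsOpen Ω) (hS : S.Sm Ω) {h : ι → V → ℂ} (hh : ∀ j, TestC Ω (h j))
    {f : V → ℂ} (hf : ContDiffOn ℝ ∞ f Ω) :
    ∫ x, f x * RR S h x = - ∫ x, ∑ j, S.X j f x * h j x := by
  have e : (fun x => f x * RR S h x) = fun x => ∑ j, f x * S.Xt j (h j) x := by
    funext x; unfold RR; rw [Finset.mul_sum]
  rw [e, integral_finsetSum, integral_finsetSum, ← Finset.sum_neg_distrib]
  · refine Finset.sum_congr rfl fun j _ => ?_
    have := hS.ibpX hΩ j hf (hh j)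
    rw [this, neg_neg]
  · intro j _
    exact ((hh j).mul_on hΩ (hS.X_on hΩ j hf)).integrable
  · intro j _
    exact ((hS.Xt_test hΩ j (hh j)).mul_on hΩ hf).integrable

/-- the bound for one weight -/
theorem bound_one (hΩ : IsOpen Ω) {w : V → ℝ} (hw : ContinuousOn w Ω)
    (hwp : ∀ x ∈ Ω, 0 < w x) {u R : V → ℂ} (hR : TestC Ω R) {M : ℝ} (hM0 : 0 ≤ M)
    (hui : IntegrableOn (fun x => ‖u x‖ ^ 2 * w x) Ω) (hu : ∫ x in Ω, ‖u x‖ ^ 2 * w x ≤ M) :
    ‖∫ x, u x * R x‖ ^ 2 ≤ M * ∫ x, ‖R x‖ ^ 2 / w x := by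
  set A : V → ℝ := fun x => Ω.indicator (fun x => ‖u x‖ ^ 2 * w x) x with hA
  set B : V → ℝ := fun x => ‖R x‖ ^ 2 / |w x| with hB
  have hA0 : ∀ x, 0 ≤ A x := fun x => indicator_nonneg
    (fun y hy => mul_nonneg (sq_nonneg _) (hwp y hy).le) x
  have hB0 : ∀ x, 0 ≤ B x := fun x => div_nonneg (sq_nonneg _) (abs_nonneg _)
  have hR0 : ∀ x ∉ tsupport R, R x = 0 := fun x hx => hR.eq_zero hx
  have hBc : Continuous B := by
    refine cont_of_zero hΩ (isClosed_tsupport R) hR.2.2 ?_ ?_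
    · refine ((hR.continuous.norm.pow 2).continuousOn).div hw.abs ?_
      intro x hx; exact (abs_pos.2 (hwp x hx).ne').ne'
    · intro x hx; simp [hB, hR0 x hx]
  have hBs : HasCompactSupport B := cs_of_zero hR.2.1 fun x hx => by simp [hB, hR0 x hx]
  have hAi : Integrable A := (integrable_indicator_iff hΩ.measurableSet).2 hui
  have hBi : Integrable B := hBc.integrable_of_hasCompactSupport hBs
  obtain ⟨hi, hcs⟩ := cs_int hAi hBi hA0 hB0
  have hpt : ∀ x, ‖u x * R x‖ ≤ Real.sqrt (A x) * Real.sqrt (B x) := by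
    intro x
    by_cases hx : x ∈ Ω
    · have hwx := hwp x hx
      rw [← Real.sqrt_mul (hA0 x)]
      apply Real.le_sqrt_of_sq_le
      simp only [hA, hB, indicator_of_mem hx, abs_of_pos hwx]
      rw [norm_mul, mul_pow]
      field_simp
      exact le_rfl
    · rw [hR0 x fun h => hx (hR.2.2 h), mul_zero, norm_zero]
      exact mul_nonneg (Real.sqrt_nonneg _) (Real.sqrt_nonneg _)
  have h1 : ‖∫ x, u x * R x‖ ≤ ∫ x, Real.sqrt (A x) * Real.sqrt (B x) :=
    norm_integral_le_of_norm_le hi (Eventually.of_forall hpt)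
  have h2 := pow_le_pow_left₀ (norm_nonneg _) h1 2
  have h3 : ∫ x, A x ≤ M := by
    simp only [hA]
    rw [integral_indicator hΩ.measurableSet]
    exact hu
  have h4 : ∫ x, B x = ∫ x, ‖R x‖ ^ 2 / w x := by
    refine integral_congr_ae (Eventually.of_forall fun x => ?_)
    by_cases hx : x ∈ Ω
    · simp only [hB, abs_of_pos (hwp x hx)]
    · simp [hB, hR0 x fun h => hx (hR.2.2 h)]
  have hBpos : 0 ≤ ∫ x, B x := integral_nonneg hB0
  calc ‖∫ x, u x * R x‖ ^ 2 ≤ _ := h2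
    _ ≤ (∫ x, A x) * ∫ x, B x := hcs
    _ ≤ M * ∫ x, B x := by gcongr
    _ = _ := by rw [h4]

/-- **the limit**: a weak solution with the singular weight -/
theorem weak_limit (hΩ : IsOpen Ω) (hS : S.Sm Ω) {s0 : V → ℂ} (hs0 : ContDiffOn ℝ ∞ s0 Ω)
    {w : ℕ → V → ℝ} (hw : ∀ k, ContinuousOn (w k) Ω) (hwp : ∀ k, ∀ x ∈ Ω, 0 < w k x)
    {G H : V → ℝ} (hG : ContinuousOn G Ω) (hG0 : ∀ x ∈ Ω, 0 ≤ G x) (hH : ContinuousOn H Ω)
    (hwG : ∀ x ∈ Ω, Tendsto (fun k => (w k x)⁻¹) atTop (𝓝 (G x)))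
    (hwH : ∀ k, ∀ x ∈ Ω, (w k x)⁻¹ ≤ H x) {M : ℝ} (hM0 : 0 ≤ M)
    (hu : ∀ k, ∃ u : V → ℂ, ContDiffOn ℝ ∞ u Ω ∧ (∀ j, ∀ x ∈ Ω, S.X j u x = S.X j s0 x) ∧
      IntegrableOn (fun x => ‖u x‖ ^ 2 * w k x) Ω ∧ ∫ x in Ω, ‖u x‖ ^ 2 * w k x ≤ M) :
    ∃ U : V → ℂ, MemLp U 2 ∧ ∀ h : ι → V → ℂ, (∀ j, TestC Ω (h j)) →
      ∫ x, s0 x * RR S h x = ∫ x, ((Real.sqrt (G x) : ℂ) * U x) * RR S h x := by
  -- the bound for every weight and in the limit
  have hk : ∀ h : ι → V → ℂ, (∀ j, TestC Ω (h j)) → ∀ k,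
      ‖∫ x, s0 x * RR S h x‖ ^ 2 ≤ M * ∫ x, ‖RR S h x‖ ^ 2 / w k x := by
    intro h hh k
    obtain ⟨u, hus, hux, hui, hu2⟩ := hu k
    have e1 : ∫ x, s0 x * RR S h x = ∫ x, u x * RR S h x := by
      rw [int_RR hΩ hS hh hs0, int_RR hΩ hS hh hus]
      congr 1
      refine integral_congr_ae (Eventually.of_forall fun x => ?_)
      refine Finset.sum_congr rfl fun j _ => ?_
      by_cases hx : x ∈ Ω
      · rw [hux j x hx]
      · rw [(hh j).eq_zero fun h' => hx ((hh j).2.2 h'), mul_zero, mul_zero]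
    rw [e1]
    exact bound_one hΩ (hw k) (hwp k) (RR_test hΩ hS hh) hM0 hui hu2
  have hlim : ∀ h : ι → V → ℂ, (∀ j, TestC Ω (h j)) →
      ‖∫ x, s0 x * RR S h x‖ ^ 2 ≤ M * ∫ x, ‖RR S h x‖ ^ 2 * G x := by
    intro h hh
    have hR := RR_test hΩ hS hh
    have hR0 : ∀ x ∉ tsupport (RR S h), RR S h x = 0 := fun x hx => hR.eq_zero hx
    have ht : Tendsto (fun k => ∫ x, ‖RR S h x‖ ^ 2 / w k x) atTop
        (𝓝 (∫ x, ‖RR S h x‖ ^ 2 * G x)) := by
      refine tendsto_integral_of_dominated_convergence (fun x => ‖RR S h x‖ ^ 2 * H x) ?_ ?_ ?_ ?_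
      · intro k
        refine Continuous.aestronglyMeasurable ?_
        refine cont_of_zero hΩ (isClosed_tsupport _) hR.2.2 ?_ ?_
        · exact ((hR.continuous.norm.pow 2).continuousOn).div (hw k)
            fun x hx => (hwp k x hx).ne'
        · intro x hx; simp [hR0 x hx]
      · refine Continuous.integrable_of_hasCompactSupport ?_ ?_
        · refine cont_of_zero hΩ (isClosed_tsupport _) hR.2.2 ?_ ?_
          · exact ((hR.continuous.norm.pow 2).continuousOn).mul hH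
          · intro x hx; simp [hR0 x hx]
        · exact cs_of_zero hR.2.1 fun x hx => by simp [hR0 x hx]
      · intro k
        refine Eventually.of_forall fun x => ?_
        by_cases hx : x ∈ Ω
        · rw [Real.norm_of_nonneg (div_nonneg (sq_nonneg _) (hwp k x hx).le), div_eq_mul_inv]
          exact mul_le_mul_of_nonneg_left (hwH k x hx) (sq_nonneg _)
        · simp [hR0 x fun h' => hx (hR.2.2 h')]
      · refine Eventually.of_forall fun x => ?_
        by_cases hx : x ∈ Ω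
        · simp only [div_eq_mul_inv]
          exact (hwG x hx).const_mul _
        · simp [hR0 x fun h' => hx (hR.2.2 h')]
    exact le_of_tendsto_of_tendsto' tendsto_const_nhds (ht.const_mul M) (hk h hh)
  -- Riesz
  have hGs : ContinuousOn (fun x => (Real.sqrt (G x) : ℂ)) Ω :=
    Complex.continuous_ofReal.comp_continuousOn hG.sqrt
  let P : (ι → testSub Ω) →ₗ[ℂ] (V → ℂ) :=
    { toFun := fun h x => (Real.sqrt (G x) : ℂ) * RR S (fun j => (h j : V → ℂ)) x
      map_add' := by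
        intro h h'
        funext x
        simp only [Pi.add_apply]
        rw [← mul_add]
        congr 1
        unfold RR
        rw [← Finset.sum_add_distrib]
        refine Finset.sum_congr rfl fun j _ => ?_
        rw [← Xt_add hΩ hS j (h j).2 (h' j).2]
        rfl
      map_smul' := by
        intro c h
        funext x
        simp only [RingHom.id_apply, Pi.smul_apply, smul_eq_mul]
        rw [mul_left_comm]
        congr 1
        unfold RR
        rw [Finset.mul_sum]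
        refine Finset.sum_congr rfl fun j _ => ?_
        rw [← Xt_smul j (h j).2]
        rfl }
  have hRRadd : ∀ h h' : ι → testSub Ω, ∀ x, RR S (fun j => ((h + h') j : V → ℂ)) x =
      RR S (fun j => (h j : V → ℂ)) x + RR S (fun j => (h' j : V → ℂ)) x := by
    intro h h' x
    unfold RR
    rw [← Finset.sum_add_distrib]
    refine Finset.sum_congr rfl fun j _ => ?_
    rw [← Xt_add hΩ hS j (h j).2 (h' j).2]
    rfl
  have hRRsmul : ∀ (c : ℂ) (h : ι → testSub Ω), ∀ x, RR S (fun j => ((c • h) j : V → ℂ)) x =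
      c * RR S (fun j => (h j : V → ℂ)) x := by
    intro c h x
    unfold RR
    rw [Finset.mul_sum]
    refine Finset.sum_congr rfl fun j _ => ?_
    rw [← Xt_smul j (h j).2]
    rfl
  let Λ : (ι → testSub Ω) →ₗ[ℂ] ℂ :=
    { toFun := fun h => ∫ x, s0 x * RR S (fun j => (h j : V → ℂ)) x
      map_add' := by
        intro h h'
        rw [← integral_add]
        · refine integral_congr_ae (Eventually.of_forall fun x => ?_)
          show s0 x * RR S (fun j => ((h + h') j : V → ℂ)) x = _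
          rw [hRRadd, mul_add]
        · exact ((RR_test hΩ hS fun j => (h j).2).mul_on hΩ hs0).integrable
        · exact ((RR_test hΩ hS fun j => (h' j).2).mul_on hΩ hs0).integrable
      map_smul' := by
        intro c h
        rw [RingHom.id_apply, smul_eq_mul, ← integral_const_mul]
        refine integral_congr_ae (Eventually.of_forall fun x => ?_)
        show s0 x * RR S (fun j => ((c • h) j : V → ℂ)) x = _
        rw [hRRsmul, mul_left_comm] }
  have hPm : ∀ h, MemLp (P h) 2 (volume : Measure V) := by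
    intro h
    have hR := RR_test hΩ hS fun j => (h j).2
    have hR0 : ∀ x ∉ tsupport (RR S fun j => (h j : V → ℂ)), P h x = 0 := by
      intro x hx
      show (Real.sqrt (G x) : ℂ) * RR S (fun j => (h j : V → ℂ)) x = 0
      rw [hR.eq_zero hx, mul_zero]
    have hc : Continuous (P h) :=
      cont_of_zero hΩ (isClosed_tsupport _) hR.2.2 (hGs.mul hR.continuous.continuousOn) hR0
    exact hc.memLp_of_hasCompactSupport (cs_of_zero hR.2.1 hR0)
  obtain ⟨U, hU, -, hU3⟩ := riesz_L2 (μ := (volume : Measure V)) P hPm Λ hM0 (by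
    intro h
    refine (hlim (fun j => (h j : V → ℂ)) fun j => (h j).2).trans (le_of_eq ?_)
    congr 1
    refine integral_congr_ae (Eventually.of_forall fun x => ?_)
    show ‖RR S (fun j => (h j : V → ℂ)) x‖ ^ 2 * G x =
      ‖(Real.sqrt (G x) : ℂ) * RR S (fun j => (h j : V → ℂ)) x‖ ^ 2
    by_cases hx : x ∈ Ω
    · rw [norm_mul, mul_pow, Complex.norm_real, Real.norm_of_nonneg (Real.sqrt_nonneg _),
        Real.sq_sqrt (hG0 x hx), mul_comm]
    · have hR := RR_test hΩ hS fun j => (h j).2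
      rw [hR.eq_zero fun h' => hx (hR.2.2 h')]
      simp)
  refine ⟨U, hU, fun h hh => ?_⟩
  have h1 := hU3 (fun j => ⟨h j, hh j⟩)
  have h2 : (∫ x, s0 x * RR S h x) = Λ (fun j => ⟨h j, hh j⟩) := rfl
  rw [h2, h1]
  refine integral_congr_ae (Eventually.of_forall fun x => ?_)
  show U x * ((Real.sqrt (G x) : ℂ) * RR S h x) = (Real.sqrt (G x) : ℂ) * U x * RR S h x
  ring

/-- a smooth function orthogonal to all `Xt_j h` is killed by `X_j` -/
theorem X_zero_of_weak (hΩ : IsOpen Ω) (hS : S.Sm Ω) {s : V → ℂ} (hs : ContDiffOn ℝ ∞ s Ω)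
    {j : ι} (h : ∀ κ, TestC Ω κ → ∫ x, s x * S.Xt j κ x = 0) : ∀ x ∈ Ω, S.X j s x = 0 := by
  have hX := hS.X_on hΩ j hs
  have hl : LocallyIntegrableOn (S.X j s) Ω :=
    hX.continuousOn.locallyIntegrableOn hΩ.measurableSet
  have h1 : ∀ᵐ x ∂(volume : Measure V), x ∈ Ω → S.X j s x = 0 := by
    refine hΩ.ae_eq_zero_of_integral_contDiff_smul_eq_zero hl fun g hg hgc hgΩ => ?_
    have hT : TestC Ω (fun x => (g x : ℂ)) := by
      refine ⟨Complex.ofRealCLM.contDiff.comp hg, hgc.comp_left (g := fun z : ℝ => (z : ℂ))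
        (by simp), ?_⟩
      refine (closure_minimal ?_ (isClosed_tsupport g)).trans hgΩ
      intro x hx
      apply subset_tsupport
      intro h0
      apply hx
      simp [h0]
    have h2 := h _ hT
    have h3 := hS.ibpX hΩ j hs hT
    rw [h2, neg_zero] at h3
    rw [← h3]
    refine integral_congr_ae (Eventually.of_forall fun x => ?_)
    show g x • S.X j s x = S.X j s x * (g x : ℂ)
    rw [Complex.real_smul, mul_comm]
  have h2 : S.X j s =ᵐ[volume.restrict Ω] fun _ => 0 := by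
    rw [Filter.EventuallyEq, ae_restrict_iff' hΩ.measurableSet]
    exact h1
  exact fun x hx => Measure.eqOn_open_of_ae_eq h2 hΩ hX.continuousOn continuousOn_const hx

/-- **the limit solution**: `s` is killed by all `X_j` and `s0 - s = √G U`, `U ∈ L²`. -/
theorem exists_limit (hΩ : IsOpen Ω) (hS : S.Sm Ω) (hreg : RegP S Ω (fun _ => 1))
    {s0 : V → ℂ} (hs0 : ContDiffOn ℝ ∞ s0 Ω)
    {w : ℕ → V → ℝ} (hw : ∀ k, ContinuousOn (w k) Ω) (hwp : ∀ k, ∀ x ∈ Ω, 0 < w k x)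
    {G H : V → ℝ} (hG : ContinuousOn G Ω) (hG0 : ∀ x ∈ Ω, 0 ≤ G x) (hH : ContinuousOn H Ω)
    (hwG : ∀ x ∈ Ω, Tendsto (fun k => (w k x)⁻¹) atTop (𝓝 (G x)))
    (hwH : ∀ k, ∀ x ∈ Ω, (w k x)⁻¹ ≤ H x) {M : ℝ} (hM0 : 0 ≤ M)
    (hu : ∀ k, ∃ u : V → ℂ, ContDiffOn ℝ ∞ u Ω ∧ (∀ j, ∀ x ∈ Ω, S.X j u x = S.X j s0 x) ∧
      IntegrableOn (fun x => ‖u x‖ ^ 2 * w k x) Ω ∧ ∫ x in Ω, ‖u x‖ ^ 2 * w k x ≤ M) :
    ∃ s U : V → ℂ, ContDiffOn ℝ ∞ s Ω ∧ (∀ j, ∀ x ∈ Ω, S.X j s x = 0) ∧ MemLp U 2 ∧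
      ∀ᵐ x, x ∈ Ω → s0 x - s x = (Real.sqrt (G x) : ℂ) * U x := by
  classical
  obtain ⟨U, hU, hUw⟩ := weak_limit hΩ hS hs0 hw hwp hG hG0 hH hwG hwH hM0 hu
  have hs0l : LocallyIntegrableOn s0 Ω :=
    hs0.continuousOn.locallyIntegrableOn hΩ.measurableSet
  have hUl : LocallyIntegrableOn U Ω :=
    (hU.locallyIntegrable (by norm_num)).locallyIntegrableOn Ω
  have hUGl : LocallyIntegrableOn (fun x => (Real.sqrt (G x) : ℂ) * U x) Ω :=
    hUl.continuousOn_mul (Complex.continuous_ofReal.comp_continuousOn hG.sqrt)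
      hΩ.isLocallyClosed
  have hloc : LocallyIntegrableOn (fun x => s0 x - (Real.sqrt (G x) : ℂ) * U x) Ω := hs0l.sub hUGl
  have hint : ∀ {R : V → ℂ}, TestC Ω R →
      Integrable (fun x => (Real.sqrt (G x) : ℂ) * U x * R x) := by
    intro R hR
    have h1 : IntegrableOn (fun x => (Real.sqrt (G x) : ℂ) * U x) (tsupport R) :=
      hUGl.integrableOn_compact_subset hR.2.2 hR.2.1
    have h2 : IntegrableOn (fun x => (Real.sqrt (G x) : ℂ) * U x * R x) (tsupport R) :=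
      h1.mul_continuousOn hR.continuous.continuousOn hR.2.1
    refine (integrableOn_iff_integrable_of_support_subset ?_).1 h2
    intro x hx
    by_contra hc
    apply hx
    simp only
    rw [image_eq_zero_of_notMem_tsupport hc, mul_zero]
  have hz : ∀ h : ι → V → ℂ, (∀ j, TestC Ω (h j)) →
      ∫ x, (s0 x - (Real.sqrt (G x) : ℂ) * U x) * RR S h x = 0 := by
    intro h hh
    have hR := RR_test hΩ hS hh
    have : (fun x => (s0 x - (Real.sqrt (G x) : ℂ) * U x) * RR S h x) =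
        fun x => s0 x * RR S h x - (Real.sqrt (G x) : ℂ) * U x * RR S h x := by funext x; ring
    rw [this, integral_sub (hR.mul_on hΩ hs0).integrable (hint hR), hUw h hh, sub_self]
  obtain ⟨s, hs, hsu⟩ := hreg _ hloc (by
    intro κ hκ
    have h1 := hz (fun j y => ((1 : ℝ) : ℂ) * S.Y j κ y) fun j =>
      (hS.Y_test hΩ j hκ).const_mul _
    exact h1)
  refine ⟨s, U, hs, ?_, hU, ?_⟩
  · intro j
    refine X_zero_of_weak hΩ hS hs fun κ hκ => ?_
    have h1 := hz (fun i => if i = j then κ else fun _ => 0) fun i => by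
      by_cases hij : i = j
      · simp only [hij, if_true]; exact hκ
      · simp only [hij, if_false]; exact TestC.zero
    have h2 : ∀ x, RR S (fun i => if i = j then κ else fun _ => 0) x = S.Xt j κ x := by
      intro x
      unfold RR
      rw [Finset.sum_eq_single j]
      · simp
      · intro i _ hij
        simp only [hij, if_false]
        simp [Fam.Xt, Fam.X, cd]
      · intro h; exact absurd (Finset.mem_univ j) h
    simp only [h2] at h1
    rw [← h1]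
    have hR := hS.Xt_test hΩ j hκ
    apply integral_congr_ae
    filter_upwards [hsu] with x hx
    by_cases hxΩ : x ∈ Ω
    · rw [hx hxΩ]
    · rw [hR.eq_zero fun h' => hxΩ (hR.2.2 h'), mul_zero, mul_zero]
  · filter_upwards [hsu] with x hx hxΩ
    rw [hx hxΩ]; ring

end Crest.Agent.R260.NN4_900
end
end

-- ▼ part R260/NNA1_17
section

/-!
# R260, NN-A (helper17), part 1: pointwise algebra and the commutator identity

`Cn n = EuclideanSpace ℂ (Fin n)`; `dbj`, `dzj`: Wirtinger derivatives; `LL a j = ∂̄_j + ∑ a_jk ∂_k`.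
`Nij J x v w` : Nijenhuis tensor of a field of endomorphisms of a real normed space.
-/

set_option autoImplicit false

open Set Filter Topology Complex Metric
open scoped ContDiff ComplexConjugate

namespace Crest.Agent.R260.NNA_17

noncomputable section

/-- model space -/
abbrev Cn (n : ℕ) : Type := EuclideanSpace ℂ (Fin n)

variable {n : ℕ}

/-- `∂/∂z̄_j` -/
def dbj (j : Fin n) (f : Cn n → ℂ) (z : Cn n) : ℂ :=
  (1 / 2 : ℂ) * (fderiv ℝ f z (EuclideanSpace.single j 1) +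
    I * fderiv ℝ f z (EuclideanSpace.single j I))

/-- `∂/∂z_j` -/
def dzj (j : Fin n) (f : Cn n → ℂ) (z : Cn n) : ℂ :=
  (1 / 2 : ℂ) * (fderiv ℝ f z (EuclideanSpace.single j 1) -
    I * fderiv ℝ f z (EuclideanSpace.single j I))

/-- `L_j = ∂̄_j + ∑ a_jk ∂_k` -/
def LL (a : Cn n → Matrix (Fin n) (Fin n) ℂ) (j : Fin n) (f : Cn n → ℂ) (z : Cn n) : ℂ :=
  dbj j f z + ∑ k, a z j k * dzj k f z

/-- commuting smooth fields on the ball of radius `R` -/
structure Adm (n : ℕ) (R : ℝ) (a : Cn n → Matrix (Fin n) (Fin n) ℂ) : Prop where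
  sm : ∀ j k, ContDiffOn ℝ ∞ (fun z => a z j k) (ball 0 R)
  comm : ∀ z ∈ ball (0 : Cn n) R, ∀ i j k,
    LL a i (fun w => a w j k) z = LL a j (fun w => a w i k) z


section HSide

variable {H : Type*} [NormedAddCommGroup H] [NormedSpace ℝ H]

/-- Nijenhuis tensor (constant fields `v`, `w`) -/
def Nij (J : H → H →L[ℝ] H) (x v w : H) : H :=
  fderiv ℝ J x (J x v) w - fderiv ℝ J x (J x w) v - J x (fderiv ℝ J x v w - fderiv ℝ J x w v)

/-- bracket of vector fields -/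
def br (X Y : H → H) (x : H) : H := fderiv ℝ Y x (X x) - fderiv ℝ X x (Y x)





end HSide

end

end Crest.Agent.R260.NNA_17
end

-- ▼ part R260/NNA2_17
section

/-!
# R260, NN-A (helper17), part 2: the fields `X_w = P⁻¹ w` on the original space
-/

set_option autoImplicit false

open Set Filter Topology Complex Metric
open scoped ContDiff ComplexConjugate

namespace Crest.Agent.R260.NNA_17

noncomputable section

variable {n : ℕ}



/-- complex linear part -/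
def Al (g : Cn n →L[ℝ] ℂ) (w : Cn n) : ℂ := (1 / 2 : ℂ) * (g w - I * g (I • w))

/-- antilinear part -/
def Bl (g : Cn n →L[ℝ] ℂ) (w : Cn n) : ℂ := (1 / 2 : ℂ) * (g w + I * g (I • w))










variable {H : Type*} [NormedAddCommGroup H] [NormedSpace ℝ H]

/-- `(G - i G J) / 2` -/
def PP (G : H →L[ℝ] Cn n) (J : H →L[ℝ] H) : H →L[ℝ] Cn n := (1 / 2 : ℂ) • (G - I • G.comp J)

/-- `(G + i G J) / 2` -/
def QQ (G : H →L[ℝ] Cn n) (J : H →L[ℝ] H) : H →L[ℝ] Cn n := (1 / 2 : ℂ) • (G + I • G.comp J)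

theorem PP_apply (G : H →L[ℝ] Cn n) (J : H →L[ℝ] H) (v : H) :
    PP G J v = (1 / 2 : ℂ) • (G v - I • G (J v)) := rfl

theorem QQ_apply (G : H →L[ℝ] Cn n) (J : H →L[ℝ] H) (v : H) :
    QQ G J v = (1 / 2 : ℂ) • (G v + I • G (J v)) := rfl

theorem G_eq (G : H →L[ℝ] Cn n) (J : H →L[ℝ] H) (v : H) : G v = PP G J v + QQ G J v := by
  rw [PP_apply, QQ_apply, ← smul_add, sub_add_add_cancel, ← two_smul ℂ (G v), smul_smul]
  norm_num

theorem GJ_eq (G : H →L[ℝ] Cn n) (J : H →L[ℝ] H) (v : H) :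
    G (J v) = I • (PP G J v - QQ G J v) := by
  rw [PP_apply, QQ_apply, ← smul_sub, smul_smul]
  have : G v - I • G (J v) - (G v + I • G (J v)) = (-2 * I) • G (J v) := by
    module
  rw [this, smul_smul]
  have h2 : I * (1 / 2) * (-2 * I) = 1 := by linear_combination -I_mul_I
  rw [h2, one_smul]



theorem key (g : Cn n →L[ℝ] ℂ) (G : H →L[ℝ] Cn n) (J : H →L[ℝ] H) (v : H) :
    g (G v) + I * g (G (J v)) = 2 * (Al g (QQ G J v) + Bl g (PP G J v)) := by
  rw [GJ_eq G J v, G_eq G J v, smul_sub, map_add, map_sub]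
  simp only [Al, Bl]
  ring

end

end Crest.Agent.R260.NNA_17
end

-- ▼ part R260/NNA3_17
section

/-!
# R260, NN-A (helper17), part 3: the quadratic coordinates
-/

set_option autoImplicit false

open Set Filter Topology Complex Metric
open scoped ContDiff ComplexConjugate

namespace Crest.Agent.R260.NNA_17

noncomputable section

variable {n : ℕ}

/-- linear coordinates for one complex structure -/
theorem exists_lin {V : Type*} [NormedAddCommGroup V] [NormedSpace ℝ V] [FiniteDimensional ℝ V]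
    (hn : Module.finrank ℝ V = 2 * n) (J : V →L[ℝ] V) (hJ : ∀ v, J (J v) = -v) :
    ∃ T : V ≃L[ℝ] Cn n, ∀ v, T (J v) = I • T v := by
  have hJ2 : (J : V →ₗ[ℝ] V) * (J : V →ₗ[ℝ] V) = -1 := by
    ext v; simp [hJ]
  let φ : ℂ →ₐ[ℝ] Module.End ℝ V := Complex.lift ⟨(J : V →ₗ[ℝ] V), hJ2⟩
  let _ : Module ℂ V := Module.compHom V φ.toRingHom
  have hs : ∀ (c : ℂ) (v : V), c • v = φ c v := fun c v => rfl
  have : IsScalarTower ℝ ℂ V := by
    refine ⟨fun r c v => ?_⟩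
    rw [hs, hs, map_smul]; rfl
  have hI : ∀ v : V, I • v = J v := by
    intro v
    rw [hs]
    simp [φ]
  have : Module.Finite ℂ V := Module.Finite.of_restrictScalars_finite ℝ ℂ V
  have h1 : Module.finrank ℂ V = n := by
    have h2 := Module.finrank_mul_finrank ℝ ℂ V
    rw [Complex.finrank_real_complex, hn] at h2
    omega
  have h3 : Module.finrank ℂ V = Module.finrank ℂ (Cn n) := by
    rw [h1]; simp
  let e : V ≃ₗ[ℂ] Cn n := LinearEquiv.ofFinrankEq V (Cn n) h3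
  let e' : V ≃ₗ[ℝ] Cn n := e.restrictScalars ℝ
  refine ⟨e'.toContinuousLinearEquiv, fun v => ?_⟩
  change e (J v) = I • e v
  rw [← hI, map_smul]

variable {H : Type*} [NormedAddCommGroup H] [NormedSpace ℝ H]

/-- second order Taylor bound -/
theorem taylor2 {W : Type*} [NormedAddCommGroup W] [NormedSpace ℝ W] {f : H → W} {p : H}
    (hf : ContDiffAt ℝ 2 f p) :
    ∃ C : ℝ, 0 ≤ C ∧ ∀ᶠ x in 𝓝 p, ‖f x - f p - fderiv ℝ f p (x - p)‖ ≤ C * ‖x - p‖ ^ 2 := by
  have h1 : ContDiffAt ℝ 1 (fderiv ℝ f) p := hf.fderiv_right (m := 1) (by norm_num)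
  obtain ⟨K, t, ht, hK⟩ := h1.exists_lipschitzOnWith
  have hd : ∀ᶠ x in 𝓝 p, DifferentiableAt ℝ f x := by
    filter_upwards [hf.eventually (by simp)] with x hx
    exact hx.differentiableAt (by norm_num)
  obtain ⟨ε, hε, hball⟩ := Metric.mem_nhds_iff.1 (Filter.inter_mem ht hd)
  refine ⟨K, K.2, ?_⟩
  filter_upwards [Metric.ball_mem_nhds p hε] with x hx
  have hpt : p ∈ t := (hball (Metric.mem_ball_self hε)).1
  set g : H → W := fun y => f y - fderiv ℝ f p (y - p) with hg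
  have hgd : ∀ y ∈ ball p ε ∩ closedBall p ‖x - p‖, HasFDerivWithinAt g
      (fderiv ℝ f y - fderiv ℝ f p) (ball p ε ∩ closedBall p ‖x - p‖) y := by
    intro y hy
    have h2 : DifferentiableAt ℝ f y := (hball hy.1).2
    have h3 : HasFDerivAt (fun y => fderiv ℝ f p (y - p)) (fderiv ℝ f p) y := by
      have := (fderiv ℝ f p).hasFDerivAt.comp y ((hasFDerivAt_id y).sub_const p)
      rw [ContinuousLinearMap.comp_id] at this
      exact this
    exact (h2.hasFDerivAt.sub h3).hasFDerivWithinAt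
  have hb : ∀ y ∈ ball p ε ∩ closedBall p ‖x - p‖, ‖fderiv ℝ f y - fderiv ℝ f p‖ ≤
      K * ‖x - p‖ := by
    intro y hy
    have := hK.dist_le_mul y (hball hy.1).1 p hpt
    rw [dist_eq_norm, dist_eq_norm] at this
    refine this.trans (mul_le_mul_of_nonneg_left ?_ K.2)
    simpa [dist_eq_norm] using hy.2
  have hconv : Convex ℝ (ball p ε ∩ closedBall p ‖x - p‖) :=
    (convex_ball p ε).inter (convex_closedBall p _)
  have h4 := hconv.norm_image_sub_le_of_norm_hasFDerivWithin_le hgd hb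
    (⟨Metric.mem_ball_self hε, Metric.mem_closedBall_self (norm_nonneg _)⟩ :
      p ∈ ball p ε ∩ closedBall p ‖x - p‖)
    (⟨hx, by simp [dist_eq_norm]⟩ : x ∈ ball p ε ∩ closedBall p ‖x - p‖)
  have e1 : g x - g p = f x - f p - fderiv ℝ f p (x - p) := by
    simp [hg]; abel
  rw [e1] at h4
  calc _ ≤ _ := h4
    _ = _ := by ring

/-- the quadratic correction -/
theorem quad_exists {J : H → H →L[ℝ] H} {p : H} (hJ : DifferentiableAt ℝ J p)
    (hJJ : ∀ᶠ x in 𝓝 p, ∀ v, J x (J x v) = -v) (hN : ∀ v w, Nij J p v w = 0)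
    (T : H →L[ℝ] Cn n) (hT : ∀ v, T (J p v) = I • T v) :
    ∃ β : H →L[ℝ] H →L[ℝ] Cn n, (∀ u v, β u v = β v u) ∧
      ∀ u v, β u v + I • β u (J p v) + I • T (fderiv ℝ J p u v) = 0 := by
  set J1 := fderiv ℝ J p with hJ1
  have hJJp : ∀ v, J p (J p v) = -v := hJJ.self_of_nhds
  -- `J1 u (J p v) + J p (J1 u v) = 0`
  have hanti : ∀ u v, J1 u (J p v) = -J p (J1 u v) := by
    intro u v
    have h1 : HasFDerivAt (fun x => J x (J x v)) ((J p).comp ((J1).flip v) +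
        (J1).flip (J p v)) p := by
      have h2 : HasFDerivAt (fun x => J x v) ((J1).flip v) p := by
        have := hJ.hasFDerivAt.clm_apply (hasFDerivAt_const v p)
        simpa using this
      exact hJ.hasFDerivAt.clm_apply h2
    have h3 : HasFDerivAt (fun x => J x (J x v)) (0 : H →L[ℝ] H) p := by
      refine (hasFDerivAt_const (-v) p).congr_of_eventuallyEq ?_
      filter_upwards [hJJ] with x hx
      exact hx v
    have h4 := congrArg (fun L : H →L[ℝ] H => L u) (h1.unique h3)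
    simp only [_root_.add_apply, ContinuousLinearMap.comp_apply, ContinuousLinearMap.flip_apply,
      _root_.zero_apply] at h4
    rw [add_comm] at h4
    exact eq_neg_of_add_eq_zero_left h4
  let A : H →L[ℝ] H →L[ℝ] Cn n := (ContinuousLinearMap.compL ℝ H H (Cn n) T).comp J1
  have hA : ∀ u v, A u v = T (J1 u v) := fun u v => rfl
  let B : H →L[ℝ] H →L[ℝ] Cn n := ((ContinuousLinearMap.compL ℝ H H (Cn n)).flip (J p)).comp A.flip
  have hB : ∀ u v, B u v = T (J1 (J p v) u) := fun u v => rfl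
  have hNN : ∀ u v, T (J1 (J p u) v) - T (J1 (J p v) u) - I • (T (J1 u v) - T (J1 v u)) = 0 := by
    intro u v
    have := congrArg T (hN u v)
    simp only [Nij, map_sub, map_zero, hT, ← hJ1] at this
    rw [smul_sub]
    exact this
  refine ⟨(-(1 / 2 : ℂ) * I) • A - ((1 / 4 : ℂ) * I) • A.flip - (1 / 4 : ℂ) • B, ?_, ?_⟩
  · intro u v
    have h := hNN u v
    simp only [_root_.sub_apply, _root_.smul_apply, ContinuousLinearMap.flip_apply, hA, hB]
    ext i
    have hi := congrArg (fun w : Cn n => w i) h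
    simp only [PiLp.sub_apply, PiLp.smul_apply, smul_eq_mul, PiLp.zero_apply] at hi ⊢
    linear_combination (1 / 4 : ℂ) * hi
  · intro u v
    simp only [_root_.sub_apply, _root_.smul_apply, ContinuousLinearMap.flip_apply, hA, hB, hJJp,
      hanti, hT, map_neg, neg_apply]
    ext i
    simp only [PiLp.sub_apply, PiLp.smul_apply, smul_eq_mul, PiLp.zero_apply, PiLp.add_apply,
      PiLp.neg_apply]
    ring_nf
    simp only [I_sq, I_pow_three]
    ring

end

end Crest.Agent.R260.NNA_17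
end

-- ▼ part R260/NNA4_17
section

/-!
# R260, NN-A (helper17), part 4: good coordinates
-/

set_option autoImplicit false

open Set Filter Topology Complex Metric
open scoped ContDiff ComplexConjugate

namespace Crest.Agent.R260.NNA_17

noncomputable section

variable {n : ℕ}

set_option maxHeartbeats 1000000 in
theorem exists_chart {V : Type*} [NormedAddCommGroup V] [NormedSpace ℝ V] [FiniteDimensional ℝ V]
    (hn : Module.finrank ℝ V = 2 * n) {U : Set V} (hU : IsOpen U) {p : V} (hp : p ∈ U)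
    {J : V → V →L[ℝ] V} (hJ : ContDiffOn ℝ ∞ J U) (hJJ : ∀ x ∈ U, ∀ v, J x (J x v) = -v)
    (hN : ∀ x ∈ U, ∀ v w, Nij J x v w = 0) :
    ∃ e : OpenPartialHomeomorph V (Cn n), p ∈ e.source ∧ e.source ⊆ U ∧ e p = 0 ∧
      ContDiffOn ℝ ∞ e e.source ∧ ContDiffOn ℝ ∞ e.symm e.target ∧
      (∀ x ∈ e.source, ∃ E : V ≃L[ℝ] Cn n, (E : V →L[ℝ] Cn n) = fderiv ℝ e x) ∧
      (∀ x ∈ e.source, ∃ E : V ≃L[ℝ] Cn n, (E : V →L[ℝ] Cn n) = PP (fderiv ℝ e x) (J x)) ∧
      ∃ C : ℝ, 0 ≤ C ∧ ∀ x ∈ e.source, ∀ v,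
        ‖QQ (fderiv ℝ e x) (J x) v‖ ≤ C * ‖e x‖ ^ 2 * ‖v‖ := by
  have : CompleteSpace V := FiniteDimensional.complete ℝ V
  have hUp : U ∈ 𝓝 p := hU.mem_nhds hp
  have hJp : ContDiffAt ℝ ∞ J p := hJ.contDiffAt hUp
  obtain ⟨T, hT⟩ := exists_lin hn (J p) (hJJ p hp)
  obtain ⟨β, hβs, hβ⟩ := quad_exists (hJp.differentiableAt (by simp))
    (by filter_upwards [hUp] with x hx using hJJ x hx) (hN p hp) (T : V →L[ℝ] Cn n) hT
  set Φ : V → Cn n := fun x => T (x - p) + (1 / 2 : ℝ) • β (x - p) (x - p) with hΦdef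
  have hΦd : ∀ x, HasFDerivAt Φ ((T : V →L[ℝ] Cn n) + β (x - p)) x := by
    intro x
    have h0 : HasFDerivAt (fun x : V => x - p) (ContinuousLinearMap.id ℝ V) x :=
      (hasFDerivAt_id x).sub_const p
    have h1 : HasFDerivAt (fun x : V => T (x - p)) (T : V →L[ℝ] Cn n) x := by
      have := (T : V →L[ℝ] Cn n).hasFDerivAt.comp x h0
      rw [ContinuousLinearMap.comp_id] at this
      exact this
    have h2 : HasFDerivAt (fun x : V => β (x - p)) β x := by
      have := β.hasFDerivAt.comp x h0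
      rw [ContinuousLinearMap.comp_id] at this
      exact this
    have h3 := (h2.clm_apply h0).const_smul (1 / 2 : ℝ)
    refine (h1.add h3).congr_fderiv ?_
    ext1 v
    simp only [_root_.add_apply, _root_.smul_apply, ContinuousLinearMap.comp_apply,
      ContinuousLinearMap.flip_apply, ContinuousLinearMap.id_apply, hβs v (x - p)]
    rw [← two_smul ℝ (β (x - p) v), smul_smul]
    norm_num
  have hΦs : ContDiff ℝ ∞ Φ := by
    have h0 : ContDiff ℝ ∞ (fun x : V => x - p) := contDiff_id.sub contDiff_const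
    exact ((T : V →L[ℝ] Cn n).contDiff.comp h0).add
      (((β.contDiff.comp h0).clm_apply h0).const_smul (1 / 2 : ℝ))
  have hΦp : Φ p = 0 := by simp [hΦdef]
  have hfd : ∀ x, fderiv ℝ Φ x = (T : V →L[ℝ] Cn n) + β (x - p) := fun x => (hΦd x).fderiv
  have hΦdp : HasFDerivAt Φ ((T : V →L[ℝ] Cn n)) p := by
    have := hΦd p
    simpa using this
  -- the eventual conditions
  have c1 : ∀ᶠ x in 𝓝 p, ∃ E : V ≃L[ℝ] Cn n, (E : V →L[ℝ] Cn n) = fderiv ℝ Φ x := by
    have hc : ContinuousAt (fun x => fderiv ℝ Φ x) p :=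
      (hΦs.continuous_fderiv (by simp)).continuousAt
    have : range ((↑) : (V ≃L[ℝ] Cn n) → V →L[ℝ] Cn n) ∈ 𝓝 (fderiv ℝ Φ p) := by
      rw [hΦdp.fderiv]; exact T.nhds
    exact hc this
  have hPQ0 : ∀ v, QQ (fderiv ℝ Φ p) (J p) v = 0 := by
    intro v
    rw [QQ_apply, hΦdp.fderiv]
    change (1 / 2 : ℂ) • (T v + I • T (J p v)) = 0
    rw [hT, smul_smul, I_mul_I, neg_one_smul, add_neg_cancel, smul_zero]
  have hPp : PP (fderiv ℝ Φ p) (J p) = (T : V →L[ℝ] Cn n) := by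
    ext1 v
    have h := G_eq (fderiv ℝ Φ p) (J p) v
    rw [hPQ0 v, add_zero, hΦdp.fderiv] at h
    rw [hΦdp.fderiv]; exact h.symm
  have c2 : ∀ᶠ x in 𝓝 p, ∃ E : V ≃L[ℝ] Cn n, (E : V →L[ℝ] Cn n) = PP (fderiv ℝ Φ x) (J x) := by
    have hc0 : ContinuousAt (fun x => fderiv ℝ Φ x) p :=
      (hΦs.continuous_fderiv (by simp)).continuousAt
    have hc : ContinuousAt (fun x => PP (fderiv ℝ Φ x) (J x)) p := by
      unfold PP
      exact (hc0.sub ((hc0.clm_comp hJp.continuousAt).const_smul I)).const_smul (1 / 2 : ℂ)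
    have : range ((↑) : (V ≃L[ℝ] Cn n) → V →L[ℝ] Cn n) ∈ 𝓝 (PP (fderiv ℝ Φ p) (J p)) := by
      rw [hPp]; exact T.nhds
    exact hc this
  obtain ⟨C, hC, hC'⟩ := taylor2 (hJp.of_le (by norm_cast) : ContDiffAt ℝ 2 J p)
  set J1 := fderiv ℝ J p with hJ1
  set Ts : Cn n →L[ℝ] V := (T.symm : Cn n →L[ℝ] V) with hTs
  set K : ℝ := 1 / 2 * (‖(T : V →L[ℝ] Cn n)‖ * C + ‖β‖ * (C + ‖J1‖)) with hK
  have hK0 : 0 ≤ K := by positivity
  have c3 : ∀ᶠ x in 𝓝 p, ‖x - p‖ < 1 ∧ ‖x - p‖ < 1 / (‖Ts‖ * ‖β‖ + 1) := by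
    have h1 : 0 < 1 / (‖Ts‖ * ‖β‖ + 1) := by positivity
    filter_upwards [Metric.ball_mem_nhds p one_pos, Metric.ball_mem_nhds p h1] with x hx hx'
    exact ⟨by simpa [dist_eq_norm] using hx, by simpa [dist_eq_norm] using hx'⟩
  have c4 : ∀ᶠ x in 𝓝 p, ∀ v, ‖QQ (fderiv ℝ Φ x) (J x) v‖ ≤
      (K * (2 * ‖Ts‖) ^ 2) * ‖Φ x‖ ^ 2 * ‖v‖ := by
    filter_upwards [hC', c3] with x hx hx3 v
    obtain ⟨hx1, hx2⟩ := hx3
    set u := x - p with hu
    have hu0 : 0 ≤ ‖u‖ := norm_nonneg _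
    -- `‖u‖ ≤ 2 ‖Ts‖ ‖Φ x‖`
    have hub : ‖u‖ ≤ 2 * ‖Ts‖ * ‖Φ x‖ := by
      have h1 : u = Ts (Φ x - (1 / 2 : ℝ) • β u u) := by
        have : Φ x - (1 / 2 : ℝ) • β u u = T u := by
          change T u + (1 / 2 : ℝ) • β u u - (1 / 2 : ℝ) • β u u = T u
          rw [add_sub_cancel_right]
        rw [this]
        change u = T.symm (T u)
        rw [T.symm_apply_apply]
      have h2 : ‖u‖ ≤ ‖Ts‖ * (‖Φ x‖ + 1 / 2 * (‖β‖ * ‖u‖ * ‖u‖)) := by
        calc ‖u‖ = ‖Ts (Φ x - (1 / 2 : ℝ) • β u u)‖ := by rw [← h1]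
          _ ≤ ‖Ts‖ * ‖Φ x - (1 / 2 : ℝ) • β u u‖ := Ts.le_opNorm _
          _ ≤ ‖Ts‖ * (‖Φ x‖ + ‖(1 / 2 : ℝ) • β u u‖) := by gcongr; exact norm_sub_le _ _
          _ ≤ _ := by
            gcongr
            rw [norm_smul]
            have : ‖(1 / 2 : ℝ)‖ = 1 / 2 := by norm_num
            rw [this]
            gcongr
            exact (β u).le_opNorm _ |>.trans (by gcongr; exact β.le_opNorm _)
      have h3 : ‖Ts‖ * ‖β‖ * ‖u‖ ≤ 1 := by
        have h4 : 0 < ‖Ts‖ * ‖β‖ + 1 := by positivity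
        have h5 : ‖u‖ * (‖Ts‖ * ‖β‖ + 1) < 1 := (lt_div_iff₀ h4).1 hx2
        nlinarith
      nlinarith [mul_nonneg hu0 (sub_nonneg.2 h3)]
    have hid : QQ (fderiv ℝ Φ x) (J x) v = (1 / 2 : ℂ) • (I • (T ((J x - J p - J1 u) v)) +
        I • β u ((J x - J p) v)) := by
      rw [QQ_apply, hfd, ← hu]
      have h1 := hβ u v
      have h2 : T v + I • T (J p v) = 0 := by
        rw [hT, smul_smul, I_mul_I, neg_one_smul, add_neg_cancel]
      congr 1
      simp only [_root_.add_apply, _root_.sub_apply, map_sub, ContinuousLinearEquiv.coe_coe] at h1 ⊢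
      have h3 : β u v = -(I • β u (J p v)) - I • T (J1 u v) := by
        rw [← sub_eq_zero, ← h1]; abel
      have h4 : T v = -(I • T (J p v)) := eq_neg_of_add_eq_zero_left h2
      rw [h3, h4]
      simp only [smul_add, smul_sub]
      abel
    have hn1 : ‖(J x - J p) v‖ ≤ (C + ‖J1‖) * ‖u‖ * ‖v‖ := by
      have h1 : (J x - J p) v = (J x - J p - J1 u) v + J1 u v := by simp
      rw [h1]
      have h2 : ‖(J x - J p - J1 u) v‖ ≤ C * ‖u‖ * ‖v‖ := by
        refine ((J x - J p - J1 u).le_opNorm v).trans ?_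
        gcongr
        refine hx.trans ?_
        rw [sq]
        calc C * (‖u‖ * ‖u‖) ≤ C * (‖u‖ * 1) := by gcongr
          _ = C * ‖u‖ := by ring
      have h3 : ‖J1 u v‖ ≤ ‖J1‖ * ‖u‖ * ‖v‖ :=
        (J1 u).le_opNorm v |>.trans (by gcongr; exact J1.le_opNorm u)
      calc _ ≤ ‖(J x - J p - J1 u) v‖ + ‖J1 u v‖ := norm_add_le _ _
        _ ≤ C * ‖u‖ * ‖v‖ + ‖J1‖ * ‖u‖ * ‖v‖ := add_le_add h2 h3
        _ = _ := by ring
    have hn2 : ‖(J x - J p - J1 u) v‖ ≤ C * ‖u‖ ^ 2 * ‖v‖ := by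
      refine ((J x - J p - J1 u).le_opNorm v).trans ?_
      gcongr
    have hn3 : ‖QQ (fderiv ℝ Φ x) (J x) v‖ ≤ K * ‖u‖ ^ 2 * ‖v‖ := by
      rw [hid, norm_smul]
      have e1 : ‖(1 / 2 : ℂ)‖ = 1 / 2 := by norm_num
      rw [e1]
      have e2 : ‖I • T ((J x - J p - J1 u) v)‖ ≤
          ‖(T : V →L[ℝ] Cn n)‖ * (C * ‖u‖ ^ 2 * ‖v‖) := by
        rw [norm_smul, norm_I, one_mul]
        exact ((T : V →L[ℝ] Cn n).le_opNorm _).trans (by gcongr)
      have e3 : ‖I • β u ((J x - J p) v)‖ ≤ ‖β‖ * ‖u‖ * ((C + ‖J1‖) * ‖u‖ * ‖v‖) := by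
        rw [norm_smul, norm_I, one_mul]
        exact ((β u).le_opNorm _).trans (by gcongr; exact β.le_opNorm u)
      calc _ ≤ 1 / 2 * (‖I • T ((J x - J p - J1 u) v)‖ + ‖I • β u ((J x - J p) v)‖) := by
            gcongr; exact norm_add_le _ _
        _ ≤ 1 / 2 * (‖(T : V →L[ℝ] Cn n)‖ * (C * ‖u‖ ^ 2 * ‖v‖) +
            ‖β‖ * ‖u‖ * ((C + ‖J1‖) * ‖u‖ * ‖v‖)) := by gcongr
        _ = _ := by rw [hK]; ring
    refine hn3.trans ?_
    have : ‖u‖ ^ 2 ≤ (2 * ‖Ts‖) ^ 2 * ‖Φ x‖ ^ 2 := by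
      rw [← mul_pow]; exact pow_le_pow_left₀ hu0 hub 2
    calc K * ‖u‖ ^ 2 * ‖v‖ ≤ K * ((2 * ‖Ts‖) ^ 2 * ‖Φ x‖ ^ 2) * ‖v‖ := by gcongr
      _ = _ := by ring
  -- an open set on which everything holds
  obtain ⟨O, hO, hOo, hpO⟩ := _root_.mem_nhds_iff.1 (Filter.inter_mem (Filter.inter_mem c1 c2)
    (Filter.inter_mem c4 hUp))
  set e0 : OpenPartialHomeomorph V (Cn n) :=
    (hΦs.contDiffAt).toOpenPartialHomeomorph Φ hΦdp (by simp) with he0
  have he0c : (e0 : V → Cn n) = Φ := ContDiffAt.toOpenPartialHomeomorph_coe _ _ _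
  have hps : p ∈ e0.source := ContDiffAt.mem_toOpenPartialHomeomorph_source _ _ _
  set e := e0.restrOpen O hOo with he
  have hec : (e : V → Cn n) = Φ := he0c
  have hes : e.source = e0.source ∩ O := rfl
  have hO' : ∀ x ∈ e.source, x ∈ O := fun x hx => hx.2
  refine ⟨e, ⟨hps, hpO⟩, fun x hx => (hO (hO' x hx)).2.2, by rw [hec]; exact hΦp,
    by rw [hec]; exact hΦs.contDiffOn, ?_, fun x hx => ?_, fun x hx => ?_,
    K * (2 * ‖Ts‖) ^ 2, by positivity, fun x hx v => ?_⟩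
  · intro z hz
    have hx : e.symm z ∈ e.source := e.map_target hz
    obtain ⟨E, hE⟩ := (hO (hO' _ hx)).1.1
    have : HasFDerivAt e (E : V →L[ℝ] Cn n) (e.symm z) := by
      rw [hE, hec]; exact (hΦs.differentiable (by simp) _).hasFDerivAt
    exact (e.contDiffAt_symm hz this (by rw [hec]; exact hΦs.contDiffAt)).contDiffWithinAt
  · rw [hec]; exact (hO (hO' x hx)).1.1
  · rw [hec]; exact (hO (hO' x hx)).1.2
  · rw [hec]; exact (hO (hO' x hx)).2.1 v

end

end Crest.Agent.R260.NNA_17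
end

-- ▼ part R260/NNA5_17

/-!
# R260, NN-A (helper17), part 5: naturality of the Nijenhuis tensor, `CoreW → NNat`
-/

set_option autoImplicit false

open Set Filter Topology Complex Metric
open scoped ContDiff ComplexConjugate

namespace Crest.Agent.R260.NNA_17

noncomputable section

variable {n : ℕ}

theorem Nij_eq_580 {V : Type*} [NormedAddCommGroup V] [NormedSpace ℝ V] (J : V → V →L[ℝ] V)
    (z v w : V) : ACM_580.Nij J z v w = Nij J z v w := by
  simp only [ACM_580.Nij, Nij, map_sub]; abel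

section nat

variable {H : Type*} [NormedAddCommGroup H] [NormedSpace ℝ H]
variable {W : Type*} [NormedAddCommGroup W] [NormedSpace ℝ W]

/-- the Nijenhuis tensor through brackets of variable fields -/
theorem nij_eq_br {J : H → H →L[ℝ] H} {X Y : H → H} {x : H} (hJ : DifferentiableAt ℝ J x)
    (hX : DifferentiableAt ℝ X x) (hY : DifferentiableAt ℝ Y x)
    (hJJ : ∀ v, J x (J x v) = -v) :
    Nij J x (X x) (Y x) = br (fun y => J y (X y)) (fun y => J y (Y y)) x - br X Y x -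
      J x (br X (fun y => J y (Y y)) x + br (fun y => J y (X y)) Y x) := by
  have e1 := (hJ.hasFDerivAt.clm_apply hY.hasFDerivAt).fderiv
  have e2 := (hJ.hasFDerivAt.clm_apply hX.hasFDerivAt).fderiv
  simp only [br]
  rw [e1, e2]
  simp only [_root_.add_apply, ContinuousLinearMap.comp_apply,
    ContinuousLinearMap.flip_apply, map_sub, map_add, hJJ, Nij]
  abel

/-- naturality of the bracket -/
theorem br_nat {Φ : H → W} {x : H} (hΦ : ContDiffAt ℝ 2 Φ x) {X Y : H → H} {X' Y' : W → W}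
    (hX : DifferentiableAt ℝ X x) (hY : DifferentiableAt ℝ Y x)
    (hX' : DifferentiableAt ℝ X' (Φ x)) (hY' : DifferentiableAt ℝ Y' (Φ x))
    (eX : ∀ᶠ y in 𝓝 x, X' (Φ y) = fderiv ℝ Φ y (X y))
    (eY : ∀ᶠ y in 𝓝 x, Y' (Φ y) = fderiv ℝ Φ y (Y y)) :
    br X' Y' (Φ x) = fderiv ℝ Φ x (br X Y x) := by
  have hs : IsSymmSndFDerivAt ℝ Φ x := hΦ.isSymmSndFDerivAt (by simp)
  have hd : DifferentiableAt ℝ (fderiv ℝ Φ) x :=
    (hΦ.fderiv_right (m := 1) (by norm_num)).differentiableAt (by norm_num)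
  have hΦd : DifferentiableAt ℝ Φ x := hΦ.differentiableAt (by norm_num)
  have key : ∀ {Z : H → H} {Z' : W → W}, DifferentiableAt ℝ Z x → DifferentiableAt ℝ Z' (Φ x) →
      (∀ᶠ y in 𝓝 x, Z' (Φ y) = fderiv ℝ Φ y (Z y)) → ∀ v,
      fderiv ℝ Z' (Φ x) (fderiv ℝ Φ x v) = fderiv ℝ Φ x (fderiv ℝ Z x v) +
        fderiv ℝ (fderiv ℝ Φ) x v (Z x) := by
    intro Z Z' hZ hZ' eZ v
    have h1 : HasFDerivAt (fun y => Z' (Φ y)) ((fderiv ℝ Z' (Φ x)).comp (fderiv ℝ Φ x)) x :=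
      hZ'.hasFDerivAt.comp x hΦd.hasFDerivAt
    have h2 : HasFDerivAt (fun y => Z' (Φ y)) ((fderiv ℝ Φ x).comp (fderiv ℝ Z x) +
        (fderiv ℝ (fderiv ℝ Φ) x).flip (Z x)) x :=
      (hd.hasFDerivAt.clm_apply hZ.hasFDerivAt).congr_of_eventuallyEq eZ
    have h3 := congrArg (fun L : H →L[ℝ] W => L v) (h1.unique h2)
    simpa using h3
  simp only [br]
  rw [eX.self_of_nhds, eY.self_of_nhds, key hX hX' eX, key hY hY' eY, hs (X x) (Y x), map_sub]
  abel

/-- push-forward of a field of endomorphisms -/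
def push (e : OpenPartialHomeomorph H W) (J : H → H →L[ℝ] H) (z : W) : W →L[ℝ] W :=
  ((fderiv ℝ e (e.symm z)).comp (J (e.symm z))).comp (fderiv ℝ e.symm z)

variable {e : OpenPartialHomeomorph H W} (he : ContDiffOn ℝ ∞ e e.source)
  (he' : ContDiffOn ℝ ∞ e.symm e.target)

include he he' in
theorem symm_left {x : H} (hx : x ∈ e.source) (v : H) :
    fderiv ℝ e.symm (e x) (fderiv ℝ e x v) = v := by
  have h1 : HasFDerivAt e (fderiv ℝ e x) x :=
    ((he.contDiffAt (e.open_source.mem_nhds hx)).differentiableAt (by simp)).hasFDerivAt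
  have h2 : HasFDerivAt e.symm (fderiv ℝ e.symm (e x)) (e x) :=
    ((he'.contDiffAt (e.open_target.mem_nhds (e.map_source hx))).differentiableAt
      (by simp)).hasFDerivAt
  have h3 := h2.comp x h1
  have h4 : HasFDerivAt (fun y => e.symm (e y)) (ContinuousLinearMap.id ℝ H) x := by
    refine (hasFDerivAt_id x).congr_of_eventuallyEq ?_
    filter_upwards [e.open_source.mem_nhds hx] with y hy
    simp [e.left_inv hy]
  have h5 := congrArg (fun L : H →L[ℝ] H => L v) (h3.unique h4)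
  simpa using h5

include he he' in
theorem symm_right {z : W} (hz : z ∈ e.target) (v : W) :
    fderiv ℝ e (e.symm z) (fderiv ℝ e.symm z v) = v := by
  have hx := e.map_target hz
  have h1 : HasFDerivAt e (fderiv ℝ e (e.symm z)) (e.symm z) :=
    ((he.contDiffAt (e.open_source.mem_nhds hx)).differentiableAt (by simp)).hasFDerivAt
  have h2 : HasFDerivAt e.symm (fderiv ℝ e.symm z) z :=
    ((he'.contDiffAt (e.open_target.mem_nhds hz)).differentiableAt
      (by simp)).hasFDerivAt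
  have h3 := h1.comp z h2
  have h4 : HasFDerivAt (fun y => e (e.symm y)) (ContinuousLinearMap.id ℝ W) z := by
    refine (hasFDerivAt_id z).congr_of_eventuallyEq ?_
    filter_upwards [e.open_target.mem_nhds hz] with y hy
    simp [e.right_inv hy]
  have h5 := congrArg (fun L : W →L[ℝ] W => L v) (h3.unique h4)
  simpa using h5

variable {J : H → H →L[ℝ] H}

include he he' in
theorem push_apply {x : H} (hx : x ∈ e.source) (v : H) :
    push e J (e x) (fderiv ℝ e x v) = fderiv ℝ e x (J x v) := by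
  simp only [push, ContinuousLinearMap.comp_apply, e.left_inv hx]
  rw [symm_left he he' hx]

include he he' in
theorem push_sq (hJJ : ∀ x ∈ e.source, ∀ v, J x (J x v) = -v) {z : W} (hz : z ∈ e.target)
    (w : W) : push e J z (push e J z w) = -w := by
  have hx := e.map_target hz
  have h1 : push e J z w = fderiv ℝ e (e.symm z) (J (e.symm z) (fderiv ℝ e.symm z w)) := rfl
  have h2 := push_apply he he' (J := J) hx (J (e.symm z) (fderiv ℝ e.symm z w))
  rw [e.right_inv hz] at h2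
  rw [h1, h2, hJJ _ hx, map_neg, symm_right he he' hz]

include he he' in
theorem push_smooth (hJ : ContDiffOn ℝ ∞ J e.source) : ContDiffOn ℝ ∞ (push e J) e.target := by
  intro z hz
  have hx := e.map_target hz
  have h1 : ContDiffAt ℝ ∞ e.symm z := he'.contDiffAt (e.open_target.mem_nhds hz)
  have h2 : ContDiffAt ℝ ∞ (fderiv ℝ e) (e.symm z) :=
    (he.contDiffAt (e.open_source.mem_nhds hx)).fderiv_right (by simp)
  have h3 : ContDiffAt ℝ ∞ J (e.symm z) := hJ.contDiffAt (e.open_source.mem_nhds hx)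
  have h4 : ContDiffAt ℝ ∞ (fderiv ℝ e.symm) z := h1.fderiv_right (by simp)
  exact (((h2.comp z h1).clm_comp (h3.comp z h1)).clm_comp h4).contDiffWithinAt

include he he' in
theorem push_nij (hJ : ContDiffOn ℝ ∞ J e.source) (hJJ : ∀ x ∈ e.source, ∀ v, J x (J x v) = -v)
    (hN : ∀ x ∈ e.source, ∀ v w, Nij J x v w = 0) {z : W} (hz : z ∈ e.target) (v w : W) :
    Nij (push e J) z v w = 0 := by
  obtain ⟨x, hx, rfl⟩ : ∃ x ∈ e.source, e x = z := ⟨e.symm z, e.map_target hz, e.right_inv hz⟩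
  have heA : ∀ y ∈ e.source, ContDiffAt ℝ ∞ e y := fun y hy =>
    he.contDiffAt (e.open_source.mem_nhds hy)
  have hΦ : ContDiffAt ℝ 2 e x := (heA x hx).of_le (by norm_cast)
  have hsrc : ∀ᶠ y in 𝓝 x, y ∈ e.source := e.open_source.mem_nhds hx
  have hinv : ContDiffAt ℝ ∞ e.symm (e x) := he'.contDiffAt (e.open_target.mem_nhds hz)
  -- fields on `H`
  have hfld : ∀ u : W, DifferentiableAt ℝ (fun y => fderiv ℝ e.symm (e y) u) x := by
    intro u
    have h4 : ContDiffAt ℝ ∞ (fderiv ℝ e.symm) (e x) := hinv.fderiv_right (by simp)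
    have h5 : ContDiffAt ℝ ∞ (fun y => fderiv ℝ e.symm (e y)) x := h4.comp x (heA x hx)
    exact (h5.differentiableAt (by simp)).clm_apply (differentiableAt_const u)
  have hJx : DifferentiableAt ℝ J x :=
    (hJ.contDiffAt (e.open_source.mem_nhds hx)).differentiableAt (by simp)
  have hPd : DifferentiableAt ℝ (push e J) (e x) :=
    ((push_smooth he he' hJ).contDiffAt (e.open_target.mem_nhds hz)).differentiableAt (by simp)
  have hc : ∀ u : W, ∀ᶠ y in 𝓝 x, (fun _ : W => u) (e y) =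
      fderiv ℝ e y (fderiv ℝ e.symm (e y) u) := by
    intro u
    filter_upwards [hsrc] with y hy
    have := symm_right he he' (e.map_source hy) u
    rw [e.left_inv hy] at this
    exact this.symm
  have hc' : ∀ u : W, ∀ᶠ y in 𝓝 x, (fun ζ : W => push e J ζ u) (e y) =
      fderiv ℝ e y (J y (fderiv ℝ e.symm (e y) u)) := by
    intro u
    filter_upwards [hsrc] with y hy
    simp only [push, ContinuousLinearMap.comp_apply, e.left_inv hy]
  have hdc : ∀ u : W, DifferentiableAt ℝ (fun _ : W => u) (e x) := fun u => differentiableAt_const u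
  have hdp : ∀ u : W, DifferentiableAt ℝ (fun ζ : W => push e J ζ u) (e x) := fun u =>
    hPd.clm_apply (differentiableAt_const u)
  have hJf : ∀ u : W, DifferentiableAt ℝ (fun y => J y (fderiv ℝ e.symm (e y) u)) x := fun u =>
    hJx.clm_apply (hfld u)
  have h1 := nij_eq_br (J := push e J) (X := fun _ => v) (Y := fun _ => w) (x := e x) hPd
    (hdc v) (hdc w) (push_sq he he' hJJ hz)
  have h2 := nij_eq_br (J := J) (X := fun y => fderiv ℝ e.symm (e y) v)
    (Y := fun y => fderiv ℝ e.symm (e y) w) (x := x) hJx (hfld v) (hfld w) (hJJ x hx)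
  rw [hN x hx] at h2
  rw [h1, br_nat hΦ (hJf v) (hJf w) (hdp v) (hdp w) (hc' v) (hc' w),
    br_nat hΦ (hfld v) (hfld w) (hdc v) (hdc w) (hc v) (hc w),
    br_nat hΦ (hfld v) (hJf w) (hdc v) (hdp w) (hc v) (hc' w),
    br_nat hΦ (hJf v) (hfld w) (hdp v) (hdc w) (hc' v) (hc w), ← map_add,
    push_apply he he' hx, ← map_sub, ← map_sub, ← h2, map_zero]

end nat

/-- the analytic core on a model space `W` (JH hypotheses of helper680) -/
def CoreW (n : ℕ) (W : Type*) [NormedAddCommGroup W] [NormedSpace ℝ W] : Prop :=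
  ∀ (J : W → W →L[ℝ] W) (R C : ℝ), 0 < R → ContDiffOn ℝ ∞ J (ball 0 R) →
    (∀ x ∈ ball (0 : W) R, ∀ v, J x (J x v) = -v) →
    (∀ x ∈ ball (0 : W) R, ∀ v w, ACM_580.Nij J x v w = 0) →
    (∀ v, ‖J 0 v‖ = ‖v‖) →
    (∀ x ∈ ball (0 : W) R, ∀ v, ‖J x v - J 0 v‖ ≤ C * ‖x‖ ^ 2 * ‖v‖) →
    ∃ r : ℝ, 0 < r ∧ ∃ F : W → Cn n, ContDiffOn ℝ ∞ F (ball 0 r) ∧
      Function.Bijective (fderiv ℝ F 0) ∧
      ∀ z ∈ ball (0 : W) r, ∀ v, fderiv ℝ F z (J z v) = I • fderiv ℝ F z v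

/-- `CoreW` on `EuclideanSpace ℝ (Fin (2 n))` -/
def CoreR (n : ℕ) : Prop := CoreW n (EuclideanSpace ℝ (Fin (2 * n)))

set_option maxHeartbeats 1000000 in
theorem nnat_of_coreW {W : Type} [NormedAddCommGroup W] [NormedSpace ℝ W]
    (τ : Cn n ≃ₗᵢ[ℝ] W) (hc : CoreW n W) (V : Type) [NormedAddCommGroup V] [NormedSpace ℝ V]
    [FiniteDimensional ℝ V] (hn : Module.finrank ℝ V = 2 * n) : ACM_580.NNat V n := by
  intro U hU p hp J hJ hJJ hN
  have hN' : ∀ x ∈ U, ∀ v w, Nij J x v w = 0 := fun x hx v w => by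
    rw [← Nij_eq_580]; exact hN x hx v w
  obtain ⟨e, hpe, heU, hep, hes, hes', hG, -, C, hC, hQ⟩ := exists_chart hn hU hp hJ hJJ hN'
  -- compose with the isometry
  set e1 : OpenPartialHomeomorph V W := e.transHomeomorph τ.toHomeomorph with he1
  have hsrc : e1.source = e.source := rfl
  have he1c : ∀ x, e1 x = τ (e x) := fun x => rfl
  have he1s : ∀ z, e1.symm z = e.symm (τ.symm z) := fun z => rfl
  have hs1 : ContDiffOn ℝ ∞ e1 e1.source :=
    (τ.toContinuousLinearEquiv : Cn n →L[ℝ] W).contDiff.comp_contDiffOn hes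
  have htgt : ∀ z, z ∈ e1.target ↔ τ.symm z ∈ e.target := fun z => Iff.rfl
  have hs1' : ContDiffOn ℝ ∞ e1.symm e1.target := by
    have h1 : ContDiff ℝ ∞ (fun z : W => τ.symm z) :=
      (τ.symm.toContinuousLinearEquiv : W →L[ℝ] Cn n).contDiff
    exact hes'.comp h1.contDiffOn (fun z hz => (htgt z).1 hz)
  have hJ1 : ContDiffOn ℝ ∞ J e1.source := hJ.mono heU
  have hJJ1 : ∀ x ∈ e1.source, ∀ v, J x (J x v) = -v := fun x hx => hJJ x (heU hx)
  have hN1 : ∀ x ∈ e1.source, ∀ v w, Nij J x v w = 0 := fun x hx => hN' x (heU hx)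
  have hp1 : e1 p = 0 := by rw [he1c, hep, map_zero]
  have h0t : (0 : W) ∈ e1.target := by rw [← hp1]; exact e1.map_source hpe
  have hfd1 : ∀ x ∈ e1.source, ∀ v, fderiv ℝ e1 x v = τ (fderiv ℝ e x v) := by
    intro x hx v
    have h1 : HasFDerivAt e (fderiv ℝ e x) x :=
      ((hes.contDiffAt (e.open_source.mem_nhds hx)).differentiableAt (by simp)).hasFDerivAt
    have h2 : HasFDerivAt e1 ((τ.toContinuousLinearEquiv : Cn n →L[ℝ] W).comp (fderiv ℝ e x)) x :=
      (τ.toContinuousLinearEquiv : Cn n →L[ℝ] W).hasFDerivAt.comp x h1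
    rw [h2.fderiv]; rfl
  -- a ball where everything is bounded
  have hcont : ContinuousAt (fderiv ℝ e1.symm) 0 :=
    ((hs1'.contDiffAt (e1.open_target.mem_nhds h0t)).fderiv_right (m := 0) (by simp)).continuousAt
  obtain ⟨R, hR, hRb⟩ := Metric.mem_nhds_iff.1 (Filter.inter_mem (e1.open_target.mem_nhds h0t)
    (hcont.norm (Iio_mem_nhds (lt_add_one ‖fderiv ℝ e1.symm 0‖))))
  set K := ‖fderiv ℝ e1.symm 0‖ + 1 with hK
  have hK0 : 0 ≤ K := by positivity
  set J' := push e1 J with hJ'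
  -- formula for `J'`
  have hform : ∀ z ∈ e1.target, ∀ w, J' z w = τ (I • τ.symm w) -
      τ ((2 * I) • QQ (fderiv ℝ e (e1.symm z)) (J (e1.symm z)) (fderiv ℝ e1.symm z w)) := by
    intro z hz w
    have hx := e1.map_target hz
    set x := e1.symm z with hxdef
    set v := fderiv ℝ e1.symm z w with hv
    have h1 : J' z w = fderiv ℝ e1 x (J x v) := rfl
    have h2 : fderiv ℝ e1 x v = w := symm_right hs1 hs1' hz w
    rw [hfd1 x hx] at h2
    have h3 : fderiv ℝ e x v = τ.symm w := by rw [← h2, τ.symm_apply_apply]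
    rw [h1, hfd1 x hx, GJ_eq (fderiv ℝ e x) (J x) v, ← map_sub, ← h3,
      G_eq (fderiv ℝ e x) (J x) v]
    congr 1
    module
  have hQ0 : ∀ w, QQ (fderiv ℝ e (e1.symm 0)) (J (e1.symm 0)) w = 0 := by
    intro w
    have h1 : e1.symm 0 = p := by rw [← hp1]; exact e1.left_inv hpe
    rw [h1]
    have := hQ p hpe w
    rw [hep, norm_zero] at this
    simpa using this
  have hJ0 : ∀ w, J' 0 w = τ (I • τ.symm w) := by
    intro w
    rw [hform 0 h0t, hQ0, smul_zero, map_zero, sub_zero]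
  obtain ⟨r, hr, F, hF, hFb, hFJ⟩ := hc J' R (2 * C * K) hR
    ((push_smooth hs1 hs1' hJ1).mono fun z hz => (hRb hz).1)
    (fun z hz => push_sq hs1 hs1' hJJ1 (hRb hz).1)
    (fun z hz v w => by
      rw [Nij_eq_580]; exact push_nij hs1 hs1' hJ1 hJJ1 hN1 (hRb hz).1 v w)
    (fun w => by rw [hJ0, τ.norm_map, norm_smul, norm_I, one_mul, τ.symm.norm_map])
    (by
      intro z hz w
      have hzt := (hRb hz).1
      have hx := e1.map_target hzt
      rw [hform z hzt, hJ0, sub_sub_cancel_left, norm_neg, τ.norm_map, norm_smul]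
      have h1 : ‖(2 * I : ℂ)‖ = 2 := by simp
      have h2 := hQ (e1.symm z) hx (fderiv ℝ e1.symm z w)
      have h3 : ‖e (e1.symm z)‖ = ‖z‖ := by
        rw [← τ.norm_map, ← he1c, e1.right_inv hzt]
      have h4 : ‖fderiv ℝ e1.symm z w‖ ≤ K * ‖w‖ := by
        refine ((fderiv ℝ e1.symm z).le_opNorm w).trans ?_
        gcongr
        exact le_of_lt (hRb hz).2
      rw [h1]
      rw [h3] at h2
      calc 2 * ‖QQ (fderiv ℝ e (e1.symm z)) (J (e1.symm z)) (fderiv ℝ e1.symm z w)‖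
          ≤ 2 * (C * ‖z‖ ^ 2 * (K * ‖w‖)) := by
            gcongr
            exact h2.trans (by gcongr)
        _ = _ := by ring)
  -- shrink so that `dF` is invertible
  have hF0 : ContDiffAt ℝ ∞ F 0 := hF.contDiffAt (Metric.ball_mem_nhds 0 hr)
  obtain ⟨E, hE⟩ : ∃ E : W ≃L[ℝ] Cn n, (E : W →L[ℝ] Cn n) = fderiv ℝ F 0 := by
    have : FiniteDimensional ℝ W := τ.toLinearEquiv.finiteDimensional
    exact ⟨(LinearEquiv.ofBijective (fderiv ℝ F 0 : W →ₗ[ℝ] Cn n) hFb).toContinuousLinearEquiv,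
      by ext; rfl⟩
  have hinv : ∀ᶠ z in 𝓝 (0 : W), ∃ E : W ≃L[ℝ] Cn n, (E : W →L[ℝ] Cn n) = fderiv ℝ F z := by
    have h1 : ContinuousAt (fderiv ℝ F) 0 := (hF0.fderiv_right (m := 0) (by simp)).continuousAt
    have : CompleteSpace W := by
      have : FiniteDimensional ℝ W := τ.toLinearEquiv.finiteDimensional
      exact FiniteDimensional.complete ℝ W
    have h2 : range ((↑) : (W ≃L[ℝ] Cn n) → W →L[ℝ] Cn n) ∈ 𝓝 (fderiv ℝ F 0) := by
      rw [← hE]; exact E.nhds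
    exact h1 h2
  obtain ⟨O, hO, hOo, h0O⟩ := _root_.mem_nhds_iff.1
    (Filter.inter_mem hinv (Metric.ball_mem_nhds (0 : W) hr))
  refine ⟨e1.source ∩ e1 ⁻¹' O, e1.isOpen_inter_preimage hOo, ⟨hpe, by
    rw [mem_preimage, hp1]; exact h0O⟩, fun x hx => heU hx.1, fun x => F (e1 x), ?_, ?_⟩
  · intro x hx
    have h1 : ContDiffAt ℝ ∞ e1 x := hs1.contDiffAt (e1.open_source.mem_nhds hx.1)
    have h2 : ContDiffAt ℝ ∞ F (e1 x) := hF.contDiffAt (isOpen_ball.mem_nhds (hO hx.2).2)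
    exact (h2.comp x h1).contDiffWithinAt
  · intro x hx
    have h1 : HasFDerivAt e1 (fderiv ℝ e1 x) x :=
      ((hs1.contDiffAt (e1.open_source.mem_nhds hx.1)).differentiableAt (by simp)).hasFDerivAt
    have h2 : HasFDerivAt F (fderiv ℝ F (e1 x)) (e1 x) :=
      ((hF.contDiffAt (isOpen_ball.mem_nhds (hO hx.2).2)).differentiableAt (by simp)).hasFDerivAt
    have h3 : fderiv ℝ (fun x => F (e1 x)) x = (fderiv ℝ F (e1 x)).comp (fderiv ℝ e1 x) :=
      (h2.comp x h1).fderiv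
    rw [h3]
    refine ⟨?_, fun v => ?_⟩
    · obtain ⟨E', hE'⟩ := (hO hx.2).1
      obtain ⟨G', hG'⟩ := hG x hx.1
      rw [← hE']
      have h4 : (fderiv ℝ e1 x : V → W) = fun v => τ (G' v) := by
        funext v; rw [hfd1 x hx.1, ← hG']; rfl
      rw [ContinuousLinearMap.coe_comp, h4]
      exact E'.bijective.comp (τ.bijective.comp G'.bijective)
    · rw [ContinuousLinearMap.comp_apply, ContinuousLinearMap.comp_apply,
        ← push_apply hs1 hs1' hx.1, hFJ _ (hO hx.2).2]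

theorem nnat_of_coreR (hc : CoreR n) (V : Type) [NormedAddCommGroup V] [NormedSpace ℝ V]
    [FiniteDimensional ℝ V] (hn : Module.finrank ℝ V = 2 * n) : ACM_580.NNat V n := by
  have h1 : Module.finrank ℝ (Cn n) = 2 * n := by
    have h2 := Module.finrank_mul_finrank ℝ ℂ (Cn n)
    rw [Complex.finrank_real_complex] at h2
    rw [← h2]; simp
  let b : OrthonormalBasis (Fin (2 * n)) ℝ (Cn n) :=
    (stdOrthonormalBasis ℝ (Cn n)).reindex (finCongr h1)
  exact nnat_of_coreW b.repr hc V hn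

end

end Crest.Agent.R260.NNA_17
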