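import Mathlib
import Crest.Agent.R202.EllFinal
import Crest.Agent.R260.NN0_900
import Crest.Agent.R260.NNA5_17_Mg
import Crest.Agent.R260.JFr_250

-- ▼ part R260/LinJ_664
section

/-!
Linear algebra of a complex structure `J0` on a real vector space: `ℂ`-linear coordinates.
-/

set_option autoImplicit false
set_option linter.style.haveILetI false
set_option linter.unusedSimpArgs false

namespace Crest.Agent.R260.LinJ_664

open Module
open scoped InnerProductSpace

section general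

variable {V : Type*} [AddCommGroup V] [Module ℝ V]

/-- a real linear map with square `-1` gives complex-linear coordinates. -/
theorem exists_linearEquiv [FiniteDimensional ℝ V] {n : ℕ} (hn : finrank ℝ V = 2 * n)
    (J : V →ₗ[ℝ] V) (hJ : ∀ v, J (J v) = -v) :
    ∃ e : V ≃ₗ[ℝ] (Fin n → ℂ), ∀ v k, e (J v) k = Complex.I * e v k := by
  have hJ2 : (J : Module.End ℝ V) * J = -1 := by
    ext v; exact hJ v
  let F : ℂ →ₐ[ℝ] Module.End ℝ V := Complex.liftAux J hJ2
  letI : Module ℂ V := Module.compHom V F.toRingHom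
  have hsm : ∀ (c : ℂ) (v : V), c • v = F c v := fun c v => rfl
  have hF : ∀ (c : ℂ) (v : V), F c v = c.re • v + c.im • J v := by
    intro c v
    simp [F, Complex.liftAux_apply, Algebra.algebraMap_eq_smul_one]
  haveI : IsScalarTower ℝ ℂ V := by
    refine ⟨fun r c v => ?_⟩
    rw [hsm, hsm, hF, hF]
    simp only [Complex.real_smul, Complex.mul_re, Complex.ofReal_re, Complex.ofReal_im, zero_mul,
      sub_zero, Complex.mul_im, add_zero, smul_add, smul_smul]
  haveI : FiniteDimensional ℂ V := FiniteDimensional.right ℝ ℂ V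
  have h1 : finrank ℂ V = n := by
    have h2 := Module.finrank_mul_finrank ℝ ℂ V
    rw [Complex.finrank_real_complex] at h2
    omega
  let b : Basis (Fin n) ℂ V := Module.finBasisOfFinrankEq ℂ V h1
  refine ⟨b.equivFun.restrictScalars ℝ, fun v k => ?_⟩
  have h3 : J v = Complex.I • v := by
    rw [hsm, hF]; simp
  simp only [LinearEquiv.restrictScalars_apply]
  rw [h3, map_smul]
  simp

end general

section normed

variable {V : Type*} [NormedAddCommGroup V] [NormedSpace ℝ V] [FiniteDimensional ℝ V]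

/-- complex coordinates on a finite dimensional real normed space with a complex structure. -/
theorem exists_clequiv {n : ℕ} (hn : finrank ℝ V = 2 * n)
    (J : V →L[ℝ] V) (hJ : ∀ v, J (J v) = -v) :
    ∃ e : V ≃L[ℝ] EuclideanSpace ℂ (Fin n), ∀ v, e (J v) = Complex.I • e v := by
  obtain ⟨e, he⟩ := exists_linearEquiv hn (J : V →ₗ[ℝ] V) hJ
  refine ⟨(e.trans (WithLp.linearEquiv 2 ℝ (Fin n → ℂ)).symm).toContinuousLinearEquiv,
    fun v => ?_⟩
  ext k
  simpa using he v k

/-- **(P2)** the `n` functionals `ξ_k` with `ξ_k ∘ J = i ξ_k`, jointly bijective. -/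
theorem exists_functionals {n : ℕ} (hn : finrank ℝ V = 2 * n)
    (J : V →L[ℝ] V) (hJ : ∀ v, J (J v) = -v) :
    ∃ ξ : Fin n → (V →L[ℝ] ℂ), (∀ k v, ξ k (J v) = Complex.I * ξ k v) ∧
      Function.Bijective (fun v : V => (WithLp.toLp 2 (fun k => ξ k v) :
        EuclideanSpace ℂ (Fin n))) ∧
      ∃ e : V ≃L[ℝ] EuclideanSpace ℂ (Fin n), ∀ v k, e v k = ξ k v := by
  obtain ⟨e, he⟩ := exists_clequiv hn J hJ
  let ξ : Fin n → (V →L[ℝ] ℂ) := fun k =>
    ((EuclideanSpace.proj k : EuclideanSpace ℂ (Fin n) →L[ℂ] ℂ).restrictScalars ℝ).comp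
      (e : V →L[ℝ] EuclideanSpace ℂ (Fin n))
  have hξ : ∀ v k, e v k = ξ k v := fun v k => rfl
  refine ⟨ξ, fun k v => ?_, ?_, e, hξ⟩
  · rw [← hξ, ← hξ, he v]; simp
  · have h1 : (fun v : V => (WithLp.toLp 2 (fun k => ξ k v) : EuclideanSpace ℂ (Fin n))) = e := by
      ext v k
      exact (hξ v k).symm
    rw [h1]
    exact e.bijective

end normed

section inner

variable {V : Type*} [NormedAddCommGroup V] [InnerProductSpace ℝ V]






end inner

end Crest.Agent.R260.LinJ_664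
end

-- ▼ part R260/Reg1_274
section

/-!
# Row 260, K-REG (helper274), file 1: integrals over extra variables against an exponential kernel

`ker s = exp (s.2 + i s.1)`, `J Φ x = ∫ s, ker s * Φ (x, s)` for smooth compactly supported `Φ` on
`F × (ℝ × ℝ)`: smoothness, derivatives in `x`, integration by parts in `s`.
-/

set_option autoImplicit false
set_option linter.unusedSectionVars false

open MeasureTheory Set Filter Topology Convolution
open scoped ContDiff

noncomputable section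

namespace Crest.Agent.R260.Reg_274

/-- the exponential kernel -/
def ker (s : ℝ × ℝ) : ℂ := Complex.exp ((s.2 : ℂ) + Complex.I * (s.1 : ℂ))

theorem ker_contDiff : ContDiff ℝ ∞ ker := by
  unfold ker
  refine Complex.contDiff_exp.comp ?_
  exact ((Complex.ofRealCLM.contDiff.comp contDiff_snd).add
    (contDiff_const.mul (Complex.ofRealCLM.contDiff.comp contDiff_fst)))


theorem ker_cont : Continuous ker := ker_contDiff.continuous

theorem ker_fderiv (s v : ℝ × ℝ) :
    fderiv ℝ ker s v = ((v.2 : ℂ) + Complex.I * (v.1 : ℂ)) * ker s := by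
  have h1 : HasFDerivAt (fun s : ℝ × ℝ => ((s.2 : ℂ) + Complex.I * (s.1 : ℂ)))
      ((Complex.ofRealCLM.comp (ContinuousLinearMap.snd ℝ ℝ ℝ)) +
        Complex.I • (Complex.ofRealCLM.comp (ContinuousLinearMap.fst ℝ ℝ ℝ))) s := by
    have h2 : HasFDerivAt (fun s : ℝ × ℝ => (s.2 : ℂ))
        (Complex.ofRealCLM.comp (ContinuousLinearMap.snd ℝ ℝ ℝ)) s :=
      (Complex.ofRealCLM.comp (ContinuousLinearMap.snd ℝ ℝ ℝ)).hasFDerivAt
    have h3 : HasFDerivAt (fun s : ℝ × ℝ => (s.1 : ℂ))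
        (Complex.ofRealCLM.comp (ContinuousLinearMap.fst ℝ ℝ ℝ)) s :=
      (Complex.ofRealCLM.comp (ContinuousLinearMap.fst ℝ ℝ ℝ)).hasFDerivAt
    exact h2.add (h3.const_mul Complex.I)
  have h4 := h1.cexp
  have h5 : HasFDerivAt ker _ s := h4
  rw [h5.fderiv]
  simp only [_root_.smul_apply, _root_.add_apply,
    ContinuousLinearMap.comp_apply, Complex.ofRealCLM_apply, ContinuousLinearMap.coe_fst',
    ContinuousLinearMap.coe_snd', smul_eq_mul, ker]
  ring

variable {F : Type} [NormedAddCommGroup F] [NormedSpace ℝ F]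

/-- integral over the extra variables -/
def J (Φ : F × (ℝ × ℝ) → ℝ) (x : F) : ℂ := ∫ s : ℝ × ℝ, ker s * (Φ (x, s) : ℂ)

/-- the family used for convolution -/
def fam (Φ : F × (ℝ × ℝ) → ℝ) (p : F) (s : ℝ × ℝ) : ℂ := (Φ (p, -s) : ℂ)

theorem J_eq (Φ : F × (ℝ × ℝ) → ℝ) (x : F) :
    J Φ x = (ker ⋆[ContinuousLinearMap.mul ℝ ℂ, (volume : Measure (ℝ × ℝ))] fam Φ x) 0 := by
  unfold J convolution fam
  simp

theorem fam_supp {Φ : F × (ℝ × ℝ) → ℝ} (hc : HasCompactSupport Φ) :
    ∃ k : Set (ℝ × ℝ), IsCompact k ∧ ∀ p : F, ∀ s, s ∉ k → fam Φ p s = 0 := by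
  refine ⟨(fun s : ℝ × ℝ => -s) '' (Prod.snd '' tsupport Φ), ?_, ?_⟩
  · exact (hc.isCompact.image continuous_snd).image continuous_neg
  · intro p s hs
    unfold fam
    have : (p, -s) ∉ tsupport Φ := fun h => hs ⟨-s, ⟨(p, -s), h, rfl⟩, by simp⟩
    rw [image_eq_zero_of_notMem_tsupport this]
    simp

theorem fam_contDiff {Φ : F × (ℝ × ℝ) → ℝ} (hΦ : ContDiff ℝ ∞ Φ) :
    ContDiff ℝ ∞ (Function.uncurry (fam Φ)) := by
  have : Function.uncurry (fam Φ) = fun q : F × (ℝ × ℝ) => ((Φ (q.1, -q.2) : ℝ) : ℂ) := by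
    funext q; rfl
  rw [this]
  exact Complex.ofRealCLM.contDiff.comp (hΦ.comp (contDiff_fst.prodMk contDiff_snd.neg))

theorem ker_li : LocallyIntegrable ker (volume : Measure (ℝ × ℝ)) := ker_cont.locallyIntegrable

theorem J_contDiff {Φ : F × (ℝ × ℝ) → ℝ} (hΦ : ContDiff ℝ ∞ Φ) (hc : HasCompactSupport Φ) :
    ContDiff ℝ ∞ (J Φ) := by
  obtain ⟨k, hk, hk0⟩ := fam_supp hc
  have h := contDiffOn_convolution_right_with_param (𝕜 := ℝ) (μ := (volume : Measure (ℝ × ℝ)))
    (n := ⊤) (f := ker) (ContinuousLinearMap.mul ℝ ℂ) (g := fam Φ) (s := univ) (k := k)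
    isOpen_univ hk (fun p x _ hx => hk0 p x hx) ker_li (fam_contDiff hΦ).contDiffOn
  rw [univ_prod_univ, contDiffOn_univ] at h
  have h2 : J Φ = (fun q : F × (ℝ × ℝ) =>
      (ker ⋆[ContinuousLinearMap.mul ℝ ℂ, (volume : Measure (ℝ × ℝ))] fam Φ q.1) q.2) ∘
        fun x : F => (x, (0 : ℝ × ℝ)) := by
    funext x
    exact J_eq Φ x
  rw [h2]
  exact h.comp (contDiff_id.prodMk contDiff_const)

theorem J_supp {Φ : F × (ℝ × ℝ) → ℝ} {x : F} (hx : x ∉ Prod.fst '' tsupport Φ) : J Φ x = 0 := by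
  unfold J
  have : ∀ s : ℝ × ℝ, ker s * (Φ (x, s) : ℂ) = 0 := fun s => by
    have : (x, s) ∉ tsupport Φ := fun h => hx ⟨(x, s), h, rfl⟩
    rw [image_eq_zero_of_notMem_tsupport this]; simp
  simp [this]

theorem J_hasCompactSupport {Φ : F × (ℝ × ℝ) → ℝ} (hc : HasCompactSupport Φ) :
    HasCompactSupport (J Φ) :=
  HasCompactSupport.intro (hc.isCompact.image continuous_fst) fun _ hx => J_supp hx

theorem J_tsupport {Φ : F × (ℝ × ℝ) → ℝ} (hc : HasCompactSupport Φ) :
    tsupport (J Φ) ⊆ Prod.fst '' tsupport Φ := by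
  refine closure_minimal ?_ (hc.isCompact.image continuous_fst).isClosed
  intro x hx
  by_contra h
  exact hx (J_supp h)

theorem J_fderiv {Φ : F × (ℝ × ℝ) → ℝ} (hΦ : ContDiff ℝ ∞ Φ) (hc : HasCompactSupport Φ)
    (x v : F) :
    fderiv ℝ (J Φ) x v = J (fun y => fderiv ℝ Φ y (v, 0)) x := by
  obtain ⟨k, hk, hk0⟩ := fam_supp hc
  have h := hasFDerivAt_convolution_right_with_param (𝕜 := ℝ) (μ := (volume : Measure (ℝ × ℝ)))
    (f := ker) (ContinuousLinearMap.mul ℝ ℂ) (g := fam Φ) (s := univ) (k := k)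
    isOpen_univ hk (fun p x _ hx => hk0 p x hx) ker_li
    ((fam_contDiff hΦ).of_le (by exact_mod_cast le_top)).contDiffOn (x, 0) (mem_univ _)
  have h2 : HasFDerivAt (fun y : F => (y, (0 : ℝ × ℝ))) (ContinuousLinearMap.inl ℝ F (ℝ × ℝ)) x :=
    hasFDerivAt_prodMk_left x 0
  have h3 := h.comp x h2
  have h4 : (fun q : F × (ℝ × ℝ) =>
      (ker ⋆[ContinuousLinearMap.mul ℝ ℂ, (volume : Measure (ℝ × ℝ))] fam Φ q.1) q.2) ∘
        (fun y : F => (y, (0 : ℝ × ℝ))) = J Φ := by
    funext y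
    exact (J_eq Φ y).symm
  rw [h4] at h3
  rw [h3.fderiv, ContinuousLinearMap.comp_apply, ContinuousLinearMap.inl_apply]
  have hcont : Continuous fun t : ℝ × ℝ => fderiv ℝ (Function.uncurry (fam Φ)) (x, -t) :=
    ((fam_contDiff hΦ).continuous_fderiv (by simp)).comp
      (continuous_const.prodMk continuous_neg)
  have hz : ∀ t : ℝ × ℝ, t ∉ (fun s : ℝ × ℝ => -s) '' k →
      fderiv ℝ (Function.uncurry (fam Φ)) (x, -t) = 0 := by
    intro t ht
    have hk' : -t ∉ k := fun h => ht ⟨-t, h, by simp⟩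
    have ho : IsOpen (univ ×ˢ kᶜ : Set (F × (ℝ × ℝ))) := isOpen_univ.prod hk.isClosed.isOpen_compl
    have hev : Function.uncurry (fam Φ) =ᶠ[𝓝 (x, -t)] fun _ => 0 := by
      filter_upwards [ho.mem_nhds (⟨mem_univ _, hk'⟩ : (x, -t) ∈ (univ ×ˢ kᶜ : Set _))] with q hq
      exact hk0 q.1 q.2 hq.2
    rw [hev.fderiv_eq]
    simp
  rw [convolution_def]
  have hint : Integrable (fun t : ℝ × ℝ =>
      ((ContinuousLinearMap.mul ℝ ℂ).precompR (F × (ℝ × ℝ)) (ker t))
        (fderiv ℝ (Function.uncurry (fam Φ)) (x, 0 - t))) volume := by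
    have hc1 : Continuous (fun t : ℝ × ℝ =>
      ((ContinuousLinearMap.mul ℝ ℂ).precompR (F × (ℝ × ℝ)) (ker t))
        (fderiv ℝ (Function.uncurry (fam Φ)) (x, 0 - t))) := by
      have h0 : Continuous fun t : ℝ × ℝ =>
          fderiv ℝ (Function.uncurry (fam Φ)) (x, 0 - t) := by simpa using hcont
      exact (((ContinuousLinearMap.mul ℝ ℂ).precompR (F × (ℝ × ℝ))).continuous.comp
        ker_cont).clm_apply h0
    refine hc1.integrable_of_hasCompactSupport
      (HasCompactSupport.intro (hk.image continuous_neg) fun t ht => ?_)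
    have : fderiv ℝ (Function.uncurry (fam Φ)) (x, 0 - t) = 0 := by
      rw [zero_sub]; exact hz t ht
    rw [this, map_zero]
  change (∫ t : ℝ × ℝ, ((ContinuousLinearMap.mul ℝ ℂ).precompR (F × (ℝ × ℝ)) (ker t))
        (fderiv ℝ (Function.uncurry (fam Φ)) (x, 0 - t))) (v, 0) = _
  rw [ContinuousLinearMap.integral_apply hint]
  unfold J
  refine integral_congr_ae (Eventually.of_forall fun t => ?_)
  simp only [zero_sub, ContinuousLinearMap.precompR_apply]
  have e1 : fderiv ℝ (Function.uncurry (fam Φ)) (x, -t) (v, 0) =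
      ((fderiv ℝ Φ (x, t) (v, 0) : ℝ) : ℂ) := by
    have hd : HasFDerivAt Φ (fderiv ℝ Φ (x, t)) ((fun q : F × (ℝ × ℝ) => (q.1, -q.2)) (x, -t)) := by
      have : ((fun q : F × (ℝ × ℝ) => (q.1, -q.2)) (x, -t)) = (x, t) := by simp
      rw [this]
      exact (hΦ.differentiable (by simp)).differentiableAt.hasFDerivAt
    have hd2 : HasFDerivAt (fun q : F × (ℝ × ℝ) => (q.1, -q.2))
        ((ContinuousLinearMap.fst ℝ F (ℝ × ℝ)).prod (-(ContinuousLinearMap.snd ℝ F (ℝ × ℝ))))
        (x, -t) := hasFDerivAt_fst.prodMk hasFDerivAt_snd.neg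
    have hd3 : HasFDerivAt (fun q : F × (ℝ × ℝ) => Complex.ofRealCLM (Φ (q.1, -q.2))) _ (x, -t) :=
      Complex.ofRealCLM.hasFDerivAt.comp (x, -t) (hd.comp (x, -t) hd2)
    have hd4 : HasFDerivAt (Function.uncurry (fam Φ)) _ (x, -t) := hd3
    rw [hd4.fderiv]
    simp
  rw [← e1]
  rfl

theorem J_parts {Φ : F × (ℝ × ℝ) → ℝ} (hΦ : ContDiff ℝ ∞ Φ) (hc : HasCompactSupport Φ)
    (x : F) (w : ℝ × ℝ) :
    J (fun y => fderiv ℝ Φ y (0, w)) x = -((w.2 : ℂ) + Complex.I * (w.1 : ℂ)) * J Φ x := by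
  set g : ℝ × ℝ → ℂ := fun s => (Φ (x, s) : ℂ) with hg
  have hgs : ContDiff ℝ ∞ g :=
    Complex.ofRealCLM.contDiff.comp (hΦ.comp (contDiff_const.prodMk contDiff_id))
  have hgc : HasCompactSupport g := by
    refine HasCompactSupport.intro (hc.isCompact.image continuous_snd) fun s hs => ?_
    have : (x, s) ∉ tsupport Φ := fun h => hs ⟨(x, s), h, rfl⟩
    simp [hg, image_eq_zero_of_notMem_tsupport this]
  have hfd : ∀ s, fderiv ℝ g s w = ((fderiv ℝ Φ (x, s) (0, w) : ℝ) : ℂ) := by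
    intro s
    have h1 : HasFDerivAt Φ (fderiv ℝ Φ (x, s)) (x, s) :=
      (hΦ.differentiable (by simp)).differentiableAt.hasFDerivAt
    have h2 : HasFDerivAt (fun t : ℝ × ℝ => (x, t)) (ContinuousLinearMap.inr ℝ F (ℝ × ℝ)) s :=
      hasFDerivAt_prodMk_right x s
    have h3 := (Complex.ofRealCLM.hasFDerivAt (x := Φ (x, s))).comp s (h1.comp s h2)
    have h4 : HasFDerivAt g _ s := h3
    rw [h4.fderiv]
    simp
  have hcont : Continuous fun s => fderiv ℝ g s w :=
    (hgs.continuous_fderiv (by simp)).clm_apply continuous_const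
  have hcs : HasCompactSupport fun s => fderiv ℝ g s w :=
    (hgc.fderiv (𝕜 := ℝ)).comp_left (g := fun L : (ℝ × ℝ) →L[ℝ] ℂ => L w) rfl
  have hkc : Continuous fun s => fderiv ℝ ker s w :=
    (ker_contDiff.continuous_fderiv (by simp)).clm_apply continuous_const
  have h := integral_mul_fderiv_eq_neg_fderiv_mul_of_integrable (μ := (volume : Measure (ℝ × ℝ)))
    (f := ker) (g := g) (v := w)
    ((hkc.mul hgs.continuous).integrable_of_hasCompactSupport hgc.mul_left)
    ((ker_cont.mul hcont).integrable_of_hasCompactSupport hcs.mul_left)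
    ((ker_cont.mul hgs.continuous).integrable_of_hasCompactSupport hgc.mul_left)
    (fun s _ => (ker_contDiff.differentiable (by simp)).differentiableAt)
    (fun s _ => (hgs.differentiable (by simp)).differentiableAt)
  unfold J
  have e1 : (∫ s : ℝ × ℝ, ker s * ((fderiv ℝ Φ (x, s) (0, w) : ℝ) : ℂ)) =
      ∫ s, ker s * fderiv ℝ g s w := by
    refine integral_congr_ae (Eventually.of_forall fun s => ?_)
    simp only [hfd]
  rw [e1, h, ← integral_const_mul, ← integral_neg]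
  refine integral_congr_ae (Eventually.of_forall fun s => ?_)
  simp only [ker_fderiv, hg]
  ring

theorem J_integrable {Φ : F × (ℝ × ℝ) → ℝ} (hΦ : Continuous Φ) (hc : HasCompactSupport Φ) (x : F) :
    Integrable (fun s : ℝ × ℝ => ker s * (Φ (x, s) : ℂ)) volume := by
  refine (ker_cont.mul (Complex.continuous_ofReal.comp (hΦ.comp
    (continuous_const.prodMk continuous_id)))).integrable_of_hasCompactSupport
      (HasCompactSupport.intro (hc.isCompact.image continuous_snd) fun s hs => ?_)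
  have : (x, s) ∉ tsupport Φ := fun h => hs ⟨(x, s), h, rfl⟩
  simp [image_eq_zero_of_notMem_tsupport this]


theorem J_sum {ι : Type} (S : Finset ι) {Φ : ι → F × (ℝ × ℝ) → ℝ}
    (hΦ : ∀ i ∈ S, Continuous (Φ i)) (hc : ∀ i ∈ S, HasCompactSupport (Φ i)) (x : F) :
    J (fun y => ∑ i ∈ S, Φ i y) x = ∑ i ∈ S, J (Φ i) x := by
  unfold J
  rw [← integral_finsetSum S fun i hi => J_integrable (hΦ i hi) (hc i hi) x]
  refine integral_congr_ae (Eventually.of_forall fun s => ?_)
  simp only [Complex.ofReal_sum, Finset.mul_sum]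

theorem J_coef (c : F → ℝ) (Φ : F × (ℝ × ℝ) → ℝ) (x : F) :
    J (fun y => c y.1 * Φ y) x = (c x : ℂ) * J Φ x := by
  unfold J
  rw [← integral_const_mul]
  refine integral_congr_ae (Eventually.of_forall fun s => ?_)
  simp only [Complex.ofReal_mul]
  ring

end Crest.Agent.R260.Reg_274
end
end

-- ▼ part R260/Reg2_274
section

/-!
# Row 260, K-REG (helper274), file 2: regularity of very weak solutions of COMPLEX scalar second
order elliptic equations with real principal part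

`Lc G κ d φ = Σ_i (∂_i + κ_i) (Σ_j G_ij (∂_j + κ_j) φ) + d φ`, `κ`, `d` complex.

`reg` : `u ∈ L¹_loc(U; ℂ)`, `∫ u * Lc φ = ∫ f * φ` for complex test functions ==> `u` is smooth.
-/

set_option autoImplicit false
set_option linter.unusedSectionVars false
set_option linter.unusedVariables false
set_option linter.unusedSimpArgs false

open MeasureTheory Set Filter Topology
open scoped ContDiff Matrix
open Crest.GeometryTopology.CoordMetric Crest.Agent.R202.Ell

noncomputable section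

namespace Crest.Agent.R260.Reg_274

variable {n : ℕ}

abbrev EE (n : ℕ) : Type := EuclideanSpace ℝ (Fin n)

/-- complex partial derivative -/
def cd (i : Fin n) (φ : EE n → ℂ) (x : EE n) : ℂ := fderiv ℝ φ x (EuclideanSpace.single i 1)

/-- the operator -/
def Lc (G : EE n → Matrix (Fin n) (Fin n) ℝ) (κ : EE n → Fin n → ℂ) (d : EE n → ℂ)
    (φ : EE n → ℂ) (x : EE n) : ℂ :=
  ∑ i, cd i (fun y => ∑ j, (G y i j : ℂ) * (cd j φ y + κ y j * φ y)) x
    + (∑ i, κ x i * ∑ j, (G x i j : ℂ) * (cd j φ x + κ x j * φ x)) + d x * φ x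

/-- coordinates: the two extra variables are number `0` (real exponential) and `1` (phase) -/
def LamL (n : ℕ) : EE (n + 2) →ₗ[ℝ] EE n × (ℝ × ℝ) where
  toFun y := (WithLp.toLp 2 fun i => y i.succ.succ, (y 1, y 0))
  map_add' x y := rfl
  map_smul' c x := rfl

def LamInv (n : ℕ) (z : EE n × (ℝ × ℝ)) : EE (n + 2) :=
  WithLp.toLp 2 (Fin.cons z.2.2 (Fin.cons z.2.1 fun i => z.1 i))

def Lam (n : ℕ) : EE (n + 2) ≃L[ℝ] EE n × (ℝ × ℝ) :=
  LinearEquiv.toContinuousLinearEquiv
    { LamL n with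
      invFun := LamInv n
      left_inv := by
        intro y
        ext i
        refine Fin.cases rfl (fun i => Fin.cases rfl (fun i => rfl) i) i
      right_inv := by
        intro z
        rfl }

theorem Lam_apply (y : EE (n + 2)) :
    Lam n y = (WithLp.toLp 2 fun i => y i.succ.succ, (y 1, y 0)) := rfl

theorem Lam_single_zero : Lam n (EuclideanSpace.single 0 1) = (0, (0, 1)) := by
  rw [Lam_apply]
  refine Prod.ext ?_ (Prod.ext ?_ ?_)
  · ext i; simp [PiLp.single_apply, Fin.succ_ne_zero]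
  · simp [PiLp.single_apply]
  · simp [PiLp.single_apply]

theorem Lam_single_one : Lam n (EuclideanSpace.single 1 1) = (0, (1, 0)) := by
  rw [Lam_apply]
  refine Prod.ext ?_ (Prod.ext ?_ ?_)
  · ext i
    have : (i.succ.succ : Fin (n + 2)) ≠ 1 := by
      intro h
      have := congrArg Fin.val h
      simp at this
    simp [PiLp.single_apply, this]
  · simp [PiLp.single_apply]
  · simp [PiLp.single_apply]

theorem Lam_single_succ (j : Fin n) :
    Lam n (EuclideanSpace.single j.succ.succ 1) = (EuclideanSpace.single j 1, 0) := by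
  rw [Lam_apply]
  refine Prod.ext ?_ (Prod.ext ?_ ?_)
  · ext i; simp [PiLp.single_apply]
  · have : (1 : Fin (n + 2)) ≠ j.succ.succ := by
      intro h
      have := congrArg Fin.val h
      simp at this
    simp [PiLp.single_apply, this]
  · simp [PiLp.single_apply, (Fin.succ_ne_zero _).symm]

/-- the direction in the product space belonging to a coordinate -/
def dir (k : Fin (n + 2)) : EE n × (ℝ × ℝ) := Lam n (EuclideanSpace.single k 1)

theorem sum_fin2 {M : Type} [AddCommMonoid M] (f : Fin (n + 2) → M) :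
    ∑ k, f k = f 0 + (f 1 + ∑ i : Fin n, f i.succ.succ) := by
  rw [Fin.sum_univ_succ, Fin.sum_univ_succ]
  rfl

/-- vector attached to a coordinate -/
def wv (α β : Fin n → ℝ) : Fin (n + 2) → (Fin n → ℝ) :=
  Fin.cons β (Fin.cons α fun i => Pi.single i 1)

/-- block of the extra variables -/
def Dm (a b γ : ℝ) (k l : Fin (n + 2)) : ℝ :=
  if k = 0 then (if l = 0 then b else if l = 1 then γ else 0)
  else if k = 1 then (if l = 0 then γ else if l = 1 then a else 0) else 0

/-- the real matrix on `ℝ^(n+2)` -/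
def Bm (G : Matrix (Fin n) (Fin n) ℝ) (α β : Fin n → ℝ) (a b γ : ℝ) :
    Matrix (Fin (n + 2)) (Fin (n + 2)) ℝ :=
  Matrix.of fun k l => wv α β k ⬝ᵥ (G *ᵥ wv α β l) + Dm a b γ k l

theorem one_ne_zero' : (1 : Fin (n + 2)) ≠ 0 := by
  intro h
  have := congrArg Fin.val h
  simp at this

theorem succ_ne_one (i : Fin n) : (i.succ.succ : Fin (n + 2)) ≠ 1 := by
  intro h
  have := congrArg Fin.val h
  simp at this

theorem Bm_posDef {G : Matrix (Fin n) (Fin n) ℝ} (hG : G.PosDef) (α β : Fin n → ℝ) {a b γ : ℝ}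
    (ha : 0 < a) (hab : γ ^ 2 < a * b) : (Bm G α β a b γ).PosDef := by
  have hb : 0 < b := by
    by_contra h
    push Not at h
    nlinarith [sq_nonneg γ, mul_nonneg ha.le (neg_nonneg.2 h)]
  have hsymG : ∀ i j, G i j = G j i := fun i j => by
    have := congrFun (congrFun hG.1 j) i
    simpa [Matrix.conjTranspose_apply] using this
  have hsym : (Bm G α β a b γ).IsHermitian := by
    ext k l
    simp only [Matrix.conjTranspose_apply, star_trivial, Bm, Matrix.of_apply]
    have h1 : wv α β l ⬝ᵥ (G *ᵥ wv α β k) = wv α β k ⬝ᵥ (G *ᵥ wv α β l) := by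
      simp only [dotProduct, Matrix.mulVec, Finset.mul_sum]
      rw [Finset.sum_comm]
      refine Finset.sum_congr rfl fun i _ => Finset.sum_congr rfl fun j _ => ?_
      rw [hsymG j i]; ring
    have h2 : Dm a b γ l k = Dm a b γ k l := by
      unfold Dm
      split_ifs <;> simp_all
    rw [h1, h2]
  refine Matrix.PosDef.of_dotProduct_mulVec_pos hsym fun v hv => ?_
  set τ : ℝ := v 1
  set σ : ℝ := v 0
  set ξ : Fin n → ℝ := fun i => v i.succ.succ with hξ
  set η : Fin n → ℝ := fun i => ξ i + τ * α i + σ * β i with hη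
  have hw : ∀ i, ∑ k, v k * wv α β k i = η i := by
    intro i
    rw [sum_fin2]
    have h1 : ∑ j : Fin n, v j.succ.succ * wv α β j.succ.succ i = ξ i := by
      rw [Finset.sum_eq_single i]
      · simp [wv, hξ]
      · intro j _ hj
        simp [wv, Pi.single_apply, hj.symm]
      · simp
    rw [h1]
    simp only [hη]
    change σ * β i + (τ * α i + ξ i) = _
    ring
  have hq : star v ⬝ᵥ (Bm G α β a b γ *ᵥ v) =
      η ⬝ᵥ (G *ᵥ η) + (a * τ ^ 2 + 2 * γ * τ * σ + b * σ ^ 2) := by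
    have h1 : star v ⬝ᵥ (Bm G α β a b γ *ᵥ v) =
        (∑ k, ∑ l, v k * v l * (wv α β k ⬝ᵥ (G *ᵥ wv α β l))) +
          ∑ k, ∑ l, v k * v l * Dm a b γ k l := by
      simp only [dotProduct, Matrix.mulVec, Bm, Matrix.of_apply, star_trivial, Pi.star_apply]
      rw [← Finset.sum_add_distrib]
      refine Finset.sum_congr rfl fun k _ => ?_
      rw [Finset.mul_sum, ← Finset.sum_add_distrib]
      refine Finset.sum_congr rfl fun l _ => ?_
      ring
    have h2 : (∑ k, ∑ l, v k * v l * (wv α β k ⬝ᵥ (G *ᵥ wv α β l))) = η ⬝ᵥ (G *ᵥ η) := by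
      have e1 : ∀ k l, v k * v l * (wv α β k ⬝ᵥ (G *ᵥ wv α β l)) =
          ∑ i, ∑ j, (v k * wv α β k i) * G i j * (v l * wv α β l j) := by
        intro k l
        simp only [dotProduct, Matrix.mulVec, Finset.mul_sum]
        refine Finset.sum_congr rfl fun i _ => Finset.sum_congr rfl fun j _ => ?_
        ring
      simp only [e1]
      have e2 : η ⬝ᵥ (G *ᵥ η) = ∑ i, ∑ j, (∑ k, v k * wv α β k i) * G i j *
          (∑ l, v l * wv α β l j) := by
        simp only [dotProduct, Matrix.mulVec, Finset.mul_sum, hw]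
        refine Finset.sum_congr rfl fun i _ => ?_
        refine Finset.sum_congr rfl fun j _ => ?_
        ring
      rw [e2]
      simp only [Finset.sum_mul, Finset.mul_sum]
      calc (∑ k, ∑ l, ∑ i, ∑ j, (v k * wv α β k i) * G i j * (v l * wv α β l j))
          = ∑ k, ∑ i, ∑ l, ∑ j, (v k * wv α β k i) * G i j * (v l * wv α β l j) :=
            Finset.sum_congr rfl fun k _ => Finset.sum_comm
        _ = ∑ i, ∑ k, ∑ l, ∑ j, (v k * wv α β k i) * G i j * (v l * wv α β l j) :=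
            Finset.sum_comm
        _ = ∑ i, ∑ k, ∑ j, ∑ l, (v k * wv α β k i) * G i j * (v l * wv α β l j) :=
            Finset.sum_congr rfl fun i _ => Finset.sum_congr rfl fun k _ => Finset.sum_comm
        _ = ∑ i, ∑ j, ∑ k, ∑ l, (v k * wv α β k i) * G i j * (v l * wv α β l j) :=
            Finset.sum_congr rfl fun i _ => Finset.sum_comm
        _ = _ := Finset.sum_congr rfl fun i _ => Finset.sum_congr rfl fun j _ =>
            Finset.sum_comm
    have h3 : (∑ k, ∑ l, v k * v l * Dm a b γ k l) =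
        a * τ ^ 2 + 2 * γ * τ * σ + b * σ ^ 2 := by
      simp only [sum_fin2]
      simp only [Dm, if_true, one_ne_zero', if_false, Fin.succ_ne_zero, succ_ne_one, mul_zero,
        Finset.sum_const_zero, add_zero]
      change σ * σ * b + σ * τ * γ + (τ * σ * γ + τ * τ * a) = _
      ring
    rw [h1, h2, h3]
  rw [hq]
  have hG0 : 0 ≤ η ⬝ᵥ (G *ᵥ η) := by
    have := hG.posSemidef.dotProduct_mulVec_nonneg η
    simpa using this
  by_cases h0 : τ = 0 ∧ σ = 0
  · have hη0 : η ≠ 0 := by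
      intro h
      apply hv
      funext k
      refine Fin.cases h0.2 (fun k => Fin.cases h0.1 (fun i => ?_) k) k
      have := congrFun h i
      simp only [hη, h0.1, h0.2, zero_mul, add_zero, Pi.zero_apply] at this
      exact this
    have := hG.dotProduct_mulVec_pos hη0
    simp only [star_trivial] at this
    rw [h0.1, h0.2]
    nlinarith
  · have hpos : 0 < a * τ ^ 2 + 2 * γ * τ * σ + b * σ ^ 2 := by
      have key : a * (a * τ ^ 2 + 2 * γ * τ * σ + b * σ ^ 2) =
          (a * τ + γ * σ) ^ 2 + (a * b - γ ^ 2) * σ ^ 2 := by ring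
      by_cases hσ : σ = 0
      · have hτ : τ ≠ 0 := fun h => h0 ⟨h, hσ⟩
        rw [hσ]
        have : 0 < τ ^ 2 := by positivity
        nlinarith [mul_pos ha this]
      · have h2 : 0 < σ ^ 2 := by positivity
        have h3 : 0 < a * (a * τ ^ 2 + 2 * γ * τ * σ + b * σ ^ 2) := by
          rw [key]
          nlinarith [sq_nonneg (a * τ + γ * σ), mul_pos (sub_pos.2 hab) h2]
        exact (mul_pos_iff_of_pos_left ha).1 h3
    linarith

end Crest.Agent.R260.Reg_274
end
end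

-- ▼ part R260/Reg3_274
section

/-!
# Row 260, K-REG (helper274), file 3: the identity `J ((div B ∇ φ) ∘ Λ⁻¹) = Lc ψ`, `ψ = J (φ ∘ Λ⁻¹)`
-/

set_option autoImplicit false
set_option linter.unusedSectionVars false
set_option linter.unusedVariables false
set_option linter.unusedSimpArgs false

open MeasureTheory Set Filter Topology
open scoped ContDiff Matrix
open Crest.GeometryTopology.CoordMetric Crest.Agent.R202.Ell

noncomputable section

namespace Crest.Agent.R260.Reg_274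

variable {n : ℕ}

/-- derivative in a coordinate direction of the product space -/
def DD (k : Fin (n + 2)) (Ψ : EE n × (ℝ × ℝ) → ℝ) (z : EE n × (ℝ × ℝ)) : ℝ :=
  fderiv ℝ Ψ z (dir k)

theorem DD_contDiff (k : Fin (n + 2)) {Ψ : EE n × (ℝ × ℝ) → ℝ} (h : ContDiff ℝ ∞ Ψ) :
    ContDiff ℝ ∞ (DD k Ψ) := (h.fderiv_right (by simp)).clm_apply contDiff_const

theorem DD_tsupport (k : Fin (n + 2)) (Ψ : EE n × (ℝ × ℝ) → ℝ) :
    tsupport (DD k Ψ) ⊆ tsupport Ψ :=
  (tsupport_fderiv_apply_subset ℝ (dir k) : _)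

theorem DD_compact (k : Fin (n + 2)) {Ψ : EE n × (ℝ × ℝ) → ℝ} (h : HasCompactSupport Ψ) :
    HasCompactSupport (DD k Ψ) :=
  h.of_isClosed_subset (isClosed_tsupport _) (DD_tsupport k Ψ)

theorem pderiv_Lam {φ : EE (n + 2) → ℝ} (hφ : Differentiable ℝ φ) (k : Fin (n + 2))
    (z : EE n × (ℝ × ℝ)) :
    pderiv k φ ((Lam n).symm z) = DD k (φ ∘ (Lam n).symm) z := by
  unfold DD dir pderiv
  rw [fderiv_comp _ (hφ _) (Lam n).symm.differentiableAt, ContinuousLinearEquiv.fderiv]
  simp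

/-- coefficients on the product space -/
def Bf (G : EE n → Matrix (Fin n) (Fin n) ℝ) (α β : EE n → Fin n → ℝ) (a b γ : EE n → ℝ)
    (x : EE n) : Matrix (Fin (n + 2)) (Fin (n + 2)) ℝ := Bm (G x) (α x) (β x) (a x) (b x) (γ x)

/-- coefficients on `ℝ^(n+2)` -/
def BE (G : EE n → Matrix (Fin n) (Fin n) ℝ) (α β : EE n → Fin n → ℝ) (a b γ : EE n → ℝ)
    (y : EE (n + 2)) : Matrix (Fin (n + 2)) (Fin (n + 2)) ℝ := Bf G α β a b γ (Lam n y).1

theorem wv_contDiffOn {U : Set (EE n)} {α β : EE n → Fin n → ℝ}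
    (hα : ∀ i, ContDiffOn ℝ ∞ (fun x => α x i) U) (hβ : ∀ i, ContDiffOn ℝ ∞ (fun x => β x i) U)
    (k : Fin (n + 2)) (i : Fin n) : ContDiffOn ℝ ∞ (fun x => wv (α x) (β x) k i) U := by
  refine Fin.cases ?_ (fun k => Fin.cases ?_ (fun j => ?_) k) k
  · exact hβ i
  · exact hα i
  · exact contDiffOn_const (c := (Pi.single j 1 : Fin n → ℝ) i)

theorem Bf_contDiffOn {U : Set (EE n)} {G : EE n → Matrix (Fin n) (Fin n) ℝ}
    {α β : EE n → Fin n → ℝ} {a b γ : EE n → ℝ}
    (hG : ∀ i j, ContDiffOn ℝ ∞ (fun x => G x i j) U)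
    (hα : ∀ i, ContDiffOn ℝ ∞ (fun x => α x i) U) (hβ : ∀ i, ContDiffOn ℝ ∞ (fun x => β x i) U)
    (ha : ContDiffOn ℝ ∞ a U) (hb : ContDiffOn ℝ ∞ b U) (hγ : ContDiffOn ℝ ∞ γ U)
    (k l : Fin (n + 2)) : ContDiffOn ℝ ∞ (fun x => Bf G α β a b γ x k l) U := by
  simp only [Bf, Bm, Matrix.of_apply, dotProduct, Matrix.mulVec]
  refine ContDiffOn.add (ContDiffOn.sum fun i _ => (wv_contDiffOn hα hβ k i).mul
    (ContDiffOn.sum fun j _ => (hG i j).mul (wv_contDiffOn hα hβ l j))) ?_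
  unfold Dm
  split_ifs
  · exact hb
  · exact hγ
  · exact contDiffOn_const
  · exact hγ
  · exact ha
  · exact contDiffOn_const
  · exact contDiffOn_const

/-- product of a coefficient defined on `U` with a function supported over `U` -/
theorem coef_contDiff {U : Set (EE n)} (hU : IsOpen U) {c : EE n → ℝ} (hc : ContDiffOn ℝ ∞ c U)
    {Ψ : EE n × (ℝ × ℝ) → ℝ} (hΨ : ContDiff ℝ ∞ Ψ) (hs : tsupport Ψ ⊆ U ×ˢ univ) :
    ContDiff ℝ ∞ fun z => c z.1 * Ψ z := by
  rw [contDiff_iff_contDiffAt]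
  intro z
  by_cases hz : z ∈ tsupport Ψ
  · have hzU : z.1 ∈ U := (hs hz).1
    exact ((hc.contDiffAt (hU.mem_nhds hzU)).comp z contDiffAt_fst).mul hΨ.contDiffAt
  · have : (fun z => c z.1 * Ψ z) =ᶠ[𝓝 z] fun _ => 0 := by
      filter_upwards [(isClosed_tsupport Ψ).isOpen_compl.mem_nhds hz] with y hy
      rw [image_eq_zero_of_notMem_tsupport hy, mul_zero]
    exact contDiffAt_const.congr_of_eventuallyEq this

theorem J_DD_zero {Ψ : EE n × (ℝ × ℝ) → ℝ} (h : ContDiff ℝ ∞ Ψ) (hc : HasCompactSupport Ψ)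
    (x : EE n) : J (DD 0 Ψ) x = - J Ψ x := by
  have := J_parts h hc x (0, 1)
  unfold DD dir
  rw [Lam_single_zero, this]
  simp

theorem J_DD_one {Ψ : EE n × (ℝ × ℝ) → ℝ} (h : ContDiff ℝ ∞ Ψ) (hc : HasCompactSupport Ψ)
    (x : EE n) : J (DD 1 Ψ) x = - (Complex.I * J Ψ x) := by
  have := J_parts h hc x (1, 0)
  unfold DD dir
  rw [Lam_single_one, this]
  simp

theorem J_DD_succ {Ψ : EE n × (ℝ × ℝ) → ℝ} (h : ContDiff ℝ ∞ Ψ) (hc : HasCompactSupport Ψ)
    (i : Fin n) (x : EE n) : J (DD i.succ.succ Ψ) x = cd i (J Ψ) x := by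
  unfold DD dir cd
  rw [Lam_single_succ, J_fderiv h hc]

/-- `J ∘ DD` on the list of first derivatives -/
def mv (ψ : EE n → ℂ) (x : EE n) : Fin (n + 2) → ℂ :=
  Fin.cons (-ψ x) (Fin.cons (-(Complex.I * ψ x)) fun i => cd i ψ x)

theorem J_DD {Ψ : EE n × (ℝ × ℝ) → ℝ} (h : ContDiff ℝ ∞ Ψ) (hc : HasCompactSupport Ψ)
    (k : Fin (n + 2)) (x : EE n) : J (DD k Ψ) x = mv (J Ψ) x k := by
  refine Fin.cases (J_DD_zero h hc x) (fun k => Fin.cases (J_DD_one h hc x)
    (fun i => J_DD_succ h hc i x) k) k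

variable {U : Set (EE n)} {G : EE n → Matrix (Fin n) (Fin n) ℝ}
    {α β : EE n → Fin n → ℝ} {a b γ : EE n → ℝ}

/-- the flux -/
def Fl (G : EE n → Matrix (Fin n) (Fin n) ℝ) (α β : EE n → Fin n → ℝ) (a b γ : EE n → ℝ)
    (Ψ : EE n × (ℝ × ℝ) → ℝ) (k : Fin (n + 2)) (z : EE n × (ℝ × ℝ)) : ℝ :=
  ∑ l, Bf G α β a b γ z.1 k l * DD l Ψ z

/-- complex covector -/
def kap (α β : EE n → Fin n → ℝ) (x : EE n) (i : Fin n) : ℂ :=
  -((β x i : ℂ) + Complex.I * (α x i : ℂ))

theorem sum_wv_mv (ψ : EE n → ℂ) (x : EE n) (j : Fin n) :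
    ∑ l, (wv (α x) (β x) l j : ℂ) * mv ψ x l = cd j ψ x + kap α β x j * ψ x := by
  rw [sum_fin2]
  have h1 : ∑ i : Fin n, (wv (α x) (β x) i.succ.succ j : ℂ) * mv ψ x i.succ.succ = cd j ψ x := by
    rw [Finset.sum_eq_single j]
    · simp [wv, mv]
    · intro i _ hi
      simp [wv, Pi.single_apply, hi.symm]
    · simp
  rw [h1]
  change (β x j : ℂ) * -ψ x + ((α x j : ℂ) * -(Complex.I * ψ x) + cd j ψ x) = _
  unfold kap
  ring

theorem J_Fl (hU : IsOpen U) (hG : ∀ i j, ContDiffOn ℝ ∞ (fun x => G x i j) U)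
    (hα : ∀ i, ContDiffOn ℝ ∞ (fun x => α x i) U) (hβ : ∀ i, ContDiffOn ℝ ∞ (fun x => β x i) U)
    (ha : ContDiffOn ℝ ∞ a U) (hb : ContDiffOn ℝ ∞ b U) (hγ : ContDiffOn ℝ ∞ γ U)
    {Ψ : EE n × (ℝ × ℝ) → ℝ} (h : ContDiff ℝ ∞ Ψ) (hc : HasCompactSupport Ψ)
    (hs : tsupport Ψ ⊆ U ×ˢ univ) (k : Fin (n + 2)) (x : EE n) :
    J (Fl G α β a b γ Ψ k) x =
      (∑ i, (wv (α x) (β x) k i : ℂ) *
        ∑ j, (G x i j : ℂ) * (cd j (J Ψ) x + kap α β x j * J Ψ x)) +
      ∑ l, (Dm (a x) (b x) (γ x) k l : ℂ) * mv (J Ψ) x l := by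
  have h1 : J (Fl G α β a b γ Ψ k) x =
      ∑ l, (Bf G α β a b γ x k l : ℂ) * mv (J Ψ) x l := by
    unfold Fl
    rw [J_sum Finset.univ (Φ := fun l z => Bf G α β a b γ z.1 k l * DD l Ψ z)]
    · refine Finset.sum_congr rfl fun l _ => ?_
      rw [J_coef (fun x => Bf G α β a b γ x k l), J_DD h hc]
    · intro l _
      exact (coef_contDiff hU (Bf_contDiffOn hG hα hβ ha hb hγ k l) (DD_contDiff l h)
        ((DD_tsupport l Ψ).trans hs)).continuous
    · intro l _
      exact (DD_compact l hc).mul_left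
  rw [h1]
  have h2 : ∀ l, (Bf G α β a b γ x k l : ℂ) * mv (J Ψ) x l =
      (∑ i, ∑ j, (wv (α x) (β x) k i : ℂ) * ((G x i j : ℂ) *
        ((wv (α x) (β x) l j : ℂ) * mv (J Ψ) x l))) +
        (Dm (a x) (b x) (γ x) k l : ℂ) * mv (J Ψ) x l := by
    intro l
    simp only [Bf, Bm, Matrix.of_apply, dotProduct, Matrix.mulVec, Complex.ofReal_add,
      Complex.ofReal_sum, Complex.ofReal_mul, add_mul, Finset.sum_mul, Finset.mul_sum]
    congr 1
    refine Finset.sum_congr rfl fun i _ => Finset.sum_congr rfl fun j _ => ?_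
    ring
  simp only [h2, Finset.sum_add_distrib]
  congr 1
  rw [Finset.sum_comm]
  refine Finset.sum_congr rfl fun i _ => ?_
  rw [Finset.sum_comm, Finset.mul_sum]
  refine Finset.sum_congr rfl fun j _ => ?_
  rw [← Finset.mul_sum, ← Finset.mul_sum, sum_wv_mv]

theorem Fl_contDiff (hU : IsOpen U) (hG : ∀ i j, ContDiffOn ℝ ∞ (fun x => G x i j) U)
    (hα : ∀ i, ContDiffOn ℝ ∞ (fun x => α x i) U) (hβ : ∀ i, ContDiffOn ℝ ∞ (fun x => β x i) U)
    (ha : ContDiffOn ℝ ∞ a U) (hb : ContDiffOn ℝ ∞ b U) (hγ : ContDiffOn ℝ ∞ γ U)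
    {Ψ : EE n × (ℝ × ℝ) → ℝ} (h : ContDiff ℝ ∞ Ψ)
    (hs : tsupport Ψ ⊆ U ×ˢ univ) (k : Fin (n + 2)) : ContDiff ℝ ∞ (Fl G α β a b γ Ψ k) :=
  ContDiff.sum fun l _ => coef_contDiff hU (Bf_contDiffOn hG hα hβ ha hb hγ k l)
    (DD_contDiff l h) ((DD_tsupport l Ψ).trans hs)

theorem Fl_tsupport (Ψ : EE n × (ℝ × ℝ) → ℝ) (k : Fin (n + 2)) :
    tsupport (Fl G α β a b γ Ψ k) ⊆ tsupport Ψ := by
  refine closure_minimal ?_ (isClosed_tsupport _)
  intro z hz
  by_contra h
  apply hz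
  unfold Fl
  refine Finset.sum_eq_zero fun l _ => ?_
  rw [image_eq_zero_of_notMem_tsupport fun h' => h (DD_tsupport l Ψ h'), mul_zero]

theorem Fl_compact {Ψ : EE n × (ℝ × ℝ) → ℝ} (hc : HasCompactSupport Ψ) (k : Fin (n + 2)) :
    HasCompactSupport (Fl G α β a b γ Ψ k) :=
  hc.of_isClosed_subset (isClosed_tsupport _) (Fl_tsupport Ψ k)

/-- zeroth order coefficient -/
def dd0 (a b γ : EE n → ℝ) (x : EE n) : ℂ := (b x : ℂ) - (a x : ℂ) + 2 * Complex.I * (γ x : ℂ)

/-- **the main identity** -/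
theorem J_div (hU : IsOpen U) (hG : ∀ i j, ContDiffOn ℝ ∞ (fun x => G x i j) U)
    (hα : ∀ i, ContDiffOn ℝ ∞ (fun x => α x i) U) (hβ : ∀ i, ContDiffOn ℝ ∞ (fun x => β x i) U)
    (ha : ContDiffOn ℝ ∞ a U) (hb : ContDiffOn ℝ ∞ b U) (hγ : ContDiffOn ℝ ∞ γ U)
    {Ψ : EE n × (ℝ × ℝ) → ℝ} (h : ContDiff ℝ ∞ Ψ) (hc : HasCompactSupport Ψ)
    (hs : tsupport Ψ ⊆ U ×ˢ univ) (x : EE n) :
    J (fun z => ∑ k, DD k (Fl G α β a b γ Ψ k) z) x =
      Lc G (kap α β) (dd0 a b γ) (J Ψ) x := by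
  have hF := Fl_contDiff hU hG hα hβ ha hb hγ h hs
  have hFc : ∀ k, HasCompactSupport (Fl G α β a b γ Ψ k) := Fl_compact hc
  have h1 : J (fun z => ∑ k, DD k (Fl G α β a b γ Ψ k) z) x =
      ∑ k, J (DD k (Fl G α β a b γ Ψ k)) x :=
    J_sum Finset.univ (fun k _ => (DD_contDiff k (hF k)).continuous)
      (fun k _ => DD_compact k (hFc k)) x
  rw [h1, sum_fin2, J_DD_zero (hF 0) (hFc 0), J_DD_one (hF 1) (hFc 1)]
  have hJ := fun k x => J_Fl (U := U) hU hG hα hβ ha hb hγ h hc hs k x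
  have h2 : ∀ i : Fin n, J (DD i.succ.succ (Fl G α β a b γ Ψ i.succ.succ)) x =
      cd i (fun y => ∑ j, (G y i j : ℂ) * (cd j (J Ψ) y + kap α β y j * J Ψ y)) x := by
    intro i
    rw [J_DD_succ (hF _) (hFc _)]
    congr 1
    funext y
    rw [hJ]
    have e1 : ∑ l, (Dm (a y) (b y) (γ y) i.succ.succ l : ℂ) * mv (J Ψ) y l = 0 := by
      refine Finset.sum_eq_zero fun l _ => ?_
      simp [Dm, Fin.succ_ne_zero, succ_ne_one]
    rw [e1, add_zero, Finset.sum_eq_single i]
    · simp [wv]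
    · intro j _ hj
      simp [wv, Pi.single_apply, hj]
    · simp
  rw [hJ, hJ]
  simp only [h2]
  have e0 : ∑ l, (Dm (a x) (b x) (γ x) 0 l : ℂ) * mv (J Ψ) x l =
      -((b x : ℂ) * J Ψ x) - Complex.I * (γ x : ℂ) * J Ψ x := by
    rw [sum_fin2]
    have : ∑ i : Fin n, (Dm (a x) (b x) (γ x) 0 i.succ.succ : ℂ) * mv (J Ψ) x i.succ.succ = 0 := by
      refine Finset.sum_eq_zero fun l _ => ?_
      simp [Dm, Fin.succ_ne_zero, succ_ne_one]
    rw [this]
    simp only [Dm, if_true, one_ne_zero', if_false]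
    change (b x : ℂ) * -J Ψ x + ((γ x : ℂ) * -(Complex.I * J Ψ x) + 0) = _
    ring
  have e1 : ∑ l, (Dm (a x) (b x) (γ x) 1 l : ℂ) * mv (J Ψ) x l =
      -((γ x : ℂ) * J Ψ x) - Complex.I * (a x : ℂ) * J Ψ x := by
    rw [sum_fin2]
    have : ∑ i : Fin n, (Dm (a x) (b x) (γ x) 1 i.succ.succ : ℂ) * mv (J Ψ) x i.succ.succ = 0 := by
      refine Finset.sum_eq_zero fun l _ => ?_
      simp [Dm, Fin.succ_ne_zero, succ_ne_one, one_ne_zero']
    rw [this]
    simp only [Dm, if_true, one_ne_zero', if_false]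
    change (γ x : ℂ) * -J Ψ x + ((a x : ℂ) * -(Complex.I * J Ψ x) + 0) = _
    ring
  rw [e0, e1]
  have w0 : ∀ i, (wv (α x) (β x) 0 i : ℂ) = (β x i : ℂ) := fun i => rfl
  have w1 : ∀ i, (wv (α x) (β x) 1 i : ℂ) = (α x i : ℂ) := fun i => rfl
  simp only [w0, w1]
  unfold Lc
  have e2 : ∑ i, kap α β x i * ∑ j, (G x i j : ℂ) * (cd j (J Ψ) x + kap α β x j * J Ψ x) =
      -(∑ i, (β x i : ℂ) * ∑ j, (G x i j : ℂ) * (cd j (J Ψ) x + kap α β x j * J Ψ x)) -
      Complex.I * ∑ i, (α x i : ℂ) * ∑ j, (G x i j : ℂ) * (cd j (J Ψ) x + kap α β x j * J Ψ x) := by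
    rw [Finset.mul_sum, ← Finset.sum_neg_distrib, ← Finset.sum_sub_distrib]
    refine Finset.sum_congr rfl fun i _ => ?_
    unfold kap
    ring
  rw [e2]
  unfold dd0
  linear_combination ((a x : ℂ) * J Ψ x) * Complex.I_sq

end Crest.Agent.R260.Reg_274
end
end

-- ▼ part R260/Reg4_274
section

/-!
# Row 260, K-REG (helper274), file 4: **regularity theorem**
-/

set_option autoImplicit false
set_option linter.unusedSectionVars false
set_option linter.unusedVariables false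
set_option linter.unusedSimpArgs false

open MeasureTheory Set Filter Topology
open scoped ContDiff Matrix ENNReal
open Crest.GeometryTopology.CoordMetric Crest.Agent.R202.Ell

noncomputable section

namespace Crest.Agent.R260.Reg_274

variable {n : ℕ}

theorem vol_haar2 : (volume : Measure (ℝ × ℝ)).IsAddHaarMeasure := by
  rw [Measure.volume_eq_prod]; infer_instance

theorem vol_haar : (volume : Measure (EE n × (ℝ × ℝ))).IsAddHaarMeasure := by
  haveI := vol_haar2
  rw [Measure.volume_eq_prod]; infer_instance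

theorem map_Lam : ∃ c : ℝ≥0∞, c ≠ 0 ∧ c ≠ (⊤ : ℝ≥0∞) ∧
    (volume : Measure (EE (n + 2))).map (Lam n) =
      c • (volume : Measure (EE n × (ℝ × ℝ))) := by
  haveI := vol_haar (n := n)
  haveI : ((volume : Measure (EE (n + 2))).map (Lam n)).IsAddHaarMeasure :=
    (Lam n).isAddHaarMeasure_map _
  refine ⟨((Measure.addHaarScalarFactor ((volume : Measure (EE (n + 2))).map (Lam n))
    (volume : Measure (EE n × (ℝ × ℝ)))) : ℝ≥0∞), ?_, ENNReal.coe_ne_top, ?_⟩
  · rw [Ne, ENNReal.coe_eq_zero]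
    exact (Measure.addHaarScalarFactor_pos_of_isAddHaarMeasure _ _).ne'
  · exact Measure.isAddLeftInvariant_eq_smul _ _

theorem Lam_meas : MeasurableEmbedding (Lam n) := (Lam n).toHomeomorph.measurableEmbedding

variable {U : Set (EE n)}

/-- local integrability on the product -/
theorem locInt_prod (hU : IsOpen U) {u : EE n → ℂ} (hu : LocallyIntegrableOn u U) :
    LocallyIntegrableOn (fun z : EE n × (ℝ × ℝ) => u z.1) (U ×ˢ univ) := by
  rw [locallyIntegrableOn_iff (hU.prod isOpen_univ).isLocallyClosed]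
  intro K hK hKc
  set K1 := Prod.fst '' K
  set K2 := Prod.snd '' K
  have hK1 : IsCompact K1 := hKc.image continuous_fst
  have hK2 : IsCompact K2 := hKc.image continuous_snd
  have hK1U : K1 ⊆ U := by
    rintro x ⟨z, hz, rfl⟩
    exact (hK hz).1
  have h1 : IntegrableOn u K1 := hu.integrableOn_compact_subset hK1U hK1
  have h2 : IntegrableOn (fun _ : ℝ × ℝ => (1 : ℂ)) K2 :=
    integrableOn_const (hK2.measure_lt_top.ne)
  have h3 : Integrable (fun z : EE n × (ℝ × ℝ) => u z.1 * 1)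
      ((volume.restrict K1).prod (volume.restrict K2)) := Integrable.mul_prod h1 h2
  rw [Measure.prod_restrict] at h3
  have h4 : IntegrableOn (fun z : EE n × (ℝ × ℝ) => u z.1) (K1 ×ˢ K2) := by
    rw [IntegrableOn, Measure.volume_eq_prod]
    simpa using h3
  exact h4.mono_set fun z hz => ⟨⟨z, hz, rfl⟩, ⟨z, hz, rfl⟩⟩

theorem locInt_ker (hU : IsOpen U) {u : EE n → ℂ} (hu : LocallyIntegrableOn u U) :
    LocallyIntegrableOn (fun z : EE n × (ℝ × ℝ) => ker z.2 * u z.1) (U ×ˢ univ) :=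
  LocallyIntegrableOn.continuousOn_mul (locInt_prod hU hu)
    (ker_cont.comp continuous_snd).continuousOn (hU.prod isOpen_univ).isLocallyClosed

theorem integrable_of_test (hU : IsOpen U) {u : EE n → ℂ} (hu : LocallyIntegrableOn u U)
    {H : EE n × (ℝ × ℝ) → ℝ} (hH : Continuous H) (hc : HasCompactSupport H)
    (hs : tsupport H ⊆ U ×ˢ univ) :
    Integrable (fun z : EE n × (ℝ × ℝ) => ker z.2 * u z.1 * (H z : ℂ)) := by
  have h1 : IntegrableOn (fun z : EE n × (ℝ × ℝ) => ker z.2 * u z.1) (tsupport H) :=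
    (locInt_ker hU hu).integrableOn_compact_subset hs hc
  have h2 : IntegrableOn (fun z : EE n × (ℝ × ℝ) => ker z.2 * u z.1 * (H z : ℂ)) (tsupport H) :=
    h1.mul_continuousOn (Complex.continuous_ofReal.comp hH).continuousOn hc
  exact (integrableOn_iff_integrable_of_support_subset fun z hz => by
    apply subset_tsupport H
    intro h0
    apply hz
    simp [h0]).1 h2

theorem integral_Lam (hU : IsOpen U) {u : EE n → ℂ} (hu : LocallyIntegrableOn u U)
    {H : EE n × (ℝ × ℝ) → ℝ} (hH : Continuous H) (hc : HasCompactSupport H)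
    (hs : tsupport H ⊆ U ×ˢ univ) {c : ℝ≥0∞}
    (hcm : (volume : Measure (EE (n + 2))).map (Lam n) =
      c • (volume : Measure (EE n × (ℝ × ℝ)))) :
    ∫ y : EE (n + 2), ker (Lam n y).2 * u (Lam n y).1 * (H (Lam n y) : ℂ) =
      c.toReal • ∫ x : EE n, u x * J H x := by
  have h1 : ∫ y : EE (n + 2), ker (Lam n y).2 * u (Lam n y).1 * (H (Lam n y) : ℂ) =
      ∫ z : EE n × (ℝ × ℝ), ker z.2 * u z.1 * (H z : ℂ) ∂(volume.map (Lam n)) :=
    (Lam_meas.integral_map fun z : EE n × (ℝ × ℝ) => ker z.2 * u z.1 * (H z : ℂ)).symm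
  rw [h1, hcm, integral_smul_measure]
  congr 1
  have h2 := integrable_of_test hU hu hH hc hs
  rw [Measure.volume_eq_prod] at h2 ⊢
  rw [integral_prod _ h2]
  refine integral_congr_ae (Eventually.of_forall fun x => ?_)
  simp only [J]
  rw [← integral_const_mul]
  refine integral_congr_ae (Eventually.of_forall fun s => ?_)
  simp only
  ring

/-- **Regularity**: very weak solutions of complex scalar elliptic equations are smooth. -/
theorem reg (hU : IsOpen U) {G : EE n → Matrix (Fin n) (Fin n) ℝ}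
    (hG : ∀ i j, ContDiffOn ℝ ∞ (fun x => G x i j) U) (hpos : ∀ x ∈ U, (G x).PosDef)
    {κ : EE n → Fin n → ℂ} (hκ : ∀ i, ContDiffOn ℝ ∞ (fun x => κ x i) U)
    {d : EE n → ℂ} (hd : ContDiffOn ℝ ∞ d U)
    {f : EE n → ℂ} (hf : ContDiffOn ℝ ∞ f U) {u : EE n → ℂ} (hu : LocallyIntegrableOn u U)
    (h : ∀ φ : EE n → ℂ, ContDiff ℝ ∞ φ → HasCompactSupport φ → tsupport φ ⊆ U →
      ∫ x, u x * Lc G κ d φ x = ∫ x, f x * φ x) :
    ∃ v : EE n → ℂ, ContDiffOn ℝ ∞ v U ∧ ∀ᵐ x, x ∈ U → v x = u x := by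
  -- real coefficients
  set α : EE n → Fin n → ℝ := fun x i => -(κ x i).im with hα
  set β : EE n → Fin n → ℝ := fun x i => -(κ x i).re with hβ
  set r : EE n → ℝ := fun x => (d x).re with hr
  set γ : EE n → ℝ := fun x => (d x).im / 2 with hγ
  set a : EE n → ℝ := fun x => γ x ^ 2 + r x ^ 2 + 1 with ha
  set b : EE n → ℝ := fun x => γ x ^ 2 + r x ^ 2 + 1 + r x with hb
  have sre : ContDiff ℝ ∞ Complex.re := Complex.reCLM.contDiff
  have sim : ContDiff ℝ ∞ Complex.im := Complex.imCLM.contDiff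
  have hαs : ∀ i, ContDiffOn ℝ ∞ (fun x => α x i) U := fun i =>
    (sim.comp_contDiffOn (hκ i)).neg
  have hβs : ∀ i, ContDiffOn ℝ ∞ (fun x => β x i) U := fun i =>
    (sre.comp_contDiffOn (hκ i)).neg
  have hrs : ContDiffOn ℝ ∞ r U := sre.comp_contDiffOn hd
  have hγs : ContDiffOn ℝ ∞ γ U := (sim.comp_contDiffOn hd).div_const 2
  have has : ContDiffOn ℝ ∞ a U := ((hγs.pow 2).add (hrs.pow 2)).add contDiffOn_const
  have hbs : ContDiffOn ℝ ∞ b U := (((hγs.pow 2).add (hrs.pow 2)).add contDiffOn_const).add hrs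
  have hkap : kap α β = κ := by
    funext x i
    unfold kap
    rw [hα, hβ]
    apply Complex.ext <;> simp
  have hdd : dd0 a b γ = d := by
    funext x
    unfold dd0
    apply Complex.ext
    · simp [ha, hb, hr]
    · simp [ha, hb, hr, hγ]; ring
  -- the map
  obtain ⟨c, hc0, hct, hcm⟩ := map_Lam (n := n)
  set V : Set (EE (n + 2)) := (Lam n) ⁻¹' (U ×ˢ univ) with hV
  have hVo : IsOpen V := (hU.prod isOpen_univ).preimage (Lam n).continuous
  set B := BE G α β a b γ with hB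
  have hBs : ∀ k l, ContDiffOn ℝ ∞ (fun y => B y k l) V := by
    intro k l
    refine (Bf_contDiffOn hG hαs hβs has hbs hγs k l).comp
      (t := U) (s := V) (f := fun y => (Lam n y).1) ?_ fun y hy => hy.1
    exact (contDiff_fst.comp (Lam n).contDiff).contDiffOn
  have hBp : ∀ y ∈ V, (B y).PosDef := by
    intro y hy
    refine Bm_posDef (hpos _ hy.1) _ _ ?_ ?_
    · simp only [ha]; positivity
    · simp only [ha, hb]
      nlinarith [sq_nonneg (γ (Lam n y).1), sq_nonneg (r (Lam n y).1),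
        sq_nonneg (r (Lam n y).1 + 1), sq_nonneg (r (Lam n y).1 + 1/2),
        mul_nonneg (sq_nonneg (γ (Lam n y).1)) (sq_nonneg (γ (Lam n y).1)),
        mul_nonneg (sq_nonneg (γ (Lam n y).1)) (sq_nonneg (r (Lam n y).1 + 1/2)),
        mul_nonneg (sq_nonneg (r (Lam n y).1)) (sq_nonneg (r (Lam n y).1 + 1/2))]
  -- weak equation upstairs
  have hweak : ∀ φ : EE (n + 2) → ℝ, ContDiff ℝ ∞ φ → HasCompactSupport φ → tsupport φ ⊆ V →
      ∫ y, ker (Lam n y).2 * u (Lam n y).1 * (divA B φ y : ℂ) =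
        ∫ y, ker (Lam n y).2 * f (Lam n y).1 * (φ y : ℂ) := by
    intro φ hφ hφc hφs
    set Ψ : EE n × (ℝ × ℝ) → ℝ := φ ∘ (Lam n).symm with hΨ
    have hΨs : ContDiff ℝ ∞ Ψ := hφ.comp (Lam n).symm.contDiff
    have hΨc : HasCompactSupport Ψ := hφc.comp_homeomorph (Lam n).symm.toHomeomorph
    have hΨt : tsupport Ψ ⊆ U ×ˢ univ := by
      intro z hz
      have h1 : (Lam n).symm z ∈ tsupport φ :=
        tsupport_comp_subset_preimage φ (Lam n).symm.continuous hz
      have := hφs h1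
      simpa [hV] using this
    have hφΨ : ∀ y, φ y = Ψ (Lam n y) := fun y => by simp [hΨ]
    set H : EE n × (ℝ × ℝ) → ℝ := fun z => ∑ k, DD k (Fl G α β a b γ Ψ k) z with hH
    have hFs := Fl_contDiff hU hG hαs hβs has hbs hγs hΨs hΨt
    have hHs : ContDiff ℝ ∞ H := ContDiff.sum fun k _ => DD_contDiff k (hFs k)
    have hHt : tsupport H ⊆ tsupport Ψ := by
      refine closure_minimal ?_ (isClosed_tsupport _)
      intro z hz
      by_contra h'
      apply hz
      refine Finset.sum_eq_zero fun k _ => ?_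
      exact image_eq_zero_of_notMem_tsupport fun h'' =>
        h' (Fl_tsupport Ψ k (DD_tsupport k _ h''))
    have hHc : HasCompactSupport H := hΨc.of_isClosed_subset (isClosed_tsupport _) hHt
    have hdiv : ∀ y, divA B φ y = H (Lam n y) := by
      intro y
      simp only [divA, hH]
      refine Finset.sum_congr rfl fun k _ => ?_
      have e1 : (fun y => ∑ l, B y k l * pderiv l φ y) =
          fun y => Fl G α β a b γ Ψ k (Lam n y) := by
        funext y'
        unfold Fl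
        refine Finset.sum_congr rfl fun l _ => ?_
        have := pderiv_Lam (hφ.differentiable (by simp)) l (Lam n y')
        rw [ContinuousLinearEquiv.symm_apply_apply] at this
        rw [this]
        rfl
      rw [e1]
      have e2 : Differentiable ℝ fun y => Fl G α β a b γ Ψ k (Lam n y) :=
        ((hFs k).comp (Lam n).contDiff).differentiable (by simp)
      have := pderiv_Lam e2 k (Lam n y)
      rw [ContinuousLinearEquiv.symm_apply_apply] at this
      rw [this]
      have e3 : (fun y => Fl G α β a b γ Ψ k (Lam n y)) ∘ (Lam n).symm =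
          Fl G α β a b γ Ψ k := by
        funext z
        simp [Function.comp]
      rw [e3]
    have l1 : ∫ y, ker (Lam n y).2 * u (Lam n y).1 * (divA B φ y : ℂ) =
        c.toReal • ∫ x : EE n, u x * J H x := by
      rw [← integral_Lam hU hu hHs.continuous hHc (hHt.trans hΨt) hcm]
      simp only [hdiv]
    have l2 : ∫ y, ker (Lam n y).2 * f (Lam n y).1 * (φ y : ℂ) =
        c.toReal • ∫ x : EE n, f x * J Ψ x := by
      rw [← integral_Lam hU (hf.continuousOn.locallyIntegrableOn hU.measurableSet)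
        hΨs.continuous hΨc hΨt hcm]
      simp only [hφΨ]
    rw [l1, l2]
    congr 1
    have l3 : ∀ x, J H x = Lc G κ d (J Ψ) x := by
      intro x
      have := J_div hU hG hαs hβs has hbs hγs hΨs hΨc hΨt x
      rw [hkap, hdd] at this
      exact this
    simp only [l3]
    refine h (J Ψ) (J_contDiff hΨs hΨc) (J_hasCompactSupport hΨc) ?_
    refine (J_tsupport hΨc).trans ?_
    rintro x ⟨z, hz, rfl⟩
    exact (hΨt hz).1
  -- local integrability upstairs
  have hloc : LocallyIntegrableOn (fun y => ker (Lam n y).2 * u (Lam n y).1) V := by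
    rw [locallyIntegrableOn_iff hVo.isLocallyClosed]
    intro K hK hKc
    have h1 : IntegrableOn (fun z : EE n × (ℝ × ℝ) => ker z.2 * u z.1) (Lam n '' K) :=
      (locInt_ker hU hu).integrableOn_compact_subset (by
        rintro z ⟨y, hy, rfl⟩
        exact hK hy) (hKc.image (Lam n).continuous)
    have h2 : IntegrableOn (fun z : EE n × (ℝ × ℝ) => ker z.2 * u z.1) (Lam n '' K)
        ((volume : Measure (EE (n + 2))).map (Lam n)) := by
      rw [hcm, IntegrableOn, Measure.restrict_smul]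
      exact h1.smul_measure hct
    have h3 := (Lam_meas.integrableOn_map_iff).1 h2
    rw [preimage_image_eq _ (Lam n).injective] at h3
    exact h3
  have hcomp : ∀ (g : EE (n + 2) → ℝ), ContDiff ℝ ∞ g → HasCompactSupport g → tsupport g ⊆ V →
      ∀ {w : EE n → ℂ}, LocallyIntegrableOn (fun y => ker (Lam n y).2 * w (Lam n y).1) V →
      Integrable fun y => ker (Lam n y).2 * w (Lam n y).1 * (g y : ℂ) := by
    intro g hg hgc hgs w hw
    have h1 := hw.integrableOn_compact_subset hgs hgc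
    have h2 := h1.mul_continuousOn (Complex.continuous_ofReal.comp hg.continuous).continuousOn hgc
    exact (integrableOn_iff_integrable_of_support_subset fun z hz => by
      apply subset_tsupport g
      intro h0
      apply hz
      simp [h0]).1 h2
  have hdivs : ∀ φ : EE (n + 2) → ℝ, ContDiff ℝ ∞ φ → HasCompactSupport φ → tsupport φ ⊆ V →
      ContDiff ℝ ∞ (divA B φ) := by
    intro φ hφ hφc hφs
    unfold divA pderiv
    refine ContDiff.sum fun k _ => ContDiff.clm_apply (ContDiff.fderiv_right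
      (m := ∞) (n := ∞) ?_ (by simp)) contDiff_const
    refine ContDiff.sum fun l _ => ?_
    have hp : ContDiff ℝ ∞ fun y => fderiv ℝ φ y (EuclideanSpace.single l 1) :=
      (hφ.fderiv_right (by simp)).clm_apply contDiff_const
    have := contDiff_mul_of_tsupport hVo hp
      ((tsupport_fderiv_apply_subset ℝ (EuclideanSpace.single l (1 : ℝ))).trans hφs) (hBs k l)
    simpa only [mul_comm] using this
  have hflc : LocallyIntegrableOn (fun y => ker (Lam n y).2 * f (Lam n y).1) V := by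
    refine ContinuousOn.locallyIntegrableOn ?_ hVo.measurableSet
    exact (ker_cont.comp (continuous_snd.comp (Lam n).continuous)).continuousOn.mul
      (hf.continuousOn.comp (continuous_fst.comp (Lam n).continuous).continuousOn
        fun y hy => hy.1)
  have hfs : ContDiffOn ℝ ∞ (fun y => ker (Lam n y).2 * f (Lam n y).1) V := by
    refine ContDiffOn.mul ?_ ?_
    · exact (ker_contDiff.comp (contDiff_snd.comp (Lam n).contDiff)).contDiffOn
    · exact hf.comp (contDiff_fst.comp (Lam n).contDiff).contDiffOn fun y hy => hy.1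
  -- real part
  obtain ⟨v1, hv1, hv1u, -⟩ := ell_regularity (n + 2) V hVo B hBs hBp
    (fun y => (ker (Lam n y).2 * f (Lam n y).1).re) (sre.comp_contDiffOn hfs)
    (fun y => (ker (Lam n y).2 * u (Lam n y).1).re)
    (fun y hy => by
      obtain ⟨t, ht, hi⟩ := hloc y hy
      exact ⟨t, ht, hi.re⟩)
    (by
      intro φ hφ hφc hφs
      have h1 := congrArg Complex.re (hweak φ hφ hφc hφs)
      have i1 := hcomp (divA B φ) (hdivs φ hφ hφc hφs)
        (hφc.of_isClosed_subset (isClosed_tsupport _) (tsupport_divA_subset B φ))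
        ((tsupport_divA_subset B φ).trans hφs) hloc
      have i2 := hcomp φ hφ hφc hφs hflc
      have e1 : ∀ {g : EE (n + 2) → ℂ}, Integrable g →
          (∫ y, g y).re = ∫ y, (g y).re := fun hg => (integral_re hg).symm
      rw [e1 i1, e1 i2] at h1
      simpa only [Complex.re_mul_ofReal] using h1)
  obtain ⟨v2, hv2, hv2u, -⟩ := ell_regularity (n + 2) V hVo B hBs hBp
    (fun y => (ker (Lam n y).2 * f (Lam n y).1).im) (sim.comp_contDiffOn hfs)
    (fun y => (ker (Lam n y).2 * u (Lam n y).1).im)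
    (fun y hy => by
      obtain ⟨t, ht, hi⟩ := hloc y hy
      exact ⟨t, ht, hi.im⟩)
    (by
      intro φ hφ hφc hφs
      have h1 := congrArg Complex.im (hweak φ hφ hφc hφs)
      have i1 := hcomp (divA B φ) (hdivs φ hφ hφc hφs)
        (hφc.of_isClosed_subset (isClosed_tsupport _) (tsupport_divA_subset B φ))
        ((tsupport_divA_subset B φ).trans hφs) hloc
      have i2 := hcomp φ hφ hφc hφs hflc
      have e1 : ∀ {g : EE (n + 2) → ℂ}, Integrable g →
          (∫ y, g y).im = ∫ y, (g y).im := fun hg => (integral_im hg).symm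
      rw [e1 i1, e1 i2] at h1
      simpa only [Complex.im_mul_ofReal] using h1)
  -- conclusion
  set W : EE n × (ℝ × ℝ) → ℂ := fun z =>
    (v1 ((Lam n).symm z) : ℂ) + Complex.I * (v2 ((Lam n).symm z) : ℂ) with hW
  have hsym : ∀ z ∈ U ×ˢ (univ : Set (ℝ × ℝ)), (Lam n).symm z ∈ V := by
    intro z hz
    simpa [hV] using hz
  have hWs : ContDiffOn ℝ ∞ W (U ×ˢ univ) := by
    have c1 : ContDiffOn ℝ ∞ (fun z => v1 ((Lam n).symm z)) (U ×ˢ (univ : Set (ℝ × ℝ))) :=
      hv1.comp (Lam n).symm.contDiff.contDiffOn hsym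
    have c2 : ContDiffOn ℝ ∞ (fun z => v2 ((Lam n).symm z)) (U ×ˢ (univ : Set (ℝ × ℝ))) :=
      hv2.comp (Lam n).symm.contDiff.contDiffOn hsym
    exact (Complex.ofRealCLM.contDiff.comp_contDiffOn c1).add
      (contDiffOn_const.mul (Complex.ofRealCLM.contDiff.comp_contDiffOn c2))
  have hae : ∀ᵐ z : EE n × (ℝ × ℝ), z.1 ∈ U → W z = ker z.2 * u z.1 := by
    have h1 : ∀ᵐ y : EE (n + 2), (Lam n y).1 ∈ U → W (Lam n y) =
        ker (Lam n y).2 * u (Lam n y).1 := by
      filter_upwards [hv1u, hv2u] with y h1 h2 hy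
      have hyV : y ∈ V := ⟨hy, mem_univ _⟩
      simp only [hW, ContinuousLinearEquiv.symm_apply_apply]
      rw [h1 hyV, h2 hyV, mul_comm Complex.I]
      exact Complex.re_add_im _
    have h2 : ∀ᵐ z ∂((volume : Measure (EE (n + 2))).map (Lam n)),
        z.1 ∈ U → W z = ker z.2 * u z.1 := Lam_meas.ae_map_iff.2 h1
    rw [hcm] at h2
    exact (Measure.ae_ennreal_smul_measure_iff hc0).1 h2
  refine ⟨fun x => W (x, 0), ?_, ?_⟩
  · exact hWs.comp (contDiff_id.prodMk contDiff_const).contDiffOn fun x hx => ⟨hx, mem_univ _⟩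
  · rw [Measure.volume_eq_prod] at hae
    filter_upwards [Measure.ae_ae_of_ae_prod hae] with x hx hxU
    have hx' : ∀ᵐ s : ℝ × ℝ, W (x, s) = ker s * u x := by
      filter_upwards [hx] with s hs
      exact hs hxU
    have hc1 : Continuous fun s : ℝ × ℝ => W (x, s) :=
      hWs.continuousOn.comp_continuous (continuous_const.prodMk continuous_id)
        fun s => ⟨hxU, mem_univ _⟩
    have hc2 : Continuous fun s : ℝ × ℝ => ker s * u x := ker_cont.mul continuous_const
    have h3 := (hc1.ae_eq_iff_eq volume hc2).1 hx'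
    have h4 : W (x, 0) = ker 0 * u x := congrFun h3 0
    change W (x, 0) = u x
    rw [h4]
    simp [ker]

end Crest.Agent.R260.Reg_274
end
end

-- ▼ part R260/Reg5_274
section

/-!
# Row 260, K-REG (helper274), file 5: general form

`cgen` : `u ∈ L¹_loc(U; ℂ)`, for complex test functions
`∫ u * (Σ_i ∂_i (Σ_j a_ij ∂_j φ) - Σ_i ∂_i (b_i φ) + c φ) = ∫ F * φ`, `a` real symmetric positive
definite, `b`, `c`, `F` complex, everything smooth ==> `u` is smooth and solves
`Σ_i ∂_i (Σ_j a_ij ∂_j v) + Σ b_i ∂_i v + c v = F` on `U`.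
-/

set_option autoImplicit false
set_option linter.unusedSectionVars false
set_option linter.unusedVariables false
set_option linter.unusedSimpArgs false

open MeasureTheory Set Filter Topology
open scoped ContDiff Matrix
open Crest.GeometryTopology.CoordMetric Crest.Agent.R202.Ell

noncomputable section

namespace Crest.Agent.R260.Reg_274

variable {n : ℕ} {U : Set (EE n)}

theorem contDiffOn_inv_of' {h : EE n → Matrix (Fin n) (Fin n) ℝ}
    (hs : ∀ a b, ContDiffOn ℝ ∞ (fun y => h y a b) U) (hd : ∀ y ∈ U, (h y).det ≠ 0)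
    (a b : Fin n) : ContDiffOn ℝ ∞ (fun y => (h y)⁻¹ a b) U := by
  have h1 : ContDiffOn ℝ ∞ (fun y => (h y).det) U := by
    simp only [Matrix.det_apply]
    refine ContDiffOn.sum fun σ _ => ?_
    refine ContDiffOn.const_smul _ ?_
    exact contDiffOn_prod fun i _ => hs _ _
  have h2 : ContDiffOn ℝ ∞ (fun y => (h y).adjugate a b) U := by
    simp only [Matrix.adjugate_apply, Matrix.det_apply]
    refine ContDiffOn.sum fun σ _ => ?_
    refine ContDiffOn.const_smul _ ?_
    refine contDiffOn_prod fun i _ => ?_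
    by_cases hi : σ i = b
    · rw [hi]
      simp only [Matrix.updateRow_self]
      exact contDiffOn_const
    · simp only [Matrix.updateRow_ne hi]
      exact hs _ _
  have h3 : ∀ y ∈ U, (h y)⁻¹ a b = ((h y).det)⁻¹ * (h y).adjugate a b := by
    intro y hy
    rw [Matrix.inv_def, Matrix.smul_apply, Ring.inverse_eq_inv', smul_eq_mul]
  exact ((h1.inv hd).mul h2).congr h3

/-- general operator (transposed form) -/
def Pg (a : EE n → Matrix (Fin n) (Fin n) ℝ) (b : Fin n → EE n → ℂ) (c : EE n → ℂ)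
    (φ : EE n → ℂ) (x : EE n) : ℂ :=
  ∑ i, cd i (fun y => ∑ j, (a y i j : ℂ) * cd j φ y) x
    - ∑ i, cd i (fun y => b i y * φ y) x + c x * φ x

theorem cd_congr {f g : EE n → ℂ} {x : EE n} (h : f =ᶠ[𝓝 x] g) (i : Fin n) : cd i f x = cd i g x := by
  unfold cd; rw [h.fderiv_eq]

theorem cd_add {f g : EE n → ℂ} {x : EE n} (hf : DifferentiableAt ℝ f x)
    (hg : DifferentiableAt ℝ g x) (i : Fin n) :
    cd i (fun y => f y + g y) x = cd i f x + cd i g x := by
  unfold cd; rw [fderiv_fun_add hf hg]; rfl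

theorem cd_mul {f g : EE n → ℂ} {x : EE n} (hf : DifferentiableAt ℝ f x)
    (hg : DifferentiableAt ℝ g x) (i : Fin n) :
    cd i (fun y => f y * g y) x = f x * cd i g x + cd i f x * g x := by
  unfold cd
  rw [fderiv_fun_mul hf hg]
  simp only [_root_.add_apply, _root_.smul_apply, smul_eq_mul]
  ring

theorem cd_contDiffOn (hU : IsOpen U) {f : EE n → ℂ} (hf : ContDiffOn ℝ ∞ f U) (i : Fin n) :
    ContDiffOn ℝ ∞ (cd i f) U :=
  (hf.fderiv_of_isOpen hU (by simp)).clm_apply contDiffOn_const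

theorem cd_contDiff {f : EE n → ℂ} (hf : ContDiff ℝ ∞ f) (i : Fin n) :
    ContDiff ℝ ∞ (cd i f) := (hf.fderiv_right (by simp)).clm_apply contDiff_const

theorem cd_tsupport (f : EE n → ℂ) (i : Fin n) : tsupport (cd i f) ⊆ tsupport f :=
  tsupport_fderiv_apply_subset ℝ (EuclideanSpace.single i (1 : ℝ))

section alg

variable (a : EE n → Matrix (Fin n) (Fin n) ℝ) (b : Fin n → EE n → ℂ) (c : EE n → ℂ)

/-- the covector `-(1/2) a⁻¹ b` -/
def kq (x : EE n) (i : Fin n) : ℂ := -(1 / 2) * ∑ j, (((a x)⁻¹ i j : ℝ) : ℂ) * b j x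

/-- the zeroth order coefficient -/
def dq (x : EE n) : ℂ := c x - (1 / 2) * ∑ i, cd i (b i) x + (1 / 2) * ∑ i, kq a b x i * b i x

variable {a b c}

theorem a_kq {x : EE n} (hdet : (a x).det ≠ 0) (i : Fin n) :
    ∑ j, (a x i j : ℂ) * kq a b x j = -(1 / 2) * b i x := by
  have h1 : a x * (a x)⁻¹ = 1 := Matrix.mul_nonsing_inv _ (isUnit_iff_ne_zero.2 hdet)
  have h2 : ∀ k, ∑ j, (a x i j : ℂ) * (((a x)⁻¹ j k : ℝ) : ℂ) = if i = k then 1 else 0 := by
    intro k
    have := congrFun (congrFun h1 i) k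
    rw [Matrix.mul_apply, Matrix.one_apply] at this
    have h3 := congrArg (fun t : ℝ => (t : ℂ)) this
    simp only [Complex.ofReal_sum, Complex.ofReal_mul] at h3
    rw [h3]
    split_ifs <;> simp
  unfold kq
  have h4 : ∑ j, (a x i j : ℂ) * (-(1 / 2) * ∑ k, (((a x)⁻¹ j k : ℝ) : ℂ) * b k x) =
      -(1 / 2) * ∑ k, (∑ j, (a x i j : ℂ) * (((a x)⁻¹ j k : ℝ) : ℂ)) * b k x := by
    simp only [Finset.mul_sum, Finset.sum_mul]
    rw [Finset.sum_comm]
    refine Finset.sum_congr rfl fun k _ => Finset.sum_congr rfl fun j _ => ?_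
    ring
  rw [h4]
  simp only [h2, ite_mul, one_mul, zero_mul, Finset.sum_ite_eq, Finset.mem_univ, if_true]

theorem Lc_eq_Pg (hU : IsOpen U) (ha : ∀ i j, ContDiffOn ℝ ∞ (fun x => a x i j) U)
    (hpos : ∀ x ∈ U, (a x).PosDef) (hb : ∀ i, ContDiffOn ℝ ∞ (b i) U)
    {φ : EE n → ℂ} (hφ : ContDiff ℝ ∞ φ) {x : EE n} (hx : x ∈ U) :
    Lc a (kq a b) (dq a b c) φ x = Pg a b c φ x := by
  have hdet : ∀ y ∈ U, (a y).det ≠ 0 := fun y hy => (hpos y hy).det_pos.ne'
  have hnx := hU.mem_nhds hx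
  have hφd : DifferentiableAt ℝ φ x := (hφ.differentiable (by simp)).differentiableAt
  have hbd : ∀ i, DifferentiableAt ℝ (b i) x := fun i =>
    ((hb i).contDiffAt hnx).differentiableAt (by simp)
  have had : ∀ i j, DifferentiableAt ℝ (fun y => (a y i j : ℂ)) x := fun i j =>
    (Complex.ofRealCLM.differentiableAt).comp x
      (((ha i j).contDiffAt hnx).differentiableAt (by simp))
  have hcd : ∀ j, DifferentiableAt ℝ (cd j φ) x := fun j =>
    ((cd_contDiff hφ j).differentiable (by simp)).differentiableAt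
  -- inner function
  have h1 : ∀ i, (fun y => ∑ j, (a y i j : ℂ) * (cd j φ y + kq a b y j * φ y)) =ᶠ[𝓝 x]
      fun y => (∑ j, (a y i j : ℂ) * cd j φ y) + (-(1 / 2)) * (b i y * φ y) := by
    intro i
    filter_upwards [hnx] with y hy
    simp only [mul_add, Finset.sum_add_distrib]
    congr 1
    have := a_kq (b := b) (hdet y hy) i
    calc ∑ j, (a y i j : ℂ) * (kq a b y j * φ y)
        = (∑ j, (a y i j : ℂ) * kq a b y j) * φ y := by
          rw [Finset.sum_mul]; exact Finset.sum_congr rfl fun j _ => by ring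
      _ = _ := by rw [this]; ring
  have hs : ∀ i, DifferentiableAt ℝ (fun y => ∑ j, (a y i j : ℂ) * cd j φ y) x := fun i =>
    DifferentiableAt.fun_sum fun j _ => (had i j).mul (hcd j)
  have hbφ : ∀ i, DifferentiableAt ℝ (fun y => b i y * φ y) x := fun i => (hbd i).mul hφd
  have h2 : ∀ i, cd i (fun y => ∑ j, (a y i j : ℂ) * (cd j φ y + kq a b y j * φ y)) x =
      cd i (fun y => ∑ j, (a y i j : ℂ) * cd j φ y) x +
        (-(1 / 2)) * (b i x * cd i φ x + cd i (b i) x * φ x) := by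
    intro i
    rw [cd_congr (h1 i), cd_add (hs i) ((hbφ i).const_mul _)]
    congr 1
    rw [cd_mul (differentiableAt_const _) (hbφ i), cd_mul (hbd i) hφd]
    unfold cd
    simp
  have hsym : ∀ i j, a x i j = a x j i := fun i j => by
    have := congrFun (congrFun (hpos x hx).1 j) i
    simpa [Matrix.conjTranspose_apply] using this
  have h3 : ∑ i, kq a b x i * ∑ j, (a x i j : ℂ) * (cd j φ x + kq a b x j * φ x) =
      (-(1 / 2)) * ∑ j, b j x * cd j φ x + (-(1 / 2)) * (∑ i, kq a b x i * b i x) * φ x := by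
    have e1 : ∀ i, kq a b x i * ∑ j, (a x i j : ℂ) * (cd j φ x + kq a b x j * φ x) =
        (∑ j, (a x j i : ℂ) * kq a b x i * cd j φ x) +
          kq a b x i * (∑ j, (a x i j : ℂ) * kq a b x j) * φ x := by
      intro i
      simp only [mul_add, Finset.mul_sum, Finset.sum_mul, Finset.sum_add_distrib]
      congr 1
      · refine Finset.sum_congr rfl fun j _ => ?_
        rw [hsym i j]; ring
      · refine Finset.sum_congr rfl fun j _ => ?_
        ring
    simp only [e1, Finset.sum_add_distrib]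
    congr 1
    · rw [Finset.sum_comm, Finset.mul_sum]
      refine Finset.sum_congr rfl fun j _ => ?_
      rw [← Finset.sum_mul, a_kq (hdet x hx) j]
      ring
    · rw [Finset.mul_sum, Finset.sum_mul]
      refine Finset.sum_congr rfl fun i _ => ?_
      rw [a_kq (hdet x hx) i]
      ring
  unfold Lc Pg
  rw [h3]
  simp only [h2]
  have h4 : ∀ i, cd i (fun y => b i y * φ y) x = b i x * cd i φ x + cd i (b i) x * φ x :=
    fun i => cd_mul (hbd i) hφd i
  simp only [h4]
  unfold dq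
  rw [Finset.sum_add_distrib, ← Finset.mul_sum, Finset.sum_add_distrib, ← Finset.sum_mul]
  ring

theorem Lc_eq_Pg' (hU : IsOpen U) (ha : ∀ i j, ContDiffOn ℝ ∞ (fun x => a x i j) U)
    (hpos : ∀ x ∈ U, (a x).PosDef) (hb : ∀ i, ContDiffOn ℝ ∞ (b i) U)
    {φ : EE n → ℂ} (hφ : ContDiff ℝ ∞ φ) (hs : tsupport φ ⊆ U) (x : EE n) :
    Lc a (kq a b) (dq a b c) φ x = Pg a b c φ x := by
  by_cases hx : x ∈ U
  · exact Lc_eq_Pg hU ha hpos hb hφ hx
  · have hx' : x ∉ tsupport φ := fun h => hx (hs h)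
    have hev : φ =ᶠ[𝓝 x] fun _ => 0 := by
      filter_upwards [(isClosed_tsupport φ).isOpen_compl.mem_nhds hx'] with y hy
      exact image_eq_zero_of_notMem_tsupport hy
    have hev2 : ∀ᶠ y in 𝓝 x, φ =ᶠ[𝓝 y] fun _ => 0 := hev.eventuallyEq_nhds
    have h0 : φ x = 0 := hev.self_of_nhds
    have hcz : ∀ᶠ y in 𝓝 x, ∀ j, cd j φ y = 0 := by
      filter_upwards [hev2] with y hy j
      rw [cd_congr hy]
      unfold cd
      simp
    have c0 : ∀ j, cd j φ x = 0 := hcz.self_of_nhds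
    have z : ∀ i, cd i (fun _ : EE n => (0 : ℂ)) x = 0 := fun i => by unfold cd; simp
    unfold Lc Pg
    have e1 : ∀ i, cd i (fun y => ∑ j, (a y i j : ℂ) * (cd j φ y + kq a b y j * φ y)) x = 0 := by
      intro i
      rw [← z i]
      apply cd_congr
      filter_upwards [hcz, hev] with y hy1 hy2
      simp [hy1, hy2]
    have e2 : ∀ i, cd i (fun y => ∑ j, (a y i j : ℂ) * cd j φ y) x = 0 := by
      intro i
      rw [← z i]
      apply cd_congr
      filter_upwards [hcz] with y hy1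
      simp [hy1]
    have e3 : ∀ i, cd i (fun y => b i y * φ y) x = 0 := by
      intro i
      rw [← z i]
      apply cd_congr
      filter_upwards [hev] with y hy1
      simp [hy1]
    simp [e1, e2, e3, h0, c0]

end alg

/-- integration by parts against a function smooth near the support -/
theorem cd_parts (hU : IsOpen U) {v : EE n → ℂ} (hv : ContDiffOn ℝ ∞ v U) {g : EE n → ℂ}
    (hg : ContDiff ℝ ∞ g) (hc : HasCompactSupport g) (hs : tsupport g ⊆ U) (i : Fin n) :
    ∫ x, v x * cd i g x = - ∫ x, cd i v x * g x := by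
  have key : ∀ {p q : EE n → ℂ}, ContinuousOn p U → Continuous q → tsupport q ⊆ tsupport g →
      Integrable fun x => p x * q x := by
    intro p q hp hq hqs
    have h1 : IntegrableOn p (tsupport g) :=
      (hp.mono hs).integrableOn_compact hc
    have h2 := h1.mul_continuousOn hq.continuousOn hc
    exact (integrableOn_iff_integrable_of_support_subset fun z hz => by
      apply hqs
      apply subset_tsupport q
      intro h0
      apply hz
      simp [h0]).1 h2
  exact integral_mul_fderiv_eq_neg_fderiv_mul_of_integrable (μ := volume) (f := v) (g := g)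
    (v := EuclideanSpace.single i (1 : ℝ))
    (key (cd_contDiffOn hU hv i).continuousOn hg.continuous subset_rfl)
    (key hv.continuousOn (cd_contDiff hg i).continuous (cd_tsupport g i))
    (key hv.continuousOn hg.continuous subset_rfl)
    (fun x hx => (hv.contDiffAt (hU.mem_nhds (hs hx))).differentiableAt (by simp))
    (fun x _ => (hg.differentiable (by simp)).differentiableAt)

theorem mul_test (hU : IsOpen U) {p : EE n → ℂ} (hp : ContDiffOn ℝ ∞ p U) {q : EE n → ℂ}
    (hq : ContDiff ℝ ∞ q) (hs : tsupport q ⊆ U) : ContDiff ℝ ∞ fun x => p x * q x := by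
  rw [contDiff_iff_contDiffAt]
  intro x
  by_cases hx : x ∈ U
  · exact (hp.contDiffAt (hU.mem_nhds hx)).mul hq.contDiffAt
  · have hx' : x ∉ tsupport q := fun h => hx (hs h)
    have : (fun x => p x * q x) =ᶠ[𝓝 x] fun _ => 0 := by
      filter_upwards [(isClosed_tsupport q).isOpen_compl.mem_nhds hx'] with y hy
      rw [image_eq_zero_of_notMem_tsupport hy, mul_zero]
    exact contDiffAt_const.congr_of_eventuallyEq this

theorem integrable_test (hU : IsOpen U) {p q : EE n → ℂ} (hp : ContinuousOn p U)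
    (hq : Continuous q) (hc : HasCompactSupport q) (hs : tsupport q ⊆ U) :
    Integrable fun x => p x * q x := by
  have h1 : IntegrableOn p (tsupport q) := (hp.mono hs).integrableOn_compact hc
  have h2 := h1.mul_continuousOn hq.continuousOn hc
  exact (integrableOn_iff_integrable_of_support_subset fun z hz => by
    apply subset_tsupport q
    intro h0
    apply hz
    simp [h0]).1 h2

/-- pointwise form of a weak equation for a smooth function -/
theorem weak_pointwise (hU : IsOpen U) {a : EE n → Matrix (Fin n) (Fin n) ℝ}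
    {b : Fin n → EE n → ℂ} {c F : EE n → ℂ}
    (ha : ∀ i j, ContDiffOn ℝ ∞ (fun x => a x i j) U) (hsym : ∀ x ∈ U, ∀ i j, a x i j = a x j i)
    (hb : ∀ i, ContDiffOn ℝ ∞ (b i) U)
    (hc : ContDiffOn ℝ ∞ c U) (hF : ContDiffOn ℝ ∞ F U) {v : EE n → ℂ} (hv : ContDiffOn ℝ ∞ v U)
    (h : ∀ φ : EE n → ℂ, ContDiff ℝ ∞ φ → HasCompactSupport φ → tsupport φ ⊆ U →
      ∫ x, v x * Pg a b c φ x = ∫ x, F x * φ x) :
    ∀ x ∈ U, ∑ i, cd i (fun y => ∑ j, (a y i j : ℂ) * cd j v y) x + ∑ i, b i x * cd i v x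
      + c x * v x = F x := by
  have hac : ∀ i j, ContDiffOn ℝ ∞ (fun x => (a x i j : ℂ)) U := fun i j =>
    Complex.ofRealCLM.contDiff.comp_contDiffOn (ha i j)
  set g : EE n → ℂ := fun x => ∑ i, cd i (fun y => ∑ j, (a y i j : ℂ) * cd j v y) x
    + ∑ i, b i x * cd i v x + c x * v x with hg
  have hflux : ∀ i, ContDiffOn ℝ ∞ (fun y => ∑ j, (a y i j : ℂ) * cd j v y) U := fun i =>
    ContDiffOn.sum fun j _ => (hac i j).mul (cd_contDiffOn hU hv j)
  have hgs : ContDiffOn ℝ ∞ g U :=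
    ((ContDiffOn.sum fun i _ => cd_contDiffOn hU (hflux i) i).add
      (ContDiffOn.sum fun i _ => (hb i).mul (cd_contDiffOn hU hv i))).add (hc.mul hv)
  have key : ∀ φ : EE n → ℂ, ContDiff ℝ ∞ φ → HasCompactSupport φ → tsupport φ ⊆ U →
      ∫ x, v x * Pg a b c φ x = ∫ x, g x * φ x := by
    intro φ hφ hφc hφs
    have sA : ∀ i, ContDiff ℝ ∞ fun y => ∑ j, (a y i j : ℂ) * cd j φ y := fun i =>
      ContDiff.sum fun j _ => mul_test hU (hac i j) (cd_contDiff hφ j)
        ((cd_tsupport φ j).trans hφs)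
    have tA : ∀ i, tsupport (fun y => ∑ j, (a y i j : ℂ) * cd j φ y) ⊆ tsupport φ := by
      intro i
      refine closure_minimal ?_ (isClosed_tsupport _)
      intro y hy
      by_contra h'
      apply hy
      refine Finset.sum_eq_zero fun j _ => ?_
      rw [image_eq_zero_of_notMem_tsupport fun h'' => h' (cd_tsupport φ j h''), mul_zero]
    have cA : ∀ i, HasCompactSupport (fun y => ∑ j, (a y i j : ℂ) * cd j φ y) := fun i =>
      hφc.of_isClosed_subset (isClosed_tsupport _) (tA i)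
    have sB : ∀ i, ContDiff ℝ ∞ fun y => b i y * φ y := fun i => mul_test hU (hb i) hφ hφs
    have tB : ∀ i, tsupport (fun y => b i y * φ y) ⊆ tsupport φ := fun i =>
      tsupport_mul_subset_right
    have cB : ∀ i, HasCompactSupport (fun y => b i y * φ y) := fun i => hφc.mul_left
    have i1 : ∀ i, Integrable fun x => v x * cd i (fun y => ∑ j, (a y i j : ℂ) * cd j φ y) x :=
      fun i => integrable_test hU hv.continuousOn (cd_contDiff (sA i) i).continuous
        ((cA i).of_isClosed_subset (isClosed_tsupport _) (cd_tsupport _ i))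
        ((cd_tsupport _ i).trans ((tA i).trans hφs))
    have i2 : ∀ i, Integrable fun x => v x * cd i (fun y => b i y * φ y) x :=
      fun i => integrable_test hU hv.continuousOn (cd_contDiff (sB i) i).continuous
        ((cB i).of_isClosed_subset (isClosed_tsupport _) (cd_tsupport _ i))
        ((cd_tsupport _ i).trans ((tB i).trans hφs))
    have i3 : Integrable fun x => v x * (c x * φ x) :=
      integrable_test hU hv.continuousOn (mul_test hU hc hφ hφs).continuous
        hφc.mul_left (tsupport_mul_subset_right.trans hφs)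
    have l1 : ∫ x, v x * Pg a b c φ x =
        (∑ i, ∫ x, v x * cd i (fun y => ∑ j, (a y i j : ℂ) * cd j φ y) x)
        - (∑ i, ∫ x, v x * cd i (fun y => b i y * φ y) x) + ∫ x, v x * (c x * φ x) := by
      have e : ∀ x, v x * Pg a b c φ x =
          (∑ i, v x * cd i (fun y => ∑ j, (a y i j : ℂ) * cd j φ y) x)
          - (∑ i, v x * cd i (fun y => b i y * φ y) x) + v x * (c x * φ x) := by
        intro x
        unfold Pg
        rw [← Finset.mul_sum, ← Finset.mul_sum]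
        ring
      simp only [e]
      have A1 : Integrable fun x =>
          ∑ i, v x * cd i (fun y => ∑ j, (a y i j : ℂ) * cd j φ y) x :=
        integrable_finsetSum _ fun i _ => i1 i
      have A2 : Integrable fun x => ∑ i, v x * cd i (fun y => b i y * φ y) x :=
        integrable_finsetSum _ fun i _ => i2 i
      have A3 : Integrable fun x =>
          (∑ i, v x * cd i (fun y => ∑ j, (a y i j : ℂ) * cd j φ y) x) -
            ∑ i, v x * cd i (fun y => b i y * φ y) x := A1.sub A2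
      rw [integral_add A3 i3, integral_sub A1 A2,
        integral_finsetSum _ fun i _ => i1 i, integral_finsetSum _ fun i _ => i2 i]
    -- first term
    have l2 : (∑ i, ∫ x, v x * cd i (fun y => ∑ j, (a y i j : ℂ) * cd j φ y) x) =
        ∑ i, ∫ x, cd i (fun y => ∑ j, (a y i j : ℂ) * cd j v y) x * φ x := by
      have e1 : ∀ i, ∫ x, v x * cd i (fun y => ∑ j, (a y i j : ℂ) * cd j φ y) x =
          - ∑ j, ∫ x, cd i v x * ((a x i j : ℂ) * cd j φ x) := by
        intro i
        rw [cd_parts hU hv (sA i) (cA i) ((tA i).trans hφs)]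
        congr 1
        rw [← integral_finsetSum]
        · refine integral_congr_ae (Eventually.of_forall fun x => ?_)
          simp only [Finset.mul_sum]
        · intro j _
          exact integrable_test hU (cd_contDiffOn hU hv i).continuousOn
            (mul_test hU (hac i j) (cd_contDiff hφ j) ((cd_tsupport φ j).trans hφs)).continuous
            (HasCompactSupport.mul_left (hφc.of_isClosed_subset (isClosed_tsupport _)
              (cd_tsupport φ j) : HasCompactSupport (cd j φ)))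
            (tsupport_mul_subset_right.trans ((cd_tsupport φ j).trans hφs))
      have e2 : ∀ j, ∫ x, cd j (fun y => ∑ i, (a y j i : ℂ) * cd i v y) x * φ x =
          - ∑ i, ∫ x, cd i v x * ((a x i j : ℂ) * cd j φ x) := by
        intro j
        have := cd_parts hU (hflux j) hφ hφc hφs j
        rw [eq_comm, neg_eq_iff_eq_neg] at this
        rw [this]
        congr 1
        rw [← integral_finsetSum]
        · refine integral_congr_ae (Eventually.of_forall fun x => ?_)
          simp only [Finset.sum_mul]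
          by_cases hx : x ∈ U
          · refine Finset.sum_congr rfl fun i _ => ?_
            rw [hsym x hx j i]; ring
          · have : cd j φ x = 0 := image_eq_zero_of_notMem_tsupport fun h' =>
              hx (hφs (cd_tsupport φ j h'))
            simp [this]
        · intro i _
          exact integrable_test hU (cd_contDiffOn hU hv i).continuousOn
            (mul_test hU (hac i j) (cd_contDiff hφ j) ((cd_tsupport φ j).trans hφs)).continuous
            (HasCompactSupport.mul_left (hφc.of_isClosed_subset (isClosed_tsupport _)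
              (cd_tsupport φ j) : HasCompactSupport (cd j φ)))
            (tsupport_mul_subset_right.trans ((cd_tsupport φ j).trans hφs))
      simp only [e1, e2, Finset.sum_neg_distrib]
      rw [Finset.sum_comm]
    have l3 : (∑ i, ∫ x, v x * cd i (fun y => b i y * φ y) x) =
        - ∑ i, ∫ x, (b i x * cd i v x) * φ x := by
      rw [← Finset.sum_neg_distrib]
      refine Finset.sum_congr rfl fun i _ => ?_
      rw [cd_parts hU hv (sB i) (cB i) ((tB i).trans hφs)]
      congr 1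
      refine integral_congr_ae (Eventually.of_forall fun x => ?_)
      simp only
      ring
    rw [l1, l2, l3, sub_neg_eq_add]
    have j1 : ∀ i, Integrable fun x =>
        cd i (fun y => ∑ j, (a y i j : ℂ) * cd j v y) x * φ x := fun i =>
      integrable_test hU (cd_contDiffOn hU (hflux i) i).continuousOn hφ.continuous hφc hφs
    have j2 : ∀ i, Integrable fun x => (b i x * cd i v x) * φ x := fun i =>
      integrable_test hU ((hb i).mul (cd_contDiffOn hU hv i)).continuousOn hφ.continuous hφc hφs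
    have A1 : Integrable fun x =>
        ∑ i, cd i (fun y => ∑ j, (a y i j : ℂ) * cd j v y) x * φ x :=
      integrable_finsetSum _ fun i _ => j1 i
    have A2 : Integrable fun x => ∑ i, (b i x * cd i v x) * φ x :=
      integrable_finsetSum _ fun i _ => j2 i
    have A3 : Integrable fun x =>
        (∑ i, cd i (fun y => ∑ j, (a y i j : ℂ) * cd j v y) x * φ x) +
          ∑ i, (b i x * cd i v x) * φ x := A1.add A2
    rw [← integral_finsetSum _ fun i _ => j1 i, ← integral_finsetSum _ fun i _ => j2 i,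
      ← integral_add A1 A2, ← integral_add A3 i3]
    refine integral_congr_ae (Eventually.of_forall fun x => ?_)
    simp only [hg, add_mul, Finset.sum_mul]
    ring
  have hd : ContinuousOn (fun x => g x - F x) U := hgs.continuousOn.sub hF.continuousOn
  have hae := hU.ae_eq_zero_of_integral_contDiff_smul_eq_zero (μ := volume)
    (f := fun x => g x - F x) (hd.locallyIntegrableOn hU.measurableSet) (by
      intro ψ hψ hψc hψs
      set φ : EE n → ℂ := fun x => (ψ x : ℂ) with hφ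
      have h1 : ContDiff ℝ ∞ φ := Complex.ofRealCLM.contDiff.comp hψ
      have h2 : HasCompactSupport φ := hψc.comp_left (g := fun t : ℝ => (t : ℂ)) rfl
      have h3 : tsupport φ ⊆ U := by
        refine (closure_mono ?_).trans hψs
        intro x hx h0
        apply hx
        simp [hφ, h0]
      have h4 := key φ h1 h2 h3
      rw [h φ h1 h2 h3] at h4
      have i1 := integrable_test hU hgs.continuousOn h1.continuous h2 h3
      have i2 := integrable_test hU hF.continuousOn h1.continuous h2 h3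
      have h5 : ∫ x, ψ x • (g x - F x) = ∫ x, (g x * φ x - F x * φ x) := by
        refine integral_congr_ae (Eventually.of_forall fun x => ?_)
        simp only [hφ, Complex.real_smul]
        ring
      rw [h5, integral_sub i1 i2, ← h4, sub_self])
  have hzero : EqOn (fun x => g x - F x) (fun _ => 0) U := by
    refine Measure.eqOn_open_of_ae_eq (μ := volume) ?_ hU hd continuousOn_const
    rw [EventuallyEq, ae_restrict_iff' hU.measurableSet]
    exact hae
  intro x hx
  exact sub_eq_zero.1 (hzero hx)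

/-- **Regularity, general form.** -/
theorem cgen (hU : IsOpen U) {a : EE n → Matrix (Fin n) (Fin n) ℝ}
    {b : Fin n → EE n → ℂ} {c F : EE n → ℂ}
    (ha : ∀ i j, ContDiffOn ℝ ∞ (fun x => a x i j) U) (hpos : ∀ x ∈ U, (a x).PosDef)
    (hb : ∀ i, ContDiffOn ℝ ∞ (b i) U) (hc : ContDiffOn ℝ ∞ c U) (hF : ContDiffOn ℝ ∞ F U)
    {u : EE n → ℂ} (hu : LocallyIntegrableOn u U)
    (h : ∀ φ : EE n → ℂ, ContDiff ℝ ∞ φ → HasCompactSupport φ → tsupport φ ⊆ U →
      ∫ x, u x * Pg a b c φ x = ∫ x, F x * φ x) :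
    ∃ v : EE n → ℂ, ContDiffOn ℝ ∞ v U ∧ (∀ᵐ x, x ∈ U → v x = u x) ∧
      ∀ x ∈ U, ∑ i, cd i (fun y => ∑ j, (a y i j : ℂ) * cd j v y) x + ∑ i, b i x * cd i v x
        + c x * v x = F x := by
  have hdet : ∀ y ∈ U, (a y).det ≠ 0 := fun y hy => (hpos y hy).det_pos.ne'
  have hk : ∀ i, ContDiffOn ℝ ∞ (fun x => kq a b x i) U := fun i =>
    contDiffOn_const.mul (ContDiffOn.sum fun j _ =>
      (Complex.ofRealCLM.contDiff.comp_contDiffOn (contDiffOn_inv_of' ha hdet i j)).mul (hb j))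
  have hd : ContDiffOn ℝ ∞ (dq a b c) U :=
    (hc.sub (contDiffOn_const.mul (ContDiffOn.sum fun i _ => cd_contDiffOn hU (hb i) i))).add
      (contDiffOn_const.mul (ContDiffOn.sum fun i _ => (hk i).mul (hb i)))
  obtain ⟨v, hv, hvu⟩ := reg hU ha hpos hk hd hF hu (fun φ hφ hφc hφs => by
    rw [← h φ hφ hφc hφs]
    refine integral_congr_ae (Eventually.of_forall fun x => ?_)
    simp only [Lc_eq_Pg' hU ha hpos hb hφ hφs x])
  refine ⟨v, hv, hvu, ?_⟩
  have hsym : ∀ x ∈ U, ∀ i j, a x i j = a x j i := fun x hx i j => by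
    have := congrFun (congrFun (hpos x hx).1 j) i
    simpa [Matrix.conjTranspose_apply] using this
  refine weak_pointwise hU ha hsym hb hc hF hv fun φ hφ hφc hφs => ?_
  rw [← h φ hφ hφc hφs]
  refine integral_congr_ae ?_
  filter_upwards [hvu] with x hx
  by_cases hxU : x ∈ U
  · rw [hx hxU]
  · have : Pg a b c φ x = 0 := by
      rw [← Lc_eq_Pg' (c := c) hU ha hpos hb hφ hφs x]
      have hx' : x ∉ tsupport φ := fun h => hxU (hφs h)
      have hev : φ =ᶠ[𝓝 x] fun _ => 0 := by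
        filter_upwards [(isClosed_tsupport φ).isOpen_compl.mem_nhds hx'] with y hy
        exact image_eq_zero_of_notMem_tsupport hy
      have hcz : ∀ᶠ y in 𝓝 x, ∀ j, cd j φ y = 0 := by
        filter_upwards [hev.eventuallyEq_nhds] with y hy j
        rw [cd_congr hy]
        unfold cd
        simp
      have z : ∀ i, cd i (fun _ : EE n => (0 : ℂ)) x = 0 := fun i => by unfold cd; simp
      have e1 : ∀ i, cd i (fun y => ∑ j, (a y i j : ℂ) * (cd j φ y + kq a b y j * φ y)) x = 0 := by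
        intro i
        rw [← z i]
        apply cd_congr
        filter_upwards [hcz, hev] with y hy1 hy2
        simp [hy1, hy2]
      have h0 : φ x = 0 := hev.self_of_nhds
      have c0 : ∀ j, cd j φ x = 0 := hcz.self_of_nhds
      unfold Lc
      simp [e1, h0, c0]
    rw [this]
    simp

end Crest.Agent.R260.Reg_274
end
end

-- ▼ part R260/NNR3_597
section

/-!
# Row 260 (helper597), NN-R, file 3: `(R')` of 900's plan

`regP` : for an elliptic family `S` of complex vector fields on `Ω ⊆ ℝ^N` and a positive smooth weight `w`,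
every very weak `L¹_loc` solution of `∫ u * QQ w κ = 0` (all complex test functions `κ`) is smooth.
-/

set_option autoImplicit false
set_option linter.unusedSectionVars false

noncomputable section

open scoped BigOperators ContDiff
open MeasureTheory Set Filter Topology
open Crest.Agent.R260.Reg_274 (EE Pg cgen cd_congr cd_contDiffOn cd_contDiff cd_tsupport)
open Crest.Agent.R260.NN0_900 (TestC Fam dvg)

namespace Crest.Agent.R260.NNR_597

variable {N : ℕ}

/-- complex partial derivative (Reg_274) -/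
local notation "∂c" => Crest.Agent.R260.Reg_274.cd

theorem cd_sum' {κ : Type*} (s : Finset κ) {F : κ → EE N → ℂ} (a : Fin N) {x : EE N}
    (h : ∀ i ∈ s, DifferentiableAt ℝ (F i) x) :
    ∂c a (fun y => ∑ i ∈ s, F i y) x = ∑ i ∈ s, ∂c a (F i) x := by
  unfold Reg_274.cd
  rw [fderiv_fun_sum h]
  simp

theorem cd_const_mul' {F : EE N → ℂ} (a : Fin N) {x : EE N} (r : ℂ)
    (h : DifferentiableAt ℝ F x) : ∂c a (fun y => r * F y) x = r * ∂c a F x := by
  unfold Reg_274.cd
  rw [fderiv_const_mul h]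
  rfl

theorem cd_comm {F : EE N → ℂ} (hF : ContDiff ℝ ∞ F) (a b : Fin N) (x : EE N) :
    ∂c a (∂c b F) x = ∂c b (∂c a F) x := by
  have h2 : ContDiff ℝ 2 F := hF.of_le (WithTop.coe_le_coe.2 (le_top : (2 : ℕ∞) ≤ ⊤))
  have hs : IsSymmSndFDerivAt ℝ F x := (h2.contDiffAt).isSymmSndFDerivAt (by simp)
  have hd : DifferentiableAt ℝ (fderiv ℝ F) x :=
    ((h2.fderiv_right (m := 1) (by norm_num)).differentiable (by simp)) x
  have e : ∀ c d : Fin N, ∂c c (∂c d F) x =
      fderiv ℝ (fderiv ℝ F) x (EuclideanSpace.single c 1) (EuclideanSpace.single d 1) := by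
    intro c d
    unfold Reg_274.cd
    rw [fderiv_clm_apply hd (differentiableAt_const _)]
    simp
  rw [e a b, e b a]
  exact hs.eq _ _

theorem clm_coord (L : EE N →L[ℝ] ℂ) (v : EE N) :
    L v = ∑ a, (v a : ℂ) * L (EuclideanSpace.single a 1) := by
  have h := (EuclideanSpace.basisFun (Fin N) ℝ).sum_repr v
  conv_lhs => rw [← h]
  rw [map_sum]
  refine Finset.sum_congr rfl fun a _ => ?_
  rw [map_smul, Complex.real_smul]
  simp

theorem fderiv_coord (f : EE N → ℂ) (x v : EE N) :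
    fderiv ℝ f x v = ∑ a, (v a : ℂ) * ∂c a f x := clm_coord _ _

theorem dvg_coord {X : EE N → EE N} {x : EE N} (h : DifferentiableAt ℝ X x) :
    ((dvg X x : ℝ) : ℂ) = ∑ a, ∂c a (fun y => ((X y a : ℝ) : ℂ)) x := by
  unfold dvg
  rw [LinearMap.trace_eq_sum_inner _ (EuclideanSpace.basisFun (Fin N) ℝ), Complex.ofReal_sum]
  refine Finset.sum_congr rfl fun a _ => ?_
  have h1 : HasFDerivAt (fun y => ((X y a : ℝ) : ℂ))
      (Complex.ofRealCLM.comp ((EuclideanSpace.proj a : EE N →L[ℝ] ℝ).comp (fderiv ℝ X x))) x := by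
    have h2 : HasFDerivAt (fun y => (EuclideanSpace.proj a : EE N →L[ℝ] ℝ) (X y))
        ((EuclideanSpace.proj a : EE N →L[ℝ] ℝ).comp (fderiv ℝ X x)) x :=
      (EuclideanSpace.proj a : EE N →L[ℝ] ℝ).hasFDerivAt.comp x h.hasFDerivAt
    exact Complex.ofRealCLM.hasFDerivAt.comp x h2
  unfold Reg_274.cd
  rw [h1.fderiv]
  simp [PiLp.inner_apply]

variable {ι : Type*} [Fintype ι] (S : Fam ι (EE N))

/-- coefficients of `X_j` -/
def cX (j : ι) (a : Fin N) (x : EE N) : ℂ := (S.A j x a : ℂ) + Complex.I * (S.B j x a : ℂ)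

/-- coefficients of `Y_j` -/
def cY (j : ι) (a : Fin N) (x : EE N) : ℂ := (S.A j x a : ℂ) - Complex.I * (S.B j x a : ℂ)

theorem X_coord (j : ι) (f : EE N → ℂ) (x : EE N) : S.X j f x = ∑ a, cX S j a x * ∂c a f x := by
  unfold Fam.X NN0_900.cd cX
  rw [fderiv_coord f x (S.A j x), fderiv_coord f x (S.B j x), Finset.mul_sum,
    ← Finset.sum_add_distrib]
  exact Finset.sum_congr rfl fun a _ => by ring

theorem Y_coord (j : ι) (f : EE N → ℂ) (x : EE N) : S.Y j f x = ∑ a, cY S j a x * ∂c a f x := by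
  unfold Fam.Y NN0_900.cd cY
  rw [fderiv_coord f x (S.A j x), fderiv_coord f x (- S.B j x), Finset.mul_sum,
    ← Finset.sum_add_distrib]
  refine Finset.sum_congr rfl fun a _ => ?_
  rw [PiLp.neg_apply]
  push_cast
  ring

variable {S} {Ω : Set (EE N)}

theorem smooth_coordA (hS : S.Sm Ω) (j : ι) (a : Fin N) :
    ContDiffOn ℝ ∞ (fun x => (S.A j x a : ℝ)) Ω := contDiffOn_euclidean.1 (hS.A j) a

theorem smooth_coordB (hS : S.Sm Ω) (j : ι) (a : Fin N) :
    ContDiffOn ℝ ∞ (fun x => (S.B j x a : ℝ)) Ω := contDiffOn_euclidean.1 (hS.B j) a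

theorem smooth_cX (hS : S.Sm Ω) (j : ι) (a : Fin N) : ContDiffOn ℝ ∞ (cX S j a) Ω :=
  (Complex.ofRealCLM.contDiff.comp_contDiffOn (smooth_coordA hS j a)).add
    (contDiffOn_const.mul (Complex.ofRealCLM.contDiff.comp_contDiffOn (smooth_coordB hS j a)))


theorem dAt {f : EE N → ℂ} (hΩ : IsOpen Ω) (hf : ContDiffOn ℝ ∞ f Ω) {x : EE N} (hx : x ∈ Ω) :
    DifferentiableAt ℝ f x := (hf.contDiffAt (hΩ.mem_nhds hx)).differentiableAt (by simp)

theorem dX_coord (hΩ : IsOpen Ω) (hS : S.Sm Ω) (j : ι) {x : EE N} (hx : x ∈ Ω) :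
    S.dX j x = ∑ a, ∂c a (cX S j a) x := by
  unfold Fam.dX
  have hA : DifferentiableAt ℝ (S.A j) x :=
    ((hS.A j).contDiffAt (hΩ.mem_nhds hx)).differentiableAt (by simp)
  have hB : DifferentiableAt ℝ (S.B j) x :=
    ((hS.B j).contDiffAt (hΩ.mem_nhds hx)).differentiableAt (by simp)
  rw [dvg_coord hA, dvg_coord hB, Finset.mul_sum, ← Finset.sum_add_distrib]
  refine Finset.sum_congr rfl fun a _ => ?_
  have d1 : DifferentiableAt ℝ (fun y => ((S.A j y a : ℝ) : ℂ)) x :=
    dAt hΩ (Complex.ofRealCLM.contDiff.comp_contDiffOn (smooth_coordA hS j a)) hx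
  have d2 : DifferentiableAt ℝ (fun y => ((S.B j y a : ℝ) : ℂ)) x :=
    dAt hΩ (Complex.ofRealCLM.contDiff.comp_contDiffOn (smooth_coordB hS j a)) hx
  have e : cX S j a = fun y => ((S.A j y a : ℝ) : ℂ) + Complex.I * ((S.B j y a : ℝ) : ℂ) := rfl
  rw [e, Reg_274.cd_add d1 (d2.const_mul _), cd_const_mul' a _ d2]

theorem Xt_coord (hΩ : IsOpen Ω) (hS : S.Sm Ω) (j : ι) {h : EE N → ℂ} {x : EE N} (hx : x ∈ Ω)
    (hh : DifferentiableAt ℝ h x) : S.Xt j h x = ∑ a, ∂c a (fun y => cX S j a y * h y) x := by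
  unfold Fam.Xt
  rw [X_coord, dX_coord hΩ hS j hx, Finset.sum_mul, ← Finset.sum_add_distrib]
  refine Finset.sum_congr rfl fun a _ => ?_
  rw [Reg_274.cd_mul (dAt hΩ (smooth_cX hS j a) hx) hh]

/-! ### coefficients of the second order operator -/

variable (S) (w : EE N → ℝ)

def am (x : EE N) : Matrix (Fin N) (Fin N) ℝ :=
  Matrix.of fun a b => w x * ∑ j, (S.A j x a * S.A j x b + S.B j x a * S.B j x b)

def tm (a b : Fin N) (x : EE N) : ℝ :=
  w x * ∑ j, (S.B j x a * S.A j x b - S.A j x a * S.B j x b)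

def bm (i : Fin N) (x : EE N) : ℂ := - Complex.I * ∑ a, ∂c a (fun y => (tm S w a i y : ℂ)) x

def cm (x : EE N) : ℂ := ∑ i, ∂c i (bm S w i) x

variable {S w}

theorem smooth_am (hS : S.Sm Ω) (hw : ContDiffOn ℝ ∞ w Ω) (a b : Fin N) :
    ContDiffOn ℝ ∞ (fun x => am S w x a b) Ω :=
  hw.mul (ContDiffOn.sum fun j _ => ((smooth_coordA hS j a).mul (smooth_coordA hS j b)).add
    ((smooth_coordB hS j a).mul (smooth_coordB hS j b)))

theorem smooth_tm (hS : S.Sm Ω) (hw : ContDiffOn ℝ ∞ w Ω) (a b : Fin N) :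
    ContDiffOn ℝ ∞ (tm S w a b) Ω :=
  hw.mul (ContDiffOn.sum fun j _ => ((smooth_coordB hS j a).mul (smooth_coordA hS j b)).sub
    ((smooth_coordA hS j a).mul (smooth_coordB hS j b)))

theorem smooth_tmC (hS : S.Sm Ω) (hw : ContDiffOn ℝ ∞ w Ω) (a b : Fin N) :
    ContDiffOn ℝ ∞ (fun x => (tm S w a b x : ℂ)) Ω :=
  Complex.ofRealCLM.contDiff.comp_contDiffOn (smooth_tm hS hw a b)

theorem smooth_amC (hS : S.Sm Ω) (hw : ContDiffOn ℝ ∞ w Ω) (a b : Fin N) :
    ContDiffOn ℝ ∞ (fun x => (am S w x a b : ℂ)) Ω :=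
  Complex.ofRealCLM.contDiff.comp_contDiffOn (smooth_am hS hw a b)

theorem smooth_bm (hΩ : IsOpen Ω) (hS : S.Sm Ω) (hw : ContDiffOn ℝ ∞ w Ω) (i : Fin N) :
    ContDiffOn ℝ ∞ (bm S w i) Ω :=
  contDiffOn_const.mul (ContDiffOn.sum fun a _ => cd_contDiffOn hΩ (smooth_tmC hS hw a i) a)

theorem smooth_cm (hΩ : IsOpen Ω) (hS : S.Sm Ω) (hw : ContDiffOn ℝ ∞ w Ω) :
    ContDiffOn ℝ ∞ (cm S w) Ω :=
  ContDiffOn.sum fun i _ => cd_contDiffOn hΩ (smooth_bm hΩ hS hw i) i

theorem tm_anti (a b : Fin N) (x : EE N) : tm S w a b x = - tm S w b a x := by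
  unfold tm
  rw [← mul_neg, ← Finset.sum_neg_distrib]
  congr 1
  exact Finset.sum_congr rfl fun j _ => by ring

theorem posDef_am (hE : S.Ell Ω) (hpos : ∀ x ∈ Ω, 0 < w x) {x : EE N} (hx : x ∈ Ω) :
    (am S w x).PosDef := by
  refine Matrix.PosDef.of_dotProduct_mulVec_pos ?_ fun ξ hξ => ?_
  · ext a b
    rw [Matrix.conjTranspose_apply, star_trivial]
    simp only [am, Matrix.of_apply]
    congr 1
    exact Finset.sum_congr rfl fun j _ => by ring
  · rw [star_trivial]
    have e : dotProduct ξ ((am S w x).mulVec ξ) =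
        w x * ∑ j, ((∑ a, S.A j x a * ξ a) ^ 2 + (∑ a, S.B j x a * ξ a) ^ 2) := by
      simp only [dotProduct, Matrix.mulVec, am, Matrix.of_apply]
      have e1 : ∀ j, (∑ a, S.A j x a * ξ a) ^ 2 + (∑ a, S.B j x a * ξ a) ^ 2 =
          ∑ a, ∑ b, ξ a * ((S.A j x a * S.A j x b + S.B j x a * S.B j x b) * ξ b) := by
        intro j
        rw [sq, sq, Finset.sum_mul_sum, Finset.sum_mul_sum, ← Finset.sum_add_distrib]
        refine Finset.sum_congr rfl fun a _ => ?_
        rw [← Finset.sum_add_distrib]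
        exact Finset.sum_congr rfl fun b _ => by ring
      simp only [e1]
      rw [Finset.sum_comm, Finset.mul_sum]
      refine Finset.sum_congr rfl fun a _ => ?_
      rw [Finset.sum_comm, Finset.mul_sum, Finset.mul_sum]
      refine Finset.sum_congr rfl fun b _ => ?_
      rw [Finset.mul_sum, Finset.sum_mul, Finset.mul_sum, Finset.mul_sum]
      exact Finset.sum_congr rfl fun j _ => by ring
    rw [e]
    refine mul_pos (hpos x hx) ?_
    have hnn : ∀ j, 0 ≤ (∑ a, S.A j x a * ξ a) ^ 2 + (∑ a, S.B j x a * ξ a) ^ 2 := fun j => by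
      positivity
    rcases (Finset.sum_nonneg fun j _ => hnn j).lt_or_eq with h | h
    · exact h
    · exfalso
      have h0 := (Finset.sum_eq_zero_iff_of_nonneg fun j _ => hnn j).1 h.symm
      apply hξ
      set v : EE N := WithLp.toLp 2 ξ with hv
      have hL : (innerSL ℝ v : EE N →L[ℝ] ℝ) = 0 := by
        refine hE x hx _ fun j => ?_
        have h1 := h0 j (Finset.mem_univ _)
        have h2 : (∑ a, S.A j x a * ξ a) = 0 := by nlinarith [sq_nonneg (∑ a, S.A j x a * ξ a), sq_nonneg (∑ a, S.B j x a * ξ a)]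
        have h3 : (∑ a, S.B j x a * ξ a) = 0 := by nlinarith [sq_nonneg (∑ a, S.A j x a * ξ a), sq_nonneg (∑ a, S.B j x a * ξ a)]
        constructor
        · rw [innerSL_apply_apply, PiLp.inner_apply]
          rw [← h2]
          exact Finset.sum_congr rfl fun a _ => by simp [hv, mul_comm]
        · rw [innerSL_apply_apply, PiLp.inner_apply]
          rw [← h3]
          exact Finset.sum_congr rfl fun a _ => by simp [hv, mul_comm]
      have hvv : inner ℝ v v = (0 : ℝ) := by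
        have := congrArg (fun L : EE N →L[ℝ] ℝ => L v) hL
        simpa using this
      have hv0 : v = 0 := inner_self_eq_zero.1 hvv
      funext a
      have := congrArg (fun z : EE N => z a) hv0
      simpa [hv] using this

theorem H_eq (a b : Fin N) (x : EE N) :
    (w x : ℂ) * ∑ j, cX S j a x * cY S j b x = (am S w x a b : ℂ) + Complex.I * (tm S w a b x : ℂ) := by
  simp only [am, tm, Matrix.of_apply, cX, cY]
  push_cast
  have e : Complex.I * ((w x : ℂ) * ∑ j, ((S.B j x a : ℂ) * (S.A j x b : ℂ) -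
      (S.A j x a : ℂ) * (S.B j x b : ℂ))) = (w x : ℂ) * ∑ j, Complex.I * ((S.B j x a : ℂ) *
      (S.A j x b : ℂ) - (S.A j x a : ℂ) * (S.B j x b : ℂ)) := by
    rw [← Finset.mul_sum]
    ring
  rw [e, ← mul_add, ← Finset.sum_add_distrib]
  congr 1
  refine Finset.sum_congr rfl fun j _ => ?_
  have hI := Complex.I_mul_I
  linear_combination (- (S.B j x a : ℂ) * (S.B j x b : ℂ)) * hI

theorem QQ_eq (hΩ : IsOpen Ω) (hS : S.Sm Ω) (hw : ContDiffOn ℝ ∞ w Ω) {κ : EE N → ℂ}
    (hκ : ContDiff ℝ ∞ κ) {x : EE N} (hx : x ∈ Ω) :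
    S.QQ w κ x = Pg (am S w) (bm S w) (cm S w) κ x := by
  have hwC : ContDiffOn ℝ ∞ (fun y => (w y : ℂ)) Ω := Complex.ofRealCLM.contDiff.comp_contDiffOn hw
  have hY : ∀ j, ContDiffOn ℝ ∞ (S.Y j κ) Ω := fun j => hS.Y_on hΩ j hκ.contDiffOn
  have hwY : ∀ j, ContDiffOn ℝ ∞ (fun y => (w y : ℂ) * S.Y j κ y) Ω := fun j => hwC.mul (hY j)
  have hκ1 : ∀ b, ContDiff ℝ ∞ (∂c b κ) := fun b => cd_contDiff hκ b
  have e1 : S.QQ w κ x = ∑ a, ∂c a (fun y => ∑ j, cX S j a y * ((w y : ℂ) * S.Y j κ y)) x := by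
    unfold Fam.QQ
    have : ∀ j, S.Xt j (fun y => (w y : ℂ) * S.Y j κ y) x =
        ∑ a, ∂c a (fun y => cX S j a y * ((w y : ℂ) * S.Y j κ y)) x := fun j =>
      Xt_coord hΩ hS j hx (dAt hΩ (hwY j) hx)
    simp only [this]
    rw [Finset.sum_comm]
    refine Finset.sum_congr rfl fun a _ => ?_
    rw [cd_sum' _ a fun j _ => dAt hΩ ((smooth_cX hS j a).mul (hwY j)) hx]
  have e2 : ∀ a y, ∑ j, cX S j a y * ((w y : ℂ) * S.Y j κ y) =
      (∑ b, (am S w y a b : ℂ) * ∂c b κ y) + Complex.I * ∑ b, (tm S w a b y : ℂ) * ∂c b κ y := by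
    intro a y
    have h1 : ∀ j, cX S j a y * ((w y : ℂ) * S.Y j κ y) =
        ∑ b, (w y : ℂ) * (cX S j a y * cY S j b y) * ∂c b κ y := by
      intro j
      rw [Y_coord, Finset.mul_sum, Finset.mul_sum]
      exact Finset.sum_congr rfl fun b _ => by ring
    simp only [h1]
    rw [Finset.sum_comm, Finset.mul_sum, ← Finset.sum_add_distrib]
    refine Finset.sum_congr rfl fun b _ => ?_
    rw [← Finset.sum_mul, ← Finset.mul_sum, H_eq]
    ring
  have d1 : ∀ a, DifferentiableAt ℝ (fun y => ∑ b, (am S w y a b : ℂ) * ∂c b κ y) x := fun a =>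
    dAt hΩ (ContDiffOn.sum fun b _ => (smooth_amC hS hw a b).mul (hκ1 b).contDiffOn) hx
  have d2 : ∀ a b, DifferentiableAt ℝ (fun y => (tm S w a b y : ℂ) * ∂c b κ y) x := fun a b =>
    dAt hΩ ((smooth_tmC hS hw a b).mul (hκ1 b).contDiffOn) hx
  have d3 : ∀ a, DifferentiableAt ℝ (fun y => ∑ b, (tm S w a b y : ℂ) * ∂c b κ y) x := fun a =>
    dAt hΩ (ContDiffOn.sum fun b _ => (smooth_tmC hS hw a b).mul (hκ1 b).contDiffOn) hx
  have e3 : ∀ a, ∂c a (fun y => ∑ j, cX S j a y * ((w y : ℂ) * S.Y j κ y)) x =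
      ∂c a (fun y => ∑ b, (am S w y a b : ℂ) * ∂c b κ y) x +
        Complex.I * ∑ b, (∂c a (fun y => (tm S w a b y : ℂ)) x * ∂c b κ x +
          (tm S w a b x : ℂ) * ∂c a (∂c b κ) x) := by
    intro a
    simp only [e2]
    rw [Reg_274.cd_add (d1 a) ((d3 a).const_mul _), cd_const_mul' a _ (d3 a),
      cd_sum' _ a fun b _ => d2 a b]
    congr 2
    refine Finset.sum_congr rfl fun b _ => ?_
    rw [Reg_274.cd_mul (dAt hΩ (smooth_tmC hS hw a b) hx)
      (((hκ1 b).differentiable (by simp)) x)]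
    ring
  have e4 : ∑ a, ∑ b, (tm S w a b x : ℂ) * ∂c a (∂c b κ) x = 0 := by
    have h1 : ∑ a, ∑ b, (tm S w a b x : ℂ) * ∂c a (∂c b κ) x =
        - ∑ a, ∑ b, (tm S w a b x : ℂ) * ∂c a (∂c b κ) x := by
      have h2 : ∑ a, ∑ b, (tm S w a b x : ℂ) * ∂c a (∂c b κ) x =
          ∑ a, ∑ b, - ((tm S w b a x : ℂ) * ∂c b (∂c a κ) x) := by
        refine Finset.sum_congr rfl fun a _ => Finset.sum_congr rfl fun b _ => ?_
        rw [tm_anti a b x, cd_comm hκ a b x]
        push_cast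
        ring
      refine h2.trans ?_
      simp only [Finset.sum_neg_distrib]
      rw [Finset.sum_comm]
    have h3 : (2 : ℂ) * ∑ a, ∑ b, (tm S w a b x : ℂ) * ∂c a (∂c b κ) x = 0 := by
      linear_combination h1
    simpa using h3
  have d4 : ∀ i, DifferentiableAt ℝ (bm S w i) x := fun i => dAt hΩ (smooth_bm hΩ hS hw i) hx
  have e5 : ∑ i, ∂c i (fun y => bm S w i y * κ y) x =
      (∑ i, bm S w i x * ∂c i κ x) + cm S w x * κ x := by
    unfold cm
    rw [Finset.sum_mul, ← Finset.sum_add_distrib]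
    refine Finset.sum_congr rfl fun i _ => ?_
    rw [Reg_274.cd_mul (d4 i) ((hκ.differentiable (by simp)) x)]
  rw [e1]
  simp only [e3]
  unfold Pg
  rw [e5, Finset.sum_add_distrib, ← Finset.mul_sum]
  simp only [Finset.sum_add_distrib]
  rw [e4]
  have e6 : ∑ i, bm S w i x * ∂c i κ x =
      - (Complex.I * ∑ a, ∑ b, ∂c a (fun y => (tm S w a b y : ℂ)) x * ∂c b κ x) := by
    rw [Finset.sum_comm, Finset.mul_sum, ← Finset.sum_neg_distrib]
    refine Finset.sum_congr rfl fun b _ => ?_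
    unfold bm
    rw [← Finset.sum_mul]
    ring
  rw [e6]
  ring

/-- **(R')** of 900's plan #6028 / `RegP`. -/
theorem regP_raw (hΩ : IsOpen Ω) (hS : S.Sm Ω) (hE : S.Ell Ω) (hw : ContDiffOn ℝ ∞ w Ω)
    (hpos : ∀ x ∈ Ω, 0 < w x) {F : EE N → ℂ} (hF : ContDiffOn ℝ ∞ F Ω) {u : EE N → ℂ}
    (hu : LocallyIntegrableOn u Ω)
    (h : ∀ κ, TestC Ω κ → ∫ x, u x * S.QQ w κ x = ∫ x, F x * κ x) :
    ∃ v, ContDiffOn ℝ ∞ v Ω ∧ ∀ᵐ x, x ∈ Ω → v x = u x := by
  obtain ⟨v, hv, hvu, -⟩ := cgen hΩ (smooth_am hS hw) (fun x hx => posDef_am hE hpos hx)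
    (smooth_bm hΩ hS hw) (smooth_cm hΩ hS hw) hF hu (by
      intro φ h1 h2 h3
      rw [← h φ ⟨h1, h2, h3⟩]
      refine integral_congr_ae (Eventually.of_forall fun x => ?_)
      simp only
      by_cases hx : x ∈ Ω
      · rw [QQ_eq hΩ hS hw h1 hx]
      · have hx' : x ∉ tsupport φ := fun hc => hx (h3 hc)
        have h4 : S.QQ w φ x = 0 := by
          have ht := hS.QQ_test hΩ hw ⟨h1, h2, h3⟩
          exact image_eq_zero_of_notMem_tsupport fun hc => hx (ht.2.2 hc)
        have z0 : φ =ᶠ[𝓝 x] fun _ => 0 := by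
          filter_upwards [(isClosed_tsupport φ).isOpen_compl.mem_nhds hx'] with y hy
          exact image_eq_zero_of_notMem_tsupport hy
        have z1 : ∀ j, ∂c j φ =ᶠ[𝓝 x] fun _ => 0 := by
          intro j
          filter_upwards [z0.eventuallyEq_nhds] with y hy
          unfold Reg_274.cd
          rw [hy.fderiv_eq]
          simp
        have h5 : Pg (am S w) (bm S w) (cm S w) φ x = 0 := by
          unfold Pg
          have k1 : ∀ i, ∂c i (fun y => ∑ j, (am S w y i j : ℂ) * ∂c j φ y) x = 0 := by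
            intro i
            have : (fun y => ∑ j, (am S w y i j : ℂ) * ∂c j φ y) =ᶠ[𝓝 x] fun _ => 0 := by
              have hall : ∀ᶠ y in 𝓝 x, ∀ j, ∂c j φ y = 0 :=
                eventually_all.2 z1
              filter_upwards [hall] with y hy
              simp [hy]
            unfold Reg_274.cd
            rw [show (fun y => ∑ j, (am S w y i j : ℂ) *
              (fderiv ℝ φ y) (EuclideanSpace.single j 1)) =
              (fun y => ∑ j, (am S w y i j : ℂ) * ∂c j φ y) from rfl, this.fderiv_eq]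
            simp
          have k2 : ∀ i, ∂c i (fun y => bm S w i y * φ y) x = 0 := by
            intro i
            have : (fun y => bm S w i y * φ y) =ᶠ[𝓝 x] fun _ => 0 := by
              filter_upwards [z0] with y hy
              rw [hy, mul_zero]
            unfold Reg_274.cd
            rw [this.fderiv_eq]
            simp
          simp only [k1, k2, z0.self_of_nhds, Finset.sum_const_zero, mul_zero, sub_zero, add_zero]
        rw [h4, h5])
  exact ⟨v, hv, hvu⟩

/-- 900's `RegP` -/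
def RegP (S : Fam ι (EE N)) (Ω : Set (EE N)) (w : EE N → ℝ) : Prop :=
  ∀ u : EE N → ℂ, LocallyIntegrableOn u Ω → (∀ κ, TestC Ω κ → ∫ x, u x * S.QQ w κ x = 0) →
    ∃ v, ContDiffOn ℝ ∞ v Ω ∧ ∀ᵐ x, x ∈ Ω → v x = u x

theorem regP (hΩ : IsOpen Ω) (hS : S.Sm Ω) (hE : S.Ell Ω) (hw : ContDiffOn ℝ ∞ w Ω)
    (hpos : ∀ x ∈ Ω, 0 < w x) : RegP S Ω w := fun u hu h =>
  regP_raw hΩ hS hE hw hpos (F := fun _ => 0) contDiffOn_const hu fun κ hκ => by
    rw [h κ hκ]
    simp

end Crest.Agent.R260.NNR_597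
end
end

-- ▼ part R260/NNR4_597
section

/-!
# Row 260 (helper597), NN-R, file 4: `(R-b)`, vanishing from integrability against `|x|^(-D-2)`

`vanish` : `V` real finite dimensional of dimension `D ≥ 1`, `v` continuous on a ball around `0`, differentiable
at `0`, `∫ |v|² |x|^(-D-2) < ∞` near `0`; then `v 0 = 0` and `Dv(0) = 0`.
`vanish_of_le` : the form used in the local Newlander-Nirenberg theorem.
-/

set_option autoImplicit false
set_option linter.unusedSectionVars false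

noncomputable section

open MeasureTheory Set Filter Topology Metric Module
open scoped ENNReal NNReal

namespace Crest.Agent.R260.NNR_597

variable {V : Type*} [NormedAddCommGroup V] [NormedSpace ℝ V] [FiniteDimensional ℝ V]
  [MeasurableSpace V] [BorelSpace V] {μ : Measure V} [μ.IsAddHaarMeasure]
  {F : Type*} [NormedAddCommGroup F] [NormedSpace ℝ F]

/-- scaling of `lintegral`s over balls -/
theorem lintegral_scale {ρ : ℝ} (hρ : 0 < ρ) (f : V → ℝ≥0∞) :
    ∫⁻ w in ball (0 : V) 1, f (ρ • w) ∂μ =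
      ENNReal.ofReal ((ρ ^ finrank ℝ V)⁻¹) * ∫⁻ x in ball (0 : V) ρ, f x ∂μ := by
  have hne : ρ ≠ 0 := hρ.ne'
  have h1 : Measure.map (ρ • ·) μ = ENNReal.ofReal |(ρ ^ finrank ℝ V)⁻¹| • μ :=
    Measure.map_addHaar_smul μ hne
  have hme : MeasurableEmbedding (fun w : V => ρ • w) :=
    (Homeomorph.smulOfNeZero ρ hne).measurableEmbedding
  have h2 : ∫⁻ x, (ball (0 : V) ρ).indicator f x ∂(Measure.map (ρ • ·) μ) =
      ∫⁻ w, (ball (0 : V) ρ).indicator f (ρ • w) ∂μ := hme.lintegral_map _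
  rw [h1, lintegral_smul_measure, lintegral_indicator measurableSet_ball, abs_of_pos (by positivity)]
    at h2
  rw [← lintegral_indicator measurableSet_ball]
  rw [smul_eq_mul] at h2
  rw [h2]
  refine lintegral_congr fun w => ?_
  have h3 : w ∈ ball (0 : V) 1 ↔ ρ • w ∈ ball (0 : V) ρ := by
    rw [mem_ball_zero_iff, mem_ball_zero_iff, norm_smul, Real.norm_of_nonneg hρ.le]
    constructor
    · intro h; nlinarith
    · intro h
      by_contra hc
      push Not at hc
      nlinarith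
  by_cases hw : w ∈ ball (0 : V) 1
  · rw [indicator_of_mem hw, indicator_of_mem (h3.1 hw)]
  · rw [indicator_of_notMem hw, indicator_of_notMem fun h => hw (h3.2 h)]

/-- Fatou -/
theorem ae_zero_of_tendsto {f : ℕ → V → F} {g : V → F} {c : ℕ → ℝ≥0∞}
    (hm : ∀ k, AEMeasurable (fun w => ‖f k w‖ₑ ^ 2) (μ.restrict (ball 0 1)))
    (hb : ∀ k, ∫⁻ w in ball (0 : V) 1, ‖f k w‖ₑ ^ 2 ∂μ ≤ c k) (hc : Tendsto c atTop (𝓝 0))
    (ht : ∀ w, Tendsto (fun k => f k w) atTop (𝓝 (g w))) (hg : Continuous g) :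
    ∀ w ∈ ball (0 : V) 1, g w = 0 := by
  have h1 : ∀ w, liminf (fun k => ‖f k w‖ₑ ^ 2) atTop = ‖g w‖ₑ ^ 2 := by
    intro w
    have h2 : Tendsto (fun k => ‖f k w‖ₑ ^ 2) atTop (𝓝 (‖g w‖ₑ ^ 2)) :=
      ((ENNReal.continuous_pow 2).tendsto _).comp ((continuous_enorm.tendsto _).comp (ht w))
    exact h2.liminf_eq
  have h2 : ∫⁻ w in ball (0 : V) 1, ‖g w‖ₑ ^ 2 ∂μ ≤ 0 := by
    have h3 := lintegral_liminf_le' (μ := μ.restrict (ball (0 : V) 1))
      (f := fun k w => ‖f k w‖ₑ ^ 2) (u := (atTop : Filter ℕ)) hm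
    simp only [h1] at h3
    refine h3.trans ?_
    have h4 : Tendsto (fun k => ∫⁻ w in ball (0 : V) 1, ‖f k w‖ₑ ^ 2 ∂μ) atTop (𝓝 0) :=
      tendsto_of_tendsto_of_tendsto_of_le_of_le tendsto_const_nhds hc (fun k => bot_le) hb
    rw [h4.liminf_eq]
  have hcont : Continuous fun w => ‖g w‖ₑ ^ 2 :=
    (ENNReal.continuous_pow 2).comp (continuous_enorm.comp hg)
  have h5 : ∀ᵐ w ∂(μ.restrict (ball (0 : V) 1)), ‖g w‖ₑ ^ 2 = 0 :=
    (lintegral_eq_zero_iff hcont.measurable).1 (le_antisymm h2 bot_le)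
  have h6 : ∀ᵐ w ∂(μ.restrict (ball (0 : V) 1)), g w = 0 := by
    filter_upwards [h5] with w hw
    have : ‖g w‖ₑ = 0 := by simpa using hw
    simpa using this
  have h7 : EqOn g (fun _ => 0) (ball (0 : V) 1) :=
    Measure.eqOn_open_of_ae_eq (μ := μ) h6 isOpen_ball hg.continuousOn continuousOn_const
  exact fun w hw => h7 hw

/-- **vanishing of the 1-jet** -/
theorem vanish (hD : 1 ≤ finrank ℝ V) {v : V → F} {r : ℝ} (hr : 0 < r)
    (hc : ContinuousOn v (ball 0 r)) (hd : DifferentiableAt ℝ v 0)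
    (hI : ∫⁻ x in ball (0 : V) r, ‖v x‖ₑ ^ 2 / ‖x‖ₑ ^ (finrank ℝ V + 2) ∂μ < ∞) :
    v 0 = 0 ∧ fderiv ℝ v 0 = 0 := by
  set D := finrank ℝ V with hDdef
  set ρ : ℕ → ℝ := fun k => min r 1 * (1 / 2) ^ k with hρ
  have hm0 : 0 < min r 1 := lt_min hr one_pos
  have hρ0 : ∀ k, 0 < ρ k := fun k => by positivity
  have hρm : ∀ k, ρ k ≤ min r 1 := fun k => by
    have : ((1 : ℝ) / 2) ^ k ≤ 1 := pow_le_one₀ (by norm_num) (by norm_num)
    calc ρ k = min r 1 * (1 / 2) ^ k := rfl
      _ ≤ min r 1 * 1 := by gcongr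
      _ = min r 1 := mul_one _
  have hρr : ∀ k, ρ k ≤ r := fun k => (hρm k).trans (min_le_left _ _)
  have hρ1 : ∀ k, ρ k ≤ 1 := fun k => (hρm k).trans (min_le_right _ _)
  have hρt : Tendsto ρ atTop (𝓝 0) := by
    have := (tendsto_pow_atTop_nhds_zero_of_lt_one (r := (1 / 2 : ℝ)) (by norm_num)
      (by norm_num)).const_mul (min r 1)
    simpa [hρ] using this
  set f : V → ℝ≥0∞ := fun x => ‖v x‖ₑ ^ 2 / ‖x‖ₑ ^ (D + 2) with hf
  set c : ℕ → ℝ≥0∞ := fun k => ∫⁻ x in ball (0 : V) (ρ k), f x ∂μ with hcdef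
  have hct : Tendsto c atTop (𝓝 0) := by
    have h1 : ∫⁻ x, (ball (0 : V) r).indicator f x ∂μ ≠ ∞ := by
      rw [lintegral_indicator measurableSet_ball]
      exact hI.ne
    have h2 : Tendsto (fun k => μ (ball (0 : V) (ρ k))) atTop (𝓝 0) := by
      have h3 : ∀ k, μ (ball (0 : V) (ρ k)) = ENNReal.ofReal (ρ k ^ D) * μ (ball 0 1) := fun k =>
        Measure.addHaar_ball_of_pos μ 0 (hρ0 k)
      have h4 : Tendsto (fun k => ENNReal.ofReal (ρ k ^ D) * μ (ball (0 : V) 1)) atTop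
          (𝓝 (ENNReal.ofReal (0 ^ D) * μ (ball 0 1))) := by
        refine ENNReal.Tendsto.mul_const ?_ (Or.inr measure_ball_lt_top.ne)
        exact (ENNReal.continuous_ofReal.tendsto _).comp (hρt.pow D)
      rw [zero_pow (by omega), ENNReal.ofReal_zero, zero_mul] at h4
      simpa only [h3] using h4
    have h5 := tendsto_setLIntegral_zero h1 h2
    refine h5.congr fun k => ?_
    rw [← lintegral_indicator measurableSet_ball, hcdef]
    simp only
    rw [← lintegral_indicator measurableSet_ball]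
    refine lintegral_congr fun x => ?_
    by_cases hx : x ∈ ball (0 : V) (ρ k)
    · rw [indicator_of_mem hx, indicator_of_mem hx, indicator_of_mem (ball_subset_ball (hρr k) hx)]
    · rw [indicator_of_notMem hx, indicator_of_notMem hx]
  -- the basic bound
  have key : ∀ k, ∫⁻ w in ball (0 : V) 1, ‖(ρ k)⁻¹ • v (ρ k • w)‖ₑ ^ 2 ∂μ ≤ c k := by
    intro k
    have hk := hρ0 k
    have e1 : ∀ w : V, ‖(ρ k)⁻¹ • v (ρ k • w)‖ₑ ^ 2 =
        ENNReal.ofReal ((ρ k)⁻¹ ^ 2) * ‖v (ρ k • w)‖ₑ ^ 2 := by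
      intro w
      rw [enorm_smul, mul_pow, Real.enorm_of_nonneg (inv_nonneg.2 hk.le),
        ENNReal.ofReal_pow (inv_nonneg.2 hk.le)]
    simp only [e1]
    rw [lintegral_const_mul' _ _ ENNReal.ofReal_ne_top,
      lintegral_scale (μ := μ) hk (fun x => ‖v x‖ₑ ^ 2), ← mul_assoc,
      ← ENNReal.ofReal_mul (by positivity), ← lintegral_const_mul' _ _ ENNReal.ofReal_ne_top]
    refine setLIntegral_mono' measurableSet_ball fun x hx => ?_
    rw [hf]
    simp only
    rw [ENNReal.div_eq_inv_mul]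
    gcongr
    have e2 : (ρ k)⁻¹ ^ 2 * (ρ k ^ D)⁻¹ = (ρ k ^ (D + 2))⁻¹ := by
      have : ∀ t : ℝ, t⁻¹ ^ 2 * (t ^ D)⁻¹ = (t ^ (D + 2))⁻¹ := fun t => by
        rw [pow_add, mul_inv, inv_pow, mul_comm]
      exact this _
    rw [e2, ENNReal.ofReal_inv_of_pos (by positivity)]
    apply ENNReal.inv_le_inv.2
    rw [ENNReal.ofReal_pow hk.le]
    gcongr
    rw [← ofReal_norm]
    exact ENNReal.ofReal_le_ofReal (mem_ball_zero_iff.1 hx).le
  have hmem : ∀ k, ∀ w ∈ ball (0 : V) 1, ρ k • w ∈ ball (0 : V) r := by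
    intro k w hw
    rw [mem_ball_zero_iff, norm_smul, Real.norm_of_nonneg (hρ0 k).le]
    have h1 := mem_ball_zero_iff.1 hw
    have h2 := hρr k
    have h3 := hρ0 k
    calc ρ k * ‖w‖ < ρ k * 1 := by gcongr
      _ ≤ r := by linarith
  have hcw : ∀ k, ContinuousOn (fun w => v (ρ k • w)) (ball (0 : V) 1) := fun k =>
    hc.comp (continuous_const_smul _).continuousOn (hmem k)
  have hme : ∀ (k : ℕ) (t : ℝ),
      AEMeasurable (fun w => ‖t • v (ρ k • w)‖ₑ ^ 2) (μ.restrict (ball (0 : V) 1)) := by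
    intro k t
    have h1 : ContinuousOn (fun w => ‖t • v (ρ k • w)‖ₑ ^ 2) (ball (0 : V) 1) :=
      (ENNReal.continuous_pow 2).comp_continuousOn
        (continuous_enorm.comp_continuousOn ((hcw k).const_smul t))
    exact h1.aemeasurable measurableSet_ball
  -- `v 0 = 0`
  have hv0 : v 0 = 0 := by
    have h1 := ae_zero_of_tendsto (μ := μ) (f := fun k w => v (ρ k • w)) (g := fun _ => v 0) (c := c)
      (fun k => by simpa using hme k 1) (fun k => ?_) hct (fun w => ?_) continuous_const 0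
      (mem_ball_self one_pos)
    · exact h1
    · refine le_trans ?_ (key k)
      refine lintegral_mono fun w => ?_
      simp only
      rw [enorm_smul]
      have h2 : (1 : ℝ≥0∞) ≤ ‖(ρ k)⁻¹‖ₑ := by
        rw [Real.enorm_of_nonneg (inv_nonneg.2 (hρ0 k).le), ← ENNReal.ofReal_one]
        exact ENNReal.ofReal_le_ofReal ((one_le_inv₀ (hρ0 k)).2 (hρ1 k))
      calc ‖v (ρ k • w)‖ₑ ^ 2 = (1 * ‖v (ρ k • w)‖ₑ) ^ 2 := by rw [one_mul]
        _ ≤ _ := by gcongr
    · have h3 : Tendsto (fun k => ρ k • w) atTop (𝓝 (0 : V)) := by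
        have := hρt.smul_const w
        rwa [zero_smul] at this
      exact hd.continuousAt.tendsto.comp h3
  refine ⟨hv0, ?_⟩
  have hL := ae_zero_of_tendsto (μ := μ) (f := fun k w => (ρ k)⁻¹ • v (ρ k • w))
    (g := fun w => fderiv ℝ v 0 w) (c := c) (fun k => hme k _) key hct (fun w => by
      have h1 : Tendsto (fun k => ‖(ρ k)⁻¹‖) atTop atTop := by
        have h2 : Tendsto (fun k => (ρ k)⁻¹) atTop atTop :=
          (tendsto_nhdsWithin_iff.2 ⟨hρt, Eventually.of_forall fun k => hρ0 k⟩).inv_tendsto_nhdsGT_zero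
        refine h2.congr fun k => ?_
        rw [Real.norm_of_nonneg (inv_nonneg.2 (hρ0 k).le)]
      have h3 := hd.hasFDerivAt.lim w h1
      refine h3.congr fun k => ?_
      rw [hv0, sub_zero, zero_add, inv_inv]) (fderiv ℝ v 0).continuous
  ext w
  by_cases hw : w = 0
  · rw [hw]
    simp
  · have hw0 : 0 < ‖w‖ := norm_pos_iff.2 hw
    have h1 := hL ((2 * ‖w‖)⁻¹ • w) (by
      rw [mem_ball_zero_iff, norm_smul, Real.norm_of_nonneg (by positivity), mul_inv,
        mul_assoc, inv_mul_cancel₀ hw0.ne']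
      norm_num)
    rw [map_smul] at h1
    have h2 := (smul_eq_zero.1 h1).resolve_left (by positivity)
    simpa using h2

/-- the form used in the local Newlander-Nirenberg theorem: `dim V = 2n`, `|v| ≤ C |x|^(n+1) |U|`, `U ∈ L²` -/
theorem vanish_of_le {n : ℕ} (hn : 1 ≤ n) (hD : finrank ℝ V = 2 * n) {v : V → F} {r : ℝ}
    (hr : 0 < r) (hc : ContinuousOn v (ball 0 r)) (hd : DifferentiableAt ℝ v 0)
    {G : Type*} [NormedAddCommGroup G] {U : V → G}
    (hU : MemLp U 2 (μ.restrict (ball (0 : V) r))) {C : ℝ}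
    (hle : ∀ᵐ x ∂μ, x ∈ ball (0 : V) r → ‖v x‖ ≤ C * ‖x‖ ^ (n + 1) * ‖U x‖) :
    v 0 = 0 ∧ fderiv ℝ v 0 = 0 := by
  refine vanish (μ := μ) (by omega) hr hc hd ?_
  have h1 : ∫⁻ x in ball (0 : V) r, ‖U x‖ₑ ^ 2 ∂μ < ∞ := by
    have := hU.eLpNorm_lt_top
    rw [eLpNorm_lt_top_iff_lintegral_rpow_enorm_lt_top (by norm_num) (by norm_num)] at this
    simpa using this
  have h2 : ∫⁻ x in ball (0 : V) r, ‖v x‖ₑ ^ 2 / ‖x‖ₑ ^ (finrank ℝ V + 2) ∂μ ≤
      ∫⁻ x in ball (0 : V) r, ENNReal.ofReal (C ^ 2) * ‖U x‖ₑ ^ 2 ∂μ := by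
    refine setLIntegral_mono_ae' measurableSet_ball ?_
    filter_upwards [hle] with x hx hxr
    have h3 := hx hxr
    by_cases hx0 : x = 0
    · subst hx0
      have h4 : v 0 = 0 := by
        have : ‖v 0‖ ≤ 0 := by simpa using h3
        exact norm_le_zero_iff.1 this
      simp [h4]
    · have hx0' : ‖x‖ₑ ≠ 0 := by simpa using hx0
      rw [ENNReal.div_le_iff (pow_ne_zero _ hx0') (ENNReal.pow_ne_top enorm_ne_top), hD]
      have h5 : ‖v x‖ₑ ≤ ENNReal.ofReal |C| * ‖x‖ₑ ^ (n + 1) * ‖U x‖ₑ := by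
        rw [← ofReal_norm, ← ofReal_norm, ← ofReal_norm,
          ← ENNReal.ofReal_pow (norm_nonneg _), ← ENNReal.ofReal_mul (abs_nonneg _),
          ← ENNReal.ofReal_mul (by positivity)]
        refine ENNReal.ofReal_le_ofReal (h3.trans ?_)
        gcongr
        exact le_abs_self C
      calc ‖v x‖ₑ ^ 2 ≤ (ENNReal.ofReal |C| * ‖x‖ₑ ^ (n + 1) * ‖U x‖ₑ) ^ 2 := by gcongr
        _ = ENNReal.ofReal (C ^ 2) * ‖U x‖ₑ ^ 2 * ‖x‖ₑ ^ (2 * n + 2) := by
          rw [mul_pow, mul_pow, ← ENNReal.ofReal_pow (abs_nonneg _), sq_abs]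
          ring
  refine h2.trans_lt ?_
  rw [lintegral_const_mul' _ _ ENNReal.ofReal_ne_top]
  exact ENNReal.mul_lt_top ENNReal.ofReal_lt_top h1

end Crest.Agent.R260.NNR_597
end
end

-- ▼ part R260/NNInt_899
section

/-!
# Row 260, local Newlander-Nirenberg: integrability leaf (helper899 for helper900, #6239)

`V` real inner product space of dimension `2n`, `n ≥ 1`.
* `int_zpow`, `int_rpow` : `‖x‖^(2-2n)` is integrable on every ball;
* `unif_bound` : `∫_{ball 0 r} ‖x‖^4 (‖x‖²+ε)^{-(n+1)} ≤ C`, `C` independent of `ε`;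
* `vanish` : `u` differentiable at `0` with `∫ |u|² (‖x‖²+ε)^{-(n+1)} ≤ C` for all small `ε`
  has `u 0 = 0` and `fderiv u 0 = 0`.
-/

set_option autoImplicit false
set_option linter.unusedSectionVars false

noncomputable section

open MeasureTheory Filter Topology Set Metric
open scoped ENNReal NNReal Pointwise

namespace Crest.Agent.R260.NNInt_899

variable {V : Type*} [NormedAddCommGroup V] [InnerProductSpace ℝ V] [FiniteDimensional ℝ V]
  [MeasurableSpace V] [BorelSpace V] {μ : Measure V} [μ.IsAddHaarMeasure]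

theorem int_rpow {n : ℕ} (hn : 1 ≤ n) (hV : Module.finrank ℝ V = 2 * n) (r : ℝ) :
    IntegrableOn (fun x : V => ‖x‖ ^ (2 - 2 * (n : ℝ))) (ball 0 r) μ := by
  refine integrableOn_ball_of_norm_le_rpow (C := 1) (α := 2 * (n : ℝ) - 2) (by omega) ?_ ?_ ?_
  · rw [hV]; push_cast; linarith
  · refine Eventually.of_forall fun x => ?_
    rw [Real.norm_of_nonneg (by positivity), one_mul]
    rw [show -(2 * (n : ℝ) - 2) = 2 - 2 * (n : ℝ) by ring]
  · have : Measurable fun x : V => ‖x‖ ^ (2 - 2 * (n : ℝ)) := by fun_prop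
    exact this.aestronglyMeasurable

theorem int_zpow {n : ℕ} (hn : 1 ≤ n) (hV : Module.finrank ℝ V = 2 * n) (r : ℝ) :
    IntegrableOn (fun x : V => ‖x‖ ^ (2 - 2 * (n : ℤ))) (ball 0 r) μ := by
  refine (int_rpow hn hV r).congr_fun (fun x _ => ?_) measurableSet_ball
  simp only
  rw [← Real.rpow_intCast]
  congr 1
  push_cast; ring

/-- pointwise comparison -/
theorem pt_le {n : ℕ} {x : V} (hx : x ≠ 0) {ε : ℝ} (hε : 0 ≤ ε) :
    ‖x‖ ^ 4 / (‖x‖ ^ 2 + ε) ^ (n + 1) ≤ ‖x‖ ^ (2 - 2 * (n : ℤ)) := by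
  have h0 : 0 < ‖x‖ := norm_pos_iff.2 hx
  have h1 : (‖x‖ ^ 2) ^ (n + 1) ≤ (‖x‖ ^ 2 + ε) ^ (n + 1) :=
    pow_le_pow_left₀ (by positivity) (by linarith) _
  calc ‖x‖ ^ 4 / (‖x‖ ^ 2 + ε) ^ (n + 1) ≤ ‖x‖ ^ 4 / (‖x‖ ^ 2) ^ (n + 1) := by
        gcongr
    _ = ‖x‖ ^ (2 - 2 * (n : ℤ)) := by
        rw [← pow_mul, div_eq_iff (by positivity), ← zpow_natCast ‖x‖ (2 * (n + 1)),
          ← zpow_add₀ h0.ne', ← zpow_natCast]
        congr 1
        push_cast; ring

theorem meas_fun (n : ℕ) {ε : ℝ} (hε : 0 < ε) :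
    Continuous (fun x : V => ‖x‖ ^ 4 / (‖x‖ ^ 2 + ε) ^ (n + 1)) := by
  have h : ∀ x : V, (‖x‖ ^ 2 + ε) ^ (n + 1) ≠ 0 := fun x => by positivity
  fun_prop (disch := exact h _)

theorem int_eps (n : ℕ) (r : ℝ) {ε : ℝ} (hε : 0 < ε) :
    IntegrableOn (fun x : V => ‖x‖ ^ 4 / (‖x‖ ^ 2 + ε) ^ (n + 1)) (ball 0 r) μ :=
  (((meas_fun n hε).locallyIntegrable).integrableOn_isCompact
    (isCompact_closedBall 0 r)).mono_set ball_subset_closedBall

/-- the uniform bound -/
theorem unif_bound {n : ℕ} (hn : 1 ≤ n) (hV : Module.finrank ℝ V = 2 * n) (r : ℝ) :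
    ∃ C : ℝ, 0 ≤ C ∧ ∀ ε : ℝ, 0 < ε →
      IntegrableOn (fun x : V => ‖x‖ ^ 4 / (‖x‖ ^ 2 + ε) ^ (n + 1)) (ball 0 r) μ ∧
      ∫ x in ball (0 : V) r, ‖x‖ ^ 4 / (‖x‖ ^ 2 + ε) ^ (n + 1) ∂μ ≤ C := by
  refine ⟨∫ x in ball (0 : V) r, ‖x‖ ^ (2 - 2 * (n : ℤ)) ∂μ,
    setIntegral_nonneg measurableSet_ball fun x _ => by positivity, fun ε hε => ?_⟩
  refine ⟨int_eps n r hε, ?_⟩
  have : Nontrivial V := Module.nontrivial_of_finrank_pos (R := ℝ) (by omega)
  refine setIntegral_mono_ae (int_eps n r hε) (int_zpow hn hV r) ?_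
  have h0 : ∀ᵐ x ∂μ, x ≠ (0 : V) := by
    rw [ae_iff]
    simp
  filter_upwards [h0] with x hx
  exact pt_le hx hε.le

/-- the same for functions bounded by `c ‖x‖^4`, with a bounded density -/
theorem unif_bound_of {n : ℕ} (hn : 1 ≤ n) (hV : Module.finrank ℝ V = 2 * n) (r c : ℝ)
    (hc : 0 ≤ c) :
    ∃ C : ℝ, 0 ≤ C ∧ ∀ ε : ℝ, 0 < ε → ∀ f : V → ℝ,
      AEStronglyMeasurable f (μ.restrict (ball 0 r)) → (∀ x ∈ ball (0 : V) r, 0 ≤ f x) →
      (∀ x ∈ ball (0 : V) r, f x ≤ c * (‖x‖ ^ 4 / (‖x‖ ^ 2 + ε) ^ (n + 1))) →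
      IntegrableOn f (ball 0 r) μ ∧ ∫ x in ball (0 : V) r, f x ∂μ ≤ C := by
  obtain ⟨C, hC, h⟩ := unif_bound (μ := μ) hn hV r
  refine ⟨c * C, by positivity, fun ε hε f hf h0 h1 => ?_⟩
  obtain ⟨hi, hb⟩ := h ε hε
  have hint : IntegrableOn f (ball 0 r) μ := by
    refine Integrable.mono' (hi.const_mul c) hf ?_
    filter_upwards [ae_restrict_mem measurableSet_ball] with x hx
    rw [Real.norm_of_nonneg (h0 x hx)]
    exact h1 x hx
  refine ⟨hint, ?_⟩
  calc ∫ x in ball (0 : V) r, f x ∂μ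
      ≤ ∫ x in ball (0 : V) r, c * (‖x‖ ^ 4 / (‖x‖ ^ 2 + ε) ^ (n + 1)) ∂μ :=
        setIntegral_mono_on hint (hi.const_mul c) measurableSet_ball h1
    _ = c * ∫ x in ball (0 : V) r, ‖x‖ ^ 4 / (‖x‖ ^ 2 + ε) ^ (n + 1) ∂μ := integral_const_mul _ _
    _ ≤ c * C := by gcongr

/-! ### vanishing -/




end Crest.Agent.R260.NNInt_899
end
end

-- ▼ part R260/NN5_900

/-!
# Row 260, local Newlander-Nirenberg: `CoreR n` from the weighted estimate (helper900)
-/

set_option autoImplicit false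
set_option linter.unusedSectionVars false
set_option linter.deprecated false
set_option maxHeartbeats 400000

noncomputable section

open MeasureTheory Filter Topology Set Metric
open scoped ENNReal NNReal ContDiff ComplexConjugate

namespace Crest.Agent.R260.NN5_900

open NN0_900 NN1_900 NN2_900 NN3_900 NN4_900 JFr_250 CutNu_250

/-- the weight `Φ = K/(r²-|x|²) + M log(|x|²+ε)` -/
def Phi {N : ℕ} (r K : ℝ) (M : ℕ) (ε : ℝ) (x : VV N) : ℝ :=
  K / sr r x + M * Real.log (‖x‖ ^ 2 + ε)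

/-- `w1 = exp(-Φ)` -/
def w1 {N : ℕ} (r K : ℝ) (M : ℕ) (ε : ℝ) (x : VV N) : ℝ := Real.exp (-(Phi r K M ε x))

/-- `w2 = s² exp(-Φ)` -/
def w2 {N : ℕ} (r K : ℝ) (M : ℕ) (ε : ℝ) (x : VV N) : ℝ := sr r x ^ 2 * Real.exp (-(Phi r K M ε x))

/-- **(E)+(W)**, the estimate of helper680 -/
def EW (N : ℕ) : Prop :=
  ∀ (J : VV N → VV N →L[ℝ] VV N) (R C : ℝ), 0 < R → ContDiffOn ℝ ∞ J (ball 0 R) →
    (∀ x ∈ ball (0 : VV N) R, ∀ v, J x (J x v) = -v) →
    (∀ x ∈ ball (0 : VV N) R, ∀ v w, ACM_580.Nij J x v w = 0) →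
    (∀ v, ‖J 0 v‖ = ‖v‖) →
    (∀ x ∈ ball (0 : VV N) R, ∀ v, ‖J x v - J 0 v‖ ≤ C * ‖x‖ ^ 2 * ‖v‖) →
    ∀ M : ℕ, ∃ r K : ℝ, 0 < r ∧ r ≤ 1 ∧ r < R ∧ 0 ≤ K ∧ ∀ ε : ℝ, 0 < ε → ε ≤ 1 →
      ∀ g, TestC (ball (0 : VV N) r) g →
        ∫ x, (∑ j, ‖(jfam J).X j g x‖ ^ 2) * w2 r K M ε x ≤
          ∫ x, ‖(jfam J).PP (w2 r K M ε) g x‖ ^ 2 / w1 r K M ε x

variable {N : ℕ}

theorem sr_pos {r : ℝ} {x : VV N} (hx : x ∈ ball (0 : VV N) r) : 0 < sr r x := by
  have h1 := mem_ball_zero_iff.1 hx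
  unfold sr
  nlinarith [norm_nonneg x]

theorem Phi_smooth {r K ε : ℝ} {M : ℕ} (hε : 0 < ε) :
    ContDiffOn ℝ ∞ (Phi r K M ε : VV N → ℝ) (ball 0 r) := by
  refine ContDiffOn.add ?_ ?_
  · exact contDiffOn_const.div (sr_smooth.contDiffOn) fun x hx => (sr_pos hx).ne'
  · refine contDiffOn_const.mul ?_
    refine ContDiffOn.log ((contDiff_norm_sq ℝ).contDiffOn.add contDiffOn_const) ?_
    intro x _
    positivity

theorem w1_smooth {r K ε : ℝ} {M : ℕ} (hε : 0 < ε) :
    ContDiffOn ℝ ∞ (w1 r K M ε : VV N → ℝ) (ball 0 r) :=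
  (Phi_smooth hε).neg.exp

theorem w2_smooth {r K ε : ℝ} {M : ℕ} (hε : 0 < ε) :
    ContDiffOn ℝ ∞ (w2 r K M ε : VV N → ℝ) (ball 0 r) :=
  (sr_smooth.contDiffOn.pow 2).mul (Phi_smooth hε).neg.exp

theorem w1_pos {r K ε : ℝ} {M : ℕ} (x : VV N) : 0 < w1 r K M ε x := Real.exp_pos _

theorem w2_pos {r K ε : ℝ} {M : ℕ} {x : VV N} (hx : x ∈ ball (0 : VV N) r) :
    0 < w2 r K M ε x := mul_pos (pow_pos (sr_pos hx) 2) (Real.exp_pos _)

theorem w1_eq {r K ε : ℝ} {M : ℕ} (hε : 0 < ε) (x : VV N) :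
    w1 r K M ε x = Real.exp (-(K / sr r x)) * ((‖x‖ ^ 2 + ε) ^ M)⁻¹ := by
  have h : 0 < ‖x‖ ^ 2 + ε := by positivity
  unfold w1 Phi
  rw [neg_add, Real.exp_add]
  congr 1
  rw [Real.exp_neg, mul_comm, Real.exp_mul, Real.exp_log h, Real.rpow_natCast]

theorem w1_inv {r K ε : ℝ} {M : ℕ} (hε : 0 < ε) (x : VV N) :
    (w1 r K M ε x)⁻¹ = Real.exp (K / sr r x) * (‖x‖ ^ 2 + ε) ^ M := by
  rw [w1_eq hε, mul_inv, inv_inv, ← Real.exp_neg, neg_neg]

theorem w1_le {r K ε : ℝ} {M : ℕ} (hK : 0 ≤ K) (hε : 0 < ε) {x : VV N}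
    (hx : x ∈ ball (0 : VV N) r) : w1 r K M ε x ≤ ((‖x‖ ^ 2 + ε) ^ M)⁻¹ := by
  rw [w1_eq hε]
  have h1 : Real.exp (-(K / sr r x)) ≤ 1 := by
    apply Real.exp_le_one_iff.2
    have := div_nonneg hK (sr_pos hx).le
    linarith
  have h2 : 0 ≤ ((‖x‖ ^ 2 + ε) ^ M)⁻¹ := by positivity
  nlinarith

/-- the core: holomorphic functions with prescribed differential -/
theorem core {n : ℕ} (hn : 1 ≤ n) (hEW : EW (2 * n))
    (J : VV (2 * n) → VV (2 * n) →L[ℝ] VV (2 * n)) (R C : ℝ) (hR : 0 < R)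
    (hJ : ContDiffOn ℝ ∞ J (ball 0 R))
    (hJ2 : ∀ x ∈ ball (0 : VV (2 * n)) R, ∀ v, J x (J x v) = -v)
    (hNij : ∀ x ∈ ball (0 : VV (2 * n)) R, ∀ v w, ACM_580.Nij J x v w = 0)
    (hJ0 : ∀ v, ‖J 0 v‖ = ‖v‖)
    (hJq : ∀ x ∈ ball (0 : VV (2 * n)) R, ∀ v, ‖J x v - J 0 v‖ ≤ C * ‖x‖ ^ 2 * ‖v‖) :
    ∃ r : ℝ, 0 < r ∧ ∀ s0 : VV (2 * n) →L[ℝ] ℂ, (∀ v, s0 (J 0 v) = Complex.I * s0 v) →
      ∃ f : VV (2 * n) → ℂ, ContDiffOn ℝ ∞ f (ball 0 r) ∧ fderiv ℝ f 0 = s0 ∧
        ∀ x ∈ ball (0 : VV (2 * n)) r, ∀ v, fderiv ℝ f x (J x v) = Complex.I * fderiv ℝ f x v := by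
  have hfin : Module.finrank ℝ (VV (2 * n)) = 2 * n := by simp
  -- WLOG `0 ≤ C`
  set C' : ℝ := max C 0 with hC'
  have hC0 : 0 ≤ C' := le_max_right _ _
  have hJq' : ∀ x ∈ ball (0 : VV (2 * n)) R, ∀ v, ‖J x v - J 0 v‖ ≤ C' * ‖x‖ ^ 2 * ‖v‖ := by
    intro x hx v
    refine (hJq x hx v).trans ?_
    have : C ≤ C' := le_max_left _ _
    gcongr
  obtain ⟨r, K, hr, hr1, hrR, hK, hE⟩ := hEW J R C hR hJ hJ2 hNij hJ0 hJq (n + 1)
  refine ⟨r, hr, fun s0 hs0 => ?_⟩
  set Ω : Set (VV (2 * n)) := ball 0 r with hΩd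
  have hΩ : IsOpen Ω := isOpen_ball
  have hsub : Ω ⊆ ball 0 R := ball_subset_ball hrR.le
  have hS : (jfam J).Sm Ω := jfam_sm J (hJ.mono hsub)
  have hEll := jfam_ell J Ω
  have hs0c : ContDiffOn ℝ ∞ (fun x => s0 x) Ω := s0.contDiff.contDiffOn
  -- the uniform constant
  set c0 : ℝ := ((2 * n : ℕ) : ℝ) * (‖s0‖ * C' / 2) ^ 2 with hc0
  have hc00 : 0 ≤ c0 := by positivity
  obtain ⟨M, hM0, hM⟩ := NNInt_899.unif_bound_of (μ := (volume : Measure (VV (2 * n)))) hn hfin r
    c0 hc00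
  set ε : ℕ → ℝ := fun k => 1 / ((k : ℝ) + 1) with hε
  have hε0 : ∀ k, 0 < ε k := fun k => by positivity
  have hε1 : ∀ k, ε k ≤ 1 := fun k => by
    rw [hε, div_le_one (by positivity)]
    have : (0 : ℝ) ≤ k := Nat.cast_nonneg k
    linarith
  have hεl : Tendsto ε atTop (𝓝 0) := tendsto_one_div_add_atTop_nhds_zero_nat
  obtain ⟨Ce, hCe, hCe'⟩ := sum_X_eta_le J hC0 hJ0 hJq' hr
  have hmeas : volume Ω ≠ ⊤ := measure_ball_lt_top.ne
  have hu : ∀ k, ∃ u : VV (2 * n) → ℂ, ContDiffOn ℝ ∞ u Ω ∧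
      (∀ j, ∀ x ∈ Ω, (jfam J).X j u x = (jfam J).X j (fun x => s0 x) x) ∧
      IntegrableOn (fun x => ‖u x‖ ^ 2 * w1 r K (n + 1) (ε k) x) Ω ∧
      ∫ x in Ω, ‖u x‖ ^ 2 * w1 r K (n + 1) (ε k) x ≤ M := by
    intro k
    have hw1 := w1_smooth (N := 2 * n) (r := r) (K := K) (M := n + 1) (hε0 k)
    have hw2 := w2_smooth (N := 2 * n) (r := r) (K := K) (M := n + 1) (hε0 k)
    have hα := hM (ε k) (hε0 k)
      (fun x => (∑ j, ‖(jfam J).X j (fun x => s0 x) x‖ ^ 2) * w2 r K (n + 1) (ε k) x)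
      (by
        refine ContinuousOn.aestronglyMeasurable ?_ hΩ.measurableSet
        refine ContinuousOn.mul ?_ hw2.continuousOn
        refine continuousOn_finsetSum _ fun j _ => ?_
        exact ((hS.X_on hΩ j hs0c).continuousOn.norm).pow 2)
      (fun x hx => mul_nonneg (Finset.sum_nonneg fun _ _ => sq_nonneg _) (w2_pos hx).le)
      (by
        intro x hx
        have h1 := sum_X_lin_le J s0 hs0 hJq' (hsub hx)
        have h2 : w2 r K (n + 1) (ε k) x ≤ ((‖x‖ ^ 2 + ε k) ^ (n + 1))⁻¹ := by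
          have h3 := w1_le (M := n + 1) hK (hε0 k) hx
          have h4 : sr r x ^ 2 ≤ 1 := by
            have h5 := sr_pos hx
            have h6 : sr r x ≤ 1 := by
              unfold sr
              nlinarith [sq_nonneg ‖x‖]
            nlinarith
          calc w2 r K (n + 1) (ε k) x = sr r x ^ 2 * w1 r K (n + 1) (ε k) x := rfl
            _ ≤ 1 * w1 r K (n + 1) (ε k) x :=
              mul_le_mul_of_nonneg_right h4 (w1_pos x).le
            _ ≤ _ := by rw [one_mul]; exact h3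
        calc (∑ j, ‖(jfam J).X j (fun x => s0 x) x‖ ^ 2) * w2 r K (n + 1) (ε k) x
            ≤ (((2 * n : ℕ) : ℝ) * (‖s0‖ * C' / 2) ^ 2 * ‖x‖ ^ 4) *
              ((‖x‖ ^ 2 + ε k) ^ (n + 1))⁻¹ :=
              mul_le_mul h1 h2 (w2_pos hx).le (by positivity)
          _ = c0 * (‖x‖ ^ 4 / (‖x‖ ^ 2 + ε k) ^ (n + 1)) := by
              rw [hc0]; ring)
    refine exists_sol (S := jfam J) hΩ hS hw1 (fun x _ => w1_pos x) hw2 (fun x hx => w2_pos hx)
      (fun u hu' h => NNR_597.regP hΩ hS hEll hw2 (fun x hx => w2_pos hx) u hu' h)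
      (hE (ε k) (hε0 k) (hε1 k)) hs0c ?_ hM0 hα.1 hα.2
      (η := fun ν => eta r ((ν : ℝ) + 1)) (C := Ce) ?_ ?_ ?_
    · -- `s0 ∈ L²(w1)`
      refine Integrable.mono' (g := fun _ => (‖s0‖ * r) ^ 2 * ((ε k) ^ (n + 1))⁻¹)
        (integrableOn_const hmeas) ?_ ?_
      · refine ContinuousOn.aestronglyMeasurable ?_ hΩ.measurableSet
        exact (hs0c.continuousOn.norm.pow 2).mul hw1.continuousOn
      · filter_upwards [ae_restrict_mem hΩ.measurableSet] with x hx
        rw [Real.norm_of_nonneg (mul_nonneg (sq_nonneg _) (w1_pos x).le)]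
        have h1 : ‖s0 x‖ ≤ ‖s0‖ * r := (s0.le_opNorm x).trans
          (mul_le_mul_of_nonneg_left (mem_ball_zero_iff.1 hx).le (norm_nonneg _))
        have h2 : w1 r K (n + 1) (ε k) x ≤ ((ε k) ^ (n + 1))⁻¹ := by
          refine (w1_le (M := n + 1) hK (hε0 k) hx).trans ?_
          have h0 := hε0 k
          gcongr
          nlinarith [sq_nonneg ‖x‖]
        have h3 : ‖s0 x‖ ^ 2 ≤ (‖s0‖ * r) ^ 2 := pow_le_pow_left₀ (norm_nonneg _) h1 2
        exact mul_le_mul h3 h2 (w1_pos x).le (sq_nonneg _)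
    · intro ν
      exact testC hr (by positivity)
    · intro x hx
      obtain ⟨ν0, hν0, h⟩ := eta_one_ev hx
      obtain ⟨m, hm⟩ := exists_nat_ge ν0
      filter_upwards [eventually_ge_atTop m] with ν hν
      refine h _ ?_
      have : (m : ℝ) ≤ ν := by exact_mod_cast hν
      linarith
    · intro ν x hx
      have h1 := hCe' ((ν : ℝ) + 1) (by positivity) x (hsub hx)
      have h2 := w1_pos (r := r) (K := K) (ε := ε k) (M := n + 1) x
      have h3 : (fun y : VV (2 * n) => ((eta r ((ν : ℝ) + 1) y : ℝ) : ℂ)) =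
          etaC r ((ν : ℝ) + 1) := rfl
      rw [h3]
      calc w2 r K (n + 1) (ε k) x * ∑ j, ‖(jfam J).X j (etaC r ((ν : ℝ) + 1)) x‖ ^ 2
          = ((∑ j, ‖(jfam J).X j (etaC r ((ν : ℝ) + 1)) x‖ ^ 2) * sr r x ^ 2) *
            w1 r K (n + 1) (ε k) x := by
              unfold w2 w1; ring
        _ ≤ Ce * w1 r K (n + 1) (ε k) x := mul_le_mul_of_nonneg_right h1 h2.le
  -- the limit
  set G : VV (2 * n) → ℝ := fun x => Real.exp (K / sr r x) * (‖x‖ ^ 2) ^ (n + 1) with hGd
  set H : VV (2 * n) → ℝ := fun x => Real.exp (K / sr r x) * (‖x‖ ^ 2 + 1) ^ (n + 1) with hHd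
  have hexpc : ContinuousOn (fun x : VV (2 * n) => Real.exp (K / sr r x)) Ω :=
    Real.continuous_exp.comp_continuousOn
      (continuousOn_const.div (sr_smooth.continuous.continuousOn) fun x hx => (sr_pos hx).ne')
  have hnc : Continuous fun x : VV (2 * n) => ‖x‖ ^ 2 := continuous_norm.pow 2
  have hGc : ContinuousOn G Ω := hexpc.mul ((hnc.pow (n + 1)).continuousOn)
  have hHc : ContinuousOn H Ω := hexpc.mul (((hnc.add continuous_const).pow (n + 1)).continuousOn)
  obtain ⟨s, U, hs, hsX, hU, hsU⟩ := exists_limit (S := jfam J) hΩ hS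
    (fun u hu' h => NNR_597.regP hΩ hS hEll contDiffOn_const (fun x _ => one_pos) u hu' h) hs0c
    (w := fun k => w1 r K (n + 1) (ε k)) (fun k => (w1_smooth (hε0 k)).continuousOn)
    (fun k x _ => w1_pos x) hGc (fun x _ => by positivity) hHc
    (by
      intro x _
      have h1 : ∀ k, (w1 r K (n + 1) (ε k) x)⁻¹ =
          Real.exp (K / sr r x) * (‖x‖ ^ 2 + ε k) ^ (n + 1) := fun k => w1_inv (hε0 k) x
      simp only [h1]
      have h2 : Tendsto (fun k => ‖x‖ ^ 2 + ε k) atTop (𝓝 (‖x‖ ^ 2)) := by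
        simpa using hεl.const_add (‖x‖ ^ 2)
      exact (h2.pow (n + 1)).const_mul _)
    (by
      intro k x _
      rw [w1_inv (hε0 k)]
      simp only [hHd]
      have h1 := hε1 k
      have h2 := hε0 k
      gcongr)
    hM0 hu
  -- vanishing of `v = s0 - s` to second order
  have hsc := hs.continuousOn
  have h0Ω : (0 : VV (2 * n)) ∈ Ω := mem_ball_self hr
  have hsd : DifferentiableAt ℝ s 0 := diffAt hΩ hs h0Ω
  have hs0d : DifferentiableAt ℝ (fun x => s0 x) 0 := s0.differentiableAt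
  have hsub2 : ball (0 : VV (2 * n)) (r / 2) ⊆ Ω := ball_subset_ball (by linarith)
  have hv := NNR_597.vanish_of_le (μ := (volume : Measure (VV (2 * n))))
    (v := fun x => s0 x - s x) (r := r / 2) (U := U)
    (C := Real.exp (K / (r ^ 2 / 2))) hn hfin (by positivity)
    ((hs0c.continuousOn.sub hsc).mono hsub2) (hs0d.sub hsd)
    (hU.restrict _) (by
      filter_upwards [hsU] with x hx hxb
      have hxΩ : x ∈ Ω := hsub2 hxb
      rw [hx hxΩ, norm_mul, Complex.norm_real, Real.norm_of_nonneg (Real.sqrt_nonneg _)]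
      refine mul_le_mul_of_nonneg_right ?_ (norm_nonneg _)
      apply Real.sqrt_le_iff.2
      refine ⟨by positivity, ?_⟩
      have h1 : K / sr r x ≤ K / (r ^ 2 / 2) := by
        have h2 : r ^ 2 / 2 ≤ sr r x := by
          have h3 := mem_ball_zero_iff.1 hxb
          unfold sr
          nlinarith [norm_nonneg x]
        gcongr
      have h4 : Real.exp (K / sr r x) ≤ Real.exp (K / (r ^ 2 / 2)) := Real.exp_le_exp.2 h1
      have h5 : 1 ≤ Real.exp (K / (r ^ 2 / 2)) := Real.one_le_exp (by positivity)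
      have h6 : (‖x‖ ^ 2) ^ (n + 1) = (‖x‖ ^ (n + 1)) ^ 2 := by ring
      simp only [hGd]
      rw [h6, mul_pow]
      have h7 : Real.exp (K / sr r x) ≤ Real.exp (K / (r ^ 2 / 2)) ^ 2 := by nlinarith
      gcongr)
  refine ⟨s, hs, ?_, ?_⟩
  · have h1 := hv.2
    have h2 : fderiv ℝ (fun x => s0 x - s x) 0 = s0 - fderiv ℝ s 0 := by
      rw [fderiv_fun_sub hs0d hsd]
      congr 1
      exact s0.hasFDerivAt.fderiv
    rw [h2] at h1
    exact (sub_eq_zero.1 h1).symm
  · intro x hx v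
    exact (X_zero_iff J s x).1 (fun j => hsX j x hx) v

/-- **`CoreR n` from the estimate** -/
theorem coreR {n : ℕ} (hEW : EW (2 * n)) : NNA_17.CoreR n := by
  intro J R C hR hJ hJ2 hNij hJ0 hJq
  rcases Nat.eq_zero_or_pos n with hn | hn
  · subst hn
    refine ⟨R, hR, fun _ => 0, contDiffOn_const, ?_, fun z _ v => ?_⟩
    · have h1 : Subsingleton (EuclideanSpace ℝ (Fin (2 * 0))) := by
        have : IsEmpty (Fin (2 * 0)) := by simpa using Fin.isEmpty
        infer_instance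
      constructor
      · intro a b _; exact Subsingleton.elim a b
      · intro b
        refine ⟨0, ?_⟩
        exact Subsingleton.elim _ _
    · simp
  · obtain ⟨r, hr, h⟩ := core hn hEW J R C hR hJ hJ2 hNij hJ0 hJq
    have hfin : Module.finrank ℝ (VV (2 * n)) = 2 * n := by simp
    obtain ⟨ξ, hξ, -, e, he⟩ := LinJ_664.exists_functionals hfin (J 0)
      (hJ2 0 (mem_ball_self hR))
    choose f hf hf0 hfJ using fun k => h (ξ k) (hξ k)
    have hfd : ∀ k, ∀ x ∈ ball (0 : VV (2 * n)) r, DifferentiableAt ℝ (f k) x := fun k x hx =>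
      diffAt isOpen_ball (hf k) hx
    set F : VV (2 * n) → NNA_17.Cn n := fun x => WithLp.toLp 2 (fun k => f k x) with hF
    have hFs : ContDiffOn ℝ ∞ F (ball 0 r) := by
      rw [contDiffOn_piLp]
      exact hf
    have hFk : ∀ x ∈ ball (0 : VV (2 * n)) r, ∀ v k, fderiv ℝ F x v k = fderiv ℝ (f k) x v := by
      intro x hx v k
      have h1 : HasFDerivAt F (fderiv ℝ F x) x :=
        ((hFs.contDiffAt (isOpen_ball.mem_nhds hx)).differentiableAt (by simp)).hasFDerivAt
      have h3 : HasFDerivAt (f k)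
          (((PiLp.proj 2 (fun _ : Fin n => ℂ) k : NNA_17.Cn n →L[ℝ] ℂ)).comp (fderiv ℝ F x)) x :=
        (PiLp.proj 2 (fun _ : Fin n => ℂ) k : NNA_17.Cn n →L[ℝ] ℂ).hasFDerivAt.comp x h1
      rw [h3.fderiv]
      rfl
    refine ⟨r, hr, F, hFs, ?_, ?_⟩
    · have h1 : (fderiv ℝ F 0 : VV (2 * n) → NNA_17.Cn n) = e := by
        funext v
        ext k
        rw [hFk 0 (mem_ball_self hr) v k, hf0 k, he]
      rw [h1]
      exact e.bijective
    · intro z hz v
      ext k
      rw [hFk z hz, hfJ k z hz]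
      show _ = Complex.I * (fderiv ℝ F z v) k
      rw [hFk z hz]

/-- **Newlander-Nirenberg** from the estimate -/
theorem nnat {n : ℕ} (hEW : EW (2 * n)) (V : Type) [NormedAddCommGroup V] [NormedSpace ℝ V]
    [FiniteDimensional ℝ V] (hn : Module.finrank ℝ V = 2 * n) : ACM_580.NNat V n :=
  NNA_17.nnat_of_coreR (coreR hEW) V hn

end Crest.Agent.R260.NN5_900
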