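import Mathlib
import Crest.Agent.R260.JFr_250
import Crest.Agent.R260.ACM_580
import Crest.Agent.R260.NN5_900

-- ▼ part R260/BKX1_680
section

/-! # Bochner-Kodaira estimate for exact forms (row 260, Newlander-Nirenberg), part 1:
complex vector fields on Euclidean space, formal adjoints in `L²(exp(-Φ))`, the integrated identity. -/

namespace Crest.Agent.R260.BKX_680

open MeasureTheory Complex Set
open scoped ContDiff ComplexConjugate BigOperators

set_option linter.unusedSectionVars false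

noncomputable section

variable {E : Type} [NormedAddCommGroup E] [NormedSpace ℝ E]
variable {κ : Type} [Fintype κ] {e : κ → E}

/-- derivative of a complex valued function in the direction `a` -/
def pd (a : E) (u : E → ℂ) : E → ℂ := fun x => fderiv ℝ u x a

/-- derivative along the complex vector field `∑ ξ a ∂_a` -/
def Xd (e : κ → E) (ξ : κ → E → ℂ) (u : E → ℂ) : E → ℂ := fun x => ∑ a, ξ a x * pd (e a) u x

/-- divergence -/
def dv (e : κ → E) (ξ : κ → E → ℂ) : E → ℂ := fun x => ∑ a, pd (e a) (ξ a) x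

/-- conjugate vector field -/
def cj (ξ : κ → E → ℂ) : κ → E → ℂ := fun a x => conj (ξ a x)

/-- a real function as a complex one -/
def rc (Φ : E → ℝ) : E → ℂ := fun x => (Φ x : ℂ)

/-- test functions -/
structure Tst (u : E → ℂ) : Prop where
  smooth : ContDiff ℝ ∞ u
  supp : HasCompactSupport u

/-- formal adjoint of `Xd e ξ` in `L²(exp(-Φ) dx)` -/
def Ls (e : κ → E) (Φ : E → ℝ) (ξ : κ → E → ℂ) (v : E → ℂ) : E → ℂ :=
  fun x => -(Xd e (cj ξ) v x) - dv e (cj ξ) x * v x + Xd e (cj ξ) (rc Φ) x * v x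

/-- the weighted inner product, linear in the first variable -/
def ip [MeasurableSpace E] (μ : Measure E) (Φ : E → ℝ) (u v : E → ℂ) : ℂ :=
  ∫ x, u x * conj (v x) * ((Real.exp (-Φ x) : ℝ) : ℂ) ∂μ

/-! ### smoothness -/

theorem smooth_diff {u : E → ℂ} (hu : ContDiff ℝ ∞ u) : Differentiable ℝ u :=
  hu.differentiable (by simp)

theorem pd_smooth {u : E → ℂ} (hu : ContDiff ℝ ∞ u) (a : E) : ContDiff ℝ ∞ (pd a u) := by
  have h1 : ContDiff ℝ ∞ (fderiv ℝ u) := hu.fderiv_right (m := ∞) (by simp)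
  exact h1.clm_apply contDiff_const

theorem Xd_smooth {ξ : κ → E → ℂ} (hξ : ∀ a, ContDiff ℝ ∞ (ξ a)) {u : E → ℂ}
    (hu : ContDiff ℝ ∞ u) : ContDiff ℝ ∞ (Xd e ξ u) := by
  unfold Xd
  exact ContDiff.sum fun a _ => (hξ a).mul (pd_smooth hu (e a))

theorem dv_smooth {ξ : κ → E → ℂ} (hξ : ∀ a, ContDiff ℝ ∞ (ξ a)) :
    ContDiff ℝ ∞ (dv e ξ) := by
  unfold dv
  exact ContDiff.sum fun a _ => pd_smooth (hξ a) (e a)

theorem conj_smooth {u : E → ℂ} (hu : ContDiff ℝ ∞ u) :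
    ContDiff ℝ ∞ (fun x => conj (u x)) :=
  (Complex.conjCLE.contDiff (n := ∞)).comp hu

theorem cj_smooth {ξ : κ → E → ℂ} (hξ : ∀ a, ContDiff ℝ ∞ (ξ a)) (a : κ) :
    ContDiff ℝ ∞ (cj ξ a) := conj_smooth (hξ a)

theorem rc_smooth {Φ : E → ℝ} (hΦ : ContDiff ℝ ∞ Φ) : ContDiff ℝ ∞ (rc Φ) :=
  (Complex.ofRealCLM.contDiff (n := ∞)).comp hΦ


/-! ### calculus rules -/

theorem pd_add {u v : E → ℂ} (hu : Differentiable ℝ u) (hv : Differentiable ℝ v) (a : E)
    (x : E) : pd a (fun y => u y + v y) x = pd a u x + pd a v x := by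
  unfold pd
  rw [fderiv_fun_add (hu x) (hv x)]; rfl

theorem pd_sub {u v : E → ℂ} (hu : Differentiable ℝ u) (hv : Differentiable ℝ v) (a : E)
    (x : E) : pd a (fun y => u y - v y) x = pd a u x - pd a v x := by
  unfold pd
  rw [fderiv_fun_sub (hu x) (hv x)]; rfl

theorem pd_neg {u : E → ℂ} (a : E)
    (x : E) : pd a (fun y => -u y) x = -pd a u x := by
  unfold pd
  rw [fderiv_fun_neg]; rfl

theorem pd_mul {u v : E → ℂ} (hu : Differentiable ℝ u) (hv : Differentiable ℝ v) (a : E)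
    (x : E) : pd a (fun y => u y * v y) x = u x * pd a v x + pd a u x * v x := by
  unfold pd
  rw [fderiv_fun_mul (hu x) (hv x)]
  simp [mul_comm]

theorem pd_conj {u : E → ℂ} (hu : Differentiable ℝ u) (a : E) (x : E) :
    pd a (fun y => conj (u y)) x = conj (pd a u x) := by
  unfold pd
  have h := (Complex.conjCLE.toContinuousLinearMap.hasFDerivAt (x := u x)).comp x
    (hu x).hasFDerivAt
  have h2 : HasFDerivAt (fun y => conj (u y))
      (Complex.conjCLE.toContinuousLinearMap.comp (fderiv ℝ u x)) x := h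
  rw [h2.fderiv]
  rfl

theorem Xd_add {ξ : κ → E → ℂ} {u v : E → ℂ} (hu : Differentiable ℝ u)
    (hv : Differentiable ℝ v) (x : E) :
    Xd e ξ (fun y => u y + v y) x = Xd e ξ u x + Xd e ξ v x := by
  unfold Xd
  rw [← Finset.sum_add_distrib]
  exact Finset.sum_congr rfl fun a _ => by rw [pd_add hu hv]; ring

theorem Xd_sub {ξ : κ → E → ℂ} {u v : E → ℂ} (hu : Differentiable ℝ u)
    (hv : Differentiable ℝ v) (x : E) :
    Xd e ξ (fun y => u y - v y) x = Xd e ξ u x - Xd e ξ v x := by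
  unfold Xd
  rw [← Finset.sum_sub_distrib]
  exact Finset.sum_congr rfl fun a _ => by rw [pd_sub hu hv]; ring

theorem Xd_neg {ξ : κ → E → ℂ} {u : E → ℂ} (x : E) :
    Xd e ξ (fun y => - u y) x = - Xd e ξ u x := by
  unfold Xd
  rw [← Finset.sum_neg_distrib]
  exact Finset.sum_congr rfl fun a _ => by rw [pd_neg]; ring

theorem Xd_mul {ξ : κ → E → ℂ} {u v : E → ℂ} (hu : Differentiable ℝ u)
    (hv : Differentiable ℝ v) (x : E) :
    Xd e ξ (fun y => u y * v y) x = u x * Xd e ξ v x + Xd e ξ u x * v x := by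
  unfold Xd
  rw [Finset.mul_sum, Finset.sum_mul, ← Finset.sum_add_distrib]
  exact Finset.sum_congr rfl fun a _ => by rw [pd_mul hu hv]; ring

theorem Xd_conj {ξ : κ → E → ℂ} {u : E → ℂ} (hu : Differentiable ℝ u) (x : E) :
    Xd e (cj ξ) (fun y => conj (u y)) x = conj (Xd e ξ u x) := by
  unfold Xd cj
  rw [map_sum]
  exact Finset.sum_congr rfl fun a _ => by rw [pd_conj hu, map_mul]



theorem dv_cj {ξ : κ → E → ℂ} (hξ : ∀ a, ContDiff ℝ ∞ (ξ a)) (x : E) :
    dv e (cj ξ) x = conj (dv e ξ x) := by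
  unfold dv cj
  rw [map_sum]
  exact Finset.sum_congr rfl fun a _ => pd_conj (smooth_diff (hξ a)) (e a) x

theorem Xd_rc {ξ : κ → E → ℂ} {Φ : E → ℝ} (hΦ : ContDiff ℝ ∞ Φ) (x : E) :
    Xd e (cj ξ) (rc Φ) x = conj (Xd e ξ (rc Φ) x) := by
  rw [← Xd_conj (smooth_diff (rc_smooth hΦ)) x]
  congr 1
  funext y
  simp [rc]

/-! ### test functions -/

variable [FiniteDimensional ℝ E] [MeasurableSpace E] [BorelSpace E] {μ : Measure E}
  [μ.IsAddHaarMeasure]


theorem pd_supp {u : E → ℂ} (hu : HasCompactSupport u) (a : E) :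
    HasCompactSupport (pd a u) := by
  have h := hu.fderiv (𝕜 := ℝ)
  refine h.mono ?_
  intro x hx hx2
  apply hx
  have : fderiv ℝ u x = 0 := hx2
  simp [pd, this]

theorem Tst.xd {u : E → ℂ} (hu : Tst u) {ξ : κ → E → ℂ}
    (hξ : ∀ a, ContDiff ℝ ∞ (ξ a)) : Tst (Xd e ξ u) := by
  refine ⟨Xd_smooth hξ hu.smooth, ?_⟩
  have h := hu.supp.fderiv (𝕜 := ℝ)
  refine h.mono ?_
  intro x hx hx2
  apply hx
  have : fderiv ℝ u x = 0 := hx2
  simp [Xd, pd, this]

theorem Tst.mul_left {u w : E → ℂ} (hu : Tst u) (hw : ContDiff ℝ ∞ w) :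
    Tst (fun x => w x * u x) :=
  ⟨hw.mul hu.smooth, hu.supp.mul_left⟩

theorem Tst.add {u v : E → ℂ} (hu : Tst u) (hv : Tst v) : Tst (fun x => u x + v x) :=
  ⟨hu.smooth.add hv.smooth, hu.supp.add hv.supp⟩

theorem Tst.neg {u : E → ℂ} (hu : Tst u) : Tst (fun x => - u x) := by
  refine ⟨hu.smooth.neg, hu.supp.mono ?_⟩
  intro x hx h0
  apply hx
  have : u x = 0 := h0
  simp [this]

theorem Tst.sub {u v : E → ℂ} (hu : Tst u) (hv : Tst v) : Tst (fun x => u x - v x) := by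
  simpa [sub_eq_add_neg] using hu.add hv.neg

theorem Tst.sum {κ : Type} (s : Finset κ) {f : κ → E → ℂ} (hf : ∀ i ∈ s, Tst (f i)) :
    Tst (fun x => ∑ i ∈ s, f i x) := by
  classical
  induction s using Finset.induction_on with
  | empty =>
    refine ⟨by simpa using contDiff_const, ?_⟩
    have h0 : HasCompactSupport (0 : E → ℂ) := HasCompactSupport.zero
    have h1 : (fun x : E => ∑ i ∈ (∅ : Finset κ), f i x) = 0 := by
      funext x; simp
    rw [h1]; exact h0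
  | insert a s ha ih =>
    have h1 := (hf a (Finset.mem_insert_self a s)).add
      (ih fun i hi => hf i (Finset.mem_insert_of_mem hi))
    simpa [Finset.sum_insert ha] using h1

theorem Tst.ls {u : E → ℂ} (hu : Tst u) {Φ : E → ℝ} (hΦ : ContDiff ℝ ∞ Φ)
    {ξ : κ → E → ℂ} (hξ : ∀ a, ContDiff ℝ ∞ (ξ a)) : Tst (Ls e Φ ξ u) := by
  unfold Ls
  exact (((hu.xd (cj_smooth hξ)).neg).sub (hu.mul_left (dv_smooth (cj_smooth hξ)))).add
    (hu.mul_left (Xd_smooth (cj_smooth hξ) (rc_smooth hΦ)))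

theorem ip_integrable {Φ : E → ℝ} (hΦ : Continuous Φ) {u v : E → ℂ}
    (hu : Continuous u) (hv : Tst v) :
    Integrable (fun x => u x * conj (v x) * ((Real.exp (-Φ x) : ℝ) : ℂ)) μ := by
  have hc : Continuous (fun x => u x * conj (v x) * ((Real.exp (-Φ x) : ℝ) : ℂ)) := by
    have := hv.smooth.continuous
    fun_prop
  refine hc.integrable_of_hasCompactSupport ?_
  refine hv.supp.mono ?_
  intro x hx h0
  apply hx
  have : v x = 0 := h0
  simp [this]

theorem ip_conj {Φ : E → ℝ} (u v : E → ℂ) : conj (ip μ Φ u v) = ip μ Φ v u := by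
  unfold ip
  rw [← integral_conj]
  congr 1
  funext x
  simp only [map_mul, Complex.conj_conj, Complex.conj_ofReal]
  ring

theorem ip_add_left {Φ : E → ℝ} (hΦ : Continuous Φ) {u u' v : E → ℂ}
    (hu : Continuous u) (hu' : Continuous u') (hv : Tst v) :
    ip μ Φ (fun x => u x + u' x) v = ip μ Φ u v + ip μ Φ u' v := by
  unfold ip
  rw [← integral_add (ip_integrable hΦ hu hv) (ip_integrable hΦ hu' hv)]
  congr 1
  funext x
  ring

theorem ip_sub_left {Φ : E → ℝ} (hΦ : Continuous Φ) {u u' v : E → ℂ}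
    (hu : Continuous u) (hu' : Continuous u') (hv : Tst v) :
    ip μ Φ (fun x => u x - u' x) v = ip μ Φ u v - ip μ Φ u' v := by
  unfold ip
  rw [← integral_sub (ip_integrable hΦ hu hv) (ip_integrable hΦ hu' hv)]
  congr 1
  funext x
  ring

theorem ip_sum_left {Φ : E → ℝ} (hΦ : Continuous Φ) {κ : Type} (s : Finset κ)
    {f : κ → E → ℂ} {v : E → ℂ}
    (hf : ∀ i ∈ s, Continuous (f i)) (hv : Tst v) :
    ip μ Φ (fun x => ∑ i ∈ s, f i x) v = ∑ i ∈ s, ip μ Φ (f i) v := by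
  unfold ip
  rw [← integral_finsetSum _ (fun i hi => ip_integrable hΦ (hf i hi) hv)]
  congr 1
  funext x
  rw [Finset.sum_mul, Finset.sum_mul]

theorem ip_sum_right {Φ : E → ℝ} (hΦ : Continuous Φ) {κ : Type} (s : Finset κ)
    {f : κ → E → ℂ} {v : E → ℂ}
    (hf : ∀ i ∈ s, Tst (f i)) (hv : Continuous v) :
    ip μ Φ v (fun x => ∑ i ∈ s, f i x) = ∑ i ∈ s, ip μ Φ v (f i) := by
  unfold ip
  rw [← integral_finsetSum _ (fun i hi => ip_integrable hΦ hv (hf i hi))]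
  congr 1
  funext x
  rw [map_sum, Finset.mul_sum, Finset.sum_mul]

/-! ### adjointness -/

theorem pd_exp {Φ : E → ℝ} (hΦ : ContDiff ℝ ∞ Φ) (a : E) (x : E) :
    pd a (fun y => ((Real.exp (-Φ y) : ℝ) : ℂ)) x
      = - pd a (rc Φ) x * ((Real.exp (-Φ x) : ℝ) : ℂ) := by
  have hd : DifferentiableAt ℝ Φ x := (hΦ.differentiable (by simp)) x
  have h1 : HasFDerivAt (fun y => Real.exp (-Φ y)) (Real.exp (-Φ x) • (-(fderiv ℝ Φ x))) x :=
    (hd.hasFDerivAt.neg).exp
  have h2 : HasFDerivAt (fun y => ((Real.exp (-Φ y) : ℝ) : ℂ))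
      (Complex.ofRealCLM.comp (Real.exp (-Φ x) • (-(fderiv ℝ Φ x)))) x :=
    (Complex.ofRealCLM.hasFDerivAt (x := Real.exp (-Φ x))).comp x h1
  have h3 : HasFDerivAt (rc Φ) (Complex.ofRealCLM.comp (fderiv ℝ Φ x)) x :=
    (Complex.ofRealCLM.hasFDerivAt (x := Φ x)).comp x hd.hasFDerivAt
  unfold pd
  rw [h2.fderiv, h3.fderiv]
  simp [mul_comm]

theorem adj {Φ : E → ℝ} (hΦ : ContDiff ℝ ∞ Φ) {ξ : κ → E → ℂ}
    (hξ : ∀ a, ContDiff ℝ ∞ (ξ a)) {u v : E → ℂ} (hu : ContDiff ℝ ∞ u)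
    (hv : ContDiff ℝ ∞ v) (hc : HasCompactSupport u ∨ HasCompactSupport v) :
    ip μ Φ (Xd e ξ u) v = ip μ Φ u (Ls e Φ ξ v) := by
  have hρ : ContDiff ℝ ∞ (fun y => ((Real.exp (-Φ y) : ℝ) : ℂ)) :=
    (Complex.ofRealCLM.contDiff (n := ∞)).comp (Real.contDiff_exp.comp hΦ.neg)
  have hvc := conj_smooth hv
  have hF : ∀ a, ContDiff ℝ ∞ (fun x => ξ a x * conj (v x) * ((Real.exp (-Φ x) : ℝ) : ℂ)) :=
    fun a => ((hξ a).mul hvc).mul hρ
  have key : ∀ a, ∫ x, (ξ a x * conj (v x) * ((Real.exp (-Φ x) : ℝ) : ℂ)) * pd (e a) u x ∂μ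
      = - ∫ x, pd (e a) (fun x => ξ a x * conj (v x) * ((Real.exp (-Φ x) : ℝ) : ℂ)) x * u x ∂μ := by
    intro a
    have hpu := (pd_smooth hu (e a)).continuous
    have hpF := (pd_smooth (hF a) (e a)).continuous
    have hFc := (hF a).continuous
    have huc := hu.continuous
    refine integral_mul_fderiv_eq_neg_fderiv_mul_of_integrable
      (v := e a) ?_ ?_ ?_
      (fun x _ => smooth_diff (hF a) x) (fun x _ => smooth_diff hu x)
    · refine (hpF.mul huc).integrable_of_hasCompactSupport ?_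
      rcases hc with hc | hc
      · exact hc.mul_left
      · refine (HasCompactSupport.mul_right (pd_supp ?_ (e a)))
        refine hc.mono ?_
        intro x hx h0
        apply hx
        have : v x = 0 := h0
        simp [this]
    · refine (hFc.mul hpu).integrable_of_hasCompactSupport ?_
      rcases hc with hc | hc
      · exact (pd_supp hc (e a)).mul_left
      · refine HasCompactSupport.mul_right ?_
        refine hc.mono ?_
        intro x hx h0
        apply hx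
        have : v x = 0 := h0
        simp [this]
    · refine (hFc.mul huc).integrable_of_hasCompactSupport ?_
      rcases hc with hc | hc
      · exact hc.mul_left
      · refine HasCompactSupport.mul_right ?_
        refine hc.mono ?_
        intro x hx h0
        apply hx
        have : v x = 0 := h0
        simp [this]
  have hint1 : ∀ a, Integrable
      (fun x => (ξ a x * conj (v x) * ((Real.exp (-Φ x) : ℝ) : ℂ)) * pd (e a) u x) μ := by
    intro a
    have hpu := (pd_smooth hu (e a)).continuous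
    have hFc := (hF a).continuous
    refine (hFc.mul hpu).integrable_of_hasCompactSupport ?_
    rcases hc with hc | hc
    · exact (pd_supp hc (e a)).mul_left
    · refine HasCompactSupport.mul_right ?_
      refine hc.mono ?_
      intro x hx h0
      apply hx
      have : v x = 0 := h0
      simp [this]
  have hint2 : ∀ a, Integrable
      (fun x => pd (e a) (fun x => ξ a x * conj (v x) * ((Real.exp (-Φ x) : ℝ) : ℂ)) x * u x) μ := by
    intro a
    have hpF := (pd_smooth (hF a) (e a)).continuous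
    have huc := hu.continuous
    refine (hpF.mul huc).integrable_of_hasCompactSupport ?_
    rcases hc with hc | hc
    · exact hc.mul_left
    · refine (HasCompactSupport.mul_right (pd_supp ?_ (e a)))
      refine hc.mono ?_
      intro x hx h0
      apply hx
      have : v x = 0 := h0
      simp [this]
  have e1 : ip μ Φ (Xd e ξ u) v
      = ∑ a, ∫ x, (ξ a x * conj (v x) * ((Real.exp (-Φ x) : ℝ) : ℂ)) * pd (e a) u x ∂μ := by
    rw [← integral_finsetSum _ (fun a _ => hint1 a)]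
    unfold ip Xd
    congr 1
    funext x
    rw [Finset.sum_mul, Finset.sum_mul]
    exact Finset.sum_congr rfl fun a _ => by ring
  rw [e1, Finset.sum_congr rfl (fun a _ => key a), Finset.sum_neg_distrib,
    ← integral_finsetSum _ (fun a _ => hint2 a), ← integral_neg]
  unfold ip
  congr 1
  funext x
  have hpt : ∀ a, pd (e a) (fun x => ξ a x * conj (v x) * ((Real.exp (-Φ x) : ℝ) : ℂ)) x
      = (ξ a x * conj (pd (e a) v x) + pd (e a) (ξ a) x * conj (v x)
          - ξ a x * pd (e a) (rc Φ) x * conj (v x)) * ((Real.exp (-Φ x) : ℝ) : ℂ) := by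
    intro a
    rw [pd_mul (smooth_diff ((hξ a).mul hvc)) (smooth_diff hρ),
      pd_mul (smooth_diff (hξ a)) (smooth_diff hvc), pd_conj (smooth_diff hv), pd_exp hΦ]
    ring
  simp_rw [hpt]
  unfold Ls
  rw [map_add, map_sub, map_neg, map_mul, map_mul, dv_cj hξ, Xd_rc hΦ]
  simp only [Complex.conj_conj]
  have hX : conj (Xd e (cj ξ) v x) = ∑ a, ξ a x * conj (pd (e a) v x) := by
    unfold Xd cj
    rw [map_sum]
    exact Finset.sum_congr rfl fun a _ => by simp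
  rw [hX]
  unfold dv Xd
  rw [← Finset.sum_mul, ← Finset.sum_mul]
  rw [show (fun a => ξ a x * conj (pd (e a) v x) + pd (e a) (ξ a) x * conj (v x)
          - ξ a x * pd (e a) (rc Φ) x * conj (v x)) = fun a => (ξ a x * conj (pd (e a) v x)
          + pd (e a) (ξ a) x * conj (v x)) - ξ a x * pd (e a) (rc Φ) x * conj (v x) from rfl,
    Finset.sum_sub_distrib, Finset.sum_add_distrib, ← Finset.sum_mul, ← Finset.sum_mul]
  ring

theorem adj' {Φ : E → ℝ} (hΦ : ContDiff ℝ ∞ Φ) {ξ : κ → E → ℂ}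
    (hξ : ∀ a, ContDiff ℝ ∞ (ξ a)) {u v : E → ℂ} (hu : ContDiff ℝ ∞ u)
    (hv : ContDiff ℝ ∞ v) (hc : HasCompactSupport u ∨ HasCompactSupport v) :
    ip μ Φ (Ls e Φ ξ u) v = ip μ Φ u (Xd e ξ v) := by
  rw [← ip_conj, ← adj hΦ hξ hv hu hc.symm, ip_conj]

end

end Crest.Agent.R260.BKX_680
end

-- ▼ part R260/BKX2_680
section

/-! # Bochner-Kodaira estimate for exact forms, part 2: the commutator identity, the integrated
identity for `∑ j, Lⱼ* hⱼ` and the pointwise inequality. -/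

namespace Crest.Agent.R260.BKX_680

open MeasureTheory Complex Set
open scoped ContDiff ComplexConjugate BigOperators

set_option linter.unusedSectionVars false

noncomputable section

variable {E : Type} [NormedAddCommGroup E] [NormedSpace ℝ E]
variable {κ : Type} [Fintype κ] {e : κ → E}
variable {ι : Type} [Fintype ι]

/-- the Levi form of `Φ` in the family `ξ`; `β k j l` are the coefficients of the `(1,0)` part of
`[ξ k, conj (ξ j)]` -/
def Hco (e : κ → E) (ξ : ι → κ → E → ℂ) (β : ι → ι → ι → E → ℂ) (Φ : E → ℝ) (k j : ι) :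
    E → ℂ := fun x =>
  Xd e (ξ k) (Xd e (cj (ξ j)) (rc Φ)) x - ∑ l, β k j l x * Xd e (cj (ξ l)) (rc Φ) x

/-- the zero order error term -/
def eco (e : κ → E) (ξ : ι → κ → E → ℂ) (β : ι → ι → ι → E → ℂ) (k j : ι) : E → ℂ := fun x =>
  ∑ l, (Xd e (cj (ξ l)) (β k j l) x + β k j l x * dv e (cj (ξ l)) x)
    - Xd e (ξ k) (dv e (cj (ξ j))) x

theorem Hco_smooth {ξ : ι → κ → E → ℂ} {β : ι → ι → ι → E → ℂ} {Φ : E → ℝ}
    (hξ : ∀ j a, ContDiff ℝ ∞ (ξ j a)) (hβ : ∀ k j l, ContDiff ℝ ∞ (β k j l))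
    (hΦ : ContDiff ℝ ∞ Φ) (k j : ι) : ContDiff ℝ ∞ (Hco e ξ β Φ k j) := by
  unfold Hco
  refine (Xd_smooth (hξ k) (Xd_smooth (cj_smooth (hξ j)) (rc_smooth hΦ))).sub ?_
  exact ContDiff.sum fun l _ => (hβ k j l).mul (Xd_smooth (cj_smooth (hξ l)) (rc_smooth hΦ))

theorem eco_smooth {ξ : ι → κ → E → ℂ} {β : ι → ι → ι → E → ℂ}
    (hξ : ∀ j a, ContDiff ℝ ∞ (ξ j a)) (hβ : ∀ k j l, ContDiff ℝ ∞ (β k j l)) (k j : ι) :
    ContDiff ℝ ∞ (eco e ξ β k j) := by
  unfold eco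
  refine ContDiff.sub ?_ (Xd_smooth (hξ k) (dv_smooth (cj_smooth (hξ j))))
  exact ContDiff.sum fun l _ => (Xd_smooth (cj_smooth (hξ l)) (hβ k j l)).add
    ((hβ k j l).mul (dv_smooth (cj_smooth (hξ l))))

theorem comm_pt {ξ : ι → κ → E → ℂ} {α β : ι → ι → ι → E → ℂ} {Φ : E → ℝ}
    (hξ : ∀ j a, ContDiff ℝ ∞ (ξ j a)) (hβ : ∀ k j l, ContDiff ℝ ∞ (β k j l))
    (hΦ : ContDiff ℝ ∞ Φ) {h : E → ℂ} (hh : ContDiff ℝ ∞ h) (k j : ι) (x : E)
    (hc : Xd e (ξ k) (Xd e (cj (ξ j)) h) x - Xd e (cj (ξ j)) (Xd e (ξ k) h) x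
      = ∑ l, (α k j l x * Xd e (ξ l) h x + β k j l x * Xd e (cj (ξ l)) h x)) :
    Xd e (ξ k) (Ls e Φ (ξ j) h) x
      = Ls e Φ (ξ j) (Xd e (ξ k) h) x - ∑ l, α k j l x * Xd e (ξ l) h x
        + ∑ l, Ls e Φ (ξ l) (fun y => β k j l y * h y) x
        + (Hco e ξ β Φ k j x + eco e ξ β k j x) * h x := by
  have h1 := smooth_diff (Xd_smooth (e := e) (cj_smooth (hξ j)) hh)
  have h2 := smooth_diff (dv_smooth (e := e) (cj_smooth (hξ j)))
  have h3 := smooth_diff (Xd_smooth (e := e) (cj_smooth (hξ j)) (rc_smooth hΦ))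
  have hd := smooth_diff hh
  have e1 : Xd e (ξ k) (Ls e Φ (ξ j) h) x
      = -(Xd e (ξ k) (Xd e (cj (ξ j)) h) x)
        - (dv e (cj (ξ j)) x * Xd e (ξ k) h x + Xd e (ξ k) (dv e (cj (ξ j))) x * h x)
        + (Xd e (cj (ξ j)) (rc Φ) x * Xd e (ξ k) h x
          + Xd e (ξ k) (Xd e (cj (ξ j)) (rc Φ)) x * h x) := by
    unfold Ls
    rw [Xd_add (u := fun x => -(Xd e (cj (ξ j)) h x) - dv e (cj (ξ j)) x * h x)
      (v := fun x => Xd e (cj (ξ j)) (rc Φ) x * h x) (h1.neg.sub (h2.mul hd)) (h3.mul hd),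
      Xd_sub (u := fun x => -(Xd e (cj (ξ j)) h x)) (v := fun x => dv e (cj (ξ j)) x * h x)
        h1.neg (h2.mul hd), Xd_neg, Xd_mul h2 hd, Xd_mul h3 hd]
  have e2 : ∀ l, Ls e Φ (ξ l) (fun y => β k j l y * h y) x
      = -(β k j l x * Xd e (cj (ξ l)) h x) - Xd e (cj (ξ l)) (β k j l) x * h x
        - β k j l x * dv e (cj (ξ l)) x * h x
        + β k j l x * Xd e (cj (ξ l)) (rc Φ) x * h x := by
    intro l
    unfold Ls
    rw [Xd_mul (smooth_diff (hβ k j l)) hd]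
    ring
  have hc' : Xd e (ξ k) (Xd e (cj (ξ j)) h) x = Xd e (cj (ξ j)) (Xd e (ξ k) h) x
      + (∑ l, α k j l x * Xd e (ξ l) h x + ∑ l, β k j l x * Xd e (cj (ξ l)) h x) := by
    rw [← Finset.sum_add_distrib, ← hc]; ring
  rw [e1, hc']
  simp_rw [e2]
  unfold Hco eco
  rw [show Ls e Φ (ξ j) (Xd e (ξ k) h) x = -(Xd e (cj (ξ j)) (Xd e (ξ k) h) x)
    - dv e (cj (ξ j)) x * Xd e (ξ k) h x + Xd e (cj (ξ j)) (rc Φ) x * Xd e (ξ k) h x from rfl]
  have e3 : ∑ l, (-(β k j l x * Xd e (cj (ξ l)) h x) - Xd e (cj (ξ l)) (β k j l) x * h x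
        - β k j l x * dv e (cj (ξ l)) x * h x
        + β k j l x * Xd e (cj (ξ l)) (rc Φ) x * h x)
      = - ∑ l, β k j l x * Xd e (cj (ξ l)) h x
        - (∑ l, (Xd e (cj (ξ l)) (β k j l) x + β k j l x * dv e (cj (ξ l)) x)) * h x
        + (∑ l, β k j l x * Xd e (cj (ξ l)) (rc Φ) x) * h x := by
    rw [Finset.sum_mul, Finset.sum_mul, ← Finset.sum_neg_distrib, ← Finset.sum_sub_distrib,
      ← Finset.sum_add_distrib]
    exact Finset.sum_congr rfl fun l _ => by ring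
  rw [e3]
  ring

/-! ### the integrated identity -/

/-- the integrand of the identity -/
def Gf (e : κ → E) (ξ : ι → κ → E → ℂ) (α β : ι → ι → ι → E → ℂ) (Φ : E → ℝ) (h : ι → E → ℂ) :
    E → ℂ := fun x =>
  ∑ k, ∑ j, (Xd e (ξ k) (h j) x * conj (Xd e (ξ j) (h k) x)
    - ∑ l, α k j l x * Xd e (ξ l) (h j) x * conj (h k x)
    + ∑ l, β k j l x * h j x * conj (Xd e (ξ l) (h k) x)
    + (Hco e ξ β Φ k j x + eco e ξ β k j x) * h j x * conj (h k x))

variable [FiniteDimensional ℝ E] [MeasurableSpace E] [BorelSpace E] {μ : Measure E}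
  [μ.IsAddHaarMeasure]

theorem hr4 (a b c d r : ℂ) : (a - b + c + d) * r = a * r - b * r + c * r + d * r := by ring

theorem est_id {ξ : ι → κ → E → ℂ} {α β : ι → ι → ι → E → ℂ} {Φ : E → ℝ}
    (hξ : ∀ j a, ContDiff ℝ ∞ (ξ j a)) (hα : ∀ k j l, ContDiff ℝ ∞ (α k j l))
    (hβ : ∀ k j l, ContDiff ℝ ∞ (β k j l))
    (hΦ : ContDiff ℝ ∞ Φ) {h : ι → E → ℂ} (hh : ∀ j, Tst (h j)) (O : Set E)
    (hO : ∀ j x, x ∉ O → h j x = 0)
    (hc : ∀ k j i, ∀ x ∈ O, Xd e (ξ k) (Xd e (cj (ξ j)) (h i)) x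
        - Xd e (cj (ξ j)) (Xd e (ξ k) (h i)) x
      = ∑ l, (α k j l x * Xd e (ξ l) (h i) x + β k j l x * Xd e (cj (ξ l)) (h i) x)) :
    ip μ Φ (fun x => ∑ j, Ls e Φ (ξ j) (h j) x) (fun x => ∑ j, Ls e Φ (ξ j) (h j) x)
      = ∫ x, Gf e ξ α β Φ h x * ((Real.exp (-Φ x) : ℝ) : ℂ) ∂μ := by
  have hΦc := hΦ.continuous
  have hLs : ∀ j, Tst (Ls e Φ (ξ j) (h j)) := fun j => (hh j).ls hΦ (hξ j)
  -- expand
  have s1 : ip μ Φ (fun x => ∑ j, Ls e Φ (ξ j) (h j) x) (fun x => ∑ j, Ls e Φ (ξ j) (h j) x)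
      = ∑ k, ∑ j, ip μ Φ (Ls e Φ (ξ j) (h j)) (Ls e Φ (ξ k) (h k)) := by
    rw [ip_sum_right hΦc Finset.univ (fun i _ => hLs i)
      (Tst.sum Finset.univ fun i _ => hLs i).smooth.continuous]
    exact Finset.sum_congr rfl fun k _ =>
      ip_sum_left hΦc Finset.univ (fun i _ => (hLs i).smooth.continuous) (hLs k)
  -- one term
  have s2 : ∀ k j, ip μ Φ (Ls e Φ (ξ j) (h j)) (Ls e Φ (ξ k) (h k))
      = ip μ Φ (Xd e (ξ k) (h j)) (Xd e (ξ j) (h k))
        - ∑ l, ip μ Φ (fun x => α k j l x * Xd e (ξ l) (h j) x) (h k)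
        + ∑ l, ip μ Φ (fun x => β k j l x * h j x) (Xd e (ξ l) (h k))
        + ip μ Φ (fun x => (Hco e ξ β Φ k j x + eco e ξ β k j x) * h j x) (h k) := by
    intro k j
    have t1 := hLs j
    have t2 : Tst (Ls e Φ (ξ j) (Xd e (ξ k) (h j))) := ((hh j).xd (hξ k)).ls hΦ (hξ j)
    have t3 : ∀ l, Tst (fun x => α k j l x * Xd e (ξ l) (h j) x) := fun l =>
      ((hh j).xd (hξ l)).mul_left (hα k j l)
    have t4 : ∀ l, Tst (fun x => β k j l x * h j x) := fun l => (hh j).mul_left (hβ k j l)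
    have t5 : ∀ l, Tst (Ls e Φ (ξ l) (fun x => β k j l x * h j x)) := fun l =>
      (t4 l).ls hΦ (hξ l)
    have t6 : Tst (fun x => (Hco e ξ β Φ k j x + eco e ξ β k j x) * h j x) :=
      (hh j).mul_left ((Hco_smooth hξ hβ hΦ k j).add (eco_smooth hξ hβ k j))
    have a1 : ip μ Φ (Ls e Φ (ξ j) (h j)) (Ls e Φ (ξ k) (h k))
        = ip μ Φ (Xd e (ξ k) (Ls e Φ (ξ j) (h j))) (h k) :=
      (adj hΦ (hξ k) t1.smooth (hh k).smooth (Or.inl t1.supp)).symm
    have a2 : ip μ Φ (Xd e (ξ k) (Ls e Φ (ξ j) (h j))) (h k)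
        = ip μ Φ (fun x => ((Ls e Φ (ξ j) (Xd e (ξ k) (h j)) x
            - ∑ l, α k j l x * Xd e (ξ l) (h j) x)
          + ∑ l, Ls e Φ (ξ l) (fun y => β k j l y * h j y) x)
          + (Hco e ξ β Φ k j x + eco e ξ β k j x) * h j x) (h k) := by
      unfold ip
      congr 1
      funext x
      by_cases hx : x ∈ O
      · rw [comm_pt hξ hβ hΦ (hh j).smooth k j x (hc k j j x hx)]
      · rw [hO k x hx]; simp
    rw [a1, a2, ip_add_left hΦc
      (((t2.sub (Tst.sum Finset.univ fun l _ => t3 l)).add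
        (Tst.sum Finset.univ fun l _ => t5 l)).smooth.continuous) t6.smooth.continuous (hh k),
      ip_add_left hΦc ((t2.sub (Tst.sum Finset.univ fun l _ => t3 l)).smooth.continuous)
        (Tst.sum Finset.univ fun l _ => t5 l).smooth.continuous (hh k),
      ip_sub_left hΦc t2.smooth.continuous
        (Tst.sum Finset.univ fun l _ => t3 l).smooth.continuous (hh k),
      ip_sum_left hΦc Finset.univ (fun l _ => (t3 l).smooth.continuous) (hh k),
      ip_sum_left hΦc Finset.univ (fun l _ => (t5 l).smooth.continuous) (hh k)]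
    rw [adj' hΦ (hξ j) ((hh j).xd (hξ k)).smooth (hh k).smooth (Or.inr (hh k).supp)]
    rw [Finset.sum_congr rfl fun l _ => adj' hΦ (hξ l) (t4 l).smooth (hh k).smooth
      (Or.inr (hh k).supp)]
  rw [s1]
  simp_rw [s2]
  -- collect
  have i1 : ∀ k j, Integrable (fun x => Xd e (ξ k) (h j) x * conj (Xd e (ξ j) (h k) x)
      * ((Real.exp (-Φ x) : ℝ) : ℂ)) μ := fun k j =>
    ip_integrable hΦc ((hh j).xd (hξ k)).smooth.continuous ((hh k).xd (hξ j))
  have i2 : ∀ k j l, Integrable (fun x => α k j l x * Xd e (ξ l) (h j) x * conj (h k x)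
      * ((Real.exp (-Φ x) : ℝ) : ℂ)) μ := fun k j l =>
    ip_integrable hΦc ((hα k j l).continuous.mul ((hh j).xd (hξ l)).smooth.continuous) (hh k)
  have i3 : ∀ k j l, Integrable (fun x => β k j l x * h j x * conj (Xd e (ξ l) (h k) x)
      * ((Real.exp (-Φ x) : ℝ) : ℂ)) μ := fun k j l =>
    ip_integrable hΦc ((hβ k j l).continuous.mul (hh j).smooth.continuous) ((hh k).xd (hξ l))
  have i4 : ∀ k j, Integrable (fun x => (Hco e ξ β Φ k j x + eco e ξ β k j x) * h j x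
      * conj (h k x) * ((Real.exp (-Φ x) : ℝ) : ℂ)) μ := fun k j =>
    ip_integrable hΦc (((Hco_smooth hξ hβ hΦ k j).add (eco_smooth hξ hβ k j)).continuous.mul
      (hh j).smooth.continuous) (hh k)
  have key : ∀ (f1 f2 f3 f4 : E → ℂ), Integrable f1 μ → Integrable f2 μ → Integrable f3 μ →
      Integrable f4 μ → ∫ x, f1 x ∂μ - ∫ x, f2 x ∂μ + ∫ x, f3 x ∂μ + ∫ x, f4 x ∂μ
        = ∫ x, (f1 x - f2 x + f3 x + f4 x) ∂μ := by
    intro f1 f2 f3 f4 h1 h2 h3 h4
    rw [integral_add (f := fun x => f1 x - f2 x + f3 x) (g := f4) ((h1.sub h2).add h3) h4,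
      integral_add (f := fun x => f1 x - f2 x) (g := f3) (h1.sub h2) h3, integral_sub h1 h2]
  have c1 : ∀ k j, ip μ Φ (Xd e (ξ k) (h j)) (Xd e (ξ j) (h k))
        - ∑ l, ip μ Φ (fun x => α k j l x * Xd e (ξ l) (h j) x) (h k)
        + ∑ l, ip μ Φ (fun x => β k j l x * h j x) (Xd e (ξ l) (h k))
        + ip μ Φ (fun x => (Hco e ξ β Φ k j x + eco e ξ β k j x) * h j x) (h k)
      = ∫ x, ((Xd e (ξ k) (h j) x * conj (Xd e (ξ j) (h k) x)
    - ∑ l, α k j l x * Xd e (ξ l) (h j) x * conj (h k x)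
    + ∑ l, β k j l x * h j x * conj (Xd e (ξ l) (h k) x)
    + (Hco e ξ β Φ k j x + eco e ξ β k j x) * h j x * conj (h k x))
      * ((Real.exp (-Φ x) : ℝ) : ℂ)) ∂μ := by
    intro k j
    unfold ip
    rw [← integral_finsetSum _ (fun l _ => i2 k j l), ← integral_finsetSum _ (fun l _ => i3 k j l)]
    rw [key _ _ _ _ (i1 k j) (integrable_finsetSum _ fun l _ => i2 k j l)
      (integrable_finsetSum _ fun l _ => i3 k j l) (i4 k j)]
    congr 1
    funext x
    rw [hr4, Finset.sum_mul, Finset.sum_mul]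
  simp_rw [c1]
  have i5 : ∀ k j, Integrable (fun x => ((Xd e (ξ k) (h j) x * conj (Xd e (ξ j) (h k) x)
    - ∑ l, α k j l x * Xd e (ξ l) (h j) x * conj (h k x)
    + ∑ l, β k j l x * h j x * conj (Xd e (ξ l) (h k) x)
    + (Hco e ξ β Φ k j x + eco e ξ β k j x) * h j x * conj (h k x))
      * ((Real.exp (-Φ x) : ℝ) : ℂ))) μ := by
    intro k j
    refine ((((i1 k j).sub (integrable_finsetSum Finset.univ fun l _ => i2 k j l)).add
        (integrable_finsetSum Finset.univ fun l _ => i3 k j l)).add (i4 k j)).congr ?_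
    refine Filter.Eventually.of_forall fun x => ?_
    simp only [Pi.sub_apply, Pi.add_apply]
    rw [hr4, Finset.sum_mul, Finset.sum_mul]
  rw [Finset.sum_congr rfl fun k _ => (integral_finsetSum _ (fun j _ => i5 k j)).symm,
    ← integral_finsetSum _ (fun k _ => integrable_finsetSum _ fun j _ => i5 k j)]
  congr 1
  funext x
  unfold Gf
  rw [Finset.sum_mul]
  exact Finset.sum_congr rfl fun k _ => by rw [Finset.sum_mul]

end

end Crest.Agent.R260.BKX_680
end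

-- ▼ part R260/BKX3_680
section

/-! # Bochner-Kodaira estimate for exact forms, part 3: the pointwise inequality and the estimate
with general smooth data. -/

namespace Crest.Agent.R260.BKX_680

open MeasureTheory Complex Set
open scoped ContDiff ComplexConjugate BigOperators

set_option linter.unusedSectionVars false

noncomputable section

section pointwise

variable {ι : Type} [Fintype ι]

/-- the pointwise inequality -/
theorem pw_ineq (a : ι → ι → ℂ) (h : ι → ℂ) (α β : ι → ι → ι → ℂ) (H z : ι → ι → ℂ)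
    {W E0 T : ℝ} (hα : ∀ k j l, ‖α k j l‖ ≤ W) (hβ : ∀ k j l, ‖β k j l‖ ≤ W)
    (hz : ∀ k j, ‖z k j‖ ≤ E0) (hT : ∀ k j, ‖a k j - a j k‖ ≤ T * ∑ i, ‖h i‖) :
    (1 / 2) * ∑ k, ∑ j, ‖a k j‖ ^ 2 + (∑ k, ∑ j, H k j * h j * conj (h k)).re
      - ((Fintype.card ι : ℝ) ^ 2 * T ^ 2 + 4 * (Fintype.card ι : ℝ) ^ 2 * W ^ 2 + E0)
          * (∑ i, ‖h i‖) ^ 2
    ≤ (∑ k, ∑ j, (a k j * conj (a j k) - ∑ l, α k j l * a l j * conj (h k)
        + ∑ l, β k j l * h j * conj (a l k) + (H k j + z k j) * h j * conj (h k))).re := by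
  set p : ℝ := ∑ i, ‖h i‖ with hp
  have hp0 : 0 ≤ p := Finset.sum_nonneg fun i _ => norm_nonneg _
  set N : ℝ := (Fintype.card ι : ℝ) with hN
  -- the real part as a sum
  have hre : (∑ k, ∑ j, (a k j * conj (a j k) - ∑ l, α k j l * a l j * conj (h k)
        + ∑ l, β k j l * h j * conj (a l k) + (H k j + z k j) * h j * conj (h k))).re
      = ∑ k, ∑ j, (a k j * conj (a j k)).re - ∑ k, ∑ j, ∑ l, (α k j l * a l j * conj (h k)).re
        + ∑ k, ∑ j, ∑ l, (β k j l * h j * conj (a l k)).re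
        + (∑ k, ∑ j, H k j * h j * conj (h k)).re + ∑ k, ∑ j, (z k j * h j * conj (h k)).re := by
    rw [Complex.re_sum, Complex.re_sum, ← Finset.sum_sub_distrib, ← Finset.sum_add_distrib,
      ← Finset.sum_add_distrib, ← Finset.sum_add_distrib]
    refine Finset.sum_congr rfl fun k _ => ?_
    rw [Complex.re_sum, Complex.re_sum, ← Finset.sum_sub_distrib, ← Finset.sum_add_distrib,
      ← Finset.sum_add_distrib, ← Finset.sum_add_distrib]
    refine Finset.sum_congr rfl fun j _ => ?_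
    rw [Complex.add_re, Complex.add_re, Complex.sub_re, Complex.re_sum, Complex.re_sum, add_mul,
      add_mul, Complex.add_re]
    ring
  have t1 : ∀ k j, (3 / 4) * ‖a k j‖ ^ 2 - T ^ 2 * p ^ 2 ≤ (a k j * conj (a j k)).re := by
    intro k j
    have e1 : a k j * conj (a j k)
        = ((‖a k j‖ ^ 2 : ℝ) : ℂ) - a k j * conj (a k j - a j k) := by
      rw [map_sub, mul_sub, Complex.mul_conj, Complex.normSq_eq_norm_sq]
      push_cast; ring
    rw [e1, Complex.sub_re, Complex.ofReal_re]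
    have e2 : (a k j * conj (a k j - a j k)).re ≤ ‖a k j‖ * (T * p) := by
      refine (Complex.re_le_norm _).trans ?_
      rw [norm_mul, RCLike.norm_conj]
      exact mul_le_mul_of_nonneg_left (hT k j) (norm_nonneg _)
    nlinarith [sq_nonneg (‖a k j‖ / 2 - T * p)]
  have t2 : ∀ k j l, (α k j l * a l j * conj (h k)).re ≤ W * ‖a l j‖ * ‖h k‖ := by
    intro k j l
    refine (Complex.re_le_norm _).trans ?_
    rw [norm_mul, norm_mul, RCLike.norm_conj]
    exact mul_le_mul_of_nonneg_right (mul_le_mul_of_nonneg_right (hα k j l) (norm_nonneg _))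
      (norm_nonneg _)
  have t3 : ∀ k j l, -(W * ‖a l k‖ * ‖h j‖) ≤ (β k j l * h j * conj (a l k)).re := by
    intro k j l
    have h1 : -(β k j l * h j * conj (a l k)).re ≤ ‖β k j l * h j * conj (a l k)‖ := by
      rw [← Complex.neg_re, ← norm_neg]
      exact Complex.re_le_norm _
    rw [norm_mul, norm_mul, RCLike.norm_conj] at h1
    have h2 : ‖β k j l‖ * ‖h j‖ * ‖a l k‖ ≤ W * ‖h j‖ * ‖a l k‖ :=
      mul_le_mul_of_nonneg_right (mul_le_mul_of_nonneg_right (hβ k j l) (norm_nonneg _))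
        (norm_nonneg _)
    nlinarith
  have t4 : ∀ k j, -(E0 * ‖h j‖ * ‖h k‖) ≤ (z k j * h j * conj (h k)).re := by
    intro k j
    have h1 : -(z k j * h j * conj (h k)).re ≤ ‖z k j * h j * conj (h k)‖ := by
      rw [← Complex.neg_re, ← norm_neg]
      exact Complex.re_le_norm _
    rw [norm_mul, norm_mul, RCLike.norm_conj] at h1
    have h2 : ‖z k j‖ * ‖h j‖ * ‖h k‖ ≤ E0 * ‖h j‖ * ‖h k‖ :=
      mul_le_mul_of_nonneg_right (mul_le_mul_of_nonneg_right (hz k j) (norm_nonneg _))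
        (norm_nonneg _)
    linarith
  -- sums
  have hcard : ∀ c : ℝ, ∑ _k : ι, ∑ _j : ι, c = N ^ 2 * c := by
    intro c
    simp [hN]; ring
  have s1 : (3 / 4) * ∑ k, ∑ j, ‖a k j‖ ^ 2 - N ^ 2 * (T ^ 2 * p ^ 2)
      ≤ ∑ k, ∑ j, (a k j * conj (a j k)).re := by
    rw [← hcard, Finset.mul_sum, ← Finset.sum_sub_distrib]
    refine Finset.sum_le_sum fun k _ => ?_
    rw [Finset.mul_sum, ← Finset.sum_sub_distrib]
    exact Finset.sum_le_sum fun j _ => t1 k j
  have am : ∀ l j, W * ‖a l j‖ * p ≤ (1 / 8) * ‖a l j‖ ^ 2 + 2 * W ^ 2 * p ^ 2 := by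
    intro l j
    nlinarith [sq_nonneg (‖a l j‖ / 4 - W * p), sq_nonneg (‖a l j‖ - 4 * W * p)]
  have s2 : ∑ k, ∑ j, ∑ l, (α k j l * a l j * conj (h k)).re
      ≤ (1 / 8) * ∑ k, ∑ j, ‖a k j‖ ^ 2 + N ^ 2 * (2 * W ^ 2 * p ^ 2) := by
    calc ∑ k, ∑ j, ∑ l, (α k j l * a l j * conj (h k)).re
        ≤ ∑ k, ∑ j, ∑ l, W * ‖a l j‖ * ‖h k‖ :=
          Finset.sum_le_sum fun k _ => Finset.sum_le_sum fun j _ => Finset.sum_le_sum
            fun l _ => t2 k j l
      _ = ∑ j, ∑ l, W * ‖a l j‖ * p := by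
          rw [Finset.sum_comm]
          refine Finset.sum_congr rfl fun j _ => ?_
          rw [Finset.sum_comm]
          refine Finset.sum_congr rfl fun l _ => ?_
          rw [hp, Finset.mul_sum]
      _ ≤ ∑ j, ∑ l, ((1 / 8) * ‖a l j‖ ^ 2 + 2 * W ^ 2 * p ^ 2) :=
          Finset.sum_le_sum fun j _ => Finset.sum_le_sum fun l _ => am l j
      _ = (1 / 8) * ∑ k, ∑ j, ‖a k j‖ ^ 2 + N ^ 2 * (2 * W ^ 2 * p ^ 2) := by
          rw [← hcard, Finset.mul_sum]
          simp_rw [Finset.sum_add_distrib]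
          rw [Finset.sum_comm]
          simp_rw [Finset.mul_sum]
  have s3 : -((1 / 8) * ∑ k, ∑ j, ‖a k j‖ ^ 2 + N ^ 2 * (2 * W ^ 2 * p ^ 2))
      ≤ ∑ k, ∑ j, ∑ l, (β k j l * h j * conj (a l k)).re := by
    have h1 : ∑ k, ∑ j, ∑ l, -(W * ‖a l k‖ * ‖h j‖)
        ≤ ∑ k, ∑ j, ∑ l, (β k j l * h j * conj (a l k)).re :=
      Finset.sum_le_sum fun k _ => Finset.sum_le_sum fun j _ => Finset.sum_le_sum
            fun l _ => t3 k j l
    refine le_trans ?_ h1
    have h2 : ∑ k, ∑ j, ∑ l, -(W * ‖a l k‖ * ‖h j‖) = -∑ k, ∑ l, W * ‖a l k‖ * p := by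
      rw [← Finset.sum_neg_distrib]
      refine Finset.sum_congr rfl fun k _ => ?_
      rw [Finset.sum_comm, ← Finset.sum_neg_distrib]
      refine Finset.sum_congr rfl fun l _ => ?_
      rw [hp, Finset.mul_sum, ← Finset.sum_neg_distrib]
    rw [h2, neg_le_neg_iff]
    calc ∑ k, ∑ l, W * ‖a l k‖ * p
        ≤ ∑ k, ∑ l, ((1 / 8) * ‖a l k‖ ^ 2 + 2 * W ^ 2 * p ^ 2) :=
          Finset.sum_le_sum fun j _ => Finset.sum_le_sum fun l _ => am l j
      _ = (1 / 8) * ∑ k, ∑ j, ‖a k j‖ ^ 2 + N ^ 2 * (2 * W ^ 2 * p ^ 2) := by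
          rw [← hcard, Finset.mul_sum]
          simp_rw [Finset.sum_add_distrib]
          rw [Finset.sum_comm]
          simp_rw [Finset.mul_sum]
  have s4 : -(E0 * p ^ 2) ≤ ∑ k, ∑ j, (z k j * h j * conj (h k)).re := by
    have h1 : ∑ k, ∑ j, -(E0 * ‖h j‖ * ‖h k‖)
        ≤ ∑ k, ∑ j, (z k j * h j * conj (h k)).re :=
      Finset.sum_le_sum fun k _ => Finset.sum_le_sum fun j _ => t4 k j
    refine le_trans (le_of_eq ?_) h1
    have h2 : p ^ 2 = ∑ k, ∑ j, ‖h j‖ * ‖h k‖ := by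
      rw [sq]
      nth_rewrite 2 [hp]
      rw [Finset.mul_sum]
      refine Finset.sum_congr rfl fun k _ => ?_
      rw [hp, Finset.sum_mul]
    rw [h2, Finset.mul_sum, ← Finset.sum_neg_distrib]
    refine Finset.sum_congr rfl fun k _ => ?_
    rw [Finset.mul_sum, ← Finset.sum_neg_distrib]
    exact Finset.sum_congr rfl fun j _ => by ring
  rw [hre]
  nlinarith [s1, s2, s3, s4]

/-- `(∑ ‖h‖)² ≤ card · ∑ ‖h‖²` -/
theorem sq_sum_le (h : ι → ℂ) :
    (∑ i, ‖h i‖) ^ 2 ≤ (Fintype.card ι : ℝ) * ∑ i, ‖h i‖ ^ 2 := by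
  have := sq_sum_le_card_mul_sum_sq (s := (Finset.univ : Finset ι)) (f := fun i => ‖h i‖)
  simpa using this

end pointwise

variable {E : Type} [NormedAddCommGroup E] [NormedSpace ℝ E]
variable {κ : Type} [Fintype κ] {e : κ → E}
variable {ι : Type} [Fintype ι]

/-- the constant of the estimate -/
def C1 (N V D W E0 : ℝ) : ℝ := N * (N ^ 2 * (V + 4 * D) ^ 2 + 4 * N ^ 2 * W ^ 2 + E0)

theorem Xd_zero_of_notMem {ξ : κ → E → ℂ} {u : E → ℂ} {x : E} (hx : x ∉ tsupport u) :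
    Xd e ξ u x = 0 := by
  have h : fderiv ℝ u x = 0 := by
    have := notMem_tsupport_iff_eventuallyEq.mp hx
    rw [this.fderiv_eq]
    simp
  simp [Xd, pd, h]

theorem zero_of_notMem {u : E → ℂ} {x : E} (hx : x ∉ tsupport u) : u x = 0 :=
  image_eq_zero_of_notMem_tsupport hx

theorem tsupport_Xd {ξ : κ → E → ℂ} {u : E → ℂ} : tsupport (Xd e ξ u) ⊆ tsupport u := by
  refine closure_minimal ?_ (isClosed_tsupport u)
  intro x hx
  by_contra h
  exact hx (Xd_zero_of_notMem h)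

theorem tsupport_mul_right' {u w : E → ℂ} : tsupport (fun x => w x * u x) ⊆ tsupport u := by
  refine closure_minimal ?_ (isClosed_tsupport u)
  intro x hx
  by_contra h
  apply hx
  simp [zero_of_notMem h]

variable [FiniteDimensional ℝ E] [MeasurableSpace E] [BorelSpace E] {μ : Measure E}
  [μ.IsAddHaarMeasure]

theorem est_main {ξ : ι → κ → E → ℂ} {α β γ : ι → ι → ι → E → ℂ} {Φ δ : E → ℝ}
    (hξ : ∀ j a, ContDiff ℝ ∞ (ξ j a)) (hα : ∀ k j l, ContDiff ℝ ∞ (α k j l))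
    (hβ : ∀ k j l, ContDiff ℝ ∞ (β k j l))
    (hΦ : ContDiff ℝ ∞ Φ) (hδ : ContDiff ℝ ∞ δ) {φ : E → ℂ} (hφ : Tst φ) {O : Set E}
    (hφO : tsupport φ ⊆ O) (hδ0 : ∀ x ∈ O, 0 < δ x) (hδ1 : ∀ x ∈ O, δ x ≤ 1)
    (hcomm : ∀ k j, ∀ u : E → ℂ, ContDiff ℝ ∞ u → ∀ x ∈ O,
      Xd e (ξ k) (Xd e (cj (ξ j)) u) x - Xd e (cj (ξ j)) (Xd e (ξ k) u) x
      = ∑ l, (α k j l x * Xd e (ξ l) u x + β k j l x * Xd e (cj (ξ l)) u x))
    (hint : ∀ k j, ∀ u : E → ℂ, ContDiff ℝ ∞ u → ∀ x ∈ O,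
      Xd e (ξ k) (Xd e (ξ j) u) x - Xd e (ξ j) (Xd e (ξ k) u) x
      = ∑ l, γ k j l x * Xd e (ξ l) u x)
    {W V E0 D : ℝ} (hV0 : 0 ≤ V) (hD0 : 0 ≤ D) (hE0 : 0 ≤ E0)
    (hαW : ∀ k j l, ∀ x ∈ O, ‖α k j l x‖ ≤ W) (hβW : ∀ k j l, ∀ x ∈ O, ‖β k j l x‖ ≤ W)
    (hγV : ∀ k j l, ∀ x ∈ O, ‖γ k j l x‖ ≤ V) (heE : ∀ k j, ∀ x ∈ O, ‖eco e ξ β k j x‖ ≤ E0)
    (hδD : ∀ k, ∀ x ∈ O, ‖Xd e (ξ k) (rc δ) x‖ ≤ D)
    (hpos : ∀ x ∈ O, (C1 (Fintype.card ι) V D W E0 + 1) * ((δ x)⁻¹) ^ 2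
        * ∑ j, ‖(rc δ x) ^ 2 * Xd e (ξ j) φ x‖ ^ 2
      ≤ (∑ k, ∑ j, Hco e ξ β Φ k j x * ((rc δ x) ^ 2 * Xd e (ξ j) φ x)
          * conj ((rc δ x) ^ 2 * Xd e (ξ k) φ x)).re) :
    ∫ x, (∑ j, ‖Xd e (ξ j) φ x‖ ^ 2) * ((δ x) ^ 2 * Real.exp (-Φ x)) ∂μ
      ≤ ∫ x, ‖∑ j, Ls e Φ (ξ j) (fun y => (rc δ y) ^ 2 * Xd e (ξ j) φ y) x‖ ^ 2
          * Real.exp (-Φ x) ∂μ := by
  classical
  set h : ι → E → ℂ := fun j y => (rc δ y) ^ 2 * Xd e (ξ j) φ y with hh
  have hΦc := hΦ.continuous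
  have hδ2 : ContDiff ℝ ∞ (fun y => (rc δ y) ^ 2) := (rc_smooth hδ).pow 2
  have hT : ∀ j, Tst (h j) := fun j => (hφ.xd (hξ j)).mul_left hδ2
  have hTs : ∀ j, tsupport (h j) ⊆ O := fun j =>
    (tsupport_mul_right'.trans tsupport_Xd).trans hφO
  have hO : ∀ j x, x ∉ O → h j x = 0 := fun j x hx =>
    zero_of_notMem fun hx2 => hx (hTs j hx2)
  have key := est_id (μ := μ) hξ hα hβ hΦ hT O hO
    (fun k j i x hx => hcomm k j (h i) (hT i).smooth x hx)
  -- the left side is real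
  have hPT : Tst (fun x => ∑ j, Ls e Φ (ξ j) (h j) x) :=
    Tst.sum Finset.univ fun j _ => (hT j).ls hΦ (hξ j)
  have hl : (ip μ Φ (fun x => ∑ j, Ls e Φ (ξ j) (h j) x) (fun x => ∑ j, Ls e Φ (ξ j) (h j) x)).re
      = ∫ x, ‖∑ j, Ls e Φ (ξ j) (h j) x‖ ^ 2 * Real.exp (-Φ x) ∂μ := by
    have h1 : ip μ Φ (fun x => ∑ j, Ls e Φ (ξ j) (h j) x) (fun x => ∑ j, Ls e Φ (ξ j) (h j) x)
        = ∫ x, ((‖∑ j, Ls e Φ (ξ j) (h j) x‖ ^ 2 * Real.exp (-Φ x) : ℝ) : ℂ) ∂μ := by
      unfold ip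
      congr 1
      funext x
      rw [Complex.mul_conj, Complex.normSq_eq_norm_sq]
      push_cast; ring
    rw [h1, integral_complex_ofReal, Complex.ofReal_re]
  rw [← hl, key]
  -- continuity and integrability of the right side
  have hcX : ∀ j k, Continuous (Xd e (ξ k) (h j)) := fun j k => ((hT j).xd (hξ k)).smooth.continuous
  have hch : ∀ j, Continuous (h j) := fun j => (hT j).smooth.continuous
  have hGc : Continuous (Gf e ξ α β Φ h) := by
    unfold Gf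
    refine continuous_finsetSum _ fun k _ => continuous_finsetSum _ fun j _ => ?_
    refine ((((hcX j k).mul (Complex.continuous_conj.comp (hcX k j))).sub ?_).add ?_).add ?_
    · exact continuous_finsetSum _ fun l _ => ((hα k j l).continuous.mul (hcX j l)).mul
        (Complex.continuous_conj.comp (hch k))
    · exact continuous_finsetSum _ fun l _ => ((hβ k j l).continuous.mul (hch j)).mul
        (Complex.continuous_conj.comp (hcX k l))
    · exact ((((Hco_smooth hξ hβ hΦ k j).add (eco_smooth hξ hβ k j)).continuous.mul (hch j))).mul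
        (Complex.continuous_conj.comp (hch k))
  have hG0 : ∀ x, x ∉ tsupport φ → Gf e ξ α β Φ h x = 0 := by
    intro x hx
    have hx1 : ∀ j, x ∉ tsupport (h j) := fun j hx2 =>
      hx ((tsupport_mul_right'.trans tsupport_Xd) hx2)
    unfold Gf
    refine Finset.sum_eq_zero fun k _ => Finset.sum_eq_zero fun j _ => ?_
    rw [zero_of_notMem (hx1 j), zero_of_notMem (hx1 k), Xd_zero_of_notMem (hx1 j)]
    simp [Xd_zero_of_notMem (hx1 j)]
  have hGs : HasCompactSupport (Gf e ξ α β Φ h) := by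
    refine hφ.supp.of_isClosed_subset (isClosed_tsupport _) ?_
    refine closure_minimal ?_ (isClosed_tsupport φ)
    intro x hx
    by_contra hx2
    exact hx (hG0 x hx2)
  have hE : Continuous fun x => ((Real.exp (-Φ x) : ℝ) : ℂ) := by fun_prop
  have hGi : Integrable (fun x => Gf e ξ α β Φ h x * ((Real.exp (-Φ x) : ℝ) : ℂ)) μ :=
    (hGc.mul hE).integrable_of_hasCompactSupport hGs.mul_right
  have hr : (∫ x, Gf e ξ α β Φ h x * ((Real.exp (-Φ x) : ℝ) : ℂ) ∂μ).re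
      = ∫ x, (Gf e ξ α β Φ h x).re * Real.exp (-Φ x) ∂μ := by
    have h2 := Complex.reCLM.integral_comp_comm hGi
    have h3 : (∫ x, Gf e ξ α β Φ h x * ((Real.exp (-Φ x) : ℝ) : ℂ) ∂μ).re
        = ∫ x, (Gf e ξ α β Φ h x * ((Real.exp (-Φ x) : ℝ) : ℂ)).re ∂μ := h2.symm
    rw [h3]
    congr 1
    funext x
    rw [Complex.re_mul_ofReal]
  rw [hr]
  have hXc : ∀ j, Continuous (Xd e (ξ j) φ) := fun j => (hφ.xd (hξ j)).smooth.continuous
  refine integral_mono ?_ ?_ ?_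
  · have hc : Continuous fun x => (∑ j, ‖Xd e (ξ j) φ x‖ ^ 2) * ((δ x) ^ 2 * Real.exp (-Φ x)) := by
      have := hδ.continuous
      refine (continuous_finsetSum _ fun j _ => ((hXc j).norm.pow 2)).mul ?_
      fun_prop
    refine hc.integrable_of_hasCompactSupport ?_
    refine hφ.supp.of_isClosed_subset (isClosed_tsupport _) ?_
    refine closure_minimal ?_ (isClosed_tsupport φ)
    intro x hx
    by_contra hx2
    apply hx
    simp [Xd_zero_of_notMem hx2]
  · have hc : Continuous fun x => (Gf e ξ α β Φ h x).re * Real.exp (-Φ x) := by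
      have := Complex.continuous_re.comp hGc
      exact this.mul (by fun_prop)
    refine hc.integrable_of_hasCompactSupport ?_
    refine hφ.supp.of_isClosed_subset (isClosed_tsupport _) ?_
    refine closure_minimal ?_ (isClosed_tsupport φ)
    intro x hx
    by_contra hx2
    apply hx
    simp [hG0 x hx2]
  · intro x
    by_cases hxO : x ∈ O
    swap
    · have hx2 : x ∉ tsupport φ := fun h' => hxO (hφO h')
      simp [hG0 x hx2, Xd_zero_of_notMem hx2]
    simp only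
    rw [← mul_assoc]
    refine mul_le_mul_of_nonneg_right ?_ (Real.exp_pos _).le
    have hd := hδ0 x hxO
    have hd1 := hδ1 x hxO
    set N : ℝ := (Fintype.card ι : ℝ) with hN
    have hN0 : 0 ≤ N := Nat.cast_nonneg _
    set b : ℝ := (δ x)⁻¹ with hb
    have hb1 : 1 ≤ b := (one_le_inv₀ hd).mpr hd1
    set p : ℝ := ∑ i, ‖h i x‖ with hp
    have hp0 : 0 ≤ p := Finset.sum_nonneg fun i _ => norm_nonneg _
    have hhp : ∀ i, ‖h i x‖ ≤ p := fun i =>
      Finset.single_le_sum (f := fun i => ‖h i x‖) (fun i _ => norm_nonneg _) (Finset.mem_univ i)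
    -- the torsion term
    have hdc : (rc δ x) ≠ 0 := by
      simp only [rc]; exact_mod_cast hd.ne'
    have htor : ∀ k j, ‖Xd e (ξ k) (h j) x - Xd e (ξ j) (h k) x‖ ≤ ((V + 4 * D) * b) * p := by
      intro k j
      have e1 : ∀ k j, Xd e (ξ k) (h j) x = (rc δ x) ^ 2 * Xd e (ξ k) (Xd e (ξ j) φ) x
          + 2 * Xd e (ξ k) (rc δ) x * (rc δ x * Xd e (ξ j) φ x) := by
        intro k j
        have h1 : h j = fun y => (rc δ y * rc δ y) * Xd e (ξ j) φ y := by
          funext y; simp only [hh]; ring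
        rw [h1, Xd_mul (u := fun y => rc δ y * rc δ y)
          (smooth_diff ((rc_smooth hδ).mul (rc_smooth hδ)))
          (smooth_diff (Xd_smooth (hξ j) hφ.smooth)),
          Xd_mul (smooth_diff (rc_smooth hδ)) (smooth_diff (rc_smooth hδ))]
        ring
      have e2 : ∀ j, rc δ x * Xd e (ξ j) φ x = (b : ℂ) * h j x := by
        intro j
        simp only [hh, hb]
        push_cast
        rw [show ((δ x : ℝ) : ℂ) = rc δ x from rfl]
        field_simp
      have e3 : Xd e (ξ k) (h j) x - Xd e (ξ j) (h k) x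
          = ∑ l, γ k j l x * h l x + 2 * Xd e (ξ k) (rc δ) x * ((b : ℂ) * h j x)
            - 2 * Xd e (ξ j) (rc δ) x * ((b : ℂ) * h k x) := by
        rw [e1 k j, e1 j k, e2 j, e2 k]
        have h2 : ∑ l, γ k j l x * h l x
            = (rc δ x) ^ 2 * (Xd e (ξ k) (Xd e (ξ j) φ) x - Xd e (ξ j) (Xd e (ξ k) φ) x) := by
          rw [hint k j φ hφ.smooth x hxO, Finset.mul_sum]
          exact Finset.sum_congr rfl fun l _ => by simp only [hh]; ring
        rw [h2]; ring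
      rw [e3]
      have n1 : ‖∑ l, γ k j l x * h l x‖ ≤ V * p := by
        refine (norm_sum_le _ _).trans ?_
        rw [hp, Finset.mul_sum]
        refine Finset.sum_le_sum fun l _ => ?_
        rw [norm_mul]
        exact mul_le_mul_of_nonneg_right (hγV k j l x hxO) (norm_nonneg _)
      have n2 : ∀ k j, ‖2 * Xd e (ξ k) (rc δ) x * ((b : ℂ) * h j x)‖ ≤ 2 * D * b * p := by
        intro k j
        rw [norm_mul, norm_mul, norm_mul, Complex.norm_real, Real.norm_of_nonneg (by linarith)]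
        have h1 := hδD k x hxO
        have h2 := hhp j
        have h3 : ‖(2 : ℂ)‖ = 2 := by simp
        rw [h3]
        have h4 : 2 * ‖Xd e (ξ k) (rc δ) x‖ * (b * ‖h j x‖) ≤ 2 * D * (b * p) := by
          apply mul_le_mul (by linarith) (mul_le_mul_of_nonneg_left h2 (by linarith))
            (by positivity) (by positivity)
        linarith
      calc ‖∑ l, γ k j l x * h l x + 2 * Xd e (ξ k) (rc δ) x * ((b : ℂ) * h j x)
            - 2 * Xd e (ξ j) (rc δ) x * ((b : ℂ) * h k x)‖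
          ≤ V * p + 2 * D * b * p + 2 * D * b * p :=
            (norm_sub_le _ _).trans (add_le_add ((norm_add_le _ _).trans
              (add_le_add n1 (n2 k j))) (n2 j k))
        _ ≤ ((V + 4 * D) * b) * p := by nlinarith [mul_nonneg hV0 hp0]
    have hpw := pw_ineq (fun k j => Xd e (ξ k) (h j) x) (fun j => h j x) (fun k j l => α k j l x)
      (fun k j l => β k j l x) (fun k j => Hco e ξ β Φ k j x) (fun k j => eco e ξ β k j x)
      (W := W) (E0 := E0) (T := (V + 4 * D) * b) (fun k j l => hαW k j l x hxO)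
      (fun k j l => hβW k j l x hxO) (fun k j => heE k j x hxO) htor
    have hpos' := hpos x hxO
    have hS : 0 ≤ ∑ k, ∑ j, ‖Xd e (ξ k) (h j) x‖ ^ 2 :=
      Finset.sum_nonneg fun k _ => Finset.sum_nonneg fun j _ => by positivity
    set q : ℝ := ∑ j, ‖h j x‖ ^ 2 with hq
    have hq0 : 0 ≤ q := Finset.sum_nonneg fun j _ => by positivity
    have hpq : p ^ 2 ≤ N * q := sq_sum_le fun i => h i x
    have hqe : (∑ j, ‖Xd e (ξ j) φ x‖ ^ 2) * (δ x) ^ 2 = b ^ 2 * q := by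
      rw [hq, Finset.sum_mul, Finset.mul_sum]
      refine Finset.sum_congr rfl fun j _ => ?_
      simp only [hh]
      rw [norm_mul, norm_pow, show rc δ x = ((δ x : ℝ) : ℂ) from rfl, Complex.norm_real,
        Real.norm_of_nonneg hd.le, hb]
      field_simp
    rw [hqe]
    have hb2 : 1 ≤ b ^ 2 := one_le_pow₀ hb1
    have hC : (N ^ 2 * ((V + 4 * D) * b) ^ 2 + 4 * N ^ 2 * W ^ 2 + E0) * p ^ 2
        ≤ C1 N V D W E0 * b ^ 2 * q := by
      have h1 : N ^ 2 * ((V + 4 * D) * b) ^ 2 + 4 * N ^ 2 * W ^ 2 + E0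
          ≤ (N ^ 2 * (V + 4 * D) ^ 2 + 4 * N ^ 2 * W ^ 2 + E0) * b ^ 2 := by
        have h2 : 0 ≤ 4 * N ^ 2 * W ^ 2 + E0 := by positivity
        nlinarith [mul_le_mul_of_nonneg_left hb2 h2]
      have h3 : 0 ≤ (N ^ 2 * (V + 4 * D) ^ 2 + 4 * N ^ 2 * W ^ 2 + E0) * b ^ 2 := by positivity
      calc (N ^ 2 * ((V + 4 * D) * b) ^ 2 + 4 * N ^ 2 * W ^ 2 + E0) * p ^ 2
          ≤ ((N ^ 2 * (V + 4 * D) ^ 2 + 4 * N ^ 2 * W ^ 2 + E0) * b ^ 2) * (N * q) :=
            mul_le_mul h1 hpq (by positivity) h3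
        _ = C1 N V D W E0 * b ^ 2 * q := by unfold C1; ring
    have hGe : (Gf e ξ α β Φ h x).re
        = (∑ k, ∑ j, (Xd e (ξ k) (h j) x * conj (Xd e (ξ j) (h k) x)
            - ∑ l, α k j l x * Xd e (ξ l) (h j) x * conj (h k x)
            + ∑ l, β k j l x * h j x * conj (Xd e (ξ l) (h k) x)
            + (Hco e ξ β Φ k j x + eco e ξ β k j x) * h j x * conj (h k x))).re := rfl
    rw [hGe]
    refine le_trans ?_ hpw
    have hp2 : (C1 N V D W E0 + 1) * b ^ 2 * q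
      ≤ (∑ k, ∑ j, Hco e ξ β Φ k j x * h j x * conj (h k x)).re := hpos'
    nlinarith [hC, hp2, hS]

end

end Crest.Agent.R260.BKX_680
end

-- ▼ part R260/BKX4_680
section

/-! # Bochner-Kodaira estimate for exact forms, part 4: the redundant frame of an integrable
almost complex structure on Euclidean space. -/

namespace Crest.Agent.R260.BKX_680

open MeasureTheory Complex Set
open scoped ContDiff ComplexConjugate BigOperators

set_option linter.unusedSectionVars false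

noncomputable section

section comm

variable {E : Type} [NormedAddCommGroup E] [NormedSpace ℝ E]
variable {κ : Type} [Fintype κ] {e : κ → E}

theorem pd_comm {u : E → ℂ} (hu : ContDiff ℝ ∞ u) (a b : E) (x : E) :
    pd a (pd b u) x = pd b (pd a u) x := by
  have h1 : ∀ a b : E, pd a (pd b u) x = fderiv ℝ (fderiv ℝ u) x a b := by
    intro a b
    have hd : DifferentiableAt ℝ (fderiv ℝ u) x :=
      ((hu.fderiv_right (m := ∞) (by simp)).differentiable (by simp)) x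
    unfold pd
    have := (hd.hasFDerivAt.clm_apply (hasFDerivAt_const b x)).fderiv
    rw [this]
    simp
  have hs : IsSymmSndFDerivAt ℝ u x := by
    refine (hu.contDiffAt (x := x)).isSymmSndFDerivAt ?_
    simp only [minSmoothness_of_isRCLikeNormedField]
    exact ENat.LEInfty.out
  rw [h1 a b, h1 b a]
  exact hs.eq a b

theorem Xd_Xd {ξ η : κ → E → ℂ} (hη : ∀ a, ContDiff ℝ ∞ (η a)) {u : E → ℂ}
    (hu : ContDiff ℝ ∞ u) (x : E) :
    Xd e ξ (Xd e η u) x = ∑ b, Xd e ξ (η b) x * pd (e b) u x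
      + ∑ a, ∑ b, ξ a x * η b x * pd (e a) (pd (e b) u) x := by
  have h1 : Xd e ξ (Xd e η u) x = ∑ a, ξ a x * ∑ b, (η b x * pd (e a) (pd (e b) u) x
      + pd (e a) (η b) x * pd (e b) u x) := by
    conv_lhs => unfold Xd
    refine Finset.sum_congr rfl fun a _ => ?_
    congr 1
    have h2 : pd (e a) (fun x => ∑ b, η b x * pd (e b) u x) x
        = ∑ b, pd (e a) (fun x => η b x * pd (e b) u x) x := by
      unfold pd
      rw [fderiv_fun_sum]
      · simp
      · intro b _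
        exact ((smooth_diff (hη b)).mul (smooth_diff (pd_smooth hu (e b)))) x
    rw [h2]
    exact Finset.sum_congr rfl fun b _ => pd_mul (smooth_diff (hη b))
      (smooth_diff (pd_smooth hu (e b))) (e a) x
  rw [h1]
  have h3 : ∑ b, Xd e ξ (η b) x * pd (e b) u x
      = ∑ a, ∑ b, ξ a x * (pd (e a) (η b) x * pd (e b) u x) := by
    rw [Finset.sum_comm]
    refine Finset.sum_congr rfl fun b _ => ?_
    unfold Xd
    rw [Finset.sum_mul]
    exact Finset.sum_congr rfl fun a _ => by ring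
  rw [h3, ← Finset.sum_add_distrib]
  refine Finset.sum_congr rfl fun a _ => ?_
  rw [← Finset.sum_add_distrib, Finset.mul_sum]
  exact Finset.sum_congr rfl fun b _ => by ring

theorem Xd_comm {ξ η : κ → E → ℂ} (hξ : ∀ a, ContDiff ℝ ∞ (ξ a))
    (hη : ∀ a, ContDiff ℝ ∞ (η a)) {u : E → ℂ} (hu : ContDiff ℝ ∞ u) (x : E) :
    Xd e ξ (Xd e η u) x - Xd e η (Xd e ξ u) x
      = ∑ b, (Xd e ξ (η b) x - Xd e η (ξ b) x) * pd (e b) u x := by
  rw [Xd_Xd hη hu, Xd_Xd hξ hu]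
  have h1 : ∑ a, ∑ b, η a x * ξ b x * pd (e a) (pd (e b) u) x
      = ∑ a, ∑ b, ξ a x * η b x * pd (e a) (pd (e b) u) x := by
    rw [Finset.sum_comm]
    refine Finset.sum_congr rfl fun a _ => Finset.sum_congr rfl fun b _ => ?_
    rw [pd_comm hu (e b) (e a)]
    ring
  rw [h1]
  simp_rw [sub_mul]
  rw [Finset.sum_sub_distrib]
  ring

end comm

/-- Euclidean space -/
abbrev Eu (N : ℕ) := EuclideanSpace ℝ (Fin N)

variable {N : ℕ}

/-- the standard basis -/
def eb (N : ℕ) (b : Fin N) : Eu N := EuclideanSpace.single b (1 : ℝ)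

/-- an integrable almost complex structure on `O`, with global smooth coefficients -/
structure JG (J : Eu N → Eu N →L[ℝ] Eu N) (O : Set (Eu N)) : Prop where
  smooth : ContDiff ℝ ∞ J
  sq : ∀ x ∈ O, ∀ v, J x (J x v) = -v
  nij : ∀ x ∈ O, ∀ v w, fderiv ℝ J x (J x v) w - fderiv ℝ J x (J x w) v
    - J x (fderiv ℝ J x v w) + J x (fderiv ℝ J x w v) = 0

/-- the matrix of `J` -/
def Jm (J : Eu N → Eu N →L[ℝ] Eu N) (b j : Fin N) : Eu N → ℝ := fun x => (J x (eb N j)) b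

/-- the redundant frame `X_j = (∂_j + i J ∂_j)/2` -/
def fr (J : Eu N → Eu N →L[ℝ] Eu N) (j b : Fin N) : Eu N → ℂ := fun x =>
  (1 / 2 : ℂ) * ((if b = j then 1 else 0) + I * rc (Jm J b j) x)

theorem Jm_smooth {J : Eu N → Eu N →L[ℝ] Eu N} (hJ : ContDiff ℝ ∞ J) (b j : Fin N) :
    ContDiff ℝ ∞ (Jm J b j) := by
  have h1 : ContDiff ℝ ∞ fun x => J x (eb N j) := hJ.clm_apply contDiff_const
  exact (EuclideanSpace.proj (𝕜 := ℝ) b).contDiff.comp h1

theorem fr_smooth {J : Eu N → Eu N →L[ℝ] Eu N} (hJ : ContDiff ℝ ∞ J) (j b : Fin N) :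
    ContDiff ℝ ∞ (fr J j b) := by
  unfold fr
  exact contDiff_const.mul (contDiff_const.add (contDiff_const.mul (rc_smooth (Jm_smooth hJ b j))))

theorem cj_fr (J : Eu N → Eu N →L[ℝ] Eu N) (j b : Fin N) (x : Eu N) :
    cj (fr J j) b x = (1 / 2 : ℂ) * ((if b = j then 1 else 0) - I * rc (Jm J b j) x) := by
  unfold cj fr rc
  rw [map_mul, map_add, map_mul, Complex.conj_I, Complex.conj_ofReal]
  have h1 : (starRingEnd ℂ) (1 / 2 : ℂ) = 1 / 2 := by
    rw [map_div₀, map_one, map_ofNat]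
  have h2 : (starRingEnd ℂ) (if b = j then (1 : ℂ) else 0) = if b = j then 1 else 0 := by
    split_ifs <;> simp
  rw [h1, h2]; ring

theorem fr_add (J : Eu N → Eu N →L[ℝ] Eu N) (j : Fin N) (u : Eu N → ℂ) (x : Eu N) :
    Xd (eb N) (fr J j) u x + Xd (eb N) (cj (fr J j)) u x = pd (eb N j) u x := by
  unfold Xd
  rw [← Finset.sum_add_distrib]
  rw [Finset.sum_eq_single j]
  · rw [cj_fr]; unfold fr; simp; ring
  · intro b _ hb
    rw [cj_fr]; unfold fr; simp [hb]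
  · intro h; exact absurd (Finset.mem_univ j) h

/-- coefficients of `[X_k, Y_j]` -/
def wc (J : Eu N → Eu N →L[ℝ] Eu N) (k j l : Fin N) : Eu N → ℂ := fun x =>
  Xd (eb N) (fr J k) (cj (fr J j) l) x - Xd (eb N) (cj (fr J j)) (fr J k l) x

/-- coefficients of `[X_k, X_j]` -/
def vc (J : Eu N → Eu N →L[ℝ] Eu N) (k j l : Fin N) : Eu N → ℂ := fun x =>
  Xd (eb N) (fr J k) (fr J j l) x - Xd (eb N) (fr J j) (fr J k l) x

theorem wc_smooth {J : Eu N → Eu N →L[ℝ] Eu N} (hJ : ContDiff ℝ ∞ J) (k j l : Fin N) :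
    ContDiff ℝ ∞ (wc J k j l) := by
  unfold wc
  exact (Xd_smooth (fr_smooth hJ k) (cj_smooth (fr_smooth hJ j) l)).sub
    (Xd_smooth (cj_smooth (fr_smooth hJ j)) (fr_smooth hJ k l))

theorem vc_smooth {J : Eu N → Eu N →L[ℝ] Eu N} (hJ : ContDiff ℝ ∞ J) (k j l : Fin N) :
    ContDiff ℝ ∞ (vc J k j l) := by
  unfold vc
  exact (Xd_smooth (fr_smooth hJ k) (fr_smooth hJ j l)).sub
    (Xd_smooth (fr_smooth hJ j) (fr_smooth hJ k l))

theorem comm_fr {J : Eu N → Eu N →L[ℝ] Eu N} (hJ : ContDiff ℝ ∞ J) (k j : Fin N) {u : Eu N → ℂ}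
    (hu : ContDiff ℝ ∞ u) (x : Eu N) :
    Xd (eb N) (fr J k) (Xd (eb N) (cj (fr J j)) u) x
      - Xd (eb N) (cj (fr J j)) (Xd (eb N) (fr J k) u) x
    = ∑ l, (wc J k j l x * Xd (eb N) (fr J l) u x
      + wc J k j l x * Xd (eb N) (cj (fr J l)) u x) := by
  rw [Xd_comm (fr_smooth hJ k) (cj_smooth (fr_smooth hJ j)) hu]
  refine Finset.sum_congr rfl fun l _ => ?_
  rw [← fr_add J l u x]
  unfold wc
  ring

/-- derivative of the matrix entries -/
theorem pd_Jm {J : Eu N → Eu N →L[ℝ] Eu N} (hJ : ContDiff ℝ ∞ J) (b j : Fin N) (v x : Eu N) :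
    pd v (rc (Jm J b j)) x = (((fderiv ℝ J x v (eb N j)) b : ℝ) : ℂ) := by
  have hd : DifferentiableAt ℝ J x := (hJ.differentiable (by simp)) x
  have h1 : HasFDerivAt (fun y => J y (eb N j))
      ((ContinuousLinearMap.apply ℝ (Eu N) (eb N j)).comp (fderiv ℝ J x)) x :=
    (ContinuousLinearMap.apply ℝ (Eu N) (eb N j)).hasFDerivAt.comp x hd.hasFDerivAt
  have h2 : HasFDerivAt (Jm J b j) ((EuclideanSpace.proj (𝕜 := ℝ) b).comp
      ((ContinuousLinearMap.apply ℝ (Eu N) (eb N j)).comp (fderiv ℝ J x))) x :=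
    (EuclideanSpace.proj (𝕜 := ℝ) b).hasFDerivAt.comp x h1
  have h3 : HasFDerivAt (rc (Jm J b j)) (Complex.ofRealCLM.comp
      ((EuclideanSpace.proj (𝕜 := ℝ) b).comp
      ((ContinuousLinearMap.apply ℝ (Eu N) (eb N j)).comp (fderiv ℝ J x)))) x :=
    (Complex.ofRealCLM.hasFDerivAt (x := Jm J b j x)).comp x h2
  unfold pd
  rw [h3.fderiv]
  rfl

theorem pd_fr {J : Eu N → Eu N →L[ℝ] Eu N} (hJ : ContDiff ℝ ∞ J) (j b : Fin N) (v x : Eu N) :
    pd v (fr J j b) x = (I / 2) * pd v (rc (Jm J b j)) x := by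
  have h1 : fr J j b = fun y => (fun _ => ((1 / 2 : ℂ) * (if b = j then 1 else 0))) y
      + (fun y => (fun _ => I / 2) y * rc (Jm J b j) y) y := by
    funext y; unfold fr; ring
  have hs := smooth_diff (rc_smooth (Jm_smooth hJ b j))
  rw [h1, pd_add (u := fun _ => ((1 / 2 : ℂ) * (if b = j then 1 else 0)))
    (v := fun y => (fun _ => I / 2) y * rc (Jm J b j) y) (differentiable_const _)
    ((differentiable_const _).mul hs),
    pd_mul (u := fun _ => I / 2) (differentiable_const _) hs]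
  simp [pd]

theorem pd_cjfr {J : Eu N → Eu N →L[ℝ] Eu N} (hJ : ContDiff ℝ ∞ J) (j b : Fin N) (v x : Eu N) :
    pd v (cj (fr J j) b) x = -(I / 2) * pd v (rc (Jm J b j)) x := by
  have h1 : pd v (cj (fr J j) b) x = conj (pd v (fr J j b) x) :=
    pd_conj (smooth_diff (fr_smooth hJ j b)) v x
  rw [h1, pd_fr hJ, pd_Jm hJ, map_mul, Complex.conj_ofReal, map_div₀, Complex.conj_I, map_ofNat]
  ring

theorem basis_sum (v : Eu N) : v = ∑ c, v c • eb N c := by
  ext i
  simp [eb, Finset.sum_apply, Pi.single_apply]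

/-- the `(1,0)` part of `[X_k, X_j]` vanishes -/
theorem vc_type {J : Eu N → Eu N →L[ℝ] Eu N} {O : Set (Eu N)} (hJ : JG J O) (k j b : Fin N)
    {x : Eu N} (hx : x ∈ O) :
    ∑ l, rc (Jm J b l) x * vc J k j l x = -I * vc J k j b x := by
  set P : Eu N := fderiv ℝ J x (eb N k) (eb N j) - fderiv ℝ J x (eb N j) (eb N k) with hP
  set Q : Eu N := fderiv ℝ J x (J x (eb N k)) (eb N j) - fderiv ℝ J x (J x (eb N j)) (eb N k)
    with hQ
  have hJP : J x P = Q := by
    have := hJ.nij x hx (eb N k) (eb N j)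
    rw [hP, hQ, map_sub]
    have h2 : fderiv ℝ J x (J x (eb N k)) (eb N j) - fderiv ℝ J x (J x (eb N j)) (eb N k)
      = J x (fderiv ℝ J x (eb N k) (eb N j)) - J x (fderiv ℝ J x (eb N j) (eb N k)) := by
      have h3 := this
      rw [sub_add] at h3
      exact sub_eq_zero.mp h3
    exact h2.symm
  have hJQ : J x Q = -P := by rw [← hJP]; exact hJ.sq x hx P
  -- derivative along the frame
  have hX : ∀ k l j : Fin N, Xd (eb N) (fr J k) (rc (Jm J l j)) x
      = (1 / 2 : ℂ) * ((((fderiv ℝ J x (eb N k) (eb N j)) l : ℝ) : ℂ)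
        + I * (((fderiv ℝ J x (J x (eb N k)) (eb N j)) l : ℝ) : ℂ)) := by
    intro k l j
    have h1 : ((fderiv ℝ J x (J x (eb N k)) (eb N j)) l : ℝ)
        = ∑ c, Jm J c k x * (fderiv ℝ J x (eb N c) (eb N j)) l := by
      conv_lhs => rw [basis_sum (J x (eb N k))]
      rw [map_sum]
      simp only [map_smul]
      simp [Jm, Finset.sum_apply]
    unfold Xd
    simp_rw [pd_Jm hJ.smooth]
    rw [h1]
    push_cast
    have h2 : ∑ a, fr J k a x * (((fderiv ℝ J x (eb N a) (eb N j)) l : ℝ) : ℂ)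
        = ∑ a, ((1 / 2 : ℂ) * (if a = k then (((fderiv ℝ J x (eb N a) (eb N j)) l : ℝ) : ℂ) else 0)
          + (I / 2) * ((Jm J a k x : ℂ) * (((fderiv ℝ J x (eb N a) (eb N j)) l : ℝ) : ℂ))) := by
      refine Finset.sum_congr rfl fun a _ => ?_
      unfold fr rc
      split_ifs <;> ring
    rw [h2, Finset.sum_add_distrib, ← Finset.mul_sum, ← Finset.mul_sum, Finset.sum_ite_eq']
    simp
    ring
  have hv : ∀ l, vc J k j l x = (I / 4) * ((P l : ℂ) + I * (Q l : ℂ)) := by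
    intro l
    unfold vc
    have h1 : ∀ k j, Xd (eb N) (fr J k) (fr J j l) x
        = (I / 2) * Xd (eb N) (fr J k) (rc (Jm J l j)) x := by
      intro k j
      unfold Xd
      rw [Finset.mul_sum]
      refine Finset.sum_congr rfl fun a _ => ?_
      rw [pd_fr hJ.smooth]; ring
    rw [h1, h1, hX, hX, hP, hQ]
    simp only [PiLp.sub_apply]
    push_cast
    ring
  have hsum : ∀ R : Eu N, ∑ l, rc (Jm J b l) x * (R l : ℂ) = (((J x R) b : ℝ) : ℂ) := by
    intro R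
    have h1 : ((J x R) b : ℝ) = ∑ l, R l * Jm J b l x := by
      conv_lhs => rw [basis_sum R]
      rw [map_sum]
      simp [Jm, Finset.sum_apply]
    rw [h1]
    push_cast
    exact Finset.sum_congr rfl fun l _ => by unfold rc; ring
  simp_rw [hv]
  have h2 : ∑ l, rc (Jm J b l) x * ((I / 4) * ((P l : ℂ) + I * (Q l : ℂ)))
      = (I / 4) * (∑ l, rc (Jm J b l) x * (P l : ℂ) + I * ∑ l, rc (Jm J b l) x * (Q l : ℂ)) := by
    rw [Finset.mul_sum, ← Finset.sum_add_distrib, Finset.mul_sum]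
    exact Finset.sum_congr rfl fun l _ => by ring
  rw [h2, hsum, hsum, hJP, hJQ]
  simp only [PiLp.neg_apply]
  push_cast
  have hI : I * I = -1 := Complex.I_mul_I
  linear_combination ((I / 4) * (Q b : ℂ)) * hI

/-- the commutation relation of the frame -/
theorem int_fr {J : Eu N → Eu N →L[ℝ] Eu N} {O : Set (Eu N)} (hJ : JG J O) (k j : Fin N)
    {u : Eu N → ℂ} (hu : ContDiff ℝ ∞ u) {x : Eu N} (hx : x ∈ O) :
    Xd (eb N) (fr J k) (Xd (eb N) (fr J j) u) x
      - Xd (eb N) (fr J j) (Xd (eb N) (fr J k) u) x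
    = ∑ l, vc J k j l x * Xd (eb N) (fr J l) u x := by
  rw [Xd_comm (fr_smooth hJ.smooth k) (fr_smooth hJ.smooth j) hu]
  have h1 : ∀ b, (Xd (eb N) (fr J k) (fr J j b) x - Xd (eb N) (fr J j) (fr J k b) x)
      * pd (eb N b) u x = vc J k j b x * Xd (eb N) (fr J b) u x
        + vc J k j b x * Xd (eb N) (cj (fr J b)) u x := by
    intro b
    rw [← fr_add J b u x]; unfold vc; ring
  rw [Finset.sum_congr rfl fun b _ => h1 b, Finset.sum_add_distrib]
  have h2 : ∑ l, vc J k j l x * Xd (eb N) (cj (fr J l)) u x = 0 := by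
    unfold Xd
    simp_rw [Finset.mul_sum]
    rw [Finset.sum_comm]
    refine Finset.sum_eq_zero fun b _ => ?_
    have h3 : ∑ l, vc J k j l x * (cj (fr J l) b x * pd (eb N b) u x)
        = (1 / 2 : ℂ) * (∑ l, (if b = l then vc J k j l x else 0)
            - I * ∑ l, rc (Jm J b l) x * vc J k j l x) * pd (eb N b) u x := by
      rw [Finset.mul_sum, ← Finset.sum_sub_distrib, Finset.mul_sum, Finset.sum_mul]
      refine Finset.sum_congr rfl fun l _ => ?_
      rw [cj_fr]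
      split_ifs <;> ring
    rw [h3, vc_type hJ k j b hx, Finset.sum_ite_eq]
    simp only [Finset.mem_univ, if_true]
    have hI : I * I = -1 := Complex.I_mul_I
    linear_combination (1 / 2 : ℂ) * vc J k j b x * pd (eb N b) u x * hI
  rw [h2, add_zero]

/-- the values `X_j u` form a `(0,1)` covector -/
theorem type_fr {J : Eu N → Eu N →L[ℝ] Eu N} {O : Set (Eu N)} (hJ : JG J O) (j : Fin N)
    (u : Eu N → ℂ) {x : Eu N} (hx : x ∈ O) :
    ∑ c, rc (Jm J c j) x * Xd (eb N) (fr J c) u x = -I * Xd (eb N) (fr J j) u x := by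
  have hX : ∀ j : Fin N, Xd (eb N) (fr J j) u x
      = (1 / 2 : ℂ) * (fderiv ℝ u x (eb N j) + I * fderiv ℝ u x (J x (eb N j))) := by
    intro j
    have h1 : fderiv ℝ u x (J x (eb N j)) = ∑ c, (Jm J c j x : ℂ) * fderiv ℝ u x (eb N c) := by
      conv_lhs => rw [basis_sum (J x (eb N j))]
      rw [map_sum]
      refine Finset.sum_congr rfl fun c _ => ?_
      rw [map_smul]
      simp [Jm]
    unfold Xd
    rw [h1]
    have h2 : ∑ a, fr J j a x * pd (eb N a) u x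
        = ∑ a, ((1 / 2 : ℂ) * (if a = j then fderiv ℝ u x (eb N a) else 0)
          + (I / 2) * ((Jm J a j x : ℂ) * fderiv ℝ u x (eb N a))) := by
      refine Finset.sum_congr rfl fun a _ => ?_
      unfold fr rc pd
      split_ifs <;> ring
    rw [h2, Finset.sum_add_distrib, ← Finset.mul_sum, ← Finset.mul_sum, Finset.sum_ite_eq']
    simp
    ring
  have hsum : ∀ L : Eu N →L[ℝ] ℂ, ∑ c, rc (Jm J c j) x * L (eb N c) = L (J x (eb N j)) := by
    intro L
    conv_rhs => rw [basis_sum (J x (eb N j))]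
    rw [map_sum]
    refine Finset.sum_congr rfl fun c _ => ?_
    rw [map_smul]
    simp [Jm, rc]
  simp_rw [hX]
  have h2 : ∑ c, rc (Jm J c j) x * ((1 / 2 : ℂ) * (fderiv ℝ u x (eb N c)
        + I * fderiv ℝ u x (J x (eb N c))))
      = (1 / 2 : ℂ) * (∑ c, rc (Jm J c j) x * fderiv ℝ u x (eb N c)
        + I * ∑ c, rc (Jm J c j) x * ((fderiv ℝ u x).comp (J x)) (eb N c)) := by
    rw [Finset.mul_sum, ← Finset.sum_add_distrib, Finset.mul_sum]
    refine Finset.sum_congr rfl fun c _ => ?_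
    simp only [ContinuousLinearMap.comp_apply]
    ring
  rw [h2, hsum, hsum, ContinuousLinearMap.comp_apply, hJ.sq x hx, map_neg]
  have hI : I * I = -1 := Complex.I_mul_I
  linear_combination (1 / 2 : ℂ) * fderiv ℝ u x (J x (eb N j)) * hI

end

end Crest.Agent.R260.BKX_680
end

-- ▼ part R260/BKX5_680
section

/-! # Bochner-Kodaira estimate for exact forms, part 5: bounds and positivity of the Levi form of
`|x|²` for an almost complex structure which is standard up to second order. -/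

namespace Crest.Agent.R260.BKX_680

open MeasureTheory Complex Set
open scoped ContDiff ComplexConjugate BigOperators

set_option linter.unusedSectionVars false

noncomputable section

variable {N : ℕ}

/-! ### order of vanishing -/

/-- `‖f x‖ ≤ C ‖x‖ ^ k` on the closed ball of radius `r` -/
def BO (r : ℝ) (k : ℕ) (f : Eu N → ℂ) : Prop :=
  ∃ C, 0 ≤ C ∧ ∀ x, ‖x‖ ≤ r → ‖f x‖ ≤ C * ‖x‖ ^ k

theorem BO.mul {r : ℝ} {k l : ℕ} {f g : Eu N → ℂ} (hf : BO r k f) (hg : BO r l g) :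
    BO r (k + l) (fun x => f x * g x) := by
  obtain ⟨C, hC, h⟩ := hf
  obtain ⟨D, hD, h'⟩ := hg
  refine ⟨C * D, by positivity, fun x hx => ?_⟩
  rw [norm_mul]
  calc ‖f x‖ * ‖g x‖ ≤ (C * ‖x‖ ^ k) * (D * ‖x‖ ^ l) :=
        mul_le_mul (h x hx) (h' x hx) (norm_nonneg _) (by positivity)
    _ = C * D * ‖x‖ ^ (k + l) := by rw [pow_add]; ring

theorem BO.add {r : ℝ} {k : ℕ} {f g : Eu N → ℂ} (hf : BO r k f) (hg : BO r k g) :
    BO r k (fun x => f x + g x) := by
  obtain ⟨C, hC, h⟩ := hf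
  obtain ⟨D, hD, h'⟩ := hg
  refine ⟨C + D, by positivity, fun x hx => ?_⟩
  calc ‖f x + g x‖ ≤ C * ‖x‖ ^ k + D * ‖x‖ ^ k :=
        (norm_add_le _ _).trans (add_le_add (h x hx) (h' x hx))
    _ = (C + D) * ‖x‖ ^ k := by ring

theorem BO.neg {r : ℝ} {k : ℕ} {f : Eu N → ℂ} (hf : BO r k f) : BO r k (fun x => - f x) := by
  obtain ⟨C, hC, h⟩ := hf
  exact ⟨C, hC, fun x hx => by rw [norm_neg]; exact h x hx⟩

theorem BO.sub {r : ℝ} {k : ℕ} {f g : Eu N → ℂ} (hf : BO r k f) (hg : BO r k g) :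
    BO r k (fun x => f x - g x) := by
  simpa [sub_eq_add_neg] using hf.add hg.neg

theorem BO.sum {r : ℝ} {k : ℕ} {κ : Type} (s : Finset κ) {f : κ → Eu N → ℂ}
    (hf : ∀ i ∈ s, BO r k (f i)) : BO r k (fun x => ∑ i ∈ s, f i x) := by
  classical
  induction s using Finset.induction_on with
  | empty => exact ⟨0, le_rfl, fun x _ => by simp⟩
  | insert a s ha ih =>
    have h1 := (hf a (Finset.mem_insert_self a s)).add
      (ih fun i hi => hf i (Finset.mem_insert_of_mem hi))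
    simpa [Finset.sum_insert ha] using h1


theorem BO.const_mul {r : ℝ} {k : ℕ} {f : Eu N → ℂ} (hf : BO r k f) (c : ℂ) :
    BO r k (fun x => c * f x) := by
  obtain ⟨C, hC, h⟩ := hf
  refine ⟨‖c‖ * C, by positivity, fun x hx => ?_⟩
  rw [norm_mul, mul_assoc]
  exact mul_le_mul_of_nonneg_left (h x hx) (norm_nonneg _)

theorem BO.of_continuous (r : ℝ) {f : Eu N → ℂ} (hf : Continuous f) : BO r 0 f := by
  obtain ⟨C, hC⟩ := (isCompact_closedBall (0 : Eu N) r).exists_bound_of_continuousOn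
    hf.continuousOn
  refine ⟨max C 0, le_max_right _ _, fun x hx => ?_⟩
  have := hC x (by simpa using hx)
  rw [pow_zero, mul_one]
  exact this.trans (le_max_left _ _)

theorem BO.congr {r : ℝ} {k : ℕ} {f g : Eu N → ℂ} (hf : BO r k f)
    (h : ∀ x, ‖x‖ ≤ r → g x = f x) : BO r k g := by
  obtain ⟨C, hC, h'⟩ := hf
  exact ⟨C, hC, fun x hx => by rw [h x hx]; exact h' x hx⟩

/-- uniform constant for a finite family -/
theorem BO.unif {r : ℝ} {k : ℕ} {κ : Type} [Fintype κ] {f : κ → Eu N → ℂ}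
    (hf : ∀ i, BO r k (f i)) : ∃ C, 0 ≤ C ∧ ∀ i x, ‖x‖ ≤ r → ‖f i x‖ ≤ C * ‖x‖ ^ k := by
  choose C hC h using hf
  refine ⟨∑ i, C i, Finset.sum_nonneg fun i _ => hC i, fun i x hx => ?_⟩
  refine (h i x hx).trans (mul_le_mul_of_nonneg_right ?_ (by positivity))
  exact Finset.single_le_sum (fun i _ => hC i) (Finset.mem_univ i)

theorem BO.of_smooth_zero {r : ℝ} {f : Eu N → ℂ} (hf : ContDiff ℝ ∞ f) (h0 : f 0 = 0) :
    BO r 1 f := by
  have hc : Continuous (fderiv ℝ f) := (hf.fderiv_right (m := ∞) (by simp)).continuous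
  obtain ⟨C, hC⟩ := (isCompact_closedBall (0 : Eu N) r).exists_bound_of_continuousOn
    hc.continuousOn
  refine ⟨max C 0, le_max_right _ _, fun x hx => ?_⟩
  have h1 := (convex_closedBall (0 : Eu N) r).norm_image_sub_le_of_norm_fderiv_le (𝕜 := ℝ)
    (f := f) (C := max C 0) (fun y _ => (smooth_diff hf) y)
    (fun y hy => (hC y hy).trans (le_max_left _ _)) (x := 0) (y := x)
    (Metric.mem_closedBall_self (le_trans (norm_nonneg x) hx)) (by simpa using hx)
  simpa [h0] using h1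

/-! ### the almost complex structure -/

/-- standard up to second order -/
structure JN (J : Eu N → Eu N →L[ℝ] Eu N) (r0 C : ℝ) : Prop where
  jg : JG J (Metric.ball 0 r0)
  pos : 0 < r0
  orth : ∀ v, ‖J 0 v‖ = ‖v‖
  near : ∀ x, ‖x‖ < r0 → ∀ v, ‖J x v - J 0 v‖ ≤ C * ‖x‖ ^ 2 * ‖v‖

theorem JN.skew {J : Eu N → Eu N →L[ℝ] Eu N} {r0 C : ℝ} (h : JN J r0 C) (v w : Eu N) :
    inner ℝ (J 0 v) w = - inner ℝ v (J 0 w) := by
  have h1 : ∀ v w, inner ℝ (J 0 v) (J 0 w) = inner ℝ v w := by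
    intro v w
    rw [real_inner_eq_norm_add_mul_self_sub_norm_mul_self_sub_norm_mul_self_div_two,
      real_inner_eq_norm_add_mul_self_sub_norm_mul_self_sub_norm_mul_self_div_two,
      ← map_add, h.orth, h.orth, h.orth]
  have h2 := h1 v (J 0 w)
  rw [h.jg.sq 0 (Metric.mem_ball_self h.pos), inner_neg_right] at h2
  linarith

theorem Jm_inner (J : Eu N → Eu N →L[ℝ] Eu N) (b j : Fin N) (x : Eu N) :
    Jm J b j x = inner ℝ (eb N b) (J x (eb N j)) := by
  simp [Jm, eb, EuclideanSpace.inner_single_left]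

theorem norm_eb (b : Fin N) : ‖eb N b‖ = 1 := by simp [eb]

theorem JN.anti {J : Eu N → Eu N →L[ℝ] Eu N} {r0 C : ℝ} (h : JN J r0 C) (b j : Fin N) :
    Jm J b j 0 = - Jm J j b 0 := by
  rw [Jm_inner, Jm_inner, real_inner_comm, h.skew, real_inner_comm]

theorem JN.entry {J : Eu N → Eu N →L[ℝ] Eu N} {r0 C : ℝ} (h : JN J r0 C) (b j : Fin N)
    {x : Eu N} (hx : ‖x‖ < r0) : |Jm J b j x - Jm J b j 0| ≤ C * ‖x‖ ^ 2 := by
  rw [Jm_inner, Jm_inner, ← inner_sub_right]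
  refine (abs_real_inner_le_norm _ _).trans ?_
  rw [norm_eb, one_mul]
  simpa [norm_eb] using h.near x hx (eb N j)

theorem JN.fderiv_zero {J : Eu N → Eu N →L[ℝ] Eu N} {r0 C : ℝ} (h : JN J r0 C) (b j : Fin N)
    (v : Eu N) : pd v (rc (Jm J b j)) 0 = 0 := by
  have hd : HasFDerivAt (Jm J b j) (0 : Eu N →L[ℝ] ℝ) 0 := by
    rw [hasFDerivAt_iff_isLittleO_nhds_zero]
    have h1 : (fun x : Eu N => Jm J b j (0 + x) - Jm J b j 0 - (0 : Eu N →L[ℝ] ℝ) x)
        =O[nhds 0] fun x => ‖x‖ ^ 2 := by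
      refine Asymptotics.IsBigO.of_bound C ?_
      filter_upwards [Metric.ball_mem_nhds (0 : Eu N) h.pos] with x hx
      have := h.entry b j (x := x) (by simpa using hx)
      simpa using this
    refine h1.trans_isLittleO ?_
    have h2 := Asymptotics.isLittleO_norm_pow_id (E' := Eu N) (n := 2) (by norm_num)
    exact h2
  have h3 : HasFDerivAt (rc (Jm J b j)) (Complex.ofRealCLM.comp (0 : Eu N →L[ℝ] ℝ)) 0 :=
    (Complex.ofRealCLM.hasFDerivAt (x := Jm J b j 0)).comp 0 hd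
  unfold pd
  rw [h3.fderiv]
  simp

section bounds

variable {J : Eu N → Eu N →L[ℝ] Eu N} {r0 C : ℝ}

theorem bo_fr (hJ : ContDiff ℝ ∞ J) (r : ℝ) (j b : Fin N) : BO r 0 (fr J j b) :=
  BO.of_continuous r (fr_smooth hJ j b).continuous

theorem bo_cjfr (hJ : ContDiff ℝ ∞ J) (r : ℝ) (j b : Fin N) : BO r 0 (cj (fr J j) b) :=
  BO.of_continuous r (cj_smooth (fr_smooth hJ j) b).continuous

theorem JN.bo_pd (h : JN J r0 C) (r : ℝ) (b j : Fin N) (v : Eu N) :
    BO r 1 (pd v (rc (Jm J b j))) :=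
  BO.of_smooth_zero (pd_smooth (rc_smooth (Jm_smooth h.jg.smooth b j)) v) (h.fderiv_zero b j v)

theorem JN.bo_Xd_cj (h : JN J r0 C) (r : ℝ) (k j b : Fin N) :
    BO r 1 (Xd (eb N) (fr J k) (cj (fr J j) b)) := by
  have h1 : BO r 1 (fun x => ∑ a, fr J k a x * (-(I / 2) * pd (eb N a) (rc (Jm J b j)) x)) := by
    refine BO.sum _ fun a _ => ?_
    have := (bo_fr h.jg.smooth r k a).mul ((h.bo_pd r b j (eb N a)).const_mul (-(I / 2)))
    simpa using this
  refine h1.congr fun x _ => ?_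
  unfold Xd
  exact Finset.sum_congr rfl fun a _ => by rw [pd_cjfr h.jg.smooth]

theorem JN.bo_Xdcj_fr (h : JN J r0 C) (r : ℝ) (k j b : Fin N) :
    BO r 1 (Xd (eb N) (cj (fr J j)) (fr J k b)) := by
  have h1 : BO r 1 (fun x => ∑ a, cj (fr J j) a x * ((I / 2) * pd (eb N a) (rc (Jm J b k)) x)) := by
    refine BO.sum _ fun a _ => ?_
    have := (bo_cjfr h.jg.smooth r j a).mul ((h.bo_pd r b k (eb N a)).const_mul (I / 2))
    simpa using this
  refine h1.congr fun x _ => ?_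
  unfold Xd
  exact Finset.sum_congr rfl fun a _ => by rw [pd_fr h.jg.smooth]

theorem JN.bo_wc (h : JN J r0 C) (r : ℝ) (k j l : Fin N) : BO r 1 (wc J k j l) :=
  ((h.bo_Xd_cj r k j l).sub (h.bo_Xdcj_fr r k j l))

/-- `‖x‖²` -/
def qq (x : Eu N) : ℝ := ‖x‖ ^ 2

theorem qq_smooth : ContDiff ℝ ∞ (qq (N := N)) := by
  unfold qq
  exact contDiff_norm_sq ℝ

/-- the coordinate functions -/
def co (b : Fin N) : Eu N → ℂ := fun x => ((x b : ℝ) : ℂ)

theorem co_smooth (b : Fin N) : ContDiff ℝ ∞ (co (N := N) b) :=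
  (Complex.ofRealCLM.contDiff (n := ∞)).comp (EuclideanSpace.proj (𝕜 := ℝ) b).contDiff

theorem pd_co (b : Fin N) (v x : Eu N) : pd v (co b) x = ((v b : ℝ) : ℂ) := by
  have h3 : HasFDerivAt (co (N := N) b) (Complex.ofRealCLM.comp
      (EuclideanSpace.proj (𝕜 := ℝ) b)) x :=
    (Complex.ofRealCLM.hasFDerivAt (x := x b)).comp x
      (EuclideanSpace.proj (𝕜 := ℝ) b : Eu N →L[ℝ] ℝ).hasFDerivAt
  unfold pd
  rw [h3.fderiv]
  simp

theorem pd_qq (v x : Eu N) : pd v (rc qq) x = ((2 * inner ℝ x v : ℝ) : ℂ) := by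
  have h2 : HasFDerivAt (qq (N := N)) (2 • (innerSL ℝ x)) x := by
    unfold qq
    exact (hasStrictFDerivAt_norm_sq x).hasFDerivAt
  have h3 : HasFDerivAt (rc (qq (N := N))) (Complex.ofRealCLM.comp (2 • (innerSL ℝ x))) x :=
    (Complex.ofRealCLM.hasFDerivAt (x := qq x)).comp x h2
  unfold pd
  rw [h3.fderiv]
  simp

theorem pd_qq' (b : Fin N) (x : Eu N) : pd (eb N b) (rc qq) x = 2 * co b x := by
  rw [pd_qq]
  simp [eb, co, EuclideanSpace.inner_single_right]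

theorem bo_co (r : ℝ) (b : Fin N) : BO r 1 (co (N := N) b) :=
  BO.of_smooth_zero (co_smooth b) (by simp [co])

/-- `Y_j |x|²` -/
theorem Xd_cj_qq (J : Eu N → Eu N →L[ℝ] Eu N) (j : Fin N) :
    Xd (eb N) (cj (fr J j)) (rc qq) = fun x => ∑ b, cj (fr J j) b x * (2 * co b x) := by
  funext x
  unfold Xd
  exact Finset.sum_congr rfl fun b _ => by rw [pd_qq']

theorem bo_Xd_cj_qq (hJ : ContDiff ℝ ∞ J) (r : ℝ) (j : Fin N) :
    BO r 1 (Xd (eb N) (cj (fr J j)) (rc qq)) := by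
  rw [Xd_cj_qq]
  refine BO.sum _ fun b _ => ?_
  have := (bo_cjfr hJ r j b).mul ((bo_co r b).const_mul 2)
  simpa using this

/-- remainder of the Levi form of `|x|²` -/
def Rm2 (J : Eu N → Eu N →L[ℝ] Eu N) (k j : Fin N) : Eu N → ℂ := fun x =>
  ∑ b, Xd (eb N) (fr J k) (cj (fr J j) b) x * (2 * co b x)
    - ∑ l, wc J k j l x * Xd (eb N) (cj (fr J l)) (rc qq) x

theorem Hco_qq (hJ : ContDiff ℝ ∞ J) (k j : Fin N) (x : Eu N) :
    Hco (eb N) (fr J) (wc J) qq k j x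
      = 2 * ∑ b, fr J k b x * cj (fr J j) b x + Rm2 J k j x := by
  unfold Hco Rm2
  rw [Xd_cj_qq J j]
  have h1 : Xd (eb N) (fr J k) (fun x => ∑ b, cj (fr J j) b x * (2 * co b x)) x
      = ∑ b, Xd (eb N) (fr J k) (cj (fr J j) b) x * (2 * co b x)
        + 2 * ∑ b, fr J k b x * cj (fr J j) b x := by
    have hterm : ∀ b, Differentiable ℝ (fun x => cj (fr J j) b x * (2 * co b x)) := fun b =>
      (smooth_diff (cj_smooth (fr_smooth hJ j) b)).mul
        ((differentiable_const _).mul (smooth_diff (co_smooth b)))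
    have h2 : Xd (eb N) (fr J k) (fun x => ∑ b, cj (fr J j) b x * (2 * co b x)) x
        = ∑ b, Xd (eb N) (fr J k) (fun x => cj (fr J j) b x * (2 * co b x)) x := by
      unfold Xd
      rw [Finset.sum_comm]
      refine Finset.sum_congr rfl fun a _ => ?_
      rw [← Finset.mul_sum]
      congr 1
      unfold pd
      rw [fderiv_fun_sum (fun b _ => hterm b x)]
      simp
    have h3 : ∀ b, Xd (eb N) (fr J k) (fun x => cj (fr J j) b x * (2 * co b x)) x
        = Xd (eb N) (fr J k) (cj (fr J j) b) x * (2 * co b x)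
          + 2 * (fr J k b x * cj (fr J j) b x) := by
      intro b
      have h4 : Xd (eb N) (fr J k) (fun x => 2 * co b x) x = 2 * fr J k b x := by
        have h5 : ∀ a, pd (eb N a) (fun x => 2 * co b x) x = if a = b then 2 else 0 := by
          intro a
          have h6 : (fun x : Eu N => 2 * co b x) = fun x => (fun _ => (2 : ℂ)) x * co b x := rfl
          rw [h6, pd_mul (u := fun _ => (2 : ℂ)) (differentiable_const _)
            (smooth_diff (co_smooth b)), pd_co]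
          by_cases hab : a = b
          · subst hab; simp [pd, eb]
          · simp [pd, eb, hab, Ne.symm hab]
        unfold Xd
        simp_rw [h5]
        simp [mul_comm]
      rw [Xd_mul (u := cj (fr J j) b) (v := fun x => 2 * co b x)
        (smooth_diff (cj_smooth (fr_smooth hJ j) b))
        ((differentiable_const _).mul (smooth_diff (co_smooth b))), h4]
      ring
    rw [h2, Finset.sum_congr rfl fun b _ => h3 b, Finset.sum_add_distrib, Finset.mul_sum]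
  rw [h1]
  ring

theorem JN.bo_Rm2 (h : JN J r0 C) (r : ℝ) (k j : Fin N) : BO r 2 (Rm2 J k j) := by
  unfold Rm2
  refine BO.sub (BO.sum _ fun b _ => ?_) (BO.sum _ fun l _ => ?_)
  · exact (h.bo_Xd_cj r k j b).mul ((bo_co r b).const_mul 2)
  · exact (h.bo_wc r k j l).mul (bo_Xd_cj_qq h.jg.smooth r l)

end bounds

end

end Crest.Agent.R260.BKX_680
end

-- ▼ part R260/BKX6_680
section

/-! # Bochner-Kodaira estimate for exact forms, part 6: positivity of the Levi form of `|x|²` on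
`(0,1)` covectors, chain rule, positivity for the weights `K/(r²-|x|²) + M log(|x|²+ε)`. -/

namespace Crest.Agent.R260.BKX_680

open MeasureTheory Complex Set
open scoped ContDiff ComplexConjugate BigOperators

set_option linter.unusedSectionVars false

noncomputable section

variable {N : ℕ} {J : Eu N → Eu N →L[ℝ] Eu N} {r0 C : ℝ}

theorem JN.absC (h : JN J r0 C) : JN J r0 |C| :=
  ⟨h.jg, h.pos, h.orth, fun x hx v => (h.near x hx v).trans (by
    gcongr; exact le_abs_self C)⟩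

theorem cs_sum (a h : Fin N → ℂ) :
    ‖∑ j, a j * h j‖ ^ 2 ≤ (∑ j, ‖a j‖ ^ 2) * ∑ j, ‖h j‖ ^ 2 := by
  have h1 : ‖∑ j, a j * h j‖ ≤ ∑ j, ‖a j‖ * ‖h j‖ := by
    refine (norm_sum_le _ _).trans (le_of_eq ?_)
    exact Finset.sum_congr rfl fun j _ => norm_mul _ _
  calc ‖∑ j, a j * h j‖ ^ 2 ≤ (∑ j, ‖a j‖ * ‖h j‖) ^ 2 :=
        pow_le_pow_left₀ (norm_nonneg _) h1 2
    _ ≤ _ := Finset.sum_mul_sq_le_sq_mul_sq _ _ _

/-- `Y_j |x|² = x_j - i (J x)^T_j` -/
theorem Yqq (J : Eu N → Eu N →L[ℝ] Eu N) (j : Fin N) (x : Eu N) :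
    Xd (eb N) (cj (fr J j)) (rc qq) x
      = ((x j : ℝ) : ℂ) - I * ((inner ℝ (J x (eb N j)) x : ℝ) : ℂ) := by
  rw [Xd_cj_qq]
  have h1 : (inner ℝ (J x (eb N j)) x : ℝ) = ∑ b, Jm J b j x * x b := by
    simp [PiLp.inner_apply, Jm, mul_comm]
  rw [h1]
  push_cast
  have h2 : ∑ b, cj (fr J j) b x * (2 * co b x)
      = ∑ b, ((if b = j then ((x b : ℝ) : ℂ) else 0) - I * ((Jm J b j x : ℂ) * (x b : ℂ))) := by
    refine Finset.sum_congr rfl fun b _ => ?_
    rw [cj_fr]; unfold co rc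
    split_ifs <;> ring
  rw [h2, Finset.sum_sub_distrib, Finset.sum_ite_eq', ← Finset.mul_sum]
  simp

theorem JN.p2 (h : JN J r0 C) (x : Eu N) (hx : ‖x‖ < r0) (hx1 : ‖x‖ ≤ 1) (η : Fin N → ℂ) :
    ‖∑ j, Xd (eb N) (cj (fr J j)) (rc qq) x * η j‖ ^ 2
      ≤ (2 * ‖x‖ ^ 2 + ((N : ℝ) * (2 * |C| + |C| ^ 2)) * ‖x‖ ^ 4) * ∑ j, ‖η j‖ ^ 2 := by
  refine (cs_sum _ _).trans ?_
  refine mul_le_mul_of_nonneg_right ?_ (Finset.sum_nonneg fun j _ => by positivity)
  have h' := h.absC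
  set D : ℝ := |C| with hD
  have hD0 : 0 ≤ D := abs_nonneg C
  set z : Eu N := J 0 x with hz
  have hz1 : ‖z‖ = ‖x‖ := h.orth x
  have hn : ∀ y : Eu N, ∑ j, (y j) ^ 2 = ‖y‖ ^ 2 := fun y => by
    rw [EuclideanSpace.norm_sq_eq]; simp
  have hy : ∀ j, (inner ℝ (J x (eb N j)) x : ℝ) ^ 2 ≤ (z j) ^ 2 + (2 * D + D ^ 2) * ‖x‖ ^ 4 := by
    intro j
    set d : ℝ := inner ℝ (J x (eb N j) - J 0 (eb N j)) x with hd
    have e1 : (inner ℝ (J x (eb N j)) x : ℝ) = d - z j := by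
      rw [hd, inner_sub_left, h.skew (eb N j) x]
      simp [hz, eb, EuclideanSpace.inner_single_left]
    have e2 : |d| ≤ D * ‖x‖ ^ 3 := by
      refine (abs_real_inner_le_norm _ _).trans ?_
      have h3 := h'.near x hx (eb N j)
      rw [norm_eb, mul_one] at h3
      calc ‖J x (eb N j) - J 0 (eb N j)‖ * ‖x‖ ≤ (D * ‖x‖ ^ 2) * ‖x‖ :=
            mul_le_mul_of_nonneg_right h3 (norm_nonneg _)
        _ = D * ‖x‖ ^ 3 := by ring
    have e3 : |z j| ≤ ‖x‖ := by
      rw [← hz1]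
      exact (EuclideanSpace.norm_eq z) ▸ (by
        have := PiLp.norm_apply_le z j
        simpa [EuclideanSpace.norm_eq] using this)
    rw [e1]
    have hx0 := norm_nonneg x
    have e4 : (d - z j) ^ 2 ≤ (z j) ^ 2 + 2 * |z j| * |d| + |d| ^ 2 := by
      have e5 : -(z j * d) ≤ |z j| * |d| := by rw [← abs_mul]; exact neg_le_abs _
      rw [sq_abs]; nlinarith
    have e6 : |z j| * |d| ≤ ‖x‖ * (D * ‖x‖ ^ 3) :=
      mul_le_mul e3 e2 (abs_nonneg _) hx0
    have e7 : |d| ^ 2 ≤ (D * ‖x‖ ^ 3) ^ 2 := pow_le_pow_left₀ (abs_nonneg _) e2 2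
    have e8 : (D * ‖x‖ ^ 3) ^ 2 ≤ D ^ 2 * ‖x‖ ^ 4 := by
      have : ‖x‖ ^ 6 ≤ ‖x‖ ^ 4 := pow_le_pow_of_le_one hx0 hx1 (by norm_num)
      calc (D * ‖x‖ ^ 3) ^ 2 = D ^ 2 * ‖x‖ ^ 6 := by ring
        _ ≤ D ^ 2 * ‖x‖ ^ 4 := mul_le_mul_of_nonneg_left this (by positivity)
    nlinarith
  have hnorm : ∀ j, ‖Xd (eb N) (cj (fr J j)) (rc qq) x‖ ^ 2
      = (x j) ^ 2 + (inner ℝ (J x (eb N j)) x : ℝ) ^ 2 := by
    intro j
    rw [Yqq, ← Complex.normSq_eq_norm_sq, Complex.normSq_apply]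
    simp; ring
  calc ∑ j, ‖Xd (eb N) (cj (fr J j)) (rc qq) x‖ ^ 2
      = ∑ j, ((x j) ^ 2 + (inner ℝ (J x (eb N j)) x : ℝ) ^ 2) :=
        Finset.sum_congr rfl fun j _ => hnorm j
    _ ≤ ∑ j, ((x j) ^ 2 + ((z j) ^ 2 + (2 * D + D ^ 2) * ‖x‖ ^ 4)) :=
        Finset.sum_le_sum fun j _ => by linarith [hy j]
    _ = 2 * ‖x‖ ^ 2 + ((N : ℝ) * (2 * D + D ^ 2)) * ‖x‖ ^ 4 := by
        rw [Finset.sum_add_distrib, Finset.sum_add_distrib, hn, hn, hz1]
        simp; ring

theorem JN.p1 (h : JN J r0 C) {r1 : ℝ} (hr1 : r1 < r0) :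
    ∃ C2, 0 ≤ C2 ∧ ∀ x, ‖x‖ ≤ r1 → ∀ η : Fin N → ℂ,
      (∀ j, ∑ c, rc (Jm J c j) x * η c = -I * η j) →
      (2 - C2 * ‖x‖ ^ 2) * ∑ j, ‖η j‖ ^ 2
        ≤ (∑ k, ∑ j, Hco (eb N) (fr J) (wc J) qq k j x * η j * conj (η k)).re := by
  obtain ⟨CR, hCR, hR⟩ := BO.unif (κ := Fin N × Fin N) (r := r1) (k := 2)
    (f := fun p => Rm2 J p.1 p.2) (fun p => h.bo_Rm2 r1 p.1 p.2)
  have h' := h.absC
  set D : ℝ := |C| with hD
  have hD0 : 0 ≤ D := abs_nonneg C
  refine ⟨(N : ℝ) * (4 * D + CR), by positivity, fun x hx η hη => ?_⟩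
  set p : ℝ := ∑ i, ‖η i‖ with hp
  have hp0 : 0 ≤ p := Finset.sum_nonneg fun i _ => norm_nonneg _
  set Q : ℝ := ∑ i, ‖η i‖ ^ 2 with hQ
  have hpQ : p ^ 2 ≤ (N : ℝ) * Q := by
    have := sq_sum_le η
    simpa using this
  set g : Fin N → ℂ := fun b => ∑ j, cj (fr J j) b x * η j with hg
  have e1 : ∑ k, ∑ j, Hco (eb N) (fr J) (wc J) qq k j x * η j * conj (η k)
      = 2 * ∑ b, g b * conj (g b) + ∑ k, ∑ j, Rm2 J k j x * η j * conj (η k) := by
    have h1 : ∀ b, g b * conj (g b)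
        = ∑ k, ∑ j, fr J k b x * cj (fr J j) b x * η j * conj (η k) := by
      intro b
      have h2 : conj (g b) = ∑ k, fr J k b x * conj (η k) := by
        rw [hg, map_sum]
        refine Finset.sum_congr rfl fun k _ => ?_
        rw [map_mul]
        simp [cj]
      rw [h2, Finset.mul_sum]
      refine Finset.sum_congr rfl fun k _ => ?_
      rw [hg, Finset.sum_mul]
      exact Finset.sum_congr rfl fun j _ => by ring
    have h3 : ∑ b, g b * conj (g b)
        = ∑ k, ∑ j, ∑ b, fr J k b x * cj (fr J j) b x * η j * conj (η k) := by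
      rw [Finset.sum_congr rfl fun b _ => h1 b, Finset.sum_comm]
      exact Finset.sum_congr rfl fun k _ => Finset.sum_comm
    rw [h3, Finset.mul_sum, ← Finset.sum_add_distrib]
    refine Finset.sum_congr rfl fun k _ => ?_
    rw [Finset.mul_sum, ← Finset.sum_add_distrib]
    refine Finset.sum_congr rfl fun j _ => ?_
    rw [Hco_qq h.jg.smooth, add_mul, add_mul]
    congr 1
    rw [Finset.mul_sum, Finset.sum_mul, Finset.sum_mul, Finset.mul_sum]
    exact Finset.sum_congr rfl fun b _ => by ring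
  have e2 : (2 * ∑ b, g b * conj (g b) : ℂ).re = 2 * ∑ b, ‖g b‖ ^ 2 := by
    have : ∀ b, g b * conj (g b) = ((‖g b‖ ^ 2 : ℝ) : ℂ) := fun b => by
      rw [Complex.mul_conj, Complex.normSq_eq_norm_sq]
    simp_rw [this]
    rw [← Complex.ofReal_sum, show (2 : ℂ) = ((2 : ℝ) : ℂ) by norm_cast, ← Complex.ofReal_mul,
      Complex.ofReal_re]
  have e3 : ∀ b, ‖g b - η b‖ ≤ D * ‖x‖ ^ 2 * p := by
    intro b
    have h1 : g b = (1 / 2 : ℂ) * (η b - I * ∑ j, rc (Jm J b j) x * η j) := by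
      have h2 : ∀ j, cj (fr J j) b x * η j
          = (1 / 2 : ℂ) * ((if b = j then η j else 0) - I * (rc (Jm J b j) x * η j)) := by
        intro j
        rw [cj_fr]; split_ifs <;> ring
      rw [hg]
      simp only
      rw [Finset.sum_congr rfl fun j _ => h2 j, ← Finset.mul_sum, Finset.sum_sub_distrib,
        Finset.sum_ite_eq, ← Finset.mul_sum]
      simp
    have h3 : η b = I * ∑ j, rc (Jm J j b) x * η j := by
      rw [hη b]
      have hI : I * I = -1 := Complex.I_mul_I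
      linear_combination (η b) * hI
    have h4 : g b - η b = -(I / 2) * ∑ j, ((Jm J j b x + Jm J b j x : ℝ) : ℂ) * η j := by
      have h5 : ∑ j, ((Jm J j b x + Jm J b j x : ℝ) : ℂ) * η j
          = ∑ j, rc (Jm J j b) x * η j + ∑ j, rc (Jm J b j) x * η j := by
        rw [← Finset.sum_add_distrib]
        refine Finset.sum_congr rfl fun j _ => ?_
        unfold rc; push_cast; ring
      rw [h5, h1]
      linear_combination (-(1 / 2 : ℂ)) * h3
    rw [h4, norm_mul]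
    have h6 : ‖-(I / 2)‖ = 1 / 2 := by simp
    rw [h6]
    have h7 : ‖∑ j, ((Jm J j b x + Jm J b j x : ℝ) : ℂ) * η j‖ ≤ 2 * (D * ‖x‖ ^ 2) * p := by
      refine (norm_sum_le _ _).trans ?_
      rw [hp, Finset.mul_sum]
      refine Finset.sum_le_sum fun j _ => ?_
      rw [norm_mul, Complex.norm_real, Real.norm_eq_abs]
      refine mul_le_mul_of_nonneg_right ?_ (norm_nonneg _)
      have h8 := h'.entry j b (x := x) (lt_of_le_of_lt hx hr1)
      have h9 := h'.entry b j (x := x) (lt_of_le_of_lt hx hr1)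
      have h10 := h'.anti j b
      have h11 : Jm J j b x + Jm J b j x
          = (Jm J j b x - Jm J j b 0) + (Jm J b j x - Jm J b j 0) := by rw [h10]; ring
      rw [h11]
      refine (abs_add_le _ _).trans ?_
      linarith
    linarith
  have e4 : Q - 2 * (D * ‖x‖ ^ 2) * p ^ 2 ≤ ∑ b, ‖g b‖ ^ 2 := by
    have h1 : ∀ b, ‖η b‖ ^ 2 - 2 * (D * ‖x‖ ^ 2 * p) * ‖η b‖ ≤ ‖g b‖ ^ 2 := by
      intro b
      have h2 : ‖η b‖ ≤ ‖g b‖ + D * ‖x‖ ^ 2 * p := by
        have h3 : η b = g b - (g b - η b) := by ring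
        calc ‖η b‖ = ‖g b - (g b - η b)‖ := by rw [← h3]
          _ ≤ ‖g b‖ + ‖g b - η b‖ := norm_sub_le _ _
          _ ≤ _ := by linarith [e3 b]
      have h4 : 0 ≤ D * ‖x‖ ^ 2 * p := by positivity
      have h5 := norm_nonneg (g b)
      have h6 := norm_nonneg (η b)
      by_cases h7 : ‖η b‖ ≤ D * ‖x‖ ^ 2 * p
      · nlinarith
      · push Not at h7
        have h8 : ‖η b‖ - D * ‖x‖ ^ 2 * p ≤ ‖g b‖ := by linarith
        have h9 : (‖η b‖ - D * ‖x‖ ^ 2 * p) ^ 2 ≤ ‖g b‖ ^ 2 :=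
          pow_le_pow_left₀ (by linarith) h8 2
        nlinarith
    calc Q - 2 * (D * ‖x‖ ^ 2) * p ^ 2
        = ∑ b, (‖η b‖ ^ 2 - 2 * (D * ‖x‖ ^ 2 * p) * ‖η b‖) := by
          rw [Finset.sum_sub_distrib, ← Finset.mul_sum]; ring
      _ ≤ _ := Finset.sum_le_sum fun b _ => h1 b
  have e5 : -(CR * ‖x‖ ^ 2 * p ^ 2) ≤ (∑ k, ∑ j, Rm2 J k j x * η j * conj (η k)).re := by
    have h1 : ‖∑ k, ∑ j, Rm2 J k j x * η j * conj (η k)‖ ≤ CR * ‖x‖ ^ 2 * p ^ 2 := by
      calc ‖∑ k, ∑ j, Rm2 J k j x * η j * conj (η k)‖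
          ≤ ∑ k, ∑ j, (CR * ‖x‖ ^ 2) * (‖η j‖ * ‖η k‖) := by
            refine (norm_sum_le _ _).trans (Finset.sum_le_sum fun k _ => ?_)
            refine (norm_sum_le _ _).trans (Finset.sum_le_sum fun j _ => ?_)
            rw [norm_mul, norm_mul, RCLike.norm_conj, mul_assoc]
            exact mul_le_mul_of_nonneg_right (hR (k, j) x hx) (by positivity)
        _ = CR * ‖x‖ ^ 2 * p ^ 2 := by
            have h2 : p ^ 2 = ∑ k, ∑ j, ‖η j‖ * ‖η k‖ := by
              rw [sq]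
              nth_rewrite 2 [hp]
              rw [Finset.mul_sum]
              refine Finset.sum_congr rfl fun k _ => ?_
              rw [hp, Finset.sum_mul]
            rw [h2, Finset.mul_sum]
            exact Finset.sum_congr rfl fun k _ => by rw [Finset.mul_sum]
    have h3 : -(∑ k, ∑ j, Rm2 J k j x * η j * conj (η k)).re
        ≤ ‖∑ k, ∑ j, Rm2 J k j x * η j * conj (η k)‖ := by
      rw [← Complex.neg_re, ← norm_neg]
      exact Complex.re_le_norm _
    linarith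
  rw [e1, Complex.add_re, e2]
  have h6 : (4 * D + CR) * ‖x‖ ^ 2 * p ^ 2 ≤ (4 * D + CR) * ‖x‖ ^ 2 * ((N : ℝ) * Q) :=
    mul_le_mul_of_nonneg_left hpQ (by positivity)
  nlinarith [e4, e5, h6]

end

end Crest.Agent.R260.BKX_680
end

-- ▼ part R260/BKX7_680
section

/-! # Bochner-Kodaira estimate for exact forms, part 7: chain rule for the Levi form and positivity
for the radial weights `K/(r²-|x|²) + M log(|x|²+ε)`. -/

namespace Crest.Agent.R260.BKX_680

open MeasureTheory Complex Set Filter Topology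
open scoped ContDiff ComplexConjugate BigOperators

set_option linter.unusedSectionVars false

noncomputable section

section chain

variable {E : Type} [NormedAddCommGroup E] [NormedSpace ℝ E]
variable {κ : Type} [Fintype κ] {e : κ → E}
variable {ι : Type} [Fintype ι]

theorem Xd_congr {ξ : κ → E → ℂ} {u v : E → ℂ} {x : E} (h : u =ᶠ[𝓝 x] v) :
    Xd e ξ u x = Xd e ξ v x := by
  unfold Xd pd
  rw [h.fderiv_eq]




theorem pd_rc_comp {q Φ : E → ℝ} (hq : ContDiff ℝ ∞ q) {F F1 : ℝ → ℝ} {x : E}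
    (hF : HasDerivAt F (F1 (q x)) (q x)) (hΦ : Φ =ᶠ[𝓝 x] fun y => F (q y)) (v : E) :
    pd v (rc Φ) x = ((F1 (q x) : ℝ) : ℂ) * pd v (rc q) x := by
  have hqd : HasFDerivAt q (fderiv ℝ q x) x := ((hq.differentiable (by simp)) x).hasFDerivAt
  have h1 : HasFDerivAt (fun y => F (q y)) (F1 (q x) • fderiv ℝ q x) x :=
    hF.comp_hasFDerivAt x hqd
  have h2 : HasFDerivAt Φ (F1 (q x) • fderiv ℝ q x) x := h1.congr_of_eventuallyEq hΦ
  have h3 : HasFDerivAt (rc Φ) (Complex.ofRealCLM.comp (F1 (q x) • fderiv ℝ q x)) x :=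
    (Complex.ofRealCLM.hasFDerivAt (x := Φ x)).comp x h2
  have h4 : HasFDerivAt (rc q) (Complex.ofRealCLM.comp (fderiv ℝ q x)) x :=
    (Complex.ofRealCLM.hasFDerivAt (x := q x)).comp x hqd
  unfold pd
  rw [h3.fderiv, h4.fderiv]
  simp

theorem Hco_comp {ξ : ι → κ → E → ℂ} {β : ι → ι → ι → E → ℂ} {q Φ : E → ℝ}
    (hξ : ∀ j a, ContDiff ℝ ∞ (ξ j a)) (hq : ContDiff ℝ ∞ q)
    {F F1 F2 : ℝ → ℝ} {x : E} (hF : ∀ᶠ y in 𝓝 x, HasDerivAt F (F1 (q y)) (q y))
    (hF1 : HasDerivAt F1 (F2 (q x)) (q x)) (hΦ : Φ =ᶠ[𝓝 x] fun y => F (q y)) (k j : ι) :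
    Hco e ξ β Φ k j x = ((F1 (q x) : ℝ) : ℂ) * Hco e ξ β q k j x
      + ((F2 (q x) : ℝ) : ℂ) * (Xd e (ξ k) (rc q) x * Xd e (cj (ξ j)) (rc q) x) := by
  have hstep : ∀ j, Xd e (cj (ξ j)) (rc Φ) =ᶠ[𝓝 x]
      fun y => rc (fun z => F1 (q z)) y * Xd e (cj (ξ j)) (rc q) y := by
    intro j
    filter_upwards [hF, hΦ.eventuallyEq_nhds] with y hy1 hy2
    unfold Xd
    rw [Finset.mul_sum]
    refine Finset.sum_congr rfl fun a _ => ?_
    rw [pd_rc_comp hq hy1 hy2]
    unfold rc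
    ring
  have hqd : HasFDerivAt q (fderiv ℝ q x) x := ((hq.differentiable (by simp)) x).hasFDerivAt
  have hA : HasFDerivAt (rc fun z => F1 (q z))
      (Complex.ofRealCLM.comp (F2 (q x) • fderiv ℝ q x)) x :=
    (Complex.ofRealCLM.hasFDerivAt (x := F1 (q x))).comp x (hF1.comp_hasFDerivAt x hqd)
  have hB : HasFDerivAt (rc q) (Complex.ofRealCLM.comp (fderiv ℝ q x)) x :=
    (Complex.ofRealCLM.hasFDerivAt (x := q x)).comp x hqd
  have hC : DifferentiableAt ℝ (Xd e (cj (ξ j)) (rc q)) x :=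
    smooth_diff (Xd_smooth (cj_smooth (hξ j)) (rc_smooth hq)) x
  have h1 : Xd e (ξ k) (Xd e (cj (ξ j)) (rc Φ)) x
      = ((F1 (q x) : ℝ) : ℂ) * Xd e (ξ k) (Xd e (cj (ξ j)) (rc q)) x
        + ((F2 (q x) : ℝ) : ℂ) * (Xd e (ξ k) (rc q) x * Xd e (cj (ξ j)) (rc q) x) := by
    rw [Xd_congr (hstep j)]
    have h2 : ∀ a, pd (e a) (fun y => rc (fun z => F1 (q z)) y * Xd e (cj (ξ j)) (rc q) y) x
        = ((F1 (q x) : ℝ) : ℂ) * pd (e a) (Xd e (cj (ξ j)) (rc q)) x
          + ((F2 (q x) : ℝ) : ℂ) * (pd (e a) (rc q) x * Xd e (cj (ξ j)) (rc q) x) := by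
      intro a
      unfold pd
      rw [fderiv_fun_mul hA.differentiableAt hC, hA.fderiv, hB.fderiv]
      simp [rc]
      ring
    conv_lhs => unfold Xd
    conv_rhs => unfold Xd
    rw [Finset.mul_sum, Finset.sum_mul, Finset.mul_sum, ← Finset.sum_add_distrib]
    refine Finset.sum_congr rfl fun a _ => ?_
    have h3 := h2 a
    unfold Xd at h3
    rw [h3]
    ring
  unfold Hco
  rw [h1]
  have h4 : ∀ l, β k j l x * Xd e (cj (ξ l)) (rc Φ) x
      = ((F1 (q x) : ℝ) : ℂ) * (β k j l x * Xd e (cj (ξ l)) (rc q) x) := by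
    intro l
    rw [(hstep l).eq_of_nhds]
    unfold rc
    ring
  rw [Finset.sum_congr rfl fun l _ => h4 l, ← Finset.mul_sum]
  ring

end chain

/-! ### positivity -/

variable {N : ℕ} {J : Eu N → Eu N →L[ℝ] Eu N} {r0 C : ℝ}

/-- elementary inequality -/
theorem scal_pos {t ε δ K M C2 C3 A T Q Cc : ℝ} (ht : 0 ≤ t) (hε : 0 < ε) (hδ : 0 < δ)
    (hδ1 : δ ≤ 1) (hK : 0 ≤ K) (hM : 0 ≤ M) (hC2 : 0 ≤ C2) (hC3 : 0 ≤ C3)
    (hQ : 0 ≤ Q) (hC2t : C2 * t ≤ 1)
    (hA : (2 - C2 * t) * Q ≤ A) (hT0 : 0 ≤ T) (hT : T ≤ (2 * t + C3 * t ^ 2) * Q)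
    (hKC : Cc + M * (C2 + C3) ≤ K) :
    Cc * (δ⁻¹) ^ 2 * Q
      ≤ (K / δ ^ 2 + M / (t + ε)) * A + (2 * K / δ ^ 3 - M / (t + ε) ^ 2) * T := by
  have hte : 0 < t + ε := by linarith
  set b : ℝ := (δ⁻¹) ^ 2 with hb
  have hb1 : 1 ≤ b := one_le_pow₀ ((one_le_inv₀ hδ).mpr hδ1)
  have hKb : K / δ ^ 2 = K * b := by rw [hb]; field_simp
  set s : ℝ := (t + ε)⁻¹ with hs
  have hs0 : 0 < s := inv_pos.mpr hte
  have e1 : M / (t + ε) = M * s := by rw [hs, div_eq_mul_inv]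
  have e2 : M / (t + ε) ^ 2 = M * s ^ 2 := by rw [hs, div_eq_mul_inv, inv_pow]
  have hts : t * s ≤ 1 := by
    rw [hs, ← div_eq_mul_inv]
    exact (div_le_one hte).mpr (by linarith)
  have hts0 : 0 ≤ t * s := mul_nonneg ht hs0.le
  rw [hKb, e1, e2]
  -- the K part
  have hA1 : Q ≤ A := by
    refine le_trans ?_ hA
    nlinarith
  have hk : K * b * Q ≤ K * b * A := mul_le_mul_of_nonneg_left hA1 (by positivity)
  have hk2 : 0 ≤ 2 * K / δ ^ 3 * T := by positivity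
  -- the M part
  have hm : -(M * (C2 + C3)) * Q ≤ M * s * A - M * s ^ 2 * T := by
    have h1 : M * s * ((2 - C2 * t) * Q) ≤ M * s * A :=
      mul_le_mul_of_nonneg_left hA (by positivity)
    have h2 : M * s ^ 2 * T ≤ M * s ^ 2 * ((2 * t + C3 * t ^ 2) * Q) :=
      mul_le_mul_of_nonneg_left hT (by positivity)
    have h3 : -(C2 + C3) ≤ s * (2 - C2 * t) - s ^ 2 * (2 * t + C3 * t ^ 2) := by
      have h4 : s * (2 - C2 * t) - s ^ 2 * (2 * t + C3 * t ^ 2)
          = 2 * s * (1 - t * s) - C2 * (t * s) - C3 * (t * s) ^ 2 := by ring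
      rw [h4]
      have h5 : (t * s) ^ 2 ≤ 1 := pow_le_one₀ hts0 hts
      nlinarith [mul_nonneg hs0.le (sub_nonneg.mpr hts)]
    have h6 : 0 ≤ M * Q := mul_nonneg hM hQ
    nlinarith [mul_le_mul_of_nonneg_left h3 h6]
  have h7 : (Cc + M * (C2 + C3)) * b * Q ≤ K * b * Q := by
    have : 0 ≤ b * Q := by positivity
    nlinarith
  have h8 : M * (C2 + C3) * Q ≤ M * (C2 + C3) * b * Q := by
    have h9 : 0 ≤ M * (C2 + C3) * Q := by positivity
    nlinarith
  have h10 : (K * b + M * s) * A + (2 * K / δ ^ 3 - M * s ^ 2) * T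
      = K * b * A + 2 * K / δ ^ 3 * T + (M * s * A - M * s ^ 2 * T) := by ring
  rw [h10]
  linarith

/-- the weight -/
def wt (r K M ε : ℝ) (x : Eu N) : ℝ := K / (r ^ 2 - ‖x‖ ^ 2) + M * Real.log (‖x‖ ^ 2 + ε)

/-- positivity of the Levi form of the weight -/
theorem JN.pos_wt (h : JN J r0 C) {r1 : ℝ} (hr1 : r1 < r0) (hr1' : r1 ≤ 1) :
    ∃ C2 C3, 0 ≤ C2 ∧ 0 ≤ C3 ∧ ∀ r K M ε Cc : ℝ, 0 < r → r ≤ r1 → C2 * r ^ 2 ≤ 1 → 0 ≤ M →
      0 < ε → 0 ≤ Cc → Cc + M * (C2 + C3) ≤ K →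
      ∀ x, ‖x‖ < r → ∀ Φ : Eu N → ℝ, Φ =ᶠ[𝓝 x] wt r K M ε → ∀ η : Fin N → ℂ,
      (∀ j, ∑ c, rc (Jm J c j) x * η c = -I * η j) →
      Cc * ((r ^ 2 - ‖x‖ ^ 2)⁻¹) ^ 2 * ∑ j, ‖η j‖ ^ 2
        ≤ (∑ k, ∑ j, Hco (eb N) (fr J) (wc J) Φ k j x * η j * conj (η k)).re := by
  obtain ⟨C2, hC2, hp1⟩ := h.p1 hr1
  refine ⟨C2, (N : ℝ) * (2 * |C| + |C| ^ 2), hC2, by positivity, ?_⟩
  intro r K M ε Cc hr hrr hC2r hM hε hCc hKC x hx Φ hΦ η hη
  set C3 : ℝ := (N : ℝ) * (2 * |C| + |C| ^ 2) with hC3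
  have hC30 : 0 ≤ C3 := by positivity
  have hK : 0 ≤ K := le_trans (by positivity) hKC
  set t : ℝ := ‖x‖ ^ 2 with ht
  have ht0 : 0 ≤ t := by positivity
  have htr : t < r ^ 2 := by
    rw [ht]; exact pow_lt_pow_left₀ hx (norm_nonneg _) (by norm_num)
  set δ : ℝ := r ^ 2 - t with hδ
  have hδ0 : 0 < δ := by linarith
  have hr1r : r ^ 2 ≤ 1 := pow_le_one₀ hr.le (hrr.trans hr1')
  have hδ1 : δ ≤ 1 := by linarith
  -- the profile
  set F : ℝ → ℝ := fun s => K / (r ^ 2 - s) + M * Real.log (s + ε) with hF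
  set F1 : ℝ → ℝ := fun s => K / (r ^ 2 - s) ^ 2 + M / (s + ε) with hF1
  set F2 : ℝ → ℝ := fun s => 2 * K / (r ^ 2 - s) ^ 3 - M / (s + ε) ^ 2 with hF2
  have hFd : ∀ s, s < r ^ 2 → 0 < s + ε → HasDerivAt F (F1 s) s := by
    intro s hs hs2
    have h1 : HasDerivAt (fun s : ℝ => r ^ 2 - s) (-1) s := (hasDerivAt_id s).const_sub (r ^ 2)
    have h2 : HasDerivAt (fun s : ℝ => K / (r ^ 2 - s)) (K / (r ^ 2 - s) ^ 2) s := by
      have := (hasDerivAt_const s K).fun_div h1 (by linarith)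
      refine this.congr_deriv ?_
      simp
    have h3 : HasDerivAt (fun s : ℝ => M * Real.log (s + ε)) (M / (s + ε)) s := by
      have h4 : HasDerivAt (fun s : ℝ => s + ε) 1 s := (hasDerivAt_id s).add_const ε
      have := (h4.log hs2.ne').const_mul M
      refine this.congr_deriv ?_
      ring
    exact h2.add h3
  have hF1d : ∀ s, s < r ^ 2 → 0 < s + ε → HasDerivAt F1 (F2 s) s := by
    intro s hs hs2
    have hne : r ^ 2 - s ≠ 0 := by linarith
    have h1 : HasDerivAt (fun s : ℝ => r ^ 2 - s) (-1) s := (hasDerivAt_id s).const_sub (r ^ 2)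
    have h2 : HasDerivAt (fun s : ℝ => K / (r ^ 2 - s) ^ 2) (2 * K / (r ^ 2 - s) ^ 3) s := by
      have := (hasDerivAt_const s K).fun_div (h1.fun_pow 2) (pow_ne_zero 2 hne)
      refine this.congr_deriv ?_
      field_simp
      ring
    have h3 : HasDerivAt (fun s : ℝ => M / (s + ε)) (-(M / (s + ε) ^ 2)) s := by
      have h4 : HasDerivAt (fun s : ℝ => s + ε) 1 s := (hasDerivAt_id s).add_const ε
      have := (hasDerivAt_const s M).fun_div h4 hs2.ne'
      refine this.congr_deriv ?_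
      ring
    have := h2.add h3
    exact this
  have hev : ∀ᶠ y in 𝓝 x, HasDerivAt F (F1 (qq y)) (qq y) := by
    have ho : IsOpen {y : Eu N | qq y < r ^ 2} := isOpen_lt qq_smooth.continuous continuous_const
    filter_upwards [ho.mem_nhds (show x ∈ {y : Eu N | qq y < r ^ 2} from htr)] with y hy
    exact hFd _ hy (by have : 0 ≤ qq y := by unfold qq; positivity
                       linarith)
  have hΦ' : Φ =ᶠ[𝓝 x] fun y => F (qq y) := hΦ
  have hH : ∀ k j, Hco (eb N) (fr J) (wc J) Φ k j x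
      = ((F1 t : ℝ) : ℂ) * Hco (eb N) (fr J) (wc J) qq k j x
        + ((F2 t : ℝ) : ℂ) * (Xd (eb N) (fr J k) (rc qq) x
          * Xd (eb N) (cj (fr J j)) (rc qq) x) := fun k j =>
    Hco_comp (fun j a => fr_smooth h.jg.smooth j a) qq_smooth hev
      (hF1d _ htr (by positivity)) hΦ' k j
  set A : ℝ := (∑ k, ∑ j, Hco (eb N) (fr J) (wc J) qq k j x * η j * conj (η k)).re with hA
  set T : ℝ := ‖∑ j, Xd (eb N) (cj (fr J j)) (rc qq) x * η j‖ ^ 2 with hT
  have hsum : (∑ k, ∑ j, Hco (eb N) (fr J) (wc J) Φ k j x * η j * conj (η k)).re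
      = F1 t * A + F2 t * T := by
    have h1 : ∑ k, ∑ j, Hco (eb N) (fr J) (wc J) Φ k j x * η j * conj (η k)
        = ((F1 t : ℝ) : ℂ) * ∑ k, ∑ j, Hco (eb N) (fr J) (wc J) qq k j x * η j * conj (η k)
          + ((F2 t : ℝ) : ℂ) * ((∑ j, Xd (eb N) (cj (fr J j)) (rc qq) x * η j)
            * conj (∑ k, Xd (eb N) (cj (fr J k)) (rc qq) x * η k)) := by
      have h2 : conj (∑ k, Xd (eb N) (cj (fr J k)) (rc qq) x * η k)
          = ∑ k, Xd (eb N) (fr J k) (rc qq) x * conj (η k) := by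
        rw [map_sum]
        refine Finset.sum_congr rfl fun k _ => ?_
        rw [map_mul, Xd_rc qq_smooth, Complex.conj_conj]
      rw [h2, Finset.mul_sum, Finset.mul_sum, Finset.mul_sum, ← Finset.sum_add_distrib]
      refine Finset.sum_congr rfl fun k _ => ?_
      rw [Finset.sum_mul, Finset.mul_sum, Finset.mul_sum, ← Finset.sum_add_distrib]
      refine Finset.sum_congr rfl fun j _ => ?_
      rw [hH k j]
      ring
    rw [h1, Complex.add_re, Complex.re_ofReal_mul, Complex.re_ofReal_mul, Complex.mul_conj,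
      Complex.normSq_eq_norm_sq, Complex.ofReal_re]
  rw [hsum]
  have hA' : (2 - C2 * t) * ∑ j, ‖η j‖ ^ 2 ≤ A := hp1 x (le_of_lt (lt_of_lt_of_le hx hrr)) η hη
  have hT' : T ≤ (2 * t + C3 * t ^ 2) * ∑ j, ‖η j‖ ^ 2 := by
    have := h.p2 x (lt_of_lt_of_le hx (hrr.trans hr1.le)) (le_of_lt (lt_of_lt_of_le hx
      (hrr.trans hr1'))) η
    rw [ht, ← pow_mul]
    exact this
  have hC2t : C2 * t ≤ 1 := le_trans (mul_le_mul_of_nonneg_left htr.le hC2) hC2r
  have := scal_pos (A := A) (T := T) (Q := ∑ j, ‖η j‖ ^ 2) ht0 hε hδ0 hδ1 hK hM hC2 hC30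
    (Finset.sum_nonneg fun j _ => by positivity) hC2t hA' (by positivity) hT' hKC
  exact this

end

end Crest.Agent.R260.BKX_680
end

-- ▼ part R260/BKX8_680
section

/-! # Bochner-Kodaira estimate for exact forms, part 8: the final a priori estimate in the notation
of `NN0_900` / `JFr_250`, with the weights `K/(r²-|x|²) + M log(|x|²+ε)`, uniform in `ε`. -/

namespace Crest.Agent.R260.BKX_680

open MeasureTheory Complex Set Filter Topology Metric
open scoped ContDiff ComplexConjugate BigOperators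

open Crest.Agent.R260.NN0_900 Crest.Agent.R260.JFr_250

set_option linter.unusedSectionVars false

noncomputable section

variable {N : ℕ}

theorem Xd_fr_eq (J : Eu N → Eu N →L[ℝ] Eu N) (j : Fin N) (u : Eu N → ℂ) (x : Eu N) :
    Xd (eb N) (fr J j) u x
      = (1 / 2 : ℂ) * (fderiv ℝ u x (eb N j) + I * fderiv ℝ u x (J x (eb N j))) := by
  have h1 : fderiv ℝ u x (J x (eb N j)) = ∑ c, (Jm J c j x : ℂ) * fderiv ℝ u x (eb N c) := by
    conv_lhs => rw [basis_sum (J x (eb N j))]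
    rw [map_sum]
    refine Finset.sum_congr rfl fun c _ => ?_
    rw [map_smul]
    simp [Jm]
  unfold Xd
  rw [h1]
  have h2 : ∑ a, fr J j a x * pd (eb N a) u x
      = ∑ a, ((1 / 2 : ℂ) * (if a = j then fderiv ℝ u x (eb N a) else 0)
        + (I / 2) * ((Jm J a j x : ℂ) * fderiv ℝ u x (eb N a))) := by
    refine Finset.sum_congr rfl fun a _ => ?_
    unfold fr rc pd
    split_ifs <;> ring
  rw [h2, Finset.sum_add_distrib, ← Finset.mul_sum, ← Finset.mul_sum, Finset.sum_ite_eq']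
  simp
  ring

theorem Xd_cjfr_eq (J : Eu N → Eu N →L[ℝ] Eu N) (j : Fin N) (u : Eu N → ℂ) (x : Eu N) :
    Xd (eb N) (cj (fr J j)) u x
      = (1 / 2 : ℂ) * (fderiv ℝ u x (eb N j) - I * fderiv ℝ u x (J x (eb N j))) := by
  have h1 := fr_add J j u x
  rw [Xd_fr_eq] at h1
  have h2 : pd (eb N j) u x = fderiv ℝ u x (eb N j) := rfl
  rw [h2] at h1
  linear_combination h1

theorem X_jfam_eq (J J' : Eu N → Eu N →L[ℝ] Eu N) (j : Fin N) (g : Eu N → ℂ) {x : Eu N}
    (h : J' x = J x) : (jfam J).X j g x = Xd (eb N) (fr J' j) g x := by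
  rw [X_eq, Xd_fr_eq, h]; rfl

theorem Y_jfam_eq (J J' : Eu N → Eu N →L[ℝ] Eu N) (j : Fin N) (g : Eu N → ℂ) {x : Eu N}
    (h : J' x = J x) : (jfam J).Y j g x = Xd (eb N) (cj (fr J' j)) g x := by
  rw [Y_eq, Xd_cjfr_eq, h]; rfl

theorem dY_jfam_eq (J J' : Eu N → Eu N →L[ℝ] Eu N) (hJ' : ContDiff ℝ ∞ J') (j : Fin N) {x : Eu N}
    (h : J' =ᶠ[𝓝 x] J) : (jfam J).dY j x = dv (eb N) (cj (fr J' j)) x := by
  have hd : DifferentiableAt ℝ J' x := (hJ'.differentiable (by simp)) x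
  have hA : dvg ((jfam J).A j) x = 0 := by
    unfold dvg
    have : (jfam J).A j = fun _ => (1 / 2 : ℝ) • ee j := rfl
    rw [this]
    simp
  have hB0 : HasFDerivAt (fun y => (1 / 2 : ℝ) • J' y (eb N j))
      ((1 / 2 : ℝ) • (ContinuousLinearMap.apply ℝ (Eu N) (eb N j)).comp (fderiv ℝ J' x)) x :=
    HasFDerivAt.fun_const_smul
      ((ContinuousLinearMap.apply ℝ (Eu N) (eb N j)).hasFDerivAt.comp x hd.hasFDerivAt) _
  have hB1 : HasFDerivAt ((jfam J).B j)
      ((1 / 2 : ℝ) • (ContinuousLinearMap.apply ℝ (Eu N) (eb N j)).comp (fderiv ℝ J' x)) x := by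
    refine hB0.congr_of_eventuallyEq ?_
    filter_upwards [h] with y hy
    rw [jfam_B, hy]; rfl
  have hB : dvg ((jfam J).B j) x = (1 / 2 : ℝ) * ∑ b, (fderiv ℝ J' x (eb N b) (eb N j)) b := by
    unfold dvg
    rw [hB1.fderiv, LinearMap.trace_eq_sum_inner _ (EuclideanSpace.basisFun (Fin N) ℝ),
      Finset.mul_sum]
    refine Finset.sum_congr rfl fun b _ => ?_
    simp [eb, EuclideanSpace.inner_single_left]
  unfold Fam.dY dv
  rw [hA, hB]
  simp_rw [pd_cjfr hJ', pd_Jm hJ']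
  rw [← Finset.mul_sum]
  push_cast
  ring

theorem wt_smooth {r K M ε : ℝ} (hε : 0 < ε) : ContDiffOn ℝ ∞ (wt (N := N) r K M ε) (ball 0 r) := by
  unfold wt
  have hq : ContDiff ℝ ∞ (fun x : Eu N => ‖x‖ ^ 2) := contDiff_norm_sq ℝ
  refine ContDiffOn.add ?_ ?_
  · refine ContDiffOn.div contDiffOn_const (contDiffOn_const.sub hq.contDiffOn) ?_
    intro x hx
    have h1 : ‖x‖ < r := by simpa using hx
    have h2 : ‖x‖ ^ 2 < r ^ 2 := pow_lt_pow_left₀ h1 (norm_nonneg _) (by norm_num)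
    linarith
  · refine contDiffOn_const.mul ?_
    refine ContDiffOn.log (hq.contDiffOn.add contDiffOn_const) ?_
    intro x _
    positivity

/-- compact subsets of an open ball are contained in a smaller ball -/
theorem exists_smaller {K : Set (Eu N)} {r : ℝ} (hr : 0 < r) (hK : IsCompact K)
    (hKr : K ⊆ ball 0 r) : ∃ ρ, 0 < ρ ∧ ρ < r ∧ K ⊆ ball 0 ρ := by
  rcases K.eq_empty_or_nonempty with h | h
  · exact ⟨r / 2, by linarith, by linarith, by rw [h]; exact empty_subset _⟩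
  · obtain ⟨x0, hx0, hm⟩ := hK.exists_isMaxOn h continuous_norm.continuousOn
    have h1 : ‖x0‖ < r := by simpa using hKr hx0
    refine ⟨(‖x0‖ + r) / 2, by linarith [norm_nonneg x0], by linarith, fun x hx => ?_⟩
    have h2 : ‖x‖ ≤ ‖x0‖ := hm hx
    simp only [mem_ball_zero_iff]
    linarith

/-- the weight `exp(-Φ)` -/
def w1 (r K M ε : ℝ) (x : Eu N) : ℝ := Real.exp (-(wt r K M ε x))

/-- the weight `s² exp(-Φ)` -/
def w2 (r K M ε : ℝ) (x : Eu N) : ℝ := (r ^ 2 - ‖x‖ ^ 2) ^ 2 * Real.exp (-(wt r K M ε x))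

/-- cut off almost complex structure -/
theorem exists_JN {J : Eu N → Eu N →L[ℝ] Eu N} {R C : ℝ} (hR : 0 < R)
    (hJ : ContDiffOn ℝ ∞ J (ball 0 R)) (hsq : ∀ x ∈ ball (0 : Eu N) R, ∀ v, J x (J x v) = -v)
    (hnij : ∀ x ∈ ball (0 : Eu N) R, ∀ v w, ACM_580.Nij J x v w = 0)
    (horth : ∀ v, ‖J 0 v‖ = ‖v‖)
    (hnear : ∀ x ∈ ball (0 : Eu N) R, ∀ v, ‖J x v - J 0 v‖ ≤ C * ‖x‖ ^ 2 * ‖v‖) :
    ∃ J' : Eu N → Eu N →L[ℝ] Eu N, JN J' (R / 2) C ∧ ∀ x, ‖x‖ < R / 2 → J' =ᶠ[𝓝 x] J := by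
  set f : ContDiffBump (0 : Eu N) := ⟨R / 2, 3 * R / 4, by linarith, by linarith⟩ with hf
  set J' : Eu N → Eu N →L[ℝ] Eu N := fun x => f x • J x with hJ'
  have hev : ∀ x, ‖x‖ < R / 2 → J' =ᶠ[𝓝 x] J := by
    intro x hx
    have hx' : x ∈ ball (0 : Eu N) (R / 2) := by simpa using hx
    filter_upwards [isOpen_ball.mem_nhds hx'] with y hy
    have : f y = 1 := f.one_of_mem_closedBall (ball_subset_closedBall hy)
    simp only [hJ', this, one_smul]
  have hsm : ContDiff ℝ ∞ J' := by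
    refine contDiff_of_zero isOpen_ball (K := closedBall 0 (3 * R / 4)) isClosed_closedBall
      (closedBall_subset_ball (by linarith)) ((f.contDiff (n := ⊤)).contDiffOn.smul hJ) ?_
    intro x hx
    have h0 : f x = 0 := by
      refine f.zero_of_le_dist ?_
      simp only [mem_closedBall, not_le] at hx
      exact hx.le
    show f x • J x = 0
    rw [h0]
    exact zero_smul ℝ (J x)
  have hR2 : R / 2 < R := by linarith
  have heq : ∀ x, ‖x‖ < R / 2 → J' x = J x := fun x hx => (hev x hx).eq_of_nhds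
  have hb : ∀ x, ‖x‖ < R / 2 → x ∈ ball (0 : Eu N) R := fun x hx => by
    simp only [mem_ball_zero_iff]; linarith
  have h00 : ‖(0 : Eu N)‖ < R / 2 := by rw [norm_zero]; linarith
  refine ⟨J', ⟨⟨hsm, ?_, ?_⟩, by linarith, ?_, ?_⟩, hev⟩
  · intro x hx v
    have hx' : ‖x‖ < R / 2 := by simpa using hx
    rw [heq x hx']
    exact hsq x (hb x hx') v
  · intro x hx v w
    have hx' : ‖x‖ < R / 2 := by simpa using hx
    rw [heq x hx', (hev x hx').fderiv_eq]
    exact hnij x (hb x hx') v w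
  · intro v
    rw [heq 0 h00]; exact horth v
  · intro x hx v
    rw [heq 0 h00, heq x hx]
    exact hnear x (hb x hx) v

/-- **The a priori estimate.** -/
theorem est_W {J : Eu N → Eu N →L[ℝ] Eu N} {R C : ℝ} (hR : 0 < R)
    (hJ : ContDiffOn ℝ ∞ J (ball 0 R)) (hsq : ∀ x ∈ ball (0 : Eu N) R, ∀ v, J x (J x v) = -v)
    (hnij : ∀ x ∈ ball (0 : Eu N) R, ∀ v w, ACM_580.Nij J x v w = 0)
    (horth : ∀ v, ‖J 0 v‖ = ‖v‖)
    (hnear : ∀ x ∈ ball (0 : Eu N) R, ∀ v, ‖J x v - J 0 v‖ ≤ C * ‖x‖ ^ 2 * ‖v‖)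
    (M : ℝ) (hM : 0 ≤ M) :
    ∃ r K : ℝ, 0 < r ∧ r ≤ 1 ∧ r < R ∧ 0 ≤ K ∧ ∀ ε : ℝ, 0 < ε →
      ∀ g : Eu N → ℂ, TestC (ball 0 r) g →
      ∫ x, (∑ j, ‖(jfam J).X j g x‖ ^ 2) * w2 r K M ε x
        ≤ ∫ x, ‖(jfam J).PP (w2 r K M ε) g x‖ ^ 2 / w1 r K M ε x := by
  classical
  obtain ⟨J', hJN, hev⟩ := exists_JN hR hJ hsq hnij horth hnear
  have hJs := hJN.jg.smooth
  set r1 : ℝ := min (R / 4) 1 with hr1
  have hr1a : r1 < R / 2 := lt_of_le_of_lt (min_le_left _ _) (by linarith)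
  have hr1b : r1 ≤ 1 := min_le_right _ _
  have hr10 : 0 < r1 := lt_min (by linarith) one_pos
  -- constants
  obtain ⟨W, hW0, hW⟩ := BO.unif (κ := Fin N × Fin N × Fin N) (r := r1) (k := 0)
    (f := fun p => wc J' p.1 p.2.1 p.2.2) (fun p => BO.of_continuous r1
      (wc_smooth hJs p.1 p.2.1 p.2.2).continuous)
  obtain ⟨V, hV0, hV⟩ := BO.unif (κ := Fin N × Fin N × Fin N) (r := r1) (k := 0)
    (f := fun p => vc J' p.1 p.2.1 p.2.2) (fun p => BO.of_continuous r1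
      (vc_smooth hJs p.1 p.2.1 p.2.2).continuous)
  obtain ⟨E0, hE00, hE0⟩ := BO.unif (κ := Fin N × Fin N) (r := r1) (k := 0)
    (f := fun p => eco (eb N) (fr J') (wc J') p.1 p.2) (fun p => BO.of_continuous r1
      (eco_smooth (fun j a => fr_smooth hJs j a) (fun k j l => wc_smooth hJs k j l)
        p.1 p.2).continuous)
  obtain ⟨D, hD0, hD⟩ := BO.unif (κ := Fin N) (r := r1) (k := 0)
    (f := fun k => Xd (eb N) (fr J' k) (rc qq)) (fun k => BO.of_continuous r1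
      (Xd_smooth (fr_smooth hJs k) (rc_smooth qq_smooth)).continuous)
  simp only [pow_zero, mul_one] at hW hV hE0 hD
  obtain ⟨C2, C3, hC2, hC3, hpw⟩ := hJN.pos_wt hr1a hr1b
  set Cc : ℝ := C1 N V D W E0 + 1 with hCc
  have hC10 : 0 ≤ C1 N V D W E0 := by unfold C1; positivity
  have hCc0 : 0 ≤ Cc := by linarith
  set r : ℝ := min r1 (1 / (1 + C2)) with hr
  have hr0 : 0 < r := lt_min hr10 (by positivity)
  have hrr1 : r ≤ r1 := min_le_left _ _
  have hr1' : r ≤ 1 := hrr1.trans hr1b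
  have hC2r : C2 * r ^ 2 ≤ 1 := by
    have h1 : r ≤ 1 / (1 + C2) := min_le_right _ _
    have h2 : r ^ 2 ≤ r := by nlinarith
    have h3 : C2 * r ^ 2 ≤ C2 * (1 / (1 + C2)) := mul_le_mul_of_nonneg_left (h2.trans h1) hC2
    have h4 : C2 * (1 / (1 + C2)) ≤ 1 := by
      rw [mul_one_div, div_le_one (by positivity)]; linarith
    exact h3.trans h4
  set K : ℝ := Cc + M * (C2 + C3) with hK
  refine ⟨r, K, hr0, hr1', by linarith, by positivity, ?_⟩
  intro ε hε g hg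
  obtain ⟨ρ, hρ0, hρr, hgρ⟩ := exists_smaller hr0 hg.2.1.isCompact hg.2.2
  -- cut off weight
  set f : ContDiffBump (0 : Eu N) := ⟨ρ, (ρ + r) / 2, hρ0, by linarith⟩ with hf
  set Φ : Eu N → ℝ := fun x => f x * wt r K M ε x with hΦ
  have hΦs : ContDiff ℝ ∞ Φ := by
    refine contDiff_of_zero isOpen_ball (K := closedBall 0 ((ρ + r) / 2)) isClosed_closedBall
      (closedBall_subset_ball (by linarith)) ((f.contDiff (n := ⊤)).contDiffOn.mul
        (wt_smooth hε)) ?_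
    intro x hx
    have h0 : f x = 0 := by
      refine f.zero_of_le_dist ?_
      simp only [mem_closedBall, not_le] at hx
      exact hx.le
    simp only [hΦ, h0, zero_mul]
  have hΦe : ∀ x ∈ ball (0 : Eu N) ρ, Φ =ᶠ[𝓝 x] wt r K M ε := by
    intro x hx
    filter_upwards [isOpen_ball.mem_nhds hx] with y hy
    have : f y = 1 := f.one_of_mem_closedBall (ball_subset_closedBall hy)
    simp only [hΦ, this, one_mul]
  set δ : Eu N → ℝ := fun x => r ^ 2 - ‖x‖ ^ 2 with hδ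
  have hδs : ContDiff ℝ ∞ δ := contDiff_const.sub (contDiff_norm_sq ℝ)
  have hxr : ∀ x ∈ ball (0 : Eu N) ρ, ‖x‖ < r := fun x hx => by
    have : ‖x‖ < ρ := by simpa using hx
    linarith
  have hxR : ∀ x ∈ ball (0 : Eu N) ρ, ‖x‖ < R / 2 := fun x hx => by
    have := hxr x hx
    linarith
  have hxb : ∀ x ∈ ball (0 : Eu N) ρ, x ∈ ball (0 : Eu N) (R / 2) := fun x hx => by
    simpa using hxR x hx
  have hx1 : ∀ x ∈ ball (0 : Eu N) ρ, ‖x‖ ≤ r1 := fun x hx => ((hxr x hx).le).trans hrr1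
  have hgT : Tst g := ⟨hg.1, hg.2.1⟩
  have hmain := est_main (μ := (volume : Measure (Eu N))) (e := eb N) (ξ := fr J') (α := wc J')
    (β := wc J') (γ := vc J') (Φ := Φ) (δ := δ) (fun j a => fr_smooth hJs j a)
    (fun k j l => wc_smooth hJs k j l) (fun k j l => wc_smooth hJs k j l) hΦs hδs hgT
    (O := ball 0 ρ) hgρ
    (by
      intro x hx
      have h1 : ‖x‖ ^ 2 < r ^ 2 := pow_lt_pow_left₀ (hxr x hx) (norm_nonneg _) (by norm_num)
      simp only [hδ]; linarith)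
    (by
      intro x hx
      have h1 : r ^ 2 ≤ 1 := pow_le_one₀ hr0.le hr1'
      have h2 : 0 ≤ ‖x‖ ^ 2 := by positivity
      simp only [hδ]; linarith)
    (fun k j u hu x _ => comm_fr hJs k j hu x)
    (fun k j u hu x hx => int_fr hJN.jg k j hu (hxb x hx))
    (W := W) (V := V) (E0 := E0) (D := D) hV0 hD0 hE00
    (fun k j l x hx => hW (k, j, l) x (hx1 x hx)) (fun k j l x hx => hW (k, j, l) x (hx1 x hx))
    (fun k j l x hx => hV (k, j, l) x (hx1 x hx)) (fun k j x hx => hE0 (k, j) x (hx1 x hx))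
    (by
      intro k x hx
      have h1 : Xd (eb N) (fr J' k) (rc δ) x = - Xd (eb N) (fr J' k) (rc qq) x := by
        have h2 : rc δ = fun y => (fun _ => ((r ^ 2 : ℝ) : ℂ)) y - rc qq y := by
          funext y
          simp only [rc, hδ, qq]
          push_cast
          ring
        rw [h2, Xd_sub (u := fun _ => ((r ^ 2 : ℝ) : ℂ)) (differentiable_const _)
          (smooth_diff (rc_smooth qq_smooth))]
        have h3 : Xd (eb N) (fr J' k) (fun _ => ((r ^ 2 : ℝ) : ℂ)) x = 0 := by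
          unfold Xd pd
          simp
        rw [h3, zero_sub]
      rw [h1, norm_neg]
      exact hD k x (hx1 x hx))
    (by
      intro x hx
      have h1 := hpw r K M ε Cc hr0 hrr1 hC2r hM hε hCc0 le_rfl x (hxr x hx) Φ (hΦe x hx)
        (fun j => (rc δ x) ^ 2 * Xd (eb N) (fr J' j) g x) (by
          intro j
          have h2 := type_fr hJN.jg j g (hxb x hx)
          have h3 : ∑ c, rc (Jm J' c j) x * ((rc δ x) ^ 2 * Xd (eb N) (fr J' c) g x)
              = (rc δ x) ^ 2 * ∑ c, rc (Jm J' c j) x * Xd (eb N) (fr J' c) g x := by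
            rw [Finset.mul_sum]
            exact Finset.sum_congr rfl fun c _ => by ring
          rw [h3, h2]; ring)
      have h4 : C1 (Fintype.card (Fin N)) V D W E0 + 1 = Cc := by
        rw [hCc, Fintype.card_fin]
      rw [h4]
      exact h1)
  -- convert
  have hL : ∀ x, (∑ j, ‖(jfam J).X j g x‖ ^ 2) * w2 r K M ε x
      = (∑ j, ‖Xd (eb N) (fr J' j) g x‖ ^ 2) * ((δ x) ^ 2 * Real.exp (-Φ x)) := by
    intro x
    by_cases hx : x ∈ tsupport g
    · have hxρ := hgρ hx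
      have h1 : ∀ j, (jfam J).X j g x = Xd (eb N) (fr J' j) g x := fun j =>
        X_jfam_eq J J' j g (hev x (hxR x hxρ)).eq_of_nhds
      simp_rw [h1]
      unfold w2
      rw [(hΦe x hxρ).eq_of_nhds]
    · have h1 : fderiv ℝ g x = 0 := hg.fderiv_eq_zero hx
      have h2 : ∀ j, (jfam J).X j g x = 0 := fun j => by rw [X_eq, h1]; simp
      have h3 : ∀ j, Xd (eb N) (fr J' j) g x = 0 := fun j => Xd_zero_of_notMem hx
      simp_rw [h2, h3]
      simp
  have hRR : ∀ x, ‖(jfam J).PP (w2 r K M ε) g x‖ ^ 2 / w1 r K M ε x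
      = ‖∑ j, Ls (eb N) Φ (fr J' j) (fun y => (rc δ y) ^ 2 * Xd (eb N) (fr J' j) g y) x‖ ^ 2
          * Real.exp (-Φ x) := by
    intro x
    by_cases hx : x ∈ tsupport g
    · have hxρ := hgρ hx
      have hPP : (jfam J).PP (w2 r K M ε) g x
          = -((Real.exp (-Φ x) : ℝ) : ℂ) * ∑ j, Ls (eb N) Φ (fr J' j)
              (fun y => (rc δ y) ^ 2 * Xd (eb N) (fr J' j) g y) x := by
        unfold Fam.PP
        rw [Finset.mul_sum]
        refine Finset.sum_congr rfl fun j _ => ?_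
        set h : Eu N → ℂ := fun y => (rc δ y) ^ 2 * Xd (eb N) (fr J' j) g y with hh
        have hhs : ContDiff ℝ ∞ h := ((rc_smooth hδs).pow 2).mul (Xd_smooth (fr_smooth hJs j) hg.1)
        have hρs : ContDiff ℝ ∞ (fun y => ((Real.exp (-Φ y) : ℝ) : ℂ)) :=
          (Complex.ofRealCLM.contDiff (n := ∞)).comp (Real.contDiff_exp.comp hΦs.neg)
        have hloc : (fun y => ((w2 r K M ε y : ℝ) : ℂ) * (jfam J).X j g y)
            =ᶠ[𝓝 x] fun y => h y * ((Real.exp (-Φ y) : ℝ) : ℂ) := by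
          filter_upwards [isOpen_ball.mem_nhds hxρ] with y hy
          rw [X_jfam_eq J J' j g (hev y (hxR y hy)).eq_of_nhds]
          simp only [hh, w2, rc, hδ]
          rw [(hΦe y hy).eq_of_nhds]
          push_cast
          ring
        unfold Fam.Yt
        rw [Y_jfam_eq J J' j _ (hev x (hxR x hxρ)).eq_of_nhds,
          dY_jfam_eq J J' hJs j (hev x (hxR x hxρ)), Xd_congr hloc]
        have hv : ((w2 r K M ε x : ℝ) : ℂ) * (jfam J).X j g x
            = h x * ((Real.exp (-Φ x) : ℝ) : ℂ) := hloc.eq_of_nhds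
        beta_reduce
        rw [hv, Xd_mul (smooth_diff hhs) (smooth_diff hρs)]
        have hE : Xd (eb N) (cj (fr J' j)) (fun y => ((Real.exp (-Φ y) : ℝ) : ℂ)) x
            = - Xd (eb N) (cj (fr J' j)) (rc Φ) x * ((Real.exp (-Φ x) : ℝ) : ℂ) := by
          unfold Xd
          rw [← Finset.sum_neg_distrib, Finset.sum_mul]
          refine Finset.sum_congr rfl fun a _ => ?_
          rw [pd_exp hΦs]; ring
        rw [hE]
        unfold Ls
        ring
      rw [hPP, norm_mul, norm_neg, Complex.norm_real, Real.norm_of_nonneg (Real.exp_pos _).le]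
      have hw : w1 r K M ε x = Real.exp (-Φ x) := by
        unfold w1
        rw [(hΦe x hxρ).eq_of_nhds]
      rw [hw]
      have := Real.exp_pos (-Φ x)
      field_simp
    · have h1 : ∀ j, Ls (eb N) Φ (fr J' j) (fun y => (rc δ y) ^ 2 * Xd (eb N) (fr J' j) g y) x
          = 0 := by
        intro j
        have hs : x ∉ tsupport (fun y => (rc δ y) ^ 2 * Xd (eb N) (fr J' j) g y) := fun hx2 =>
          hx ((tsupport_mul_right'.trans tsupport_Xd) hx2)
        unfold Ls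
        rw [Xd_zero_of_notMem hs]
        simp only [Xd_zero_of_notMem hx]
        simp
      have h2 : (jfam J).PP (w2 r K M ε) g x = 0 := by
        unfold Fam.PP
        refine Finset.sum_eq_zero fun j _ => ?_
        have h3 : (fun y => ((w2 r K M ε y : ℝ) : ℂ) * (jfam J).X j g y) =ᶠ[𝓝 x] fun _ => 0 := by
          filter_upwards [(isClosed_tsupport g).isOpen_compl.mem_nhds hx] with y hy
          have h4 : fderiv ℝ g y = 0 := hg.fderiv_eq_zero hy
          rw [X_eq, h4]; simp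
        unfold Fam.Yt
        have h5 : ((w2 r K M ε x : ℝ) : ℂ) * (jfam J).X j g x = 0 := h3.eq_of_nhds
        rw [Y_eq, h3.fderiv_eq]
        beta_reduce
        rw [h5]
        simp
      rw [h2]
      simp_rw [h1]
      simp
  simp_rw [hL, hRR]
  exact hmain

end

end Crest.Agent.R260.BKX_680
end

-- ▼ part R260/NN6_900

/-!
# Row 260: the local Newlander-Nirenberg theorem (helper900)
-/

set_option autoImplicit false

noncomputable section

open MeasureTheory Filter Topology Set Metric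
open scoped ENNReal NNReal ContDiff ComplexConjugate

namespace Crest.Agent.R260.NN6_900

open NN0_900 JFr_250 NN5_900

theorem ew (N : ℕ) : EW N := by
  intro J R C hR hJ hJ2 hNij hJ0 hJq M
  obtain ⟨r, K, hr, hr1, hrR, hK, h⟩ := BKX_680.est_W hR hJ hJ2 hNij hJ0 hJq (M : ℝ)
    (Nat.cast_nonneg M)
  exact ⟨r, K, hr, hr1, hrR, hK, fun ε hε _ g hg => h ε hε g hg⟩

/-- the analytic core -/
theorem coreR (n : ℕ) : NNA_17.CoreR n := NN5_900.coreR (ew (2 * n))

/-- **Newlander-Nirenberg** (`C^∞`): an integrable almost complex structure on an open subset of a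
real vector space of dimension `2n` has holomorphic coordinates at every point. -/
theorem nnat (n : ℕ) (V : Type) [NormedAddCommGroup V] [NormedSpace ℝ V]
    [FiniteDimensional ℝ V] (hn : Module.finrank ℝ V = 2 * n) : ACM_580.NNat V n :=
  NNA_17.nnat_of_coreR (coreR n) V hn

end Crest.Agent.R260.NN6_900

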