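import Mathlib
import Crest.Agent.R260.Alg1_661

/-!
# Row 260, AG-ALG0 (helper661), part 3: the contact constant of a conic is algebraic over the field
of the two end vectors, and the conic may be replaced by one with algebraic coefficients.
-/

set_option autoImplicit false
set_option linter.unusedSectionVars false

namespace Crest.Agent.R260.Alg0_661

open Polynomial
open Crest.Agent.R270.BM_360 Crest.Agent.R270.Fr_928 Crest.Agent.R260.Der_169
open Crest.Agent.R260.Lin_678

universe u v

/-- an element killed by all derivations which kill `S` is algebraic over `k(S)`. -/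
theorem isAlgebraic_of_der {k : Type u} {κ : Type v} [Field k] [Field κ] [Algebra k κ] [CharZero k]
    (S : Set κ) (c : κ)
    (h : ∀ δ : Derivation k κ κ, (∀ s ∈ S, δ s = 0) → δ c = 0) :
    IsAlgebraic (IntermediateField.adjoin k S) c := by
  by_contra hcon
  have htr : Transcendental (IntermediateField.adjoin k S) c := hcon
  have : CharZero (IntermediateField.adjoin k S) :=
    charZero_of_injective_algebraMap (algebraMap k (IntermediateField.adjoin k S)).injective
  have hind : AlgebraicIndependent (IntermediateField.adjoin k S) (fun _ : Fin 1 => c) := by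
    rw [algebraicIndependent_unique_type_iff]
    exact htr
  obtain ⟨δ, hδ⟩ := exists_der_indep (k := IntermediateField.adjoin k S) (fun _ : Fin 1 => c) hind
  have h1 := h ((δ 0).restrictScalars k) fun s hs => by
    have hs' : s ∈ IntermediateField.adjoin k S := IntermediateField.subset_adjoin k S hs
    exact (δ 0).map_algebraMap (⟨s, hs'⟩ : IntermediateField.adjoin k S)
  have h2 : (δ 0) c = 1 := by
    have := hδ 0 0
    simpa using this
  have h3 : ((δ 0).restrictScalars k) c = (δ 0) c := rfl
  rw [h3, h2] at h1
  exact one_ne_zero h1

variable {I : Type} {J : I → Type} [Fintype I] [∀ i, Fintype (J i)]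

section map

variable {k : Type u} [Field k] {E : Set (MvPolynomial (Σ i, J i) k)} {w : I → ℤ}
  {A : Type*} [CommRing A] [Algebra k A] {B : Type*} [CommRing B] [Algebra k B]

theorem den_map (φ : A →ₐ[k] B) (c : ∀ i, J i) (v : ∀ i, J i → A) :
    φ (den c v) = den c (fun i a => φ (v i a)) := by
  simp [den]

theorem form_map (φ : A →ₐ[k] B) (p : (Σ i, J i) → MvPolynomial (Σ i, J i) k)
    (v t : ∀ i, J i → A) :
    φ (form p v t) = form p (fun i a => φ (v i a)) (fun i a => φ (t i a)) :=
  al_map φ p (unc v) (unc t)

theorem Val_map (th : CForm E w) (φ : A →ₐ[k] B) {v t : ∀ i, J i → A} {q : A}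
    (h : th.Val v t q) : th.Val (fun i a => φ (v i a)) (fun i a => φ (t i a)) (φ q) := by
  intro c
  rw [← den_map, ← form_map, ← h c, map_mul, map_pow]


end map

section alg

variable {k : Type u} [Field k] {E : Set (MvPolynomial (Σ i, J i) k)} {w : I → ℤ}
  {κ : Type u} [Field κ] [Algebra k κ]





end alg

end Crest.Agent.R260.Alg0_661
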