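import Mathlib
import Crest.Agent.R260.Alg2_661

/-!
# Row 260, AG-ALG0 (helper661), part 4: normalised form

`F` is a conic with `F(0) = a • x`, leading vector `b • y` (`a, b` scalars in every block), `c` its
contact constant.  `Φ = c ^ 2 / ∏ (a i * b i) ^ w i` is killed by every derivation which kills `x`
and `y`; hence it is algebraic over `k(x, y)`.
-/

set_option autoImplicit false
set_option linter.unusedSectionVars false

namespace Crest.Agent.R260.Alg0_661

open Polynomial
open Crest.Agent.R270.BM_360 Crest.Agent.R270.Fr_928 Crest.Agent.R260.Der_169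
open Crest.Agent.R260.Lin_678

universe u v

variable {I : Type} {J : I → Type} [Fintype I] [∀ i, Fintype (J i)]

section euler

variable {k : Type*} [CommRing k]

/-- Euler's relation in one block. -/
theorem euler_block {i : I} {D : ℤ} {q : MvPolynomial (Σ i, J i) k}
    (h : ∀ m ∈ q.support, ((∑ a, m ⟨i, a⟩ : ℕ) : ℤ) = D) :
    ∑ a, MvPolynomial.X ⟨i, a⟩ * MvPolynomial.pderiv ⟨i, a⟩ q =
      ((D : ℤ) : MvPolynomial (Σ i, J i) k) * q := by
  conv_lhs => rw [q.as_sum]
  conv_rhs => rw [q.as_sum]
  simp only [map_sum, Finset.mul_sum]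
  rw [Finset.sum_comm]
  refine Finset.sum_congr rfl fun m hm => ?_
  have h1 : ∀ a : J i, MvPolynomial.X ⟨i, a⟩ * MvPolynomial.pderiv ⟨i, a⟩
      (MvPolynomial.monomial m (q.coeff m)) =
      (m ⟨i, a⟩) • MvPolynomial.monomial m (q.coeff m) := fun a =>
    MvPolynomial.X_mul_pderiv_monomial
  rw [Finset.sum_congr rfl fun a _ => h1 a, ← Finset.sum_smul, nsmul_eq_mul, ← h m hm]
  push_cast
  rfl

/-- Euler's relation, all blocks, weights `al`. -/
theorem euler_all {A : Type*} [CommRing A] [Algebra k A] {D : I → ℤ}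
    {q : MvPolynomial (Σ i, J i) k}
    (h : ∀ m ∈ q.support, ∀ i, ((∑ a, m ⟨i, a⟩ : ℕ) : ℤ) = D i) (v : (Σ i, J i) → A) (α : I → A) :
    dfun q v (fun x => α x.1 * v x) = (∑ i, α i * (D i : A)) * MvPolynomial.aeval v q := by
  unfold dfun
  rw [Fintype.sum_sigma, Finset.sum_mul]
  refine Finset.sum_congr rfl fun i _ => ?_
  have h1 := congrArg (MvPolynomial.aeval v) (euler_block (i := i) fun m hm => h m hm i)
  rw [map_sum, map_mul, map_intCast] at h1
  rw [mul_assoc, ← h1, Finset.mul_sum]
  refine Finset.sum_congr rfl fun a _ => ?_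
  rw [map_mul, MvPolynomial.aeval_X]
  ring

end euler

section form

variable {k : Type u} [Field k] {E : Set (MvPolynomial (Σ i, J i) k)} {w : I → ℤ}

theorem dpol_support (c : ∀ i, J i) (N : ℕ) :
    ∀ m ∈ (dpol k c N).support, ∀ i, ((∑ a, m ⟨i, a⟩ : ℕ) : ℤ) = (N : ℤ) := by
  classical
  intro m hm i
  have h := dpol_hom (k := k) c N (Pi.single i 1) (MvPolynomial.mem_support_iff.1 hm)
  rw [Finsupp.weight_apply, Finsupp.sum_fintype _ _ (by simp), Fintype.sum_sigma] at h
  simp only [smul_eq_mul] at h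
  rw [Finset.sum_eq_single i, Finset.sum_pi_single'] at h
  · simp only [Pi.single_eq_same, mul_one, Finset.mem_univ, if_true] at h
    exact_mod_cast h
  · intro j _ hj
    simp [Pi.single_eq_of_ne hj]
  · simp

/-- the Euler fields with arbitrary constants are killed. -/
theorem euler_al' (th : CForm E w) {A : Type u} [CommRing A] [IsReduced A] [Algebra k A]
    {v : ∀ i, J i → A}
    (hv : OnX E v) (α : I → A) (c : ∀ i, J i) :
    al (th.p c) (unc v) (fun x => α x.1 * unc v x) = 0 := by
  unfold al
  rw [Fintype.sum_sigma]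
  refine Finset.sum_eq_zero fun i _ => ?_
  have h := th.euler A v hv c i
  have h2 : ∀ a : J i, MvPolynomial.aeval (unc v) (th.p c ⟨i, a⟩) *
      (α (⟨i, a⟩ : Σ i, J i).1 * unc v ⟨i, a⟩) =
      α i * (MvPolynomial.aeval (fun y : Σ i, J i => v y.1 y.2) (th.p c ⟨i, a⟩) * v i a) :=
    fun a => by
      change MvPolynomial.aeval (fun y : Σ i, J i => v y.1 y.2) (th.p c ⟨i, a⟩) *
        (α i * v i a) = _
      ring
  rw [Finset.sum_congr rfl fun a _ => h2 a, ← Finset.mul_sum, h, mul_zero]

/-- the two-form on an Euler vector at `z = 0`: `dθ(α • v, t) = (∑ α i w i) θ(t)`, for `v` and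
`t` the value and the first derivative at `0` of a family which satisfies the Euler relation. -/
theorem dthN_euler {κ : Type u} [Field κ] [Algebra k κ] (th : CForm E w) (c : ∀ i, J i)
    (α : I → κ) (H : (Σ i, J i) → κ[X])
    (hE : al (th.p c) H (fun x => C (α x.1) * H x) = 0) (b : κ)
    (hb : MvPolynomial.aeval (fun x => (H x).coeff 0) (dpol k c th.N) * b =
      al (th.p c) (fun x => (H x).coeff 0) fun x => (H x).coeff 1) :
    dthN (th.p c) (dpol k c th.N) (fun x => (H x).coeff 0) (fun x => α x.1 * (H x).coeff 0)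
      (fun x => (H x).coeff 1) 0 b =
      (∑ i, α i * (w i : κ)) * (MvPolynomial.aeval (fun x => (H x).coeff 0) (dpol k c th.N) * b) := by
  classical
  set v : (Σ i, J i) → κ := fun x => (H x).coeff 0 with hv
  set t : (Σ i, J i) → κ := fun x => (H x).coeff 1 with ht
  -- derivative of the Euler relation
  have key : ∑ x, (dfun (th.p c x) v t * (α x.1 * v x) +
      MvPolynomial.aeval v (th.p c x) * (α x.1 * t x)) = 0 := by
    have h1 : dz k κ (al (th.p c) H (fun x => C (α x.1) * H x)) = 0 := by rw [hE, map_zero]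
    have h2 : ∀ x, dz k κ (MvPolynomial.aeval H (th.p c x) * (C (α x.1) * H x)) =
        MvPolynomial.aeval H (th.p c x) * (C (α x.1) * dz k κ (H x)) +
          (C (α x.1) * H x) * dfun (th.p c x) H (fun y => dz k κ (H y)) := by
      intro x
      rw [Derivation.leibniz, der_aeval]
      have h3 : dz k κ (C (α x.1) * H x) = C (α x.1) * dz k κ (H x) := by
        rw [dz_apply, dz_apply, derivative_C_mul]
      rw [h3]
      simp only [smul_eq_mul]
    unfold al at h1
    rw [map_sum, Finset.sum_congr rfl fun x _ => h2 x] at h1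
    have h4 := congrArg (ev0 k κ) h1
    rw [map_sum, map_zero] at h4
    rw [← h4]
    refine Finset.sum_congr rfl fun x _ => ?_
    rw [map_add, map_mul, map_mul, map_mul, map_mul, dfun_map]
    have h5 : ev0 k κ (MvPolynomial.aeval H (th.p c x)) = MvPolynomial.aeval v (th.p c x) := by
      rw [← AlgHom.comp_apply]
      congr 1
      ext x
      simp [ev0_apply, hv]
    rw [h5]
    simp only [ev0_apply, dz_apply, coeff_derivative, coeff_C_zero, Nat.cast_zero, zero_add,
      mul_one, hv, ht]
    ring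
  have hp : ∀ x, dfun (th.p c x) v (fun y => α y.1 * v y) =
      (∑ i, α i * ((th.N : κ) + (w i : κ))) * MvPolynomial.aeval v (th.p c x) -
        α x.1 * MvPolynomial.aeval v (th.p c x) := by
    intro x
    have h1 := euler_all (A := κ) (q := th.p c x)
      (D := fun i => (th.N : ℤ) + w i - (if x.1 = i then 1 else 0)) (fun m hm i => by
        have := th.hom c x m hm i
        have h3 : (open Classical in if x.1 = i then (1 : ℤ) else 0) =
          (if x.1 = i then 1 else 0) := by congr
        rw [h3] at this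
        linarith) v α
    rw [h1, ← sub_mul]
    congr 1
    have h2 : ∀ i, α i * (((th.N : ℤ) + w i - (if x.1 = i then 1 else 0) : ℤ) : κ) =
        α i * ((th.N : κ) + (w i : κ)) - (if x.1 = i then α i else 0) := fun i => by
      push_cast
      split_ifs <;> ring
    rw [Finset.sum_congr rfl fun i _ => h2 i, Finset.sum_sub_distrib,
      Finset.sum_ite_eq Finset.univ x.1 α]
    simp
  have hG : dfun (dpol k c th.N) v (fun y => α y.1 * v y) =
      (∑ i, α i * (th.N : κ)) * MvPolynomial.aeval v (dpol k c th.N) := by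
    have := euler_all (A := κ) (D := fun _ => (th.N : ℤ)) (dpol_support (k := k) c th.N) v α
    rw [this]
    congr 1
    exact Finset.sum_congr rfl fun i _ => by push_cast; ring
  unfold dthN dal
  rw [hG, mul_zero, add_zero]
  have h6 : ∑ x, (dfun (th.p c x) v (fun x => α x.1 * v x) * t x -
      dfun (th.p c x) v t * (α x.1 * v x)) =
      (∑ i, α i * ((th.N : κ) + (w i : κ))) * al (th.p c) v t := by
    have h7 : ∑ x, (dfun (th.p c x) v (fun x => α x.1 * v x) * t x -
        dfun (th.p c x) v t * (α x.1 * v x)) =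
        ∑ x, ((∑ i, α i * ((th.N : κ) + (w i : κ))) * (MvPolynomial.aeval v (th.p c x) * t x)) -
        ∑ x, (dfun (th.p c x) v t * (α x.1 * v x) +
          MvPolynomial.aeval v (th.p c x) * (α x.1 * t x)) := by
      rw [← Finset.sum_sub_distrib]
      refine Finset.sum_congr rfl fun x _ => ?_
      rw [hp x]
      ring
    rw [h7, key, sub_zero, ← Finset.mul_sum]
    rfl
  rw [h6, ← hb]
  have h8 : (∑ i, α i * ((th.N : κ) + (w i : κ))) =
      (∑ i, α i * (th.N : κ)) + ∑ i, α i * (w i : κ) := by
    rw [← Finset.sum_add_distrib]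
    exact Finset.sum_congr rfl fun i _ => by ring
  rw [h8]
  ring

end form

section phi

variable {k : Type u} [Field k] {E : Set (MvPolynomial (Σ i, J i) k)} {w : I → ℤ}
  {κ : Type u} [Field κ] [Algebra k κ]

theorem ev0_aeval (H : (Σ i, J i) → κ[X]) (q : MvPolynomial (Σ i, J i) k) :
    ev0 k κ (MvPolynomial.aeval H q) = MvPolynomial.aeval (fun x => (H x).coeff 0) q := by
  rw [← AlgHom.comp_apply]
  congr 1
  ext x
  simp [ev0_apply]

/-- **normalised first variation**: both end vectors fixed up to scalars in the blocks. -/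
theorem der_scaled (th : CForm E w) {F : ∀ i, J i → κ[X]} (hF : IsMap E F)
    (he : ∑ i, w i * (cls F i : ℤ) = (2 : ℕ)) {c : κ}
    (hc : th.Val F (fun i a => derivative (F i a)) (C c)) (δ : Derivation k κ κ) (α β : I → κ)
    (hα : ∀ i a, δ (bot F i a) = α i * bot F i a) (hβ : ∀ i a, δ (lead F i a) = β i * lead F i a) :
    2 * δ c = (∑ i, (α i + β i) * (w i : κ)) * c := by
  obtain ⟨c₀, hc₀⟩ := exists_chart_bot (F := F) hF.cop
  obtain ⟨c₁, hc₁⟩ := exists_chart_lead (F := F) fun i => (hF.cop i).ne_zero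
  obtain ⟨Q, hQ⟩ := exists_val th hF.cop hF.on (tan_der hF.on (dX δ))
  have hQd : Q.natDegree ≤ 2 := val_degree th hF he (fun i a => by
    refine (natDegree_le_iff_degree_le.2 ?_)
    exact (degree_dX_le δ (F i a)).trans
      (natDegree_le_iff_degree_le.1 (natDegree_le_cls F ⟨i, a⟩))) hQ
  have hvar := variation th hF he hc δ hQ hc₀ hc₁
  set R : (Σ i, J i) → κ[X] := fun x => reflect (cls F x.1) (unc F x) with hR
  have hR0 : (fun x => (R x).coeff 0) = unc (lead F) := by
    funext x
    simp [hR, coeff_reflect, revAt_le, unc, lead]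
  -- Euler relations
  have hE0 : al (th.p c₀) (unc F) (fun x => C (α x.1) * unc F x) = 0 :=
    euler_al' th hF.on (fun i => C (α i)) c₀
  have hE1' : al (th.p c₁) (unc F) (fun x => C (β x.1) * unc F x) = 0 :=
    euler_al' th hF.on (fun i => C (β i)) c₁
  have hE1 : al (th.p c₁) R (fun x => C (β x.1) * R x) = 0 := by
    have h := (al_reflect (fun x : Σ i, J i => cls F x.1) (wf th (cls F) he c₁) (unc F)
      (fun x => C (β x.1) * unc F x) (natDegree_le_cls F) fun x =>
        (natDegree_C_mul_le _ _).trans (natDegree_le_cls F x)).2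
    rw [hE1', reflect_zero] at h
    have h2 : (fun x : Σ i, J i => reflect (cls F x.1) (C (β x.1) * unc F x)) =
        fun x => C (β x.1) * R x := by
      funext x
      rw [reflect_C_mul]
    rw [h2] at h
    exact h
  -- values of `θ` on the velocities
  have hXC : reflect 2 (X * C c : κ[X]) = X * C c := by
    rw [show (X * C c : κ[X]) = C c * X ^ 1 by ring, reflect_C_mul_X_pow, revAt_le (by norm_num)]
  have hXd : (X * C c : κ[X]).natDegree ≤ 2 := by
    refine natDegree_mul_le.trans ?_
    have h1 : (X : κ[X]).natDegree ≤ 1 := natDegree_X_le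
    have h2 : (C c : κ[X]).natDegree = 0 := natDegree_C c
    omega
  have key : ∀ c' : ∀ i, J i, MvPolynomial.aeval (unc F) (dpol k c' th.N) * C c =
      al (th.p c') (unc F) fun x => derivative (unc F x) := fun c' => by
    rw [aeval_dpol]; exact hc c'
  have keyQ : ∀ c' : ∀ i, J i, MvPolynomial.aeval (unc F) (dpol k c' th.N) * Q =
      al (th.p c') (unc F) fun x => dX δ (unc F x) := fun c' => by
    rw [aeval_dpol]; exact hQ c'
  have k1 := rev_der (fun x : Σ i, J i => cls F x.1) (wf th (cls F) he c₁)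
    (dpol_hom c₁ th.N (cls F)) (unc F) (natDegree_le_cls F) (euler_al th hF.on (cls F) c₁)
    (key c₁) hXd hXC
  have kQ := rev_dX (fun x : Σ i, J i => cls F x.1) (wf th (cls F) he c₁)
    (dpol_hom c₁ th.N (cls F)) (unc F) (natDegree_le_cls F) δ (keyQ c₁) hQd
  have hb0 : MvPolynomial.aeval (fun x => (unc F x).coeff 0) (dpol k c₀ th.N) * c =
      al (th.p c₀) (fun x => (unc F x).coeff 0) fun x => (unc F x).coeff 1 := by
    have h := congrArg (ev0 k κ) (key c₀)
    rw [map_mul, ev0_aeval, al_map] at h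
    simp only [ev0_apply, coeff_C_zero, coeff_derivative, Nat.cast_zero, zero_add, mul_one] at h
    exact h
  have hb1 : MvPolynomial.aeval (fun x => (R x).coeff 0) (dpol k c₁ th.N) * (-c) =
      al (th.p c₁) (fun x => (R x).coeff 0) fun x => (R x).coeff 1 := by
    have h := congrArg (ev0 k κ) k1
    rw [map_mul, ev0_aeval, al_map] at h
    simp only [ev0_apply, coeff_neg, coeff_C_zero, coeff_derivative, Nat.cast_zero, zero_add,
      mul_one] at h
    exact h
  -- values of `θ` on the variations of the end vectors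
  have d0 : den c₀ (bot F) ^ th.N ≠ 0 := pow_ne_zero _ hc₀
  have d1 : den c₁ (lead F) ^ th.N ≠ 0 := pow_ne_zero _ hc₁
  have g0 : MvPolynomial.aeval (fun x => (unc F x).coeff 0) (dpol k c₀ th.N) =
      den c₀ (bot F) ^ th.N := by
    have : (fun x : Σ i, J i => (unc F x).coeff 0) = unc (bot F) := rfl
    rw [this, aeval_dpol]
  have g1 : MvPolynomial.aeval (fun x => (R x).coeff 0) (dpol k c₁ th.N) =
      den c₁ (lead F) ^ th.N := by rw [hR0, aeval_dpol]
  have hαF : (fun x : Σ i, J i => δ ((unc F x).coeff 0)) =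
      fun x => α x.1 * (unc F x).coeff 0 := by
    funext x; exact hα x.1 x.2
  have hβF : (fun x : Σ i, J i => δ ((R x).coeff 0)) = fun x => β x.1 * (R x).coeff 0 := by
    funext x
    have h9 : (R x).coeff 0 = unc (lead F) x := congrFun hR0 x
    rw [h9]
    exact hβ x.1 x.2
  have q0 : Q.coeff 0 = 0 := by
    have h := congrArg (ev0 k κ) (keyQ c₀)
    rw [map_mul, ev0_aeval, al_map, g0] at h
    simp only [ev0_apply, coeff_dX] at h
    have h2 := congrArg (ev0 k κ) hE0
    rw [al_map, map_zero] at h2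
    simp only [ev0_apply, mul_coeff_zero, coeff_C_zero] at h2
    rw [hαF, h2] at h
    exact (mul_eq_zero.1 h).resolve_left d0
  have q2 : Q.coeff 2 = 0 := by
    have h := congrArg (ev0 k κ) kQ
    rw [map_mul] at h
    have h3 : ev0 k κ (MvPolynomial.aeval (fun x : Σ i, J i => reflect (cls F x.1) (unc F x))
        (dpol k c₁ th.N)) = den c₁ (lead F) ^ th.N := by
      rw [← g1, ← ev0_aeval]
    rw [h3, al_map] at h
    simp only [ev0_apply, coeff_dX, coeff_reflect, revAt_le (Nat.zero_le 2), Nat.sub_zero] at h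
    have h2 := congrArg (ev0 k κ) hE1
    rw [al_map, map_zero] at h2
    simp only [ev0_apply, mul_coeff_zero, coeff_C_zero] at h2
    have h4 : (fun x : Σ i, J i => δ ((unc F x).coeff ((revAt (cls F x.1)) 0))) =
        fun x => β x.1 * (R x).coeff 0 := by
      rw [← hβF]
      funext x
      simp [hR, coeff_reflect]
    rw [h4] at h
    have h5 : (fun x : Σ i, J i => (unc F x).coeff ((revAt (cls F x.1)) 0)) =
        fun x => (R x).coeff 0 := by
      funext x
      simp [hR, coeff_reflect]
    rw [h5, h2] at h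
    exact (mul_eq_zero.1 h).resolve_left d1
  have m0 := dthN_euler th c₀ α (unc F) hE0 c hb0
  have m1 := dthN_euler th c₁ β R hE1 (-c) hb1
  rw [q0, q2] at hvar
  have v0 : (fun x : Σ i, J i => δ (unc (bot F) x)) = fun x => α x.1 * (unc F x).coeff 0 := by
    funext x; exact hα x.1 x.2
  have v1 : (fun x : Σ i, J i => δ (unc (lead F) x)) = fun x => β x.1 * (R x).coeff 0 := by
    funext x
    have h9 : (R x).coeff 0 = unc (lead F) x := congrFun hR0 x
    rw [h9]
    exact hβ x.1 x.2
  rw [v0, v1] at hvar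
  have w0 : (unc (bot F) : (Σ i, J i) → κ) = fun x => (unc F x).coeff 0 := rfl
  have hh : ∀ (A g b : κ), g ≠ 0 → A * (g * b) / g = A * b := fun A g b hg => by
    rw [mul_left_comm, mul_div_cancel_left₀ _ hg]
  rw [w0, ← hR0, m0, m1, g0, g1, hh _ _ _ d0, hh _ _ _ d1] at hvar
  rw [hvar]
  have : (∑ i, (α i + β i) * (w i : κ)) = ∑ i, α i * (w i : κ) + ∑ i, β i * (w i : κ) := by
    rw [← Finset.sum_add_distrib]
    exact Finset.sum_congr rfl fun i _ => by ring
  rw [this]
  ring

/-- the pairing `Φ` of a conic with end vectors `a • x`, `b • y` and contact constant `c`. -/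
noncomputable def phi (w : I → ℤ) (a b : I → κ) (c : κ) : κ := c ^ 2 * ∏ i, (a i * b i) ^ (-w i)


theorem der_zpow (δ : Derivation k κ κ) {a : κ} (ha : a ≠ 0) (n : ℤ) :
    δ (a ^ n) = (n : κ) * (δ a / a) * a ^ n := by
  have hnat : ∀ m : ℕ, δ (a ^ m) = (m : κ) * (δ a / a) * a ^ m := by
    intro m
    induction m with
    | zero => simp
    | succ m ih =>
      rw [pow_succ, Derivation.leibniz, ih]
      simp only [smul_eq_mul]
      push_cast
      field_simp
      ring
  cases n with
  | ofNat m =>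
    have := hnat m
    simpa using this
  | negSucc m =>
    have h1 : (a ^ (Int.negSucc m)) = (a ^ (m + 1))⁻¹ := zpow_negSucc a m
    rw [h1, Derivation.leibniz_inv, hnat (m + 1)]
    simp only [smul_eq_mul, Int.cast_negSucc]
    have h2 : a ^ (m + 1) ≠ 0 := pow_ne_zero _ ha
    push_cast
    field_simp

theorem der_prod (δ : Derivation k κ κ) (s : Finset I) (f g : I → κ)
    (h : ∀ i, δ (f i) = g i * f i) : δ (∏ i ∈ s, f i) = (∑ i ∈ s, g i) * ∏ i ∈ s, f i := by
  classical
  induction s using Finset.induction_on with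
  | empty => simp
  | insert a s ha ih =>
    rw [Finset.prod_insert ha, Finset.sum_insert ha, Derivation.leibniz, ih, h a]
    simp only [smul_eq_mul]
    ring

/-- **ALG0, normalised**: a derivation which kills `x` and `y` kills `Φ`. -/
theorem der_phi [CharZero k] (th : CForm E w) {F : ∀ i, J i → κ[X]} (hF : IsMap E F)
    (he : ∑ i, w i * (cls F i : ℤ) = (2 : ℕ)) {c : κ}
    (hc : th.Val F (fun i a => derivative (F i a)) (C c)) (δ : Derivation k κ κ)
    {a b : I → κ} (ha : ∀ i, a i ≠ 0) (hb : ∀ i, b i ≠ 0) {x y : ∀ i, J i → κ}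
    (hx : ∀ i j, bot F i j = a i * x i j) (hy : ∀ i j, lead F i j = b i * y i j)
    (dx : ∀ i j, δ (x i j) = 0) (dy : ∀ i j, δ (y i j) = 0) : δ (phi w a b c) = 0 := by
  have : CharZero κ := charZero_of_injective_algebraMap (algebraMap k κ).injective
  have h := der_scaled th hF he hc δ (fun i => δ (a i) / a i) (fun i => δ (b i) / b i)
    (fun i j => by
      rw [hx, Derivation.leibniz, dx, smul_zero, zero_add, smul_eq_mul]
      have := ha i
      field_simp)
    (fun i j => by
      rw [hy, Derivation.leibniz, dy, smul_zero, zero_add, smul_eq_mul]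
      have := hb i
      field_simp)
  have h1 : ∀ i, δ ((a i * b i) ^ (-w i)) =
      (-((δ (a i) / a i + δ (b i) / b i) * (w i : κ))) * (a i * b i) ^ (-w i) := fun i => by
    rw [der_zpow δ (mul_ne_zero (ha i) (hb i)), Derivation.leibniz]
    simp only [smul_eq_mul]
    push_cast
    have h2 := ha i
    have h3 := hb i
    field_simp
    ring
  unfold phi
  rw [Derivation.leibniz, der_prod δ Finset.univ _ _ h1, Derivation.leibniz_pow,
    Finset.sum_neg_distrib]
  simp only [smul_eq_mul, nsmul_eq_mul, pow_one, Nat.cast_ofNat, Nat.add_one_sub_one]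
  set P := ∏ i, (a i * b i) ^ (-w i)
  set S := ∑ i, (δ (a i) / a i + δ (b i) / b i) * (w i : κ)
  have h5 : 2 * δ c = S * c := h
  calc c ^ 2 * (-S * P) + P * (2 * (c * δ c)) = P * c * (2 * δ c - S * c) := by ring
    _ = 0 := by rw [h5, sub_self, mul_zero]

/-- the entries of two vectors. -/
def ents (x y : ∀ i, J i → κ) : Set κ := {s | ∃ i j, x i j = s} ∪ {s | ∃ i j, y i j = s}

/-- **ALG0, normalised**: `Φ` is algebraic over `k(x, y)`. -/
theorem phi_algebraic [CharZero k] (th : CForm E w) {F : ∀ i, J i → κ[X]} (hF : IsMap E F)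
    (he : ∑ i, w i * (cls F i : ℤ) = (2 : ℕ)) {c : κ}
    (hc : th.Val F (fun i a => derivative (F i a)) (C c))
    {a b : I → κ} (ha : ∀ i, a i ≠ 0) (hb : ∀ i, b i ≠ 0) {x y : ∀ i, J i → κ}
    (hx : ∀ i j, bot F i j = a i * x i j) (hy : ∀ i j, lead F i j = b i * y i j) :
    IsAlgebraic (IntermediateField.adjoin k (ents x y)) (phi w a b c) := by
  refine isAlgebraic_of_der (ents x y) _ fun δ hδ => ?_
  exact der_phi th hF he hc δ ha hb hx hy (fun i j => hδ _ (Or.inl ⟨i, j, rfl⟩))
    (fun i j => hδ _ (Or.inr ⟨i, j, rfl⟩))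

end phi

end Crest.Agent.R260.Alg0_661
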