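import Crest.Agent.R260.Gp2_169
import Crest.Agent.R260.Fam1_919
import Crest.Agent.R270.Link1_131
import Crest.Agent.R270.Fin2_305
import Crest.Agent.R270.ETail2_360
import Crest.Agent.R270.Sat5_422

/-!
# Row 260, (L5)(ii) of DivP (helper564): closure properties of `Con D (VC N P)`

`Fam D P`, `N i = 2 β i`. The conics of the class `V(P)` are stable under

* `con_map` : homomorphisms `κ →ₐ[k] κ'` of fields;
* `con_scale` : multiplication of the blocks by nonzero constants;
* `con_mobT` : invertible linear substitutions (and scalings), over algebraically closed fields;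
* `con_rev` : reversal (`Link_131.rev`), `con_rev'` (`Sat_422.rev`);
* `con_comp` : affine reparametrisation.
-/

set_option autoImplicit false
set_option linter.unusedSectionVars false

namespace Crest.Agent.R260.Cc_564

open Polynomial
open Crest.Agent.R270.BM_360 Crest.Agent.R260.Lin_678 Crest.Agent.R260.QuadDefs_517
open Crest.Agent.R260.Fam_919 Crest.Agent.R260.Mob_919
open Crest.Agent.R260.Gp_169 (VC)
open Crest.Agent.R270.Link_131 (rev isMap_map rev_isMap cls_rev Cop.eval_ne cop_of_eval)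

universe u

variable {I : Type} {J : I → Type} [Fintype I] [∀ i, Fintype (J i)]

section mob

variable {κ : Type u} [Field κ]

/-- some coefficient of degree `cls F i` is non-zero. -/
theorem exists_top {F : ∀ i, J i → κ[X]} (i : I) (hc : Cop (F i)) :
    ∃ a, (F i a).coeff (cls F i) ≠ 0 := by
  have hne : F i ≠ 0 := by
    intro h0
    have h1 : Ideal.span (Set.range (F i)) = ⊤ := hc
    rw [h0] at h1
    have h2 : Ideal.span (Set.range (0 : J i → κ[X])) ≤ ⊥ := by
      rw [Ideal.span_le]
      rintro _ ⟨a, rfl⟩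
      rfl
    rw [h1, top_le_iff] at h2
    exact bot_ne_top h2
  obtain ⟨a₀, ha₀⟩ := Function.ne_iff.mp hne
  obtain ⟨a, -, ha⟩ := Finset.exists_mem_eq_sup (Finset.univ : Finset (J i)) ⟨a₀, Finset.mem_univ _⟩
    (fun a => (F i a).natDegree)
  have h1 : cls F i = (F i a).natDegree := ha
  by_cases h0 : F i a = 0
  · have h2 : cls F i = 0 := by rw [h1, h0, natDegree_zero]
    refine ⟨a₀, ?_⟩
    have h3 : (F i a₀).natDegree ≤ cls F i := natDegree_le_vdeg (F i) a₀
    have h4 : (F i a₀).natDegree = 0 := by omega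
    rw [h2, ← h4]
    exact leadingCoeff_ne_zero.mpr ha₀
  · refine ⟨a, ?_⟩
    rw [h1]
    exact leadingCoeff_ne_zero.mpr h0

/-- the binary forms of a coprime vector have no common zero. -/
theorem exists_hev {F : ∀ i, J i → κ[X]} {N : I → ℕ} (i : I) (hc : Cop (F i))
    (hN : cls F i = N i) {s t : κ} (hst : ¬ (s = 0 ∧ t = 0)) :
    ∃ a, hev (N i) s t (F i a) ≠ 0 := by
  have hd : ∀ a, (F i a).natDegree ≤ N i := fun a => by
    rw [← hN]
    exact natDegree_le_vdeg (F i) a
  by_cases ht : t = 0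
  · have hs : s ≠ 0 := fun h => hst ⟨h, ht⟩
    obtain ⟨a, ha⟩ := exists_top i hc
    refine ⟨a, ?_⟩
    rw [ht, hev_t_zero, ← hN]
    exact mul_ne_zero ha (pow_ne_zero _ hs)
  · obtain ⟨a, ha⟩ := Cop.eval_ne hc (s / t)
    refine ⟨a, ?_⟩
    rw [hev_div s ht (hd a)]
    exact mul_ne_zero (pow_ne_zero _ ht) ha

theorem cls_mobT {F : ∀ i, J i → κ[X]} {N : I → ℕ} (hc : ∀ i, Cop (F i)) (hN : cls F = N)
    {μ : I → κ} (hμ : ∀ i, μ i ≠ 0) {a b c d : κ} (hdet : a * d - b * c ≠ 0) :
    cls (mobT N μ a b c d F) = N := by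
  funext i
  apply le_antisymm
  · exact Finset.sup_le fun x _ => natDegree_mobT_le N μ a b c d F i x
  · obtain ⟨x, hx⟩ := exists_hev (s := a) (t := c) i (hc i) (congrFun hN i) (by
      rintro ⟨h1, h2⟩
      apply hdet
      rw [h1, h2]
      ring)
    refine le_trans (le_natDegree_of_ne_zero ?_) (natDegree_le_vdeg (mobT N μ a b c d F i) x)
    unfold mobT
    rw [coeff_C_mul, coeff_mob_top]
    exact mul_ne_zero (hμ i) hx

variable {k : Type u} [Field k] [Algebra k κ] {E : Set (MvPolynomial (Σ i, J i) k)}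

theorem isMap_mobT [IsAlgClosed κ] (hE : MHom E) {F : ∀ i, J i → κ[X]} {N : I → ℕ}
    (hF : IsMap E F) (hN : cls F = N) {μ : I → κ} (hμ : ∀ i, μ i ≠ 0) {a b c d : κ}
    (hdet : a * d - b * c ≠ 0) : IsMap E (mobT N μ a b c d F) := by
  have hd : ∀ i x, (F i x).natDegree ≤ N i := fun i x => by
    rw [← hN]
    exact natDegree_le_vdeg (F i) x
  refine ⟨onX_mobT hE N hd hF.on μ a b c d, fun i => cop_of_eval fun z => ?_⟩
  obtain ⟨x, hx⟩ := exists_hev (s := a * z + b) (t := c * z + d) i (hF.cop i) (congrFun hN i) (by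
    rintro ⟨h1, h2⟩
    apply hdet
    by_cases hc : c = 0
    · rw [hc, zero_mul, zero_add] at h2
      rw [hc, h2]
      ring
    · by_cases ha : a = 0
      · rw [ha, zero_mul, zero_add] at h1
        rw [ha, h1]
        ring
      · have h3 : a * (c * z + d) - c * (a * z + b) = 0 := by rw [h1, h2]; ring
        linear_combination h3)
  refine ⟨x, ?_⟩
  unfold mobT
  rw [eval_mul, eval_C, eval_mob]
  exact mul_ne_zero (hμ i) hx

/-- the reversal is the substitution `z ↦ 1 / z`. -/
theorem mob_rev {N : ℕ} {f : κ[X]} (hf : f.natDegree ≤ N) : mob N 0 1 1 0 f = f.reflect N := by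
  have key : ∀ n ≤ N, ∀ r : κ, mob N 0 1 1 0 (monomial n r) = (monomial n r).reflect N := by
    intro n hn r
    unfold mob
    rw [hev_monomial hn, ← C_mul_X_pow_eq_monomial, reflect_C_mul_X_pow, revAt_le hn]
    simp
  have e := f.as_sum_range' (N + 1) (Nat.lt_succ_of_le hf)
  have hsum : ∀ S : Finset ℕ, (∑ n ∈ S, monomial n (f.coeff n)).reflect N =
      ∑ n ∈ S, (monomial n (f.coeff n)).reflect N := by
    classical
    intro S
    induction S using Finset.induction_on with
    | empty => simp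
    | insert i S hi ih =>
      rw [Finset.sum_insert hi, Finset.sum_insert hi, reflect_add, ih]
  rw [e, mob_sum, hsum]
  refine Finset.sum_congr rfl fun n hn => ?_
  exact key n (Nat.lt_succ_iff.1 (Finset.mem_range.1 hn)) _

theorem rev_eq {F : ∀ i, J i → κ[X]} {N : I → ℕ} (hN : cls F = N) :
    rev F = mobT N (fun _ => 1) 0 1 1 0 F := by
  funext i x
  have h1 : vdeg (F i) = N i := congrFun hN i
  unfold rev mobT
  rw [map_one, one_mul, mob_rev (by rw [← h1]; exact natDegree_le_vdeg _ _), h1]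

end mob

section con

variable {k : Type u} [Field k] {D : CData k I J}
  {P : Ideal (MvPolynomial (Cx J (fun i => 2 * D.β i)) k)}

theorem cls_eq_N {κ : Type u} [Field κ] [Algebra k κ] {F : ∀ i, J i → κ[X]}
    (hF : Con D (VC _ P) F) : cls F = fun i => 2 * D.β i := by
  rw [hF.cls]
  funext i
  simp

/-- base change of fields. -/
theorem con_map {κ κ' : Type u} [Field κ] [Field κ'] [Algebra k κ] [Algebra k κ']
    (φ : κ →ₐ[k] κ') {F : ∀ i, J i → κ[X]} (hF : Con D (VC _ P) F) :
    Con D (VC _ P) (fun i x => (F i x).map (φ : κ →+* κ')) where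
  map := isMap_map φ hF.map
  cls := (Crest.Agent.R270.ETail_360.cls_map (φ : κ →+* κ') F).trans hF.cls
  cc := InC.mapT _ hF.cc φ



/-- invertible linear substitutions and scalings. -/
theorem con_mobT (hP : Fam D P) {κ : Type u} [Field κ] [IsAlgClosed κ] [Algebra k κ] {μ : I → κ}
    (hμ : ∀ i, μ i ≠ 0) {a b c d : κ} (hdet : a * d - b * c ≠ 0) {F : ∀ i, J i → κ[X]}
    (hF : Con D (VC _ P) F) :
    Con D (VC _ P) (mobT (fun i => 2 * D.β i) μ a b c d F) where
  map := isMap_mobT D.hom hF.map (cls_eq_N hF) hμ hdet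
  cls := by
    rw [cls_mobT hF.map.cop (cls_eq_N hF) hμ hdet]
    funext i
    simp
  cc := hP.inv κ F hF.cc μ a b c d

/-- the reversed conic. -/
theorem con_rev (hP : Fam D P) {κ : Type u} [Field κ] [IsAlgClosed κ] [Algebra k κ]
    {F : ∀ i, J i → κ[X]} (hF : Con D (VC _ P) F) : Con D (VC _ P) (rev F) := by
  rw [rev_eq (cls_eq_N hF)]
  exact con_mobT hP (fun _ => one_ne_zero) (by simp) hF



end con

end Crest.Agent.R260.Cc_564
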