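import Mathlib
import Crest.Agent.R270.BmDefs_360

-- ▼ part R260/Frm1_428
section

/-!
# Row 260 (S0398), FRAME part 1 (helper428): shifted Birkhoff-Grothendieck for polynomial lattices

`M ≤ k[X]^J` a saturated submodule, weights `β : J → ℤ`. There is a `k[X]`-basis `e_1, …, e_n` of `M`
and integers `a_j` with `deg (e_j)_i ≤ β_i - a_j`, with linearly independent leading vectors, with
the predictable degree property, and a polynomial dual family; coordinates of an integral
vector over a valued field are integral, uniformly at finite points and at infinity.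
-/

set_option autoImplicit false
set_option linter.all false

noncomputable section

namespace Crest.Agent.R260.Frm1_428

open Polynomial

universe u v w

variable {k : Type u} [Field k] {J : Type v}

/-- coefficient with an integer index -/
def cz (p : k[X]) (m : ℤ) : k := if 0 ≤ m then p.coeff m.toNat else 0

theorem cz_nat (p : k[X]) (m : ℕ) : cz p m = p.coeff m := by
  simp [cz]

theorem cz_neg (p : k[X]) {m : ℤ} (h : m < 0) : cz p m = 0 := by
  simp [cz, not_le.2 h]

@[simp] theorem cz_zero (m : ℤ) : cz (0 : k[X]) m = 0 := by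
  simp [cz]

theorem cz_add (p q : k[X]) (m : ℤ) : cz (p + q) m = cz p m + cz q m := by
  unfold cz; split_ifs <;> simp

theorem cz_C_mul (c : k) (p : k[X]) (m : ℤ) : cz (C c * p) m = c * cz p m := by
  unfold cz; split_ifs <;> simp

theorem cz_sum {ι : Type*} (s : Finset ι) (f : ι → k[X]) (m : ℤ) :
    cz (∑ j ∈ s, f j) m = ∑ j ∈ s, cz (f j) m := by
  unfold cz; split_ifs <;> simp [Polynomial.finset_sum_coeff]

theorem cz_X_pow_mul (p : k[X]) (d : ℕ) (m : ℤ) : cz (X ^ d * p) m = cz p (m - d) := by
  rcases lt_or_ge m 0 with h | h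
  · rw [cz_neg _ h, cz_neg _ (by omega)]
  · lift m to ℕ using h
    rw [cz_nat, Polynomial.coeff_X_pow_mul']
    split_ifs with hd
    · rw [← Nat.cast_sub hd, cz_nat]
    · rw [cz_neg _ (by omega)]

theorem ext_cz {p q : k[X]} (h : ∀ m : ℤ, cz p m = cz q m) : p = q := by
  ext m
  rw [← cz_nat, ← cz_nat, h]

/-- `deg p ≤ A` for an integer `A` -/
def DLe (A : ℤ) (p : k[X]) : Prop := ∀ m : ℤ, A < m → cz p m = 0

theorem DLe.eq_zero {A : ℤ} {p : k[X]} (h : DLe A p) (hA : A < 0) : p = 0 := by
  apply ext_cz
  intro m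
  rw [cz_zero]
  rcases lt_or_ge m 0 with hm | hm
  · exact cz_neg _ hm
  · exact h m (by omega)

theorem DLe.mono {A B : ℤ} {p : k[X]} (h : DLe A p) (hAB : A ≤ B) : DLe B p :=
  fun m hm => h m (by omega)

theorem dLe_natDegree (p : k[X]) : DLe p.natDegree p := by
  intro m hm
  have h0 : 0 ≤ m := by omega
  lift m to ℕ using h0
  rw [cz_nat]
  exact coeff_eq_zero_of_natDegree_lt (by exact_mod_cast hm)

theorem dLe_nat_iff {A : ℕ} {p : k[X]} : DLe (A : ℤ) p ↔ p.natDegree ≤ A := by
  constructor
  · intro h
    rw [natDegree_le_iff_coeff_eq_zero]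
    intro m hm
    rw [← cz_nat]
    exact h m (by exact_mod_cast hm)
  · intro h
    exact (dLe_natDegree p).mono (by exact_mod_cast h)

theorem DLe.zero (A : ℤ) : DLe A (0 : k[X]) := fun m _ => cz_zero m

theorem DLe.add {A : ℤ} {p q : k[X]} (hp : DLe A p) (hq : DLe A q) : DLe A (p + q) := by
  intro m hm
  rw [cz_add, hp m hm, hq m hm, add_zero]

theorem DLe.sum {ι : Type*} {A : ℤ} {s : Finset ι} {f : ι → k[X]} (h : ∀ j ∈ s, DLe A (f j)) :
    DLe A (∑ j ∈ s, f j) := by
  intro m hm
  rw [cz_sum]
  exact Finset.sum_eq_zero fun j hj => h j hj m hm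

theorem DLe.C_mul {A : ℤ} {p : k[X]} (hp : DLe A p) (c : k) : DLe A (C c * p) := by
  intro m hm
  rw [cz_C_mul, hp m hm, mul_zero]

theorem DLe.X_pow_mul {A : ℤ} {p : k[X]} (hp : DLe A p) (d : ℕ) : DLe (A + d) (X ^ d * p) := by
  intro m hm
  rw [cz_X_pow_mul]
  exact hp _ (by omega)


/-- top coefficient of a product -/
theorem cz_mul {A B : ℤ} {p q : k[X]} (hp : DLe A p) (hq : DLe B q) :
    cz (p * q) (A + B) = cz p A * cz q B := by
  rcases lt_or_ge A 0 with hA | hA
  · rw [hp.eq_zero hA]; simp
  rcases lt_or_ge B 0 with hB | hB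
  · rw [hq.eq_zero hB]; simp
  lift A to ℕ using hA
  lift B to ℕ using hB
  rw [← Nat.cast_add, cz_nat, cz_nat, cz_nat]
  exact coeff_mul_add_eq_of_natDegree_le (dLe_nat_iff.1 hp) (dLe_nat_iff.1 hq)

theorem DLe.mul {A B : ℤ} {p q : k[X]} (hp : DLe A p) (hq : DLe B q) : DLe (A + B) (p * q) := by
  rcases lt_or_ge A 0 with hA | hA
  · rw [hp.eq_zero hA, zero_mul]; exact DLe.zero _
  rcases lt_or_ge B 0 with hB | hB
  · rw [hq.eq_zero hB, mul_zero]; exact DLe.zero _
  lift A to ℕ using hA
  lift B to ℕ using hB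
  rw [← Nat.cast_add, dLe_nat_iff]
  exact natDegree_mul_le_of_le (dLe_nat_iff.1 hp) (dLe_nat_iff.1 hq)

/-- a vector of shifted degree `≤ -a`: `deg t_i ≤ β_i - a` -/
def VLe (β : J → ℤ) (a : ℤ) (t : J → k[X]) : Prop := ∀ i, DLe (β i - a) (t i)

/-- the leading vector -/
def lead (β : J → ℤ) (a : ℤ) (t : J → k[X]) : J → k := fun i => cz (t i) (β i - a)

theorem VLe.mono {β : J → ℤ} {a b : ℤ} {t : J → k[X]} (h : VLe β a t) (hab : b ≤ a) : VLe β b t :=
  fun i => (h i).mono (by omega)


theorem VLe.add {β : J → ℤ} {a : ℤ} {t t' : J → k[X]} (h : VLe β a t) (h' : VLe β a t') :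
    VLe β a (t + t') := fun i => (h i).add (h' i)

theorem VLe.zero (β : J → ℤ) (a : ℤ) : VLe β a (0 : J → k[X]) := fun i => DLe.zero _

theorem VLe.sum {ι : Type*} {β : J → ℤ} {a : ℤ} {s : Finset ι} {f : ι → J → k[X]}
    (h : ∀ j ∈ s, VLe β a (f j)) : VLe β a (∑ j ∈ s, f j) := by
  intro i
  rw [Finset.sum_apply]
  exact DLe.sum fun j hj => h j hj i

theorem VLe.smul {β : J → ℤ} {a A : ℤ} {p : k[X]} {t : J → k[X]} (hp : DLe A p) (h : VLe β a t) :
    VLe β (a - A) (p • t) := by
  intro i
  have := hp.mul (h i)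
  rw [Pi.smul_apply, smul_eq_mul]
  exact this.mono (by omega)

/-- bound for the shifted degree of a non-zero vector -/
theorem VLe.le_of_ne {β : J → ℤ} {a B : ℤ} {t : J → k[X]} (h : VLe β a t) (ht : t ≠ 0)
    (hB : ∀ i, β i ≤ B) : a ≤ B := by
  by_contra hlt
  apply ht
  funext i
  exact (h i).eq_zero (by have := hB i; omega)

theorem exists_vLe [Fintype J] (β : J → ℤ) (t : J → k[X]) : ∃ a : ℤ, VLe β a t := by
  classical
  obtain ⟨a, ha⟩ : ∃ a : ℤ, ∀ i, a ≤ β i - (t i).natDegree := by
    rcases isEmpty_or_nonempty J with h | h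
    · exact ⟨0, fun i => h.elim i⟩
    · refine ⟨Finset.univ.inf' Finset.univ_nonempty fun i => β i - (t i).natDegree, fun i => ?_⟩
      exact Finset.inf'_le _ (Finset.mem_univ i)
  refine ⟨a, fun i => (dLe_natDegree (t i)).mono ?_⟩
  have := ha i
  omega

/-- the conclusion: a reduced basis of `M` -/
structure RBasis (β : J → ℤ) (M : Submodule k[X] (J → k[X])) (n : ℕ) where
  /-- the basis -/
  e : Fin n → J → k[X]
  /-- minus the shifted degrees -/
  a : Fin n → ℤ
  li : LinearIndependent k[X] e
  span : Submodule.span k[X] (Set.range e) = M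
  deg : ∀ j, VLe β (a j) (e j)
  lead_li : LinearIndependent k fun j => lead β (a j) (e j)

theorem exists_basis_family [Finite J] (M : Submodule k[X] (J → k[X])) :
    ∃ (n : ℕ) (e : Fin n → J → k[X]), LinearIndependent k[X] e ∧
      Submodule.span k[X] (Set.range e) = M := by
  have : Module.Finite k[X] (J → k[X]) := inferInstance
  obtain ⟨n, b⟩ := Submodule.basisOfPid (Pi.basisFun k[X] J) M
  refine ⟨n, fun j => (b j : J → k[X]), ?_, ?_⟩
  · exact b.linearIndependent.map' M.subtype (Submodule.ker_subtype M)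
  · have h := congrArg (Submodule.map M.subtype) b.span_eq
    rw [Submodule.map_span, Submodule.map_top, Submodule.range_subtype, ← Set.range_comp] at h
    exact h

/-- replacing one member of a basis -/
theorem update_basis {n : ℕ} {e : Fin n → J → k[X]} (li : LinearIndependent k[X] e)
    (d : Fin n → k[X]) (j0 : Fin n) (hd : IsUnit (d j0)) :
    LinearIndependent k[X] (Function.update e j0 (∑ j, d j • e j)) ∧
      Submodule.span k[X] (Set.range (Function.update e j0 (∑ j, d j • e j))) =
        Submodule.span k[X] (Set.range e) := by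
  classical
  set e' := Function.update e j0 (∑ j, d j • e j) with he'
  have hne : ∀ j, j ≠ j0 → e' j = e j := fun j hj => Function.update_of_ne hj _ _
  have h0 : e' j0 = ∑ j, d j • e j := Function.update_self _ _ _
  constructor
  · rw [Fintype.linearIndependent_iff] at li ⊢
    intro g hg
    have h1 : ∑ j, ((if j = j0 then 0 else g j) + g j0 * d j) • e j = 0 := by
      rw [← hg]
      have h2 : ∀ j, g j • e' j = (if j = j0 then 0 else g j) • e j +
          (if j = j0 then g j0 • ∑ l, d l • e l else 0) := by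
        intro j
        by_cases hj : j = j0
        · subst hj; simp [h0]
        · simp [hj, hne j hj]
      simp only [h2, Finset.sum_add_distrib, Finset.sum_ite_eq', Finset.mem_univ, if_true,
        add_smul, Finset.smul_sum, mul_smul]
    have h3 := li _ h1
    have h4 : g j0 = 0 := by
      have := h3 j0
      simp only [if_true, zero_add] at this
      exact (hd.mul_left_eq_zero).1 this
    intro j
    by_cases hj : j = j0
    · rw [hj, h4]
    · have := h3 j
      simpa [hj, h4] using this
  · apply le_antisymm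
    · rw [Submodule.span_le]
      rintro _ ⟨j, rfl⟩
      by_cases hj : j = j0
      · rw [hj, h0]
        exact Submodule.sum_mem _ fun l _ => Submodule.smul_mem _ _ (Submodule.subset_span ⟨l, rfl⟩)
      · rw [hne j hj]
        exact Submodule.subset_span ⟨j, rfl⟩
    · rw [Submodule.span_le]
      rintro _ ⟨j, rfl⟩
      by_cases hj : j = j0
      · subst hj
        obtain ⟨u, hu⟩ := hd
        have h5 : e j = (↑u⁻¹ : k[X]) • (e' j - ∑ l ∈ Finset.univ.erase j, d l • e l) := by
          rw [h0, ← Finset.add_sum_erase _ _ (Finset.mem_univ j), add_sub_cancel_right, smul_smul,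
            ← hu, Units.inv_mul, one_smul]
        rw [SetLike.mem_coe, h5]
        refine Submodule.smul_mem _ _ (Submodule.sub_mem _ (Submodule.subset_span ⟨j, rfl⟩) ?_)
        refine Submodule.sum_mem _ fun l hl => Submodule.smul_mem _ _ ?_
        rw [← hne l (Finset.ne_of_mem_erase hl)]
        exact Submodule.subset_span ⟨l, rfl⟩
      · rw [← hne j hj]
        exact Submodule.subset_span ⟨j, rfl⟩

/-- **BG**: every submodule of `k[X]^J` has a reduced basis. -/
theorem exists_rBasis [Fintype J] (β : J → ℤ) (M : Submodule k[X] (J → k[X])) :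
    ∃ n, Nonempty (RBasis β M n) := by
  classical
  obtain ⟨n, e0, li0, sp0⟩ := exists_basis_family M
  refine ⟨n, ?_⟩
  -- bound
  obtain ⟨B, hB⟩ : ∃ B : ℤ, ∀ i, β i ≤ B := by
    rcases isEmpty_or_nonempty J with h | h
    · exact ⟨0, fun i => h.elim i⟩
    · exact ⟨Finset.univ.sup' Finset.univ_nonempty β, fun i => Finset.le_sup' β (Finset.mem_univ i)⟩
  let P : ℤ → Prop := fun s => ∃ (e : Fin n → J → k[X]) (a : Fin n → ℤ),
    LinearIndependent k[X] e ∧ Submodule.span k[X] (Set.range e) = M ∧
      (∀ j, VLe β (a j) (e j)) ∧ ∑ j, a j = s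
  have hbd : ∀ s, P s → s ≤ n * B := by
    rintro s ⟨e, a, li, -, hd, rfl⟩
    calc ∑ j, a j ≤ ∑ j : Fin n, B := Finset.sum_le_sum fun j _ => (hd j).le_of_ne (li.ne_zero j) hB
      _ = n * B := by simp
  have hex : ∃ s, P s := by
    choose a ha using fun j => exists_vLe β (e0 j)
    exact ⟨∑ j, a j, e0, a, li0, sp0, ha, rfl⟩
  obtain ⟨s, ⟨e, a, li, sp, hd, hs⟩, hmax⟩ := Int.exists_greatest_of_bdd ⟨n * B, hbd⟩ hex
  refine ⟨⟨e, a, li, sp, hd, ?_⟩⟩
  rw [Fintype.linearIndependent_iff]
  intro c hc
  by_contra hne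
  push Not at hne
  obtain ⟨j1, hj1⟩ := hne
  obtain ⟨j0, hj0, hmin⟩ := Finset.exists_min_image (Finset.univ.filter fun j => c j ≠ 0) a
    ⟨j1, by simpa using hj1⟩
  rw [Finset.mem_filter] at hj0
  have hmin' : ∀ j, c j ≠ 0 → a j0 ≤ a j := fun j hj => hmin j (by simpa using hj)
  set d : Fin n → k[X] := fun j => C (c j) * X ^ (a j - a j0).toNat with hdd
  have hu : IsUnit (d j0) := by
    simp only [hdd, sub_self, Int.toNat_zero, pow_zero, mul_one]
    exact Polynomial.isUnit_C.2 (isUnit_iff_ne_zero.2 hj0.2)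
  obtain ⟨li', sp'⟩ := update_basis li d j0 hu
  have hnew : VLe β (a j0 + 1) (∑ j, d j • e j) := by
    intro i m hm
    rw [Finset.sum_apply, cz_sum]
    have h1 : ∀ j, cz ((d j • e j) i) m = c j * cz (e j i) (m - (a j - a j0)) := by
      intro j
      by_cases hcj : c j = 0
      · simp [hdd, hcj]
      · have h2 : ((a j - a j0).toNat : ℤ) = a j - a j0 :=
          Int.toNat_of_nonneg (by have := hmin' j hcj; omega)
        rw [Pi.smul_apply, smul_eq_mul, hdd, mul_assoc, cz_C_mul, cz_X_pow_mul, h2]
    simp only [h1]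
    rcases lt_or_ge (β i - a j0) m with h3 | h3
    · refine Finset.sum_eq_zero fun j _ => ?_
      rw [hd j i _ (by omega), mul_zero]
    · have h4 : m = β i - a j0 := by omega
      have h5 : ∀ j, m - (a j - a j0) = β i - a j := fun j => by omega
      simp only [h5]
      have h6 := congrFun hc i
      simpa [lead, Finset.sum_apply] using h6
  have hP : P (s + 1) := by
    refine ⟨Function.update e j0 (∑ j, d j • e j), Function.update a j0 (a j0 + 1), li',
      sp'.trans sp, fun j => ?_, ?_⟩
    · by_cases hj : j = j0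
      · subst hj; simpa using hnew
      · simpa [hj] using hd j
    · rw [Finset.sum_update_of_mem (Finset.mem_univ j0), ← hs,
        ← Finset.add_sum_erase _ _ (Finset.mem_univ j0), Finset.sdiff_singleton_eq_erase]
      ring
  have := hmax _ hP
  omega

variable {β : J → ℤ} {M : Submodule k[X] (J → k[X])} {n : ℕ}

theorem RBasis.mem (b : RBasis β M n) (j : Fin n) : b.e j ∈ M :=
  b.span.le (Submodule.subset_span ⟨j, rfl⟩)

theorem RBasis.exists_coord (b : RBasis β M n) {t : J → k[X]} (ht : t ∈ M) :
    ∃ p : Fin n → k[X], t = ∑ j, p j • b.e j := by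
  obtain ⟨p, hp⟩ := (Submodule.mem_span_range_iff_exists_fun k[X]).1 (b.span.ge ht)
  exact ⟨p, hp.symm⟩

theorem RBasis.coord_unique (b : RBasis β M n) {p q : Fin n → k[X]}
    (h : ∑ j, p j • b.e j = ∑ j, q j • b.e j) : p = q := by
  have h1 := Fintype.linearIndependent_iff.1 b.li (fun j => p j - q j) (by
    simp only [sub_smul, Finset.sum_sub_distrib, h, sub_self])
  funext j
  exact sub_eq_zero.1 (h1 j)

/-- predictable degrees -/
theorem RBasis.coord_deg (b : RBasis β M n) {a : ℤ} {p : Fin n → k[X]}
    (h : VLe β a (∑ j, p j • b.e j)) (j : Fin n) : DLe (b.a j - a) (p j) := by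
  classical
  -- the set of integers `D` such that all `deg p_j ≤ a_j + D`
  by_contra hcon
  unfold DLe at hcon
  push Not at hcon
  obtain ⟨m0, hm0, hm0'⟩ := hcon
  let Q : ℤ → Prop := fun D => ∀ l, DLe (b.a l + D) (p l)
  have hQ : ∃ D, Q D := by
    rcases isEmpty_or_nonempty (Fin n) with h' | h'
    · exact ⟨0, fun l => h'.elim l⟩
    · refine ⟨Finset.univ.sup' Finset.univ_nonempty fun l => (p l).natDegree - b.a l, fun l => ?_⟩
      refine (dLe_natDegree (p l)).mono ?_
      have := Finset.le_sup' (fun l => ((p l).natDegree : ℤ) - b.a l) (Finset.mem_univ l)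
      linarith
  have hlow : ∀ D, Q D → m0 - b.a j ≤ D := by
    intro D hD
    by_contra hlt
    exact hm0' (hD j m0 (by omega))
  obtain ⟨D, hD, hmin⟩ := Int.exists_least_of_bdd ⟨m0 - b.a j, hlow⟩ hQ
  have hDa : -a < D := by have := hlow D hD; omega
  -- leading coefficients
  have hz : ∀ l, cz (p l) (b.a l + D) = 0 := by
    have := Fintype.linearIndependent_iff.1 b.lead_li (fun l => cz (p l) (b.a l + D)) (by
      funext i
      have h1 := h i (β i + D) (by omega)
      rw [Finset.sum_apply, cz_sum] at h1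
      rw [Finset.sum_apply, Pi.zero_apply, ← h1]
      refine Finset.sum_congr rfl fun l _ => ?_
      have h2 := cz_mul (hD l) (b.deg l i)
      rw [show b.a l + D + (β i - b.a l) = β i + D by ring] at h2
      rw [Pi.smul_apply, Pi.smul_apply, smul_eq_mul, smul_eq_mul, h2, lead])
    exact this
  have hQ' : Q (D - 1) := by
    intro l m hm
    rcases lt_or_ge (b.a l + D) m with h1 | h1
    · exact hD l m h1
    · rw [show m = b.a l + D by omega]
      exact hz l
  have := hmin _ hQ'
  omega

/-- saturated submodules -/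
def Sat (M : Submodule k[X] (J → k[X])) : Prop :=
  ∀ (p : k[X]) (t : J → k[X]), p ≠ 0 → p • t ∈ M → t ∈ M

/-- **dual family** of a basis of a saturated submodule. -/
theorem exists_dual [Fintype J] (hM : Sat M) {e : Fin n → J → k[X]}
    (li : LinearIndependent k[X] e) (sp : Submodule.span k[X] (Set.range e) = M) :
    ∃ α : Fin n → J → k[X], ∀ j l, ∑ i, α j i * e l i = if j = l then 1 else 0 := by
  classical
  have hmem : ∀ j, e j ∈ M := fun j => by rw [← sp]; exact Submodule.subset_span ⟨j, rfl⟩
  haveI : Module.IsTorsionFree k[X] ((J → k[X]) ⧸ M) := by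
    rw [Module.isTorsionFree_iff_smul_eq_zero]
    intro p x hpx
    obtain ⟨t, rfl⟩ := M.mkQ_surjective x
    by_cases hp : p = 0
    · exact Or.inl hp
    · right
      rw [Submodule.mkQ_apply, Submodule.Quotient.mk_eq_zero]
      rw [Submodule.mkQ_apply, ← Submodule.Quotient.mk_smul, Submodule.Quotient.mk_eq_zero] at hpx
      exact hM p t hp hpx
  haveI : Module.Free k[X] ((J → k[X]) ⧸ M) := Module.free_of_finite_type_torsion_free'
  obtain ⟨σ, hσ⟩ := Module.projective_lifting_property M.mkQ LinearMap.id M.mkQ_surjective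
  let b : Module.Basis (Fin n) k[X] (Submodule.span k[X] (Set.range e)) := Module.Basis.span li
  have hπ : ∀ x : J → k[X], x - σ (M.mkQ x) ∈ Submodule.span k[X] (Set.range e) := by
    intro x
    rw [sp, ← Submodule.Quotient.mk_eq_zero, ← Submodule.mkQ_apply, map_sub, sub_eq_zero]
    exact (LinearMap.congr_fun hσ (M.mkQ x)).symm
  let π : (J → k[X]) →ₗ[k[X]] Submodule.span k[X] (Set.range e) :=
    (LinearMap.id - σ ∘ₗ M.mkQ).codRestrict _ hπ
  have hπe : ∀ l, π (e l) = b l := by
    intro l
    apply Subtype.ext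
    have h1 : M.mkQ (e l) = 0 := by
      rw [Submodule.mkQ_apply, Submodule.Quotient.mk_eq_zero]; exact hmem l
    simp [π, b, Module.Basis.span_apply, h1]
  refine ⟨fun j i => b.repr (π (Pi.single i 1)) j, fun j l => ?_⟩
  have h2 : e l = ∑ i, e l i • (Pi.single i 1 : J → k[X]) := by
    funext i'
    simp [Finset.sum_apply, Pi.single_apply]
  have h3 : b.repr (π (e l)) j = ∑ i, b.repr (π (Pi.single i 1)) j * e l i := by
    conv_lhs => rw [h2]
    simp only [map_sum, map_smul, Finsupp.coe_finset_sum, Finset.sum_apply, Finsupp.smul_apply,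
      smul_eq_mul, mul_comm]
  rw [← h3, hπe, Module.Basis.repr_self, Finsupp.single_apply]
  simp [eq_comm]

end Crest.Agent.R260.Frm1_428
end
end

-- ▼ part R260/Frm2_428
section

/-!
# Row 260 (S0398), FRAME part 2 (helper428)

* integral coordinates in a reduced basis over a valued field (finite points and infinity at once);
* coordinates of a vector at a point, independence of the values of a reduced basis;
* dimension of the spaces of sections;
* THETA-KILL: a functional of degree `1` kills the positive part of a contact frame.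
-/

set_option autoImplicit false
set_option linter.all false

noncomputable section

namespace Crest.Agent.R260.Frm2_428

open Polynomial Crest.Agent.R260.Frm1_428

universe u v w

variable {k : Type u} [Field k] {J : Type v}
variable {β : J → ℤ} {M : Submodule k[X] (J → k[X])} {n : ℕ}


section Val

variable {K : Type w} [Field K] [Algebra k K] {Γ : Type*} [LinearOrderedCommGroupWithZero Γ]
  (ν : Valuation K Γ)




end Val

/-- a vector of `K^J` in the span of the values `e_j(s)` -/
theorem values_li [Fintype J] (b : RBasis β M n) (hM : Sat M) {K : Type w} [CommRing K]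
    [Algebra k K] (s : K) : LinearIndependent K fun j => fun i => aeval s (b.e j i) := by
  classical
  obtain ⟨α, hα⟩ := exists_dual hM b.li b.span
  rw [Fintype.linearIndependent_iff]
  intro w hw j
  have h2 : ∀ l, ∑ i, aeval s (α j i) * aeval s (b.e l i) = if j = l then (1 : K) else 0 := by
    intro l
    have := congrArg (aeval s) (hα j l)
    simp only [map_sum, map_mul] at this
    rw [this]; split_ifs <;> simp
  have h3 : ∑ i, aeval s (α j i) * (∑ l, w l • fun i => aeval s (b.e l i)) i = w j := by
    simp only [Finset.sum_apply, Pi.smul_apply, smul_eq_mul, Finset.mul_sum]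
    rw [Finset.sum_comm]
    have h3 : ∀ l, ∑ i, aeval s (α j i) * (w l * aeval s (b.e l i)) =
        w l * if j = l then 1 else 0 := by
      intro l
      rw [← h2 l, Finset.mul_sum]
      exact Finset.sum_congr rfl fun i _ => by ring
    simp [h3]
  rw [hw] at h3
  simpa using h3.symm

/-- sections of the twist by `-c` -/
def Sec (β : J → ℤ) (M : Submodule k[X] (J → k[X])) (c : ℤ) : Submodule k (J → k[X]) where
  carrier := {t | t ∈ M ∧ VLe β c t}
  add_mem' := fun h h' => ⟨M.add_mem h.1 h'.1, h.2.add h'.2⟩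
  zero_mem' := ⟨M.zero_mem, VLe.zero β c⟩
  smul_mem' := by
    rintro r t ⟨h1, h2⟩
    have h3 : r • t = C r • t := by
      funext i; simp [Polynomial.smul_eq_C_mul]
    refine ⟨h3 ▸ M.smul_mem _ h1, fun i => ?_⟩
    rw [Pi.smul_apply, Polynomial.smul_eq_C_mul]
    exact (h2 i).C_mul r

theorem mem_Sec {c : ℤ} {t : J → k[X]} : t ∈ Sec β M c ↔ t ∈ M ∧ VLe β c t := Iff.rfl

/-- polynomials of degree `≤ A` -/
def PLe (k : Type u) [Field k] (A : ℤ) : Submodule k k[X] where
  carrier := {p | DLe A p}
  add_mem' := fun h h' => h.add h'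
  zero_mem' := DLe.zero A
  smul_mem' := fun r p h => by
    rw [Polynomial.smul_eq_C_mul]; exact DLe.C_mul h r

theorem PLe_eq (A : ℤ) : PLe k A = degreeLT k (A + 1).toNat := by
  ext p
  rw [mem_degreeLT]
  rcases lt_or_ge A 0 with hA | hA
  · have h1 : (A + 1).toNat = 0 := by omega
    rw [h1]
    constructor
    · intro h
      rw [DLe.eq_zero h hA]; simp
    · intro h
      have : p = 0 := by
        rw [Nat.cast_zero] at h
        by_contra hp
        exact absurd h (not_lt.2 (zero_le_degree_iff.2 hp))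
      rw [this]; exact DLe.zero A
  · lift A to ℕ using hA
    have h1 : ((A : ℤ) + 1).toNat = A + 1 := by omega
    rw [h1, degree_lt_iff_coeff_zero]
    constructor
    · intro h m hm
      rw [← cz_nat]
      exact h m (by exact_mod_cast hm)
    · intro h m hm
      have h0 : 0 ≤ m := by omega
      lift m to ℕ using h0
      rw [cz_nat]
      exact h m (by exact_mod_cast hm)

theorem finrank_PLe (A : ℤ) : Module.finrank k (PLe k A) = (A + 1).toNat := by
  rw [PLe_eq, LinearEquiv.finrank_eq (degreeLTEquiv k _)]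
  simp

instance finite_PLe (A : ℤ) : Module.Finite k (PLe k A) := by
  rw [PLe_eq]
  exact Module.Finite.equiv (degreeLTEquiv k _).symm

/-- sections in terms of coordinates -/
def secMap (b : RBasis β M n) (c : ℤ) : (∀ j, PLe k (b.a j - c)) →ₗ[k] Sec β M c where
  toFun := fun p => ⟨∑ j, (p j : k[X]) • b.e j,
    M.sum_mem fun j _ => M.smul_mem _ (b.mem j), VLe.sum fun j _ => by
      have h1 := VLe.smul (p j).2 (b.deg j)
      rwa [show b.a j - (b.a j - c) = c by ring] at h1⟩
  map_add' := fun p q => by
    apply Subtype.ext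
    simp [add_smul, Finset.sum_add_distrib]
  map_smul' := fun r p => by
    apply Subtype.ext
    simp [Finset.smul_sum, smul_assoc]

/-- sections in terms of coordinates -/
def secEquiv (b : RBasis β M n) (c : ℤ) :
    (∀ j, PLe k (b.a j - c)) ≃ₗ[k] Sec β M c := by
  refine LinearEquiv.ofBijective (secMap b c) ⟨?_, ?_⟩
  · intro p q h
    have h1 := b.coord_unique (congrArg Subtype.val h)
    funext j
    exact Subtype.ext (congrFun h1 j)
  · rintro ⟨t, ht, hd⟩
    obtain ⟨p, rfl⟩ := b.exists_coord ht
    exact ⟨fun j => ⟨p j, b.coord_deg hd j⟩, rfl⟩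

theorem finrank_sec (b : RBasis β M n) (c : ℤ) :
    Module.finrank k (Sec β M c) = ∑ j, (b.a j - c + 1).toNat := by
  rw [← LinearEquiv.finrank_eq (secEquiv b c), Module.finrank_pi_fintype]
  exact Finset.sum_congr rfl fun j _ => finrank_PLe _




end Crest.Agent.R260.Frm2_428
end
end

-- ▼ part R260/Frm3_428

/-!
# Row 260 (S0398), FRAME part 3 (helper428): frames of the pulled back cone tangent bundle

* `TanJ Jac` : polynomial solutions of the linearised equations along a map of the line;
* `KerAt Jac s` : tangent vectors at the point with parameter `s`;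
* all degrees of a reduced basis are `≥ 0` (`≥ c`) when the (twisted) global sections generate at
  one point;
* `span_values` : the values `e_j(s)` are a basis of the tangent space, coordinates of a tangent
  vector, integral over valued fields.
* the same in the language of `BmDefs_360`.
-/

set_option autoImplicit false
set_option linter.all false

noncomputable section

namespace Crest.Agent.R260.Frm3_428

open Polynomial Crest.Agent.R260.Frm1_428 Crest.Agent.R260.Frm2_428

universe u v w

variable {k : Type u} [Field k] {J : Type v} [Fintype J] {P : Type*}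
variable {β : J → ℤ} {M : Submodule k[X] (J → k[X])} {n : ℕ}

/-- polynomial solutions of the linearised equations -/
def TanJ (Jac : P → J → k[X]) : Submodule k[X] (J → k[X]) where
  carrier := {t | ∀ p, ∑ x, Jac p x * t x = 0}
  add_mem' := fun {t t'} h h' p => by
    simp only [Pi.add_apply, mul_add, Finset.sum_add_distrib, h p, h' p, add_zero]
  zero_mem' := fun p => by simp
  smul_mem' := fun q t h p => by
    have : ∑ x, Jac p x * (q • t) x = q * ∑ x, Jac p x * t x := by
      rw [Finset.mul_sum]
      exact Finset.sum_congr rfl fun x _ => by rw [Pi.smul_apply, smul_eq_mul]; ring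
    rw [this, h p, mul_zero]


theorem sat_TanJ (Jac : P → J → k[X]) : Sat (TanJ Jac) := by
  intro q t hq h p
  have h1 := h p
  have : ∑ x, Jac p x * (q • t) x = q * ∑ x, Jac p x * t x := by
    rw [Finset.mul_sum]
    exact Finset.sum_congr rfl fun x _ => by rw [Pi.smul_apply, smul_eq_mul]; ring
  rw [this] at h1
  exact (mul_eq_zero.1 h1).resolve_left hq

/-- tangent vectors at the point with parameter `s` -/
def KerAt (Jac : P → J → k[X]) {K : Type w} [CommRing K] [Algebra k K] (s : K) :
    Submodule K (J → K) where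
  carrier := {u | ∀ p, ∑ x, aeval s (Jac p x) * u x = 0}
  add_mem' := fun {t t'} h h' p => by
    simp only [Pi.add_apply, mul_add, Finset.sum_add_distrib, h p, h' p, add_zero]
  zero_mem' := fun p => by simp
  smul_mem' := fun q t h p => by
    have : ∑ x, aeval s (Jac p x) * (q • t) x = q * ∑ x, aeval s (Jac p x) * t x := by
      rw [Finset.mul_sum]
      exact Finset.sum_congr rfl fun x _ => by rw [Pi.smul_apply, smul_eq_mul]; ring
    rw [this, h p, mul_zero]

theorem mem_KerAt {Jac : P → J → k[X]} {K : Type w} [CommRing K] [Algebra k K] {s : K}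
    {u : J → K} : u ∈ KerAt Jac s ↔ ∀ p, ∑ x, aeval s (Jac p x) * u x = 0 := Iff.rfl

/-- value of a polynomial vector -/
def ev {K : Type w} [CommRing K] [Algebra k K] (s : K) (t : J → k[X]) : J → K :=
  fun x => aeval s (t x)

theorem ev_mem {Jac : P → J → k[X]} {K : Type w} [CommRing K] [Algebra k K] (s : K)
    {t : J → k[X]} (h : t ∈ TanJ Jac) : ev s t ∈ KerAt Jac s := by
  intro p
  have := congrArg (aeval s) (h p)
  simpa [ev, map_sum, map_mul] using this


/-- the values of the twisted global sections generate at `c0` -/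
def GenAt (β : J → ℤ) (M : Submodule k[X] (J → k[X])) (c : ℤ) (c0 : k) : Prop :=
  ∀ t ∈ M, ∃ t' ∈ M, VLe β c t' ∧ ∀ x, (t' x).eval c0 = (t x).eval c0

theorem le_a_of_gen (hM : Sat M) (b : RBasis β M n) {c : ℤ} {c0 : k} (h : GenAt β M c c0)
    (j : Fin n) : c ≤ b.a j := by
  classical
  by_contra hlt
  rw [not_le] at hlt
  obtain ⟨t', ht', hd, he⟩ := h (b.e j) (b.mem j)
  obtain ⟨p, rfl⟩ := b.exists_coord ht'
  have hp := b.coord_deg hd
  have hpj : p j = 0 := (hp j).eq_zero (by omega)
  have li := values_li b hM (K := k) c0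
  rw [Fintype.linearIndependent_iff] at li
  have h1 := li (fun l => (p l).eval c0 - if l = j then 1 else 0) (by
    funext x
    have h2 := he x
    simp only [Finset.sum_apply, Pi.smul_apply, smul_eq_mul, eval_finsetSum, eval_mul] at h2
    simp only [Finset.sum_apply, Pi.smul_apply, smul_eq_mul, sub_mul, Finset.sum_sub_distrib,
      coe_aeval_eq_eval, h2]
    simp)
  have h3 := h1 j
  simp [hpj] at h3

/-- the sum of the degrees from the dimension of one space of sections. -/
theorem sum_a (b : RBasis β M n) {c : ℤ} (h : ∀ j, c ≤ b.a j + 1) :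
    (Module.finrank k (Sec β M c) : ℤ) = ∑ j, b.a j + n * (1 - c) := by
  rw [finrank_sec b]
  push_cast
  have h1 : ∀ j ∈ Finset.univ, (((b.a j - c + 1).toNat : ℕ) : ℤ) = b.a j + (1 - c) := by
    intro j _
    rw [Int.toNat_of_nonneg (by have := h j; omega)]
    ring
  have h2 : ∀ j ∈ Finset.univ, max (b.a j - c + 1) 0 = b.a j + (1 - c) := by
    intro j _
    rw [max_eq_left (by have := h j; omega)]
    ring
  first
  | rw [Finset.sum_congr rfl h1, Finset.sum_add_distrib]; simp; ring
  | rw [Finset.sum_congr rfl h2, Finset.sum_add_distrib]; simp; ring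

section Values

variable {Jac : P → J → k[X]}

theorem ev_li (b : RBasis β (TanJ Jac) n) {K : Type w} [CommRing K] [Algebra k K] (s : K) :
    LinearIndependent K fun j => ev s (b.e j) :=
  values_li b (sat_TanJ Jac) s

/-- over `k(X)` the `e_j` span the kernel. -/
theorem span_generic (b : RBasis β (TanJ Jac) n) {u : J → RatFunc k} (hu : u ∈ KerAt Jac (RatFunc.X : RatFunc k)) :
    ∃ w : Fin n → RatFunc k, u = ∑ j, w j • ev (RatFunc.X : RatFunc k) (b.e j) := by
  classical
  obtain ⟨⟨q, hq⟩, hqu⟩ := IsLocalization.exist_integer_multiples_of_finite (nonZeroDivisors k[X]) u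
  have hq0 : q ≠ 0 := nonZeroDivisors.ne_zero hq
  have hX : ∀ p : k[X], aeval (RatFunc.X : RatFunc k) p = algebraMap k[X] (RatFunc k) p := by
    intro p
    rw [← RatFunc.algebraMap_X, aeval_algebraMap_apply, aeval_X_left_apply]
  choose t ht using hqu
  have htm : t ∈ TanJ Jac := by
    intro p
    apply RatFunc.algebraMap_injective k
    rw [map_sum, map_zero]
    have h1 := hu p
    have h2 : ∑ x, algebraMap k[X] (RatFunc k) (Jac p x * t x) =
        algebraMap k[X] (RatFunc k) q * ∑ x, aeval (RatFunc.X : RatFunc k) (Jac p x) * u x := by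
      rw [Finset.mul_sum]
      refine Finset.sum_congr rfl fun x _ => ?_
      rw [map_mul, ht x, hX, Algebra.smul_def]
      ring
    rw [h2, h1, mul_zero]
  obtain ⟨p, hp⟩ := b.exists_coord htm
  have hq1 : algebraMap k[X] (RatFunc k) q ≠ 0 := RatFunc.algebraMap_ne_zero hq0
  refine ⟨fun j => (algebraMap k[X] (RatFunc k) q)⁻¹ * algebraMap k[X] (RatFunc k) (p j), ?_⟩
  funext x
  have h3 : algebraMap k[X] (RatFunc k) q * u x = ∑ j, algebraMap k[X] (RatFunc k) (p j) *
      algebraMap k[X] (RatFunc k) (b.e j x) := by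
    have h4 := ht x
    rw [Algebra.smul_def] at h4
    rw [← h4, hp]
    simp [Finset.sum_apply]
  simp only [Finset.sum_apply, Pi.smul_apply, smul_eq_mul, ev, hX]
  rw [eq_comm]
  calc ∑ j, (algebraMap k[X] (RatFunc k) q)⁻¹ * algebraMap k[X] (RatFunc k) (p j) *
        algebraMap k[X] (RatFunc k) (b.e j x)
      = (algebraMap k[X] (RatFunc k) q)⁻¹ * ∑ j, algebraMap k[X] (RatFunc k) (p j) *
        algebraMap k[X] (RatFunc k) (b.e j x) := by
        rw [Finset.mul_sum]; exact Finset.sum_congr rfl fun j _ => by ring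
    _ = u x := by rw [← h3, inv_mul_cancel_left₀ hq1]

/-- the number of basis vectors is the dimension of the generic kernel. -/
theorem finrank_generic (b : RBasis β (TanJ Jac) n) : Module.finrank (RatFunc k) (KerAt Jac (RatFunc.X : RatFunc k)) = n := by
  classical
  let f : Fin n → KerAt Jac (RatFunc.X : RatFunc k) := fun j =>
    ⟨ev (RatFunc.X : RatFunc k) (b.e j), ev_mem _ (b.mem j)⟩
  have hli : LinearIndependent (RatFunc k) f := by
    have := ev_li b (RatFunc.X : RatFunc k)
    exact LinearIndependent.of_comp (Submodule.subtype _) this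
  have hsp : ⊤ ≤ Submodule.span (RatFunc k) (Set.range f) := by
    rintro ⟨u, hu⟩ -
    obtain ⟨w, hw⟩ := span_generic b hu
    have : (⟨u, hu⟩ : KerAt Jac (RatFunc.X : RatFunc k)) = ∑ j, w j • f j := by
      apply Subtype.ext
      simpa [f] using hw
    rw [this]
    exact Submodule.sum_mem _ fun j _ => Submodule.smul_mem _ _ (Submodule.subset_span ⟨j, rfl⟩)
  have := Module.finrank_eq_card_basis (Module.Basis.mk hli hsp)
  simpa using this



end Values

/-! ### the language of `BmDefs_360` -/

open Crest.Agent.R270.BM_360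

section BM

variable {I : Type} {J : I → Type} [Fintype I] [∀ i, Fintype (J i)] {k : Type u} [Field k]
  {κ : Type v} [Field κ] [Algebra k κ]

/-- the Jacobian along `F` -/
def JacF (E : Set (MvPolynomial (Σ i, J i) k)) (F : ∀ i, J i → κ[X]) (p : E) (x : Σ i, J i) :
    κ[X] :=
  MvPolynomial.aeval (fun x : Σ i, J i => F x.1 x.2) (MvPolynomial.pderiv x p.1)

/-- tangent polynomial tuples along `F` -/
def TanM (E : Set (MvPolynomial (Σ i, J i) k)) (F : ∀ i, J i → κ[X]) :
    Submodule κ[X] ((Σ i, J i) → κ[X]) := TanJ (JacF E F)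

theorem mem_TanM {E : Set (MvPolynomial (Σ i, J i) k)} {F : ∀ i, J i → κ[X]}
    {t : (Σ i, J i) → κ[X]} : t ∈ TanM E F ↔ ∀ p ∈ E, ∑ x,
      MvPolynomial.aeval (fun x : Σ i, J i => F x.1 x.2) (MvPolynomial.pderiv x p) * t x = 0 :=
  ⟨fun h p hp => h ⟨p, hp⟩, fun h p => h p.1 p.2⟩

theorem sat_TanM (E : Set (MvPolynomial (Σ i, J i) k)) (F : ∀ i, J i → κ[X]) :
    Sat (TanM E F) := sat_TanJ _

/-- the point with parameter `s` -/
def pt {K : Type w} [CommRing K] [Algebra κ K] (F : ∀ i, J i → κ[X]) (s : K) : ∀ i, J i → K :=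
  fun i a => aeval s (F i a)

theorem mem_KerAt_JacF {E : Set (MvPolynomial (Σ i, J i) k)} {F : ∀ i, J i → κ[X]} {K : Type w}
    [CommRing K] [Algebra κ K] [Algebra k K] [IsScalarTower k κ K] {s : K}
    {u : (Σ i, J i) → K} : u ∈ KerAt (JacF E F) s ↔ ∀ p ∈ E, ∑ x,
      MvPolynomial.aeval (fun x : Σ i, J i => pt F s x.1 x.2) (MvPolynomial.pderiv x p) * u x
        = 0 := by
  have h : ∀ q : MvPolynomial (Σ i, J i) k,
      aeval s (MvPolynomial.aeval (fun x : Σ i, J i => F x.1 x.2) q) =
        MvPolynomial.aeval (fun x : Σ i, J i => pt F s x.1 x.2) q := by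
    intro q
    have h1 : ((aeval s : κ[X] →ₐ[κ] K).restrictScalars k).comp
        (MvPolynomial.aeval (fun x : Σ i, J i => F x.1 x.2)) =
        MvPolynomial.aeval (fun x : Σ i, J i => pt F s x.1 x.2) := by
      apply MvPolynomial.algHom_ext
      intro x
      simp [pt]
    exact DFunLike.congr_fun h1 q
  constructor
  · intro hu p hp
    have := hu ⟨p, hp⟩
    simpa only [JacF, h] using this
  · rintro hu ⟨p, hp⟩
    simpa only [JacF, h] using hu p hp

end BM

end Crest.Agent.R260.Frm3_428
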