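import Mathlib
import Crest.Agent.R260.Frm3_428
import Crest.Agent.R260.Der_169
import Crest.Agent.R260.QuadDefs_517

-- ▼ part R260/Cf1_703
section

/-!
# Row 260 (S0398), conic frame (helper703): from the sum of the degrees of the tangent lattice and
freeness at one point to the frame of the tangent bundle along a map of the line.
-/

set_option autoImplicit false
set_option linter.all false

noncomputable section

namespace Crest.Agent.R260.Cf_703

open Polynomial Module
open Crest.Agent.R270.BM_360 Crest.Agent.R260.Lin_678 Crest.Agent.R260.Frm1_428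
  Crest.Agent.R260.Frm2_428 Crest.Agent.R260.Frm3_428 Crest.Agent.R260.Der_169
  Crest.Agent.R260.QuadDefs_517 Crest.Agent.R270.Fr_928

universe u

variable {I : Type} {J : I → Type} [Fintype I] [∀ i, Fintype (J i)]
variable {k : Type u} [Field k]

/-- the shifts of the tangent lattice along `F`. -/
def bt {κ : Type u} [Field κ] (F : ∀ i, J i → κ[X]) : (Σ i, J i) → ℤ := fun x => (cls F x.1 : ℤ)

/-- **NUM at `F`**: the sum of the degrees of the tangent lattice is `(m + 1) e`. -/
def NumAt (D : CData k I J) {κ : Type u} [Field κ] [Algebra k κ] (F : ∀ i, J i → κ[X])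
    (e : ℕ) : Prop :=
  ∀ (n : ℕ) (b : RBasis (bt F) (TanM D.E F) n), ∑ j, b.a j = ((D.m + 1) * e : ℕ)

theorem mem_Sec_iff (D : CData k I J) {κ : Type u} [Field κ] [Algebra k κ]
    (F : ∀ i, J i → κ[X]) (t : (Σ i, J i) → κ[X]) :
    t ∈ Sec (bt F) (TanM D.E F) 0 ↔ (fun i a => t ⟨i, a⟩) ∈ TanL D.E F := by
  rw [mem_Sec, mem_TanM, mem_TanL]
  constructor
  · rintro ⟨h1, h2⟩
    refine ⟨fun i a => ?_, fun p hp => h1 p hp⟩
    have h3 := h2 ⟨i, a⟩
    rw [bt, sub_zero, dLe_nat_iff] at h3
    exact degree_le_of_natDegree_le h3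
  · rintro ⟨h1, h2⟩
    refine ⟨fun p hp => h2 p hp, fun x => ?_⟩
    rw [bt, sub_zero, dLe_nat_iff]
    exact natDegree_le_of_degree_le (h1 x.1 x.2)

/-- sections of degree `0` are `TanL`. -/
def secTan (D : CData k I J) {κ : Type u} [Field κ] [Algebra k κ]
    (F : ∀ i, J i → κ[X]) : Sec (bt F) (TanM D.E F) 0 ≃ₗ[κ] TanL D.E F where
  toFun t := ⟨fun i a => t.1 ⟨i, a⟩, (mem_Sec_iff D F t.1).1 t.2⟩
  invFun t := ⟨fun x => t.1 x.1 x.2, (mem_Sec_iff D F _).2 t.2⟩
  left_inv t := rfl
  right_inv t := rfl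
  map_add' s t := rfl
  map_smul' c t := rfl

/-- the rank of the tangent lattice. -/
theorem rank_eq (D : CData k I J) {κ : Type u} [Field κ] [Algebra k κ]
    {F : ∀ i, J i → κ[X]} (hF : IsMap D.E F) {n : ℕ} (b : RBasis (bt F) (TanM D.E F) n) :
    n = nn D := by
  have h1 := finrank_generic (P := D.E) (Jac := JacF D.E F) b
  have hX : ∀ p : κ[X], aeval (RatFunc.X : RatFunc κ) p = algebraMap κ[X] (RatFunc κ) p := by
    intro p
    rw [← RatFunc.algebraMap_X, aeval_algebraMap_apply, aeval_X_left_apply]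
  set v : ∀ i, J i → RatFunc κ := fun i a => algebraMap κ[X] (RatFunc κ) (F i a) with hv
  have hpt : Frm3_428.pt F (RatFunc.X : RatFunc κ) = v := by
    funext i a
    exact hX _
  have hon : OnX D.E v := by
    intro p hp
    have h2 := MvPolynomial.comp_aeval_apply (f := fun x : Σ i, J i => F x.1 x.2)
      (IsScalarTower.toAlgHom k κ[X] (RatFunc κ)) p
    rw [IsScalarTower.coe_toAlgHom'] at h2
    rw [hF.on p hp, map_zero] at h2
    exact h2.symm
  have hne : ∀ i, v i ≠ 0 := by
    intro i h0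
    have h3 := hF.cop i
    have h4 : ∀ a, F i a = 0 := by
      intro a
      have := congrFun h0 a
      simpa [hv] using this
    have h5 : Ideal.span (Set.range (F i)) = ⊥ := by
      rw [Ideal.span_eq_bot]
      rintro _ ⟨a, rfl⟩
      exact h4 a
    rw [Cop, h5] at h3
    exact bot_ne_top h3
  have h6 := D.tan_dim (RatFunc κ) v hon hne
  have h7 : finrank (RatFunc κ) (KerAt (JacF D.E F) (RatFunc.X : RatFunc κ)) =
      finrank (RatFunc κ) (TanSp D.E v) := by
    refine LinearEquiv.finrank_eq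
      { toFun := fun t => ⟨fun i a => t.1 ⟨i, a⟩, ?_⟩
        invFun := fun t => ⟨fun x => t.1 x.1 x.2, ?_⟩
        left_inv := fun t => rfl
        right_inv := fun t => rfl
        map_add' := fun s t => rfl
        map_smul' := fun c t => rfl }
    · have := t.2
      rw [mem_KerAt_JacF (k := k), hpt] at this
      exact this
    · rw [mem_KerAt_JacF (k := k), hpt]
      exact t.2
  rw [← h1, h7, h6, nn]

/-- **the frame from NUM and freeness**: if all degrees are `≥ 0`. -/
theorem frame_of_nonneg (D : CData k I J) {κ : Type u} [Field κ] [Algebra k κ]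
    {F : ∀ i, J i → κ[X]} (hF : IsMap D.E F) {e : ℕ} (hnum : NumAt D F e)
    {n : ℕ} (b : RBasis (bt F) (TanM D.E F) n) (ha : ∀ j, 0 ≤ b.a j) :
    finrank κ (TanL D.E F) = (D.m + 1) * e + nn D := by
  have h1 := sum_a b (c := 0) (fun j => by have := ha j; omega)
  rw [LinearEquiv.finrank_eq (secTan D F), hnum n b, rank_eq D hF b] at h1
  have : ((finrank κ (TanL D.E F) : ℕ) : ℤ) = (((D.m + 1) * e + nn D : ℕ) : ℤ) := by
    rw [h1]; push_cast; ring
  exact_mod_cast this

/-- the members of the basis are sections. -/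
theorem sections_indep (D : CData k I J) {κ : Type u} [Field κ] [Algebra k κ]
    {F : ∀ i, J i → κ[X]} (hF : IsMap D.E F)
    {n : ℕ} (b : RBasis (bt F) (TanM D.E F) n) (ha : ∀ j, 0 ≤ b.a j) :
    ∃ t : Fin (nn D) → ∀ i, J i → κ[X], (∀ j, t j ∈ TanL D.E F) ∧
      (∀ s : κ, LinearIndependent κ (fun j => fun x : Σ i, J i => (t j x.1 x.2).eval s)) := by
  obtain rfl := rank_eq D hF b
  refine ⟨fun j i a => b.e j ⟨i, a⟩, fun j => ?_, fun s => ?_⟩
  · exact (mem_Sec_iff D F (b.e j)).1 ⟨b.mem j, (b.deg j).mono (ha j)⟩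
  · have := values_li b (sat_TanM D.E F) (K := κ) s
    simpa only [coe_aeval_eq_eval] using this

/-- sections whose values at infinity are independent. -/
theorem sections_indep_inf (D : CData k I J) {κ : Type u} [Field κ] [Algebra k κ]
    {F : ∀ i, J i → κ[X]} (hF : IsMap D.E F)
    {n : ℕ} (b : RBasis (bt F) (TanM D.E F) n) (ha : ∀ j, 0 ≤ b.a j) :
    ∃ t : Fin (nn D) → ∀ i, J i → κ[X], (∀ j, t j ∈ TanL D.E F) ∧
      LinearIndependent κ (fun j => fun x : Σ i, J i => (t j x.1 x.2).coeff (cls F x.1)) := by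
  obtain rfl := rank_eq D hF b
  refine ⟨fun j i a => X ^ (b.a j).toNat * b.e j ⟨i, a⟩, fun j => ?_, ?_⟩
  · refine (mem_Sec_iff D F (X ^ (b.a j).toNat • b.e j)).1 ⟨(TanM D.E F).smul_mem _ (b.mem j), ?_⟩
    intro x
    have h1 := (b.deg j x).X_pow_mul (b.a j).toNat
    rw [Int.toNat_of_nonneg (ha j)] at h1
    rw [Pi.smul_apply, smul_eq_mul]
    exact h1.mono (by omega)
  · have h2 := b.lead_li
    convert h2 using 1
    funext j x
    simp only [lead]
    rw [← cz_nat, cz_X_pow_mul, Int.toNat_of_nonneg (ha j)]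
    rfl

end Crest.Agent.R260.Cf_703
end
end

-- ▼ part R260/Cf2_703

/-!
# Row 260 (S0398), conic frame (helper703), part 2: a map through a generic point is free.
-/

set_option autoImplicit false
set_option linter.all false

noncomputable section

namespace Crest.Agent.R260.Cf_703

open Polynomial Module
open Crest.Agent.R270.BM_360 Crest.Agent.R260.Lin_678 Crest.Agent.R260.Frm1_428
  Crest.Agent.R260.Frm2_428 Crest.Agent.R260.Frm3_428 Crest.Agent.R260.Der_169
  Crest.Agent.R260.QuadDefs_517 Crest.Agent.R270.Fr_928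

universe u

variable {I : Type} {J : I → Type} [Fintype I] [∀ i, Fintype (J i)]
variable {k : Type u} [Field k]

/-- derivative of a value at a constant point. -/
theorem eval_dX {F₀ κ : Type u} [Field F₀] [Field κ] [Algebra F₀ κ] (δ : Derivation F₀ κ κ)
    (p : κ[X]) (s : F₀) :
    (dX δ p).eval (algebraMap F₀ κ s) = δ (p.eval (algebraMap F₀ κ s)) := by
  induction p using Polynomial.induction_on' with
  | add p q hp hq => rw [map_add, eval_add, hp, hq, eval_add, map_add]
  | monomial n c =>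
    have h1 : dX δ (monomial n c) = monomial n (δ c) := by
      ext i
      rw [coeff_dX, coeff_monomial, coeff_monomial]
      split_ifs
      · rfl
      · exact map_zero δ
    rw [h1, eval_monomial, eval_monomial, δ.leibniz, ← map_pow, δ.map_algebraMap]
    simp [mul_comm]

/-- **a map through a generic point is free**: its tangent sections generate there. -/
theorem genAt_of_trge (D : CData k I J) {F₀ κ : Type u} [Field F₀] [Field κ] [CharZero F₀]
    [Algebra k F₀] [Algebra k κ] [Algebra F₀ κ] [IsScalarTower k F₀ κ]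
    {H : ∀ i, J i → κ[X]} (hH : IsMap D.E H) (s : F₀)
    (htr : TrGe F₀ (ent (QuadDefs_517.pt H (algebraMap F₀ κ s))) (nn D)) :
    GenAt (bt H) (TanM D.E H) 0 (algebraMap F₀ κ s) := by
  classical
  set a : κ := algebraMap F₀ κ s with ha
  -- the point
  set v : ∀ i, J i → κ := QuadDefs_517.pt H a with hv
  have hpt : Frm3_428.pt H a = v := by
    funext i b
    simp [Frm3_428.pt, hv, QuadDefs_517.pt, coe_aeval_eq_eval]
  have hev : ∀ q : MvPolynomial (Σ i, J i) k,
      (MvPolynomial.aeval (fun x : Σ i, J i => H x.1 x.2) q).eval a =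
        MvPolynomial.aeval (fun x : Σ i, J i => v x.1 x.2) q := by
    intro q
    have h1 : ((aeval a : κ[X] →ₐ[κ] κ).restrictScalars k).comp
        (MvPolynomial.aeval (fun x : Σ i, J i => H x.1 x.2)) =
        MvPolynomial.aeval (fun x : Σ i, J i => v x.1 x.2) := by
      apply MvPolynomial.algHom_ext
      intro x
      simp [hv, QuadDefs_517.pt, coe_aeval_eq_eval]
    have := DFunLike.congr_fun h1 q
    simpa [coe_aeval_eq_eval] using this
  have hon : OnX D.E v := by
    intro p hp
    rw [← hev, hH.on p hp, eval_zero]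
  have hne : ∀ i, v i ≠ 0 := by
    intro i h0
    have h3 : Ideal.span (Set.range (H i)) = ⊤ := hH.cop i
    have h4 : ∀ p ∈ Ideal.span (Set.range (H i)), p.eval a = 0 := by
      intro p hp
      induction hp using Submodule.span_induction with
      | mem x hx =>
        obtain ⟨b, rfl⟩ := hx
        exact congrFun h0 b
      | zero => exact eval_zero
      | add x y _ _ hx hy => rw [eval_add, hx, hy, add_zero]
      | smul c x _ hx => rw [smul_eq_mul, eval_mul, hx, mul_zero]
    have h5 := h4 1 (by rw [h3]; trivial)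
    rw [eval_one] at h5
    exact one_ne_zero h5
  -- the map of derivations
  let φ : Derivation F₀ κ κ →ₗ[κ] ((Σ i, J i) → κ) :=
    { toFun := fun δ x => δ (v x.1 x.2)
      map_add' := fun δ δ' => rfl
      map_smul' := fun c δ => rfl }
  let T : Submodule κ ((Σ i, J i) → κ) := KerAt (JacF D.E H) a
  have hTfin : finrank κ T ≤ nn D := by
    have h7 : finrank κ T = finrank κ (TanSp D.E v) := by
      refine LinearEquiv.finrank_eq
        { toFun := fun t => ⟨fun i b => t.1 ⟨i, b⟩, ?_⟩
          invFun := fun t => ⟨fun x => t.1 x.1 x.2, ?_⟩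
          left_inv := fun t => rfl
          right_inv := fun t => rfl
          map_add' := fun s t => rfl
          map_smul' := fun c t => rfl }
      · have := t.2
        rw [mem_KerAt_JacF (k := k), hpt] at this
        exact this
      · rw [mem_KerAt_JacF (k := k), hpt]
        exact t.2
    rw [h7, D.tan_dim κ v hon hne, nn]
  have hmem : ∀ δ : Derivation F₀ κ κ, (fun x : Σ i, J i => dF H δ x.1 x.2) ∈ TanM D.E H ∧
      VLe (bt H) 0 (fun x : Σ i, J i => dF H δ x.1 x.2) := by
    intro δ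
    have h1 : dF H (δ.restrictScalars k) ∈ TanL D.E H := dF_mem_TanL hH.on _
    have h2 : (fun x : Σ i, J i => dF H δ x.1 x.2) ∈ Sec (bt H) (TanM D.E H) 0 := by
      rw [mem_Sec_iff]
      exact h1
    exact mem_Sec.1 h2
  have hval : ∀ (δ : Derivation F₀ κ κ) (x : Σ i, J i), (dF H δ x.1 x.2).eval a = φ δ x := by
    intro δ x
    exact eval_dX δ (H x.1 x.2) s
  have hT : ∀ δ, φ δ ∈ T := by
    intro δ
    have h1 := ev_mem a (hmem δ).1
    have h2 : ev a (fun x : Σ i, J i => dF H δ x.1 x.2) = φ δ := by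
      funext x
      rw [ev, coe_aeval_eq_eval, hval]
    rw [← h2]
    exact h1
  obtain ⟨-, hsurj⟩ := exists_der φ (ent v) (by
    rintro δ hδ c ⟨i, b, rfl⟩
    exact congrFun hδ ⟨i, b⟩) T hT hTfin htr
  intro t ht
  have h1 : (fun x => (t x).eval a) ∈ T := by
    have h2 := ev_mem a ht
    have h3 : ev a t = fun x => (t x).eval a := by
      funext x
      rw [ev, coe_aeval_eq_eval]
    rw [← h3]
    exact h2
  obtain ⟨δ, hδ⟩ := hsurj _ h1
  refine ⟨fun x => dF H δ x.1 x.2, (hmem δ).1, (hmem δ).2, fun x => ?_⟩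
  rw [hval, hδ]

/-- the frame at `H`: bound of the sections and independent values at every point. -/
structure FrameAt (D : CData k I J) {κ : Type u} [Field κ] [Algebra k κ]
    (H : ∀ i, J i → κ[X]) (h : ℕ) : Prop where
  rank : finrank κ (TanL D.E H) = h
  values : ∀ t : κ, ∃ s : Fin (nn D) → ∀ i, J i → κ[X], (∀ j, s j ∈ TanL D.E H) ∧
    LinearIndependent κ (fun j => fun x : Σ i, J i => (s j x.1 x.2).eval t)
  values_inf : ∃ s : Fin (nn D) → ∀ i, J i → κ[X], (∀ j, s j ∈ TanL D.E H) ∧
    LinearIndependent κ (fun j => fun x : Σ i, J i => (s j x.1 x.2).coeff (cls H x.1))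

/-- **the frame along a map with `NUM` and one generic point.** -/
theorem frameAt (D : CData k I J) {F₀ κ : Type u} [Field F₀] [Field κ] [CharZero F₀]
    [Algebra k F₀] [Algebra k κ] [Algebra F₀ κ] [IsScalarTower k F₀ κ]
    {H : ∀ i, J i → κ[X]} (hH : IsMap D.E H) {e : ℕ} (hnum : NumAt D H e) (s : F₀)
    (htr : TrGe F₀ (ent (QuadDefs_517.pt H (algebraMap F₀ κ s))) (nn D)) :
    FrameAt D H ((D.m + 1) * e + nn D) := by
  obtain ⟨n, ⟨b⟩⟩ := exists_rBasis (bt H) (TanM D.E H)
  have ha := le_a_of_gen (sat_TanM D.E H) b (genAt_of_trge D hH s htr)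
  refine ⟨frame_of_nonneg D hH hnum b ha, fun t => ?_, sections_indep_inf D hH b ha⟩
  obtain ⟨f, h1, h2⟩ := sections_indep D hH b ha
  exact ⟨f, h1, h2 t⟩

/-- **conics.** -/
theorem frameAt_conic (D : CData k I J) {F₀ κ : Type u} [Field F₀] [Field κ] [CharZero F₀]
    [Algebra k F₀] [Algebra k κ] [Algebra F₀ κ] [IsScalarTower k F₀ κ]
    {H : ∀ i, J i → κ[X]} (hH : IsMap D.E H) (hnum : NumAt D H 2) (s : F₀)
    (htr : TrGe F₀ (ent (QuadDefs_517.pt H (algebraMap F₀ κ s))) (nn D)) :
    FrameAt D H (hc D) := by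
  have h1 := frameAt D hH hnum s htr
  have h2 : (D.m + 1) * 2 + nn D = hc D := by
    rw [nn, hc]; ring
  rwa [h2] at h1

/-- **lines.** -/
theorem frameAt_line (D : CData k I J) {F₀ κ : Type u} [Field F₀] [Field κ] [CharZero F₀]
    [Algebra k F₀] [Algebra k κ] [Algebra F₀ κ] [IsScalarTower k F₀ κ]
    {H : ∀ i, J i → κ[X]} (hH : IsMap D.E H) (hnum : NumAt D H 1) (s : F₀)
    (htr : TrGe F₀ (ent (QuadDefs_517.pt H (algebraMap F₀ κ s))) (nn D)) :
    FrameAt D H (hl D) := by
  have h1 := frameAt D hH hnum s htr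
  have h2 : (D.m + 1) * 1 + nn D = hl D := by
    rw [nn, hl]; ring
  rwa [h2] at h1

end Crest.Agent.R260.Cf_703
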