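import Mathlib
import Crest.Agent.R260.Tw1_979
import Crest.Prelude.Def_ChartRiemQK

-- ▼ part R260/TwPenA_389
section

/-!
Row 260, leaf TW-PEN (helper389), part A: pointwise algebra and the fibre direction.

* `alg` : `∑ ζ_a ζ_b J_aᵀ τ_b = 0` on the null vectors `ζ = nn w` iff `τ_b = G J_b K`.
* `fib` : an entire function of growth `|w|²` is `∑ s_a nn_a(w)`, with explicit `s_a`.
* `lam`, `mu` : `∑ ζ_a c_ab = lam ζ_b + mu ζ'_b` for skew `c`.
-/

set_option autoImplicit false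
set_option linter.unusedSectionVars false
set_option linter.unusedSimpArgs false

open Complex Matrix
open scoped ContDiff Topology
open Crest.Agent.R260.Tw_979

noncomputable section

namespace Crest.Agent.R260.TwPen_389

section Alg

variable {ι : Type*} [Fintype ι] [DecidableEq ι]

/-- `N(ζ) = ∑ ζ_a J_a` -/
def Nq (J : Fin 3 → Matrix ι ι ℂ) (z : Fin 3 → ℂ) : Matrix ι ι ℂ := ∑ a, z a • J a

lemma Nq_apply (J : Fin 3 → Matrix ι ι ℂ) (z : Fin 3 → ℂ) (i j : ι) :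
    Nq J z i j = ∑ a, z a * J a i j := by
  simp [Nq, Matrix.sum_apply]

/-- the quadratic expression `∑ ζ_a ζ_b J_aᵀ τ_b` -/
def qd (J : Fin 3 → Matrix ι ι ℂ) (τ : Fin 3 → ι → ℂ) (z : Fin 3 → ℂ) : ι → ℂ :=
  (Nq J z)ᵀ *ᵥ (∑ b, z b • τ b)

lemma qd_apply (J : Fin 3 → Matrix ι ι ℂ) (τ : Fin 3 → ι → ℂ) (z : Fin 3 → ℂ) (j : ι) :
    qd J τ z j = ∑ i, Nq J z i j * ∑ b, z b * τ b i := by
  simp [qd, Matrix.mulVec, dotProduct, Matrix.transpose_apply]

lemma qd_eq (J : Fin 3 → Matrix ι ι ℂ) (τ : Fin 3 → ι → ℂ) (z : Fin 3 → ℂ) :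
    qd J τ z = ∑ a, ∑ b, (z a * z b) • ((J a)ᵀ *ᵥ τ b) := by
  unfold qd Nq
  rw [Matrix.transpose_sum, Matrix.sum_mulVec]
  refine Finset.sum_congr rfl fun a _ => ?_
  rw [Matrix.transpose_smul, Matrix.smul_mulVec, Matrix.mulVec_sum, Finset.smul_sum]
  refine Finset.sum_congr rfl fun b _ => ?_
  rw [Matrix.mulVec_smul, smul_smul]

/-- **Algebra of the `(0,1)`-part**: existence. -/
theorem alg {G : Matrix ι ι ℂ} (hG : IsUnit G.det) {J : Fin 3 → Matrix ι ι ℂ}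
    (hsq : ∀ a, J a * J a = -1) (hadj : ∀ a, (J a)ᵀ * G = -(G * J a)) {τ : Fin 3 → ι → ℂ}
    (h1 : qd J τ (nn 1) = 0) (h2 : qd J τ (nn (-1)) = 0)
    (h3 : qd J τ (nn I) = 0) (h4 : qd J τ (nn (-I)) = 0) (b : Fin 3) :
    τ b = (G * J b) *ᵥ (-(J 0 *ᵥ (G⁻¹ *ᵥ τ 0))) := by
  have hGG : G * G⁻¹ = 1 := Matrix.mul_nonsing_inv G hG
  have e1 : (J 0)ᵀ *ᵥ τ 0 = (J 2)ᵀ *ᵥ τ 2 := by
    rw [qd_eq] at h1 h2
    have h := congrArg₂ (· + ·) h1 h2
    simp only [Fin.sum_univ_three, nn, Matrix.cons_val_zero, Matrix.cons_val_one,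
      Matrix.cons_val, add_zero] at h
    funext i
    have hi := congrFun h i
    simp only [Pi.add_apply, Pi.smul_apply, smul_eq_mul, Pi.zero_apply] at hi
    have h8 : (8 : ℂ) * (((J 0)ᵀ *ᵥ τ 0) i - ((J 2)ᵀ *ᵥ τ 2) i) = 0 := by
      linear_combination hi - 8 * ((J 2)ᵀ *ᵥ τ 2) i * I_sq
    have : ((J 0)ᵀ *ᵥ τ 0) i - ((J 2)ᵀ *ᵥ τ 2) i = 0 := by
      rcases mul_eq_zero.1 h8 with h | h
      · norm_num at h
      · exact h
    exact sub_eq_zero.1 this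
  have e2 : (J 0)ᵀ *ᵥ τ 0 = (J 1)ᵀ *ᵥ τ 1 := by
    rw [qd_eq] at h3 h4
    have h := congrArg₂ (· + ·) h3 h4
    simp only [Fin.sum_univ_three, nn, Matrix.cons_val_zero, Matrix.cons_val_one,
      Matrix.cons_val, add_zero, neg_sq, I_sq] at h
    funext i
    have hi := congrFun h i
    simp only [Pi.add_apply, Pi.smul_apply, smul_eq_mul, Pi.zero_apply] at hi
    have h8 : (8 : ℂ) * (((J 0)ᵀ *ᵥ τ 0) i - ((J 1)ᵀ *ᵥ τ 1) i) = 0 := by
      linear_combination -hi + 8 * ((J 0)ᵀ *ᵥ τ 0) i * I_sq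
    have : ((J 0)ᵀ *ᵥ τ 0) i - ((J 1)ᵀ *ᵥ τ 1) i = 0 := by
      rcases mul_eq_zero.1 h8 with h | h
      · norm_num at h
      · exact h
    exact sub_eq_zero.1 this
  have hJT : ∀ a, (J a)ᵀ * (J a)ᵀ = -1 := by
    intro a
    rw [← Matrix.transpose_mul, hsq, Matrix.transpose_neg, Matrix.transpose_one]
  have hall : ∀ b, (J b)ᵀ *ᵥ τ b = (J 0)ᵀ *ᵥ τ 0 := by
    intro b
    fin_cases b
    · rfl
    · exact e2.symm
    · exact e1.symm
  -- `τ_b = - J_bᵀ (J_0ᵀ τ_0)`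
  have hb : τ b = -((J b)ᵀ *ᵥ ((J 0)ᵀ *ᵥ τ 0)) := by
    rw [← hall b, Matrix.mulVec_mulVec, hJT b, Matrix.neg_mulVec, Matrix.one_mulVec, neg_neg]
  have h0 : (J 0)ᵀ *ᵥ τ 0 = -(G *ᵥ (J 0 *ᵥ (G⁻¹ *ᵥ τ 0))) := by
    have : (J 0)ᵀ *ᵥ τ 0 = ((J 0)ᵀ * G) *ᵥ (G⁻¹ *ᵥ τ 0) := by
      rw [Matrix.mulVec_mulVec, Matrix.mul_assoc, hGG, Matrix.mul_one]
    rw [this, hadj 0, Matrix.neg_mulVec]
    simp only [Matrix.mulVec_mulVec, Matrix.mul_assoc]
  rw [hb, h0]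
  have : (J b)ᵀ *ᵥ (-(G *ᵥ (J 0 *ᵥ (G⁻¹ *ᵥ τ 0)))) =
      -(((J b)ᵀ * G) *ᵥ (J 0 *ᵥ (G⁻¹ *ᵥ τ 0))) := by
    rw [Matrix.mulVec_neg, Matrix.mulVec_mulVec]
  rw [this, hadj b, Matrix.neg_mulVec, Matrix.mulVec_neg]
  simp



end Alg

section Fibre

/-- an entire function with `|f w| ≤ C (1 + |w|²)` is a polynomial of degree `≤ 2`. -/
theorem quad {f : ℂ → ℂ} (hf : Differentiable ℂ f) {C : ℝ}
    (hC : ∀ w, ‖f w‖ ≤ C * (1 + ‖w‖ ^ 2)) :
    ∃ a0 a1 a2 : ℂ, ∀ w, f w = a0 + a1 * w + a2 * w ^ 2 := by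
  have hd : ∀ h : ℂ → ℂ, Differentiable ℂ h → Differentiable ℂ (dslope h 0) := by
    intro h hh
    have := (Complex.differentiableOn_dslope (s := Set.univ) (c := (0 : ℂ)) (f := h)
      Filter.univ_mem).2 hh.differentiableOn
    exact differentiableOn_univ.1 this
  have hC0 : 0 ≤ C := by
    have := (norm_nonneg _).trans (hC 0)
    simpa using this
  set f1 := dslope f 0 with hf1
  set f2 := dslope f1 0 with hf2
  have hf1d := hd f hf
  have hf2d := hd f1 hf1d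
  have e1 : ∀ w, f w = f 0 + w * f1 w := by
    intro w
    have := sub_smul_dslope f 0 w
    rw [smul_eq_mul, sub_zero] at this
    rw [hf1, this]; ring
  have e2 : ∀ w, f1 w = f1 0 + w * f2 w := by
    intro w
    have := sub_smul_dslope f1 0 w
    rw [smul_eq_mul, sub_zero] at this
    rw [hf2, this]; ring
  -- `f2` is bounded
  obtain ⟨B, hB⟩ := (isCompact_closedBall (0 : ℂ) 1).exists_bound_of_continuousOn
    hf2d.continuous.continuousOn
  have hbd : ∀ w, ‖f2 w‖ ≤ max B (2 * C + ‖f 0‖ + ‖f1 0‖) := by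
    intro w
    by_cases hw : ‖w‖ ≤ 1
    · exact (hB w (by simpa using hw)).trans (le_max_left _ _)
    · push Not at hw
      refine le_trans ?_ (le_max_right _ _)
      have hw0 : w ≠ 0 := by
        rintro rfl; simp at hw; linarith
      have hwn : 0 < ‖w‖ := norm_pos_iff.2 hw0
      have h3 : w ^ 2 * f2 w = f w - f 0 - w * f1 0 := by
        rw [e1 w, e2 w]; ring
      have h4 : ‖w‖ ^ 2 * ‖f2 w‖ ≤ C * (1 + ‖w‖ ^ 2) + ‖f 0‖ + ‖w‖ * ‖f1 0‖ := by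
        have : ‖w‖ ^ 2 * ‖f2 w‖ = ‖f w - f 0 - w * f1 0‖ := by
          rw [← h3, norm_mul, norm_pow]
        rw [this]
        calc ‖f w - f 0 - w * f1 0‖ ≤ ‖f w - f 0‖ + ‖w * f1 0‖ := norm_sub_le _ _
          _ ≤ ‖f w‖ + ‖f 0‖ + ‖w‖ * ‖f1 0‖ := by
              rw [norm_mul]; gcongr; exact norm_sub_le _ _
          _ ≤ _ := by gcongr; exact hC w
      have hsq : 1 ≤ ‖w‖ ^ 2 := one_le_pow₀ hw.le
      have hle : ‖w‖ ≤ ‖w‖ ^ 2 := by nlinarith
      have h5 : ‖w‖ ^ 2 * ‖f2 w‖ ≤ ‖w‖ ^ 2 * (2 * C + ‖f 0‖ + ‖f1 0‖) := by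
        refine h4.trans ?_
        have a1 : C * (1 + ‖w‖ ^ 2) ≤ ‖w‖ ^ 2 * (2 * C) := by nlinarith
        have a2 : ‖f 0‖ ≤ ‖w‖ ^ 2 * ‖f 0‖ := by nlinarith [norm_nonneg (f 0)]
        have a3 : ‖w‖ * ‖f1 0‖ ≤ ‖w‖ ^ 2 * ‖f1 0‖ :=
          mul_le_mul_of_nonneg_right hle (norm_nonneg _)
        linarith
      exact le_of_mul_le_mul_left h5 (by positivity)
  have hconst : ∀ w, f2 w = f2 0 := by
    intro w
    refine hf2d.apply_eq_apply_of_bounded ?_ w 0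
    rw [isBounded_iff_forall_norm_le]
    exact ⟨_, by rintro _ ⟨w, rfl⟩; exact hbd w⟩
  refine ⟨f 0, f1 0, f2 0, fun w => ?_⟩
  rw [e1 w, e2 w, hconst w]; ring







end Fibre

section Lam

/-- `lam` for a skew `c` -/
def lam (c : Fin 3 → Fin 3 → ℝ) (w : ℂ) : ℂ :=
  -w * (c 0 1 : ℂ) + I * w * (c 0 2 : ℂ) - I * (c 1 2 : ℂ)

/-- `mu` for a skew `c` -/
def mu (c : Fin 3 → Fin 3 → ℝ) (w : ℂ) : ℂ :=
  (1 + w ^ 2) / 2 * (c 0 1 : ℂ) + I * (1 - w ^ 2) / 2 * (c 0 2 : ℂ) + I * w * (c 1 2 : ℂ)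

theorem sum_nn_c {c : Fin 3 → Fin 3 → ℝ} (hc : ∀ a b, c a b = -c b a) (w : ℂ) (b : Fin 3) :
    ∑ a, nn w a * (c a b : ℂ) = lam c w * nn w b + mu c w * nd w b := by
  have h00 : c 0 0 = 0 := by linarith [hc 0 0]
  have h11 : c 1 1 = 0 := by linarith [hc 1 1]
  have h22 : c 2 2 = 0 := by linarith [hc 2 2]
  have h10 := hc 1 0
  have h20 := hc 2 0
  have h21 := hc 2 1
  fin_cases b
  · simp only [Fin.sum_univ_three, lam, mu, nn, nd, Matrix.cons_val_zero, Matrix.cons_val_one,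
      Matrix.cons_val, h00, h10, h20, Fin.zero_eta]
    push_cast
    ring
  · simp only [Fin.sum_univ_three, lam, mu, nn, nd, Matrix.cons_val_zero, Matrix.cons_val_one,
      Matrix.cons_val, h11, h10, h21, Fin.mk_one]
    push_cast
    ring
  · simp only [Fin.sum_univ_three, lam, mu, nn, nd, Matrix.cons_val_zero, Matrix.cons_val_one,
      Matrix.cons_val, h22, h10, h21, Fin.reduceFinMk]
    push_cast
    linear_combination (-(w + w ^ 3) * (c 0 2 : ℂ) + (1 + w ^ 2) * (c 1 2 : ℂ) 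
      - w * (1 - w ^ 2) * (c 0 2 : ℂ) - 2 * w ^ 2 * (c 1 2 : ℂ)) * I_sq


end Lam

end Crest.Agent.R260.TwPen_389
end
end

-- ▼ part R260/TwPenB_389

/-!
Row 260, leaf TW-PEN (helper389), part B: a holomorphic section of `L` over `U × ℙ¹` is
`f x w = ∑ s_a(x) nn_a(w)` with `s` a solution of the twistor equation
`∇_i s_b = g(∂_i, J_b K)`.
-/

set_option autoImplicit false

open Complex Matrix
open scoped ContDiff Topology
open Crest.GeometryTopology.CoordMetric Crest.GeometryTopology.ChartRiem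
open Crest.Agent.R260.Tw_979

noncomputable section

namespace Crest.Agent.R260.TwPen_389

variable {n : ℕ}

/-- complexification of a real matrix -/
def cm (A : Matrix (Fin n) (Fin n) ℝ) : Matrix (Fin n) (Fin n) ℂ := A.map (fun r : ℝ => (r : ℂ))

lemma cm_apply (A : Matrix (Fin n) (Fin n) ℝ) (i j : Fin n) : cm A i j = (A i j : ℂ) := rfl

lemma cm_mul (A B : Matrix (Fin n) (Fin n) ℝ) : cm (A * B) = cm A * cm B := by
  ext i j
  simp [cm, Matrix.mul_apply]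

lemma cm_neg (A : Matrix (Fin n) (Fin n) ℝ) : cm (-A) = -cm A := by
  ext i j
  simp [cm]

lemma cm_one : cm (1 : Matrix (Fin n) (Fin n) ℝ) = 1 := by
  ext i j
  by_cases h : i = j
  · subst h; simp [cm]
  · simp [cm, h]

lemma cm_transpose (A : Matrix (Fin n) (Fin n) ℝ) : cm Aᵀ = (cm A)ᵀ := rfl

lemma cm_inv {A : Matrix (Fin n) (Fin n) ℝ} (h : IsUnit A.det) : (cm A)⁻¹ = cm A⁻¹ := by
  apply Matrix.inv_eq_right_inv
  rw [← cm_mul, Matrix.mul_nonsing_inv A h, cm_one]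

lemma cm_det {A : Matrix (Fin n) (Fin n) ℝ} (h : IsUnit A.det) : IsUnit (cm A).det := by
  rw [← Matrix.isUnit_iff_isUnit_det]
  refine IsUnit.of_mul_eq_one (cm A⁻¹) ?_
  rw [← cm_mul, Matrix.mul_nonsing_inv A h, cm_one]

/-- complex valued partial derivative -/
def cpd (i : Fin n) (f : EuclideanSpace ℝ (Fin n) → ℂ) (x : EuclideanSpace ℝ (Fin n)) : ℂ :=
  fderiv ℝ f x (EuclideanSpace.single i 1)

/-- local data: a metric, a quaternionic frame and its connection coefficients -/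
structure QH (g : MetricField n) (J : Fin 3 → EuclideanSpace ℝ (Fin n) → Matrix (Fin n) (Fin n) ℝ)
    (c : EuclideanSpace ℝ (Fin n) → Fin n → Fin 3 → Fin 3 → ℝ)
    (U : Set (EuclideanSpace ℝ (Fin n))) : Prop where
  riem : IsRiemannianOn g U
  smooth : ∀ a l p, ContDiffOn ℝ ∞ (fun y => J a y l p) U
  sq : ∀ x ∈ U, ∀ a, J a x * J a x = -1
  mul : ∀ x ∈ U, J 0 x * J 1 x = J 2 x ∧ J 1 x * J 0 x = -J 2 x
  orth : ∀ x ∈ U, ∀ a, (J a x)ᵀ * g x * J a x = g x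
  skew : ∀ x ∈ U, ∀ i a b, c x i a b = -c x i b a
  csm : ∀ i a b, ContDiffOn ℝ ∞ (fun y => c y i a b) U

namespace QH

variable {g : MetricField n} {J : Fin 3 → EuclideanSpace ℝ (Fin n) → Matrix (Fin n) (Fin n) ℝ}
  {c : EuclideanSpace ℝ (Fin n) → Fin n → Fin 3 → Fin 3 → ℝ}
  {U : Set (EuclideanSpace ℝ (Fin n))} {x : EuclideanSpace ℝ (Fin n)}

lemma isOpen (h : QH g J c U) : IsOpen U := h.riem.isOpen

lemma det (h : QH g J c U) (hx : x ∈ U) : IsUnit (g x).det :=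
  isUnit_iff_ne_zero.2 (h.riem.posDef x hx).det_pos.ne'

lemma cdet (h : QH g J c U) (hx : x ∈ U) : IsUnit (cm (g x)).det := cm_det (h.det hx)

lemma csq (h : QH g J c U) (hx : x ∈ U) (a : Fin 3) : cm (J a x) * cm (J a x) = -1 := by
  rw [← cm_mul, h.sq x hx, cm_neg, cm_one]

lemma adj (h : QH g J c U) (hx : x ∈ U) (a : Fin 3) : (J a x)ᵀ * g x = -(g x * J a x) := by
  have h1 : (J a x)ᵀ * g x * J a x * J a x = g x * J a x := by rw [h.orth x hx]
  rw [Matrix.mul_assoc ((J a x)ᵀ * g x), h.sq x hx] at h1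
  rw [← h1]; simp

lemma cadj (h : QH g J c U) (hx : x ∈ U) (a : Fin 3) :
    (cm (J a x))ᵀ * cm (g x) = -(cm (g x) * cm (J a x)) := by
  rw [← cm_transpose, ← cm_mul, h.adj hx, cm_neg, cm_mul]

lemma qt (h : QH g J c U) (hx : x ∈ U) : QT (fun a => J a x) :=
  ⟨h.sq x hx, (h.mul x hx).1, (h.mul x hx).2⟩




lemma mono {V : Set (EuclideanSpace ℝ (Fin n))} (h : QH g J c U) (hV : IsOpen V) (hVU : V ⊆ U) :
    QH g J c V where
  riem := ⟨hV, fun i j => (h.riem.contDiffOn i j).mono hVU, fun x hx => h.riem.posDef x (hVU hx)⟩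
  smooth a l p := (h.smooth a l p).mono hVU
  sq x hx := h.sq x (hVU hx)
  mul x hx := h.mul x (hVU hx)
  orth x hx := h.orth x (hVU hx)
  skew x hx := h.skew x (hVU hx)
  csm i a b := (h.csm i a b).mono hVU

end QH

/-- `(∇_i s)_b` -/
def nab (c : EuclideanSpace ℝ (Fin n) → Fin n → Fin 3 → Fin 3 → ℝ)
    (s : Fin 3 → EuclideanSpace ℝ (Fin n) → ℂ) (x : EuclideanSpace ℝ (Fin n)) (b : Fin 3)
    (i : Fin n) : ℂ :=
  cpd i (s b) x + ∑ a, s a x * (c x i a b : ℂ)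

/-- complex solutions `(s, K)` of the twistor equation on `U` -/
structure IsTw (g : MetricField n)
    (J : Fin 3 → EuclideanSpace ℝ (Fin n) → Matrix (Fin n) (Fin n) ℝ)
    (c : EuclideanSpace ℝ (Fin n) → Fin n → Fin 3 → Fin 3 → ℝ)
    (U : Set (EuclideanSpace ℝ (Fin n))) (s : Fin 3 → EuclideanSpace ℝ (Fin n) → ℂ)
    (K : EuclideanSpace ℝ (Fin n) → Fin n → ℂ) : Prop where
  ssm : ∀ a, ContDiffOn ℝ ∞ (s a) U
  ksm : ∀ k, ContDiffOn ℝ ∞ (fun x => K x k) U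
  eq : ∀ x ∈ U, ∀ b i, nab c s x b i = ∑ k, ((g x * J b x) i k : ℂ) * K x k

/-- the horizontal derivative of a section of `L` in the frame `nn` -/
def hor (c : EuclideanSpace ℝ (Fin n) → Fin n → Fin 3 → Fin 3 → ℝ)
    (f : EuclideanSpace ℝ (Fin n) → ℂ → ℂ) (x : EuclideanSpace ℝ (Fin n)) (w : ℂ) (i : Fin n) : ℂ :=
  cpd i (fun y => f y w) x - mu (c x i) w * deriv (f x) w - lam (c x i) w * f x w

/-- holomorphic sections of `L` over `U × ℙ¹` -/
structure HSec (J : Fin 3 → EuclideanSpace ℝ (Fin n) → Matrix (Fin n) (Fin n) ℝ)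
    (c : EuclideanSpace ℝ (Fin n) → Fin n → Fin 3 → Fin 3 → ℝ)
    (U : Set (EuclideanSpace ℝ (Fin n))) (f : EuclideanSpace ℝ (Fin n) → ℂ → ℂ) : Prop where
  sm : ∀ w, ContDiffOn ℝ ∞ (fun x => f x w) U
  ent : ∀ x ∈ U, Differentiable ℂ (f x)
  gr : ∀ x ∈ U, ∃ C : ℝ, ∀ w, ‖f x w‖ ≤ C * (1 + ‖w‖ ^ 2)
  eq : ∀ x ∈ U, ∀ w j, ∑ i, Nq (fun a => cm (J a x)) (nn w) i j * hor c f x w i = 0

section Calc

lemma hasDerivAt_nn (w : ℂ) (a : Fin 3) : HasDerivAt (fun w => nn w a) (nd w a) w := by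
  fin_cases a
  · simp only [nn, nd, Fin.zero_eta, Matrix.cons_val_zero]
    simpa using (hasDerivAt_id w).const_mul (-2 : ℂ)
  · simp only [nn, nd, Fin.mk_one, Matrix.cons_val_one, Matrix.cons_val_zero]
    have := ((hasDerivAt_id w).pow 2).const_sub (1 : ℂ)
    refine (this.congr_deriv ?_)
    simp
  · simp only [nn, nd, Fin.reduceFinMk, Matrix.cons_val]
    have := (((hasDerivAt_id w).pow 2).const_add (1 : ℂ)).const_mul I
    refine (this.congr_deriv ?_)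
    simp; ring

lemma deriv_sum_nn (s : Fin 3 → ℂ) (w : ℂ) :
    deriv (fun w => ∑ a, s a * nn w a) w = ∑ a, s a * nd w a := by
  refine HasDerivAt.deriv ?_
  refine HasDerivAt.fun_sum fun a _ => ?_
  exact (hasDerivAt_nn w a).const_mul (s a)

lemma cpd_sum {s : Fin 3 → EuclideanSpace ℝ (Fin n) → ℂ} {x : EuclideanSpace ℝ (Fin n)}
    (h : ∀ a, DifferentiableAt ℝ (s a) x) (i : Fin n) (z : Fin 3 → ℂ) :
    cpd i (fun y => ∑ a, s a y * z a) x = ∑ a, cpd i (s a) x * z a := by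
  unfold cpd
  rw [fderiv_fun_sum (fun a _ => (h a).mul_const (z a))]
  rw [_root_.sum_apply]
  refine Finset.sum_congr rfl fun a _ => ?_
  have : HasFDerivAt (fun y => s a y * z a) (z a • fderiv ℝ (s a) x) x :=
    (h a).hasFDerivAt.mul_const (z a)
  rw [this.fderiv]
  simp [mul_comm]

lemma cpd_congr {f k : EuclideanSpace ℝ (Fin n) → ℂ} {x : EuclideanSpace ℝ (Fin n)}
    (h : f =ᶠ[𝓝 x] k) (i : Fin n) : cpd i f x = cpd i k x := by
  unfold cpd; rw [h.fderiv_eq]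

/-- **horizontal derivative of `∑ s_a nn_a`** -/
theorem hor_sum {c : EuclideanSpace ℝ (Fin n) → Fin n → Fin 3 → Fin 3 → ℝ}
    {U : Set (EuclideanSpace ℝ (Fin n))} (hU : IsOpen U)
    {f : EuclideanSpace ℝ (Fin n) → ℂ → ℂ} {s : Fin 3 → EuclideanSpace ℝ (Fin n) → ℂ}
    (hf : ∀ x ∈ U, ∀ w, f x w = ∑ a, s a x * nn w a)
    {x : EuclideanSpace ℝ (Fin n)} (hx : x ∈ U) (hs : ∀ a, DifferentiableAt ℝ (s a) x)
    (hc : ∀ i a b, c x i a b = -c x i b a) (w : ℂ) (i : Fin n) :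
    hor c f x w i = ∑ b, nn w b * nab c s x b i := by
  have h1 : cpd i (fun y => f y w) x = ∑ a, cpd i (s a) x * nn w a := by
    rw [← cpd_sum hs]
    apply cpd_congr
    filter_upwards [hU.mem_nhds hx] with y hy
    exact hf y hy w
  have h2 : deriv (f x) w = ∑ a, s a x * nd w a := by
    rw [← deriv_sum_nn]
    congr 1
    funext w
    exact hf x hx w
  have h3 := fun b => sum_nn_c (c := c x i) (fun a b => hc i a b) w b
  unfold hor nab
  rw [h1, h2, hf x hx w]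
  have h4 : mu (c x i) w * ∑ a, s a x * nd w a + lam (c x i) w * ∑ a, s a x * nn w a =
      ∑ b, s b x * ∑ a, nn w a * (c x i a b : ℂ) := by
    rw [Finset.mul_sum, Finset.mul_sum, ← Finset.sum_add_distrib]
    refine Finset.sum_congr rfl fun b _ => ?_
    rw [h3 b]; ring
  have h5 : ∑ b, s b x * ∑ a, nn w a * (c x i a b : ℂ) =
      -∑ b, nn w b * ∑ a, s a x * (c x i a b : ℂ) := by
    simp only [Finset.mul_sum]
    rw [Finset.sum_comm, ← Finset.sum_neg_distrib]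
    refine Finset.sum_congr rfl fun b _ => ?_
    rw [← Finset.sum_neg_distrib]
    refine Finset.sum_congr rfl fun a _ => ?_
    rw [hc i b a]; push_cast; ring
  have h6 : ∑ a, cpd i (s a) x * nn w a = ∑ b, nn w b * cpd i (s b) x :=
    Finset.sum_congr rfl fun b _ => mul_comm _ _
  simp only [mul_add, Finset.sum_add_distrib]
  rw [h6]
  linear_combination -h4 - h5

end Calc

section Smooth

variable {U : Set (EuclideanSpace ℝ (Fin n))}






end Smooth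

/-- the vector field attached to a solution of the twistor equation -/
def KK (g : MetricField n) (J : Fin 3 → EuclideanSpace ℝ (Fin n) → Matrix (Fin n) (Fin n) ℝ)
    (c : EuclideanSpace ℝ (Fin n) → Fin n → Fin 3 → Fin 3 → ℝ)
    (s : Fin 3 → EuclideanSpace ℝ (Fin n) → ℂ) (x : EuclideanSpace ℝ (Fin n)) : Fin n → ℂ :=
  -(cm (J 0 x) *ᵥ (cm (g x)⁻¹ *ᵥ nab c s x 0))

section Main

variable {g : MetricField n} {J : Fin 3 → EuclideanSpace ℝ (Fin n) → Matrix (Fin n) (Fin n) ℝ}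
  {c : EuclideanSpace ℝ (Fin n) → Fin n → Fin 3 → Fin 3 → ℝ}
  {U : Set (EuclideanSpace ℝ (Fin n))}


lemma mulVec_cm (x : EuclideanSpace ℝ (Fin n)) (b : Fin 3) (K : Fin n → ℂ) (i : Fin n) :
    ((cm (g x) * cm (J b x)) *ᵥ K) i = ∑ k, ((g x * J b x) i k : ℂ) * K k := by
  rw [← cm_mul]
  simp [Matrix.mulVec, dotProduct, cm_apply]

/-- the equation at one point, from the four test vectors -/
theorem tw_of_qd (h : QH g J c U) {s : Fin 3 → EuclideanSpace ℝ (Fin n) → ℂ}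
    {x : EuclideanSpace ℝ (Fin n)} (hx : x ∈ U)
    (hq : ∀ w, qd (fun a => cm (J a x)) (fun b => nab c s x b) (nn w) = 0) (b : Fin 3)
    (i : Fin n) : nab c s x b i = ∑ k, ((g x * J b x) i k : ℂ) * KK g J c s x k := by
  have := alg (h.cdet hx) (fun a => h.csq hx a) (fun a => h.cadj hx a)
    (hq 1) (hq (-1)) (hq I) (hq (-I)) b
  rw [← mulVec_cm, KK, ← cm_inv (h.det hx)]
  exact congrFun this i




end Main

end Crest.Agent.R260.TwPen_389
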