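import Mathlib
import Crest.Agent.R275.Core_144

-- ▼ part R260/Pair1_764
section

/-!
# R260 (S0398), AG-PAIR, part 1 (helper764): complexification lemma

`totally_real_zero` : a holomorphic function on a polydisc of `ℂ^m` centred at a real point which
vanishes at the real points of the polydisc is zero.
`anti_diag_zero`    : `h` holomorphic near `(a, conj a)` with `h (ζ, conj ζ) = 0` is zero near
`(a, conj a)`.
-/

set_option autoImplicit false

open Set Filter Topology Complex Metric
open scoped ComplexConjugate

namespace Crest.Agent.R260.Pair_764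



/-- coordinatewise conjugation -/
def cj {m : ℕ} (z : Fin m → ℂ) : Fin m → ℂ := fun i => conj (z i)


end Crest.Agent.R260.Pair_764
end

-- ▼ part R260/Pair2_764

/-!
# R260 (S0398), AG-PAIR, part 2 (helper764): the anti-diagonal of a complex manifold

`M` connected complex manifold (`Atl n M`), `σ : M → M` a continuous antiholomorphic involution.
`anti_diag_manifold` : a family of local holomorphic functions on `M × M` with a chart independent
zero set, vanishing at `(z, σ z)` for `z` in a non-empty open set, vanishes on `M × M`.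
`antiHol_of_real`    : antiholomorphic = real derivative anticommutes with `i`.
`poly_anti_diag`     : the same for polynomials in homogeneous coordinates.
-/

set_option autoImplicit false

open Set Filter Topology Complex Metric
open scoped ComplexConjugate

namespace Crest.Agent.R260.Pair_764

open Crest.Agent.R275.Geo Crest.Agent.R275.Core144

/-- identity theorem on a convex open set -/
theorem convex_zero {E : Type*} [NormedAddCommGroup E] [NormedSpace ℂ E] {U V : Set E}
    (hU : IsOpen U) (hc : Convex ℝ U) (f : E → ℂ) (hf : DifferentiableOn ℂ f U)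
    (hV : IsOpen V) (hne : (V ∩ U).Nonempty) (h0 : ∀ x ∈ V ∩ U, f x = 0) : ∀ x ∈ U, f x = 0 := by
  obtain ⟨p, hpV, hpU⟩ := hne
  intro q hq
  let γ : ℂ → E := fun t => p + t • (q - p)
  have hγd : Differentiable ℂ γ := by
    intro t
    exact (differentiableAt_const _).add ((differentiableAt_id).smul_const _)
  have hγc : Continuous γ := hγd.continuous
  let S : Set ℂ := γ ⁻¹' U
  have hSo : IsOpen S := hU.preimage hγc
  have hSc : Convex ℝ S := by
    intro s hs t ht a b ha hb hab
    have h1 : γ (a • s + b • t) = a • γ s + b • γ t := by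
      simp only [γ]
      have e1 : p = (a : ℝ) • p + (b : ℝ) • p := by rw [← add_smul, hab, one_smul]
      have e2 : (a • s + b • t) • (q - p) = a • (s • (q - p)) + b • (t • (q - p)) := by
        rw [add_smul, smul_assoc, smul_assoc]
      rw [e2, smul_add, smul_add]
      nth_rewrite 1 [e1]
      abel
    show γ (a • s + b • t) ∈ U
    rw [h1]
    exact hc hs ht ha hb hab
  have hg : DifferentiableOn ℂ (fun t => f (γ t)) S :=
    hf.comp hγd.differentiableOn (fun t ht => ht)
  have han : AnalyticOnNhd ℂ (fun t => f (γ t)) S := hg.analyticOnNhd hSo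
  have h0S : (0 : ℂ) ∈ S := by
    show γ 0 ∈ U
    simpa [γ] using hpU
  have h1S : (1 : ℂ) ∈ S := by
    show γ 1 ∈ U
    simpa [γ] using hq
  have hev : (fun t => f (γ t)) =ᶠ[𝓝 (0 : ℂ)] 0 := by
    have : γ ⁻¹' (V ∩ U) ∈ 𝓝 (0 : ℂ) := by
      apply ((hV.inter hU).preimage hγc).mem_nhds
      show γ 0 ∈ V ∩ U
      simpa [γ] using ⟨hpV, hpU⟩
    filter_upwards [this] with t ht
    exact h0 _ ht
  have := han.eqOn_zero_of_preconnected_of_eventuallyEq_zero hSc.isPreconnected h0S hev h1S
  simpa [γ] using this

/-- coordinatewise conjugation of `ℂ^n` -/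
def cjE {n : ℕ} (z : Cn n) : Cn n := WithLp.toLp 2 (fun a => conj (z a))

@[simp] theorem cjE_apply {n : ℕ} (z : Cn n) (a : Fin n) : cjE z a = conj (z a) := rfl

@[simp] theorem cjE_cjE {n : ℕ} (z : Cn n) : cjE (cjE z) = z := by
  ext a
  simp

theorem cjE_add {n : ℕ} (z w : Cn n) : cjE (z + w) = cjE z + cjE w := by
  ext a
  simp

theorem cjE_smul {n : ℕ} (c : ℂ) (z : Cn n) : cjE (c • z) = conj c • cjE z := by
  ext a
  simp

/-- `cjE` as a real continuous linear map -/
noncomputable def cjL (n : ℕ) : Cn n →L[ℝ] Cn n :=
  LinearMap.toContinuousLinearMap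
    { toFun := cjE
      map_add' := cjE_add
      map_smul' := fun c z => by
        have := cjE_smul (c : ℂ) z
        simpa using this }

@[simp] theorem cjL_apply {n : ℕ} (z : Cn n) : cjL n z = cjE z := rfl


variable {n : ℕ} {M : Type} [TopologicalSpace M]



variable {A : Atl n M}


/-! ### polynomials in homogeneous coordinates -/

/-- scaling of the blocks of variables in a multihomogeneous polynomial -/
theorem scale_blocks {k R τ B : Type*} [DecidableEq B] [CommSemiring k] [CommRing R] [Algebra k R] (blk : τ → B)
    {p : MvPolynomial τ k} {d : B → ℕ}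
    (hd : MvPolynomial.IsWeightedHomogeneous (fun x : τ => (Pi.single (blk x) 1 : B → ℕ)) p d)
    (c : B → R) (v : τ → R) (h : MvPolynomial.aeval v p = 0) :
    MvPolynomial.aeval (fun x => c (blk x) * v x) p = 0 := by
  classical
  by_cases hp0 : p = 0
  · rw [hp0, map_zero]
  obtain ⟨m0, hm0⟩ : ∃ m0, m0 ∈ p.support := by
    by_contra hcon
    push Not at hcon
    exact hp0 (MvPolynomial.support_eq_empty.1 (Finset.eq_empty_of_forall_notMem hcon))
  have weight_eq : ∀ m : τ →₀ ℕ, Finsupp.weight (fun x : τ => (Pi.single (blk x) 1 : B → ℕ)) m =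
      ⇑(m.mapDomain blk) := by
    intro m
    rw [Finsupp.weight_apply]
    funext i
    rw [Finsupp.mapDomain, Finsupp.sum, Finsupp.sum, Finset.sum_apply, Finsupp.finsetSum_apply]
    refine Finset.sum_congr rfl fun x _ => ?_
    rw [Pi.smul_apply, smul_eq_mul, Pi.single_apply, Finsupp.single_apply]
    by_cases h : i = blk x
    · subst h; simp
    · rw [if_neg h, if_neg fun h' => h h'.symm, mul_zero]
  have hsup : ∀ m ∈ p.support, m.mapDomain blk = m0.mapDomain blk := by
    intro m hm
    apply DFunLike.coe_injective
    rw [← weight_eq, ← weight_eq]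
    rw [hd (MvPolynomial.mem_support_iff.1 hm), hd (MvPolynomial.mem_support_iff.1 hm0)]
  have hfac : ∀ m : τ →₀ ℕ, (m.prod fun x e => c (blk x) ^ e) =
      (m.mapDomain blk).prod fun i e => c i ^ e := by
    intro m
    rw [Finsupp.prod_mapDomain_index (h := fun i e => c i ^ e) (fun i => pow_zero _)
      (fun i a b => pow_add _ a b)]
  have key : MvPolynomial.aeval (fun x => c (blk x) * v x) p =
      ((m0.mapDomain blk).prod fun i e => c i ^ e) * MvPolynomial.aeval v p := by
    rw [MvPolynomial.aeval_def, MvPolynomial.aeval_def, MvPolynomial.eval₂_eq,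
      MvPolynomial.eval₂_eq, Finset.mul_sum]
    refine Finset.sum_congr rfl fun m hm => ?_
    rw [← hsup m hm, ← hfac m, Finsupp.prod]
    simp only [mul_pow, Finset.prod_mul_distrib]
    ring
  rw [key, h, mul_zero]

/-- a polynomial in holomorphic functions is holomorphic -/
theorem aeval_differentiableOn {E τ : Type*} [NormedAddCommGroup E] [NormedSpace ℂ E] {U : Set E}
    (v : E → τ → ℂ) (hv : ∀ t, DifferentiableOn ℂ (fun x => v x t) U) (p : MvPolynomial τ ℂ) :
    DifferentiableOn ℂ (fun x => MvPolynomial.aeval (v x) p) U := by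
  induction p using MvPolynomial.induction_on with
  | C a =>
    simp only [MvPolynomial.aeval_C]
    exact differentiableOn_const _
  | add p q hp hq =>
    simp only [map_add]
    exact hp.add hq
  | mul_X p t hp =>
    simp only [map_mul, MvPolynomial.aeval_X]
    exact hp.mul (hv t)



end Crest.Agent.R260.Pair_764
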