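import Crest.Agent.R260.Qk4_151

-- ▼ part R260/Qk5_151
section

/-!
# Row 260, QK-LOC file 5 (helper151): quaternion-Kähler metrics are Einstein, pointwise

`qv h hx` : the pointwise algebra `QV n 𝔼` at `x`; `RL g x` : the curvature as a bilinear map with
values in endomorphisms; `isQCurv`.

Main (`n = 4 m`, `2 ≤ m`, `nu g m x = scalarCurv g x / (4 m (m+2))`):
* `Fc_eq` : `Fc g J x i j a b = nu * Σ_c eps a b c * (g x * J c x) i j`;
* `ricci_eq` : `ricci g x i j = (m+2) nu g x i j`.
-/

set_option autoImplicit false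
set_option linter.unusedSimpArgs false

open scoped Manifold ContDiff Topology
open Filter Set
open Crest.GeometryTopology.CoordMetric
open Crest.GeometryTopology.ChartRiem
open Crest.Agent.R202.Tens Crest.Agent.R247.Bo84
open Crest.Agent.R249.Bia1_104 Crest.Agent.R249.Bia2_104 Crest.Agent.R249.Bia3_104

noncomputable section

namespace Crest.Agent.R260.Qk5_151

open Crest.Agent.R260.Qk1_151 Crest.Agent.R260.Qk2_151
open Crest.Agent.R260.Qk3_151 Crest.Agent.R260.Qk4_151

variable {n : ℕ}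

local notation "𝔼" => EuclideanSpace ℝ (Fin n)

/-- the metric as a bilinear map -/
def bL (A : Matrix (Fin n) (Fin n) ℝ) :
    EuclideanSpace ℝ (Fin n) →ₗ[ℝ] EuclideanSpace ℝ (Fin n) →ₗ[ℝ] ℝ :=
  LinearMap.mk₂ ℝ (fun X Y => bil A X Y) (by intro a b c; simp) (by intro c a b; simp)
    (by intro a b c; simp) (by intro c a b; simp)

lemma bL_apply (A : Matrix (Fin n) (Fin n) ℝ) (X Y : 𝔼) : bL A X Y = bil A X Y := rfl

lemma bil_single (A : Matrix (Fin n) (Fin n) ℝ) (i j : Fin n) :
    bil A (EuclideanSpace.single i 1) (EuclideanSpace.single j 1) = A i j := by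
  rw [bil_apply, Finset.sum_eq_single i, Finset.sum_eq_single j]
  · simp
  · intro b _ hb; simp [hb]
  · simp
  · intro b _ hb
    refine Finset.sum_eq_zero fun c _ => ?_
    simp [hb]
  · simp

lemma bil_dot (M : Matrix (Fin n) (Fin n) ℝ) (X Y : 𝔼) :
    bil M X Y = (WithLp.ofLp X) ⬝ᵥ (M.mulVec (WithLp.ofLp Y)) := by
  rw [bil_apply]
  simp only [dotProduct, Matrix.mulVec, Finset.mul_sum]
  exact Finset.sum_congr rfl fun i _ => Finset.sum_congr rfl fun j _ => by ring

lemma mL_ofLp (A : Matrix (Fin n) (Fin n) ℝ) (X : 𝔼) :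
    WithLp.ofLp (mL A X) = A.mulVec (WithLp.ofLp X) := rfl

lemma bil_mL_right (M A : Matrix (Fin n) (Fin n) ℝ) (X Y : 𝔼) :
    bil M X (mL A Y) = bil (M * A) X Y := by
  rw [bil_dot, bil_dot, mL_ofLp, Matrix.mulVec_mulVec]

lemma bil_mL_left (M A : Matrix (Fin n) (Fin n) ℝ) (X Y : 𝔼) :
    bil M (mL A X) Y = bil (A.transpose * M) X Y := by
  rw [bil_dot, bil_dot, mL_ofLp, ← Matrix.mulVec_mulVec, Matrix.dotProduct_mulVec
    (WithLp.ofLp X), Matrix.vecMul_transpose]

lemma bil_mL_mL (M A : Matrix (Fin n) (Fin n) ℝ) (X Y : 𝔼) :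
    bil M (mL A X) (mL A Y) = bil (A.transpose * M * A) X Y := by
  rw [bil_mL_right, bil_mL_left, Matrix.mul_assoc]

/-- the curvature at `x` as an endomorphism valued bilinear map -/
def RL (g : MetricField n) (x : EuclideanSpace ℝ (Fin n)) :
    EuclideanSpace ℝ (Fin n) →ₗ[ℝ] EuclideanSpace ℝ (Fin n) →ₗ[ℝ]
      Module.End ℝ (EuclideanSpace ℝ (Fin n)) :=
  LinearMap.mk₂ ℝ (fun W X =>
    { toFun := fun Y => curv (Gam g) x W X Y
      map_add' := fun Y Y' => curv_add3 g x W X Y Y'
      map_smul' := fun c Y => curv_smul3 g c x W X Y })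
    (by intro W W' X; exact LinearMap.ext fun Y => curv_add1 g x W W' X Y)
    (by intro c W X; exact LinearMap.ext fun Y => curv_smul1 g c x W X Y)
    (by intro W X X'; exact LinearMap.ext fun Y => curv_add2 g x W X X' Y)
    (by intro c W X; exact LinearMap.ext fun Y => curv_smul2 g c x W X Y)

lemma RL_apply (g : MetricField n) (x W X Y : 𝔼) : RL g x W X Y = curv (Gam g) x W X Y := rfl

section

variable {g : MetricField n} {J : Fin 3 → EuclideanSpace ℝ (Fin n) → Matrix (Fin n) (Fin n) ℝ}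
  {U : Set (EuclideanSpace ℝ (Fin n))} {x : EuclideanSpace ℝ (Fin n)}

lemma RL_single (hg : IsRiemannianOn g U) (hx : x ∈ U) (i j : Fin n) :
    RL g x (EuclideanSpace.single i 1) (EuclideanSpace.single j 1) = mL (Rm g x i j) := by
  refine LinearMap.ext fun Y => ?_
  rw [eq_sum_single Y, map_sum, map_sum]
  refine Finset.sum_congr rfl fun k _ => ?_
  rw [map_smul, map_smul]
  congr 1
  ext l
  rw [RL_apply, mL_single, ← riemann_eq_curv hg hx]
  rfl

/-- the pointwise algebra of a quaternionic structure -/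
def qv (h : QKOn g J U) (hx : x ∈ U) : QV n (EuclideanSpace ℝ (Fin n)) where
  B := bL (g x)
  ξ := (exists_frame h.riem hx).choose
  J := fun a => mL (J a x)
  symm X Y := bil_symm h.riem hx X Y
  orth := (exists_frame h.riem hx).choose_spec.orth
  expand := (exists_frame h.riem hx).choose_spec.expand h.riem hx
  sq a X := by
    rw [← mL_mul, h.sq x hx, mL_neg, mL_one]
    simp
  mul01 X := by rw [← mL_mul, h.mul01 hx]
  mul10 X := by rw [← mL_mul, h.mul10 hx, mL_neg]; rfl
  skew a X Y := by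
    have h1 : bil (g x) (mL (J a x) X) (mL (J a x) (mL (J a x) Y)) = bil (g x) X (mL (J a x) Y) := by
      rw [bil_mL_mL, h.orth x hx]
    have h2 : mL (J a x) (mL (J a x) Y) = -Y := by
      rw [← mL_mul, h.sq x hx, mL_neg, mL_one]
      simp
    rw [h2, map_neg] at h1
    rw [bL_apply, bL_apply]
    linarith

lemma qv_B (h : QKOn g J U) (hx : x ∈ U) (X Y : 𝔼) : (qv h hx).B X Y = bil (g x) X Y := rfl

lemma qv_J (h : QKOn g J U) (hx : x ∈ U) (a : Fin 3) : (qv h hx).J a = mL (J a x) := rfl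

lemma qv_frame (h : QKOn g J U) (hx : x ∈ U) : IsFrame (g x) (qv h hx).ξ :=
  (exists_frame h.riem hx).choose_spec

lemma isCurv (h : QKOn g J U) (hx : x ∈ U) : IsCurv (qv h hx) (RL g x) where
  swap X Y := by
    refine LinearMap.ext fun Z => ?_
    exact curv_swap g x X Y Z
  skew X Y Z W := curv_skew h.riem hx X Y Z W
  first X Y Z := curv_first h.riem hx X Y Z

lemma commR (h : QKOn g J U) (hx : x ∈ U) (X Y : 𝔼) (a : Fin 3) (Z : 𝔼) :
    RL g x X Y (mL (J a x) Z) - mL (J a x) (RL g x X Y Z) =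
      ∑ b, (∑ i, ∑ j, X i * Y j * Fc g J x i j a b) • mL (J b x) Z := by
  have e : ∀ i j, RL g x (EuclideanSpace.single i 1) (EuclideanSpace.single j 1) (mL (J a x) Z) -
      mL (J a x) (RL g x (EuclideanSpace.single i 1) (EuclideanSpace.single j 1) Z) =
      ∑ b, Fc g J x i j a b • mL (J b x) Z := by
    intro i j
    rw [RL_single h.riem hx, ← mL_mul, ← mL_mul]
    have := congrArg (fun A => mL A Z) (ricci_J h hx i j a)
    simp only [mL_sub, mL_sum, mL_smul, LinearMap.sub_apply, LinearMap.sum_apply,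
      LinearMap.smul_apply] at this
    exact this
  have hX : RL g x X Y = ∑ i, ∑ j, (X i * Y j) •
      RL g x (EuclideanSpace.single i 1) (EuclideanSpace.single j 1) := by
    conv_lhs => rw [eq_sum_single X, eq_sum_single Y]
    simp only [map_sum, map_smul, LinearMap.sum_apply, LinearMap.smul_apply, Finset.smul_sum,
      smul_smul]
    refine Finset.sum_comm.trans ?_
    exact Finset.sum_congr rfl fun i _ => Finset.sum_congr rfl fun j _ => by
      first | rfl | (rw [mul_comm])
  rw [hX]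
  simp only [LinearMap.sum_apply, LinearMap.smul_apply, map_sum, map_smul]
  rw [← Finset.sum_sub_distrib]
  have e2 : ∀ i : Fin n, (∑ j, (X i * Y j) • RL g x (EuclideanSpace.single i 1)
      (EuclideanSpace.single j 1) (mL (J a x) Z)) -
      (∑ j, (X i * Y j) • mL (J a x) (RL g x (EuclideanSpace.single i 1)
        (EuclideanSpace.single j 1) Z)) =
      ∑ j, ∑ b, (X i * Y j * Fc g J x i j a b) • mL (J b x) Z := by
    intro i
    rw [← Finset.sum_sub_distrib]
    refine Finset.sum_congr rfl fun j _ => ?_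
    rw [← smul_sub, e, Finset.smul_sum]
    exact Finset.sum_congr rfl fun b _ => smul_smul _ _ _
  simp only [e2, Finset.sum_smul]
  have e3 : ∀ i : Fin n, ∑ j, ∑ b, (X i * Y j * Fc g J x i j a b) • mL (J b x) Z =
      ∑ b, ∑ j, (X i * Y j * Fc g J x i j a b) • mL (J b x) Z := fun i => Finset.sum_comm
  simp only [e3]
  exact Finset.sum_comm

theorem isQCurv (h : QKOn g J U) (hx : x ∈ U) : IsQCurv (qv h hx) (RL g x) where
  toIsCurv := isCurv h hx
  comm X Y a := ⟨_, fun Z => commR h hx X Y a Z⟩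

lemma Ric_eq_ricF (h : QKOn g J U) (hx : x ∈ U) (X Y : 𝔼) :
    Ric (qv h hx) (RL g x) X Y = ricF g x X Y := by
  rw [ricF_frame h.riem hx (qv_frame h hx)]
  rfl

/-- the normalised scalar curvature `ν = scal / (4 m (m+2))`. -/
def nu (g : MetricField n) (m : ℕ) (x : EuclideanSpace ℝ (Fin n)) : ℝ :=
  scalarCurv g x / (4 * m * (m + 2))


lemma scal_eq (h : QKOn g J U) (hx : x ∈ U) : scal (qv h hx) (RL g x) = scalarCurv g x := by
  have h1 : trL (ricE g x) = scalarCurv g x := trL_ricE g x h.riem hx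
  rw [← h1, (qv_frame h hx).trL_eq h.riem hx, scal]
  refine Finset.sum_congr rfl fun b _ => ?_
  rw [bil_ricE h.riem hx, Ric_eq_ricF]

lemma nu_eq (h : QKOn g J U) (hx : x ∈ U) (m : ℕ) :
    Qk1_151.nu m (qv h hx) (RL g x) = nu g m x := by
  rw [Qk1_151.nu, nu, scal_eq]

theorem ricF_eq_nu {m : ℕ} (hm : 2 ≤ m) (hnm : n = 4 * m) (h : QKOn g J U) (hx : x ∈ U) (X Y : 𝔼) :
    ricF g x X Y = (m + 2) * nu g m x * bil (g x) X Y := by
  rw [← Ric_eq_ricF h hx, einstein hm hnm (isQCurv h hx), nu_eq]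
  rfl


/-- coefficients: `Fc i j a b = -(1/n) tr ([R_ij, J_a] J_b)`. -/
lemma Fc_eq_trace (h : QKOn g J U) (hx : x ∈ U) (hn : n ≠ 0) (i j : Fin n) (a b : Fin 3) :
    Fc g J x i j a b = -(1 / (n : ℝ)) * ((Rm g x i j * (J a x * J b x)).trace -
      (Rm g x i j * (J b x * J a x)).trace) := by
  have hn' : (n : ℝ) ≠ 0 := Nat.cast_ne_zero.2 hn
  have h1 := h.trace_comb hx (fun b => Fc g J x i j a b) b
  rw [← ricci_J h hx i j a, Matrix.sub_mul, Matrix.trace_sub, Matrix.mul_assoc, Matrix.mul_assoc,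
    Matrix.trace_mul_comm (J a x), Matrix.mul_assoc] at h1
  rw [h1]
  field_simp

/-- the `sp(1)` parts in coordinates. -/
lemma f_single (h : QKOn g J U) (hx : x ∈ U) (i j : Fin n) (c : Fin 3) :
    Qk1_151.f (qv h hx) (RL g x) c (EuclideanSpace.single i 1) (EuclideanSpace.single j 1) =
      -(1 / (n : ℝ)) * (Rm g x i j * J c x).trace := by
  rw [Qk1_151.f]
  congr 1
  have e : (fun Z => RL g x (EuclideanSpace.single i 1) (EuclideanSpace.single j 1)
      ((qv h hx).J c Z)) = fun Z => mL (Rm g x i j * J c x) Z := by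
    funext Z
    rw [RL_single h.riem hx, mL_mul, qv_J]
  rw [e, ← tr_mL]
  rw [trF_frame h.riem hx (qv_frame h hx) (fun X Y => map_add _ X Y) (fun c X => map_smul _ c X)]
  rfl

theorem trace_RmJ {m : ℕ} (hm : 2 ≤ m) (hnm : n = 4 * m) (h : QKOn g J U) (hx : x ∈ U)
    (i j : Fin n) (c : Fin 3) :
    (Rm g x i j * J c x).trace = -(n : ℝ) * (nu g m x / 2) * (g x * J c x) i j := by
  have hn : n ≠ 0 := by omega
  have hn' : (n : ℝ) ≠ 0 := Nat.cast_ne_zero.2 hn
  have h1 := f_single h hx i j c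
  rw [f_eq hm hnm (isQCurv h hx), nu_eq, QV.skew, qv_B, qv_J, bil_mL_right, bil_single] at h1
  field_simp at h1 ⊢
  linarith

/-- **the curvature forms of a quaternion-Kähler metric.** -/
theorem Fc_eq {m : ℕ} (hm : 2 ≤ m) (hnm : n = 4 * m) (h : QKOn g J U) (hx : x ∈ U)
    (i j : Fin n) (a b : Fin 3) :
    Fc g J x i j a b = nu g m x * ∑ c, eps a b c * (g x * J c x) i j := by
  have hn : n ≠ 0 := by omega
  have hn' : (n : ℝ) ≠ 0 := Nat.cast_ne_zero.2 hn
  have T := fun c => trace_RmJ hm hnm h hx i j c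
  have T0 := T 0
  have T1 := T 1
  have T2 := T 2
  have key : ∀ (a b : Fin 3) (A : Matrix (Fin n) (Fin n) ℝ) (t : ℝ), J a x * J b x = A →
      J b x * J a x = -A → (Rm g x i j * A).trace = -(n : ℝ) * (nu g m x / 2) * t →
      Fc g J x i j a b = nu g m x * t := by
    intro a b A t e1 e2 e3
    rw [Fc_eq_trace h hx hn, e1, e2, Matrix.mul_neg, Matrix.trace_neg, e3]
    field_simp
    ring
  have kneg : ∀ c : Fin 3, (Rm g x i j * -J c x).trace =
      -(n : ℝ) * (nu g m x / 2) * (-(g x * J c x) i j) := by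
    intro c
    rw [Matrix.mul_neg, Matrix.trace_neg, T c]; ring
  have hd : ∀ a : Fin 3, Fc g J x i j a a = 0 := by
    intro a
    have := Fc_antisymm h hx i j a a
    linarith
  fin_cases a <;> fin_cases b
  · refine (hd 0).trans ?_
    simp [Fin.sum_univ_three, eps]
  · refine (key 0 1 _ _ (h.mul01 hx) (h.mul10 hx) T2).trans ?_
    simp [Fin.sum_univ_three, eps]
  · refine (key 0 2 _ _ (h.mul02 hx) (by rw [h.mul20 hx, neg_neg]) (kneg 1)).trans ?_
    simp [Fin.sum_univ_three, eps]
  · refine (key 1 0 _ _ (h.mul10 hx) (by rw [h.mul01 hx, neg_neg]) (kneg 2)).trans ?_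
    simp [Fin.sum_univ_three, eps]
  · refine (hd 1).trans ?_
    simp [Fin.sum_univ_three, eps]
  · refine (key 1 2 _ _ (h.mul12 hx) (h.mul21 hx) T0).trans ?_
    simp [Fin.sum_univ_three, eps]
  · refine (key 2 0 _ _ (h.mul20 hx) (h.mul02 hx) T1).trans ?_
    simp [Fin.sum_univ_three, eps]
  · refine (key 2 1 _ _ (h.mul21 hx) (by rw [h.mul12 hx, neg_neg]) (kneg 0)).trans ?_
    simp [Fin.sum_univ_three, eps]
  · refine (hd 2).trans ?_
    simp [Fin.sum_univ_three, eps]

end

end Crest.Agent.R260.Qk5_151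
end
end

-- ▼ part R260/Qk6_151
section

/-!
# Row 260, QK-LOC file 6 (helper151): the normalised scalar curvature is constant

* `pderiv_nu` : `∂_i ν = 0` on `U` (contracted Bianchi);
* `nu_const` : on a connected manifold `ν` is one constant, `> 0` under the hypothesis of S0398.
-/

set_option autoImplicit false
set_option linter.unusedSimpArgs false

open scoped Manifold ContDiff Topology
open Filter Set
open Crest.GeometryTopology.CoordMetric
open Crest.GeometryTopology.ChartRiem
open Crest.Agent.R202.Tens Crest.Agent.R247.Bo84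
open Crest.Agent.R249.Bia1_104 Crest.Agent.R249.Bia2_104 Crest.Agent.R249.Bia3_104

noncomputable section

namespace Crest.Agent.R260.Qk6_151

open Crest.Agent.R260.Qk3_151 Crest.Agent.R260.Qk4_151 Crest.Agent.R260.Qk5_151

variable {n : ℕ}

local notation "𝔼" => EuclideanSpace ℝ (Fin n)

section

variable {g : MetricField n} {J : Fin 3 → EuclideanSpace ℝ (Fin n) → Matrix (Fin n) (Fin n) ℝ}
  {U : Set (EuclideanSpace ℝ (Fin n))} {x : EuclideanSpace ℝ (Fin n)}

lemma contDiffOn_riemann (hg : IsRiemannianOn g U) (l i j k : Fin n) :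
    ContDiffOn ℝ ∞ (fun y => riemann g y l i j k) U := by
  unfold riemann
  refine ((contDiffOn_pderiv hg.isOpen (contDiffOn_christoffel hg l j k) i).sub
    (contDiffOn_pderiv hg.isOpen (contDiffOn_christoffel hg l i k) j)).add ?_
  exact ContDiffOn.sum fun p _ =>
    ((contDiffOn_christoffel hg l i p).mul (contDiffOn_christoffel hg p j k)).sub
      ((contDiffOn_christoffel hg l j p).mul (contDiffOn_christoffel hg p i k))

lemma ricci_eq_sum (hg : IsRiemannianOn g U) (hx : x ∈ U) (i j : Fin n) :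
    ricci g x i j = ∑ k, riemann g x k k j i := ricci_eq_sum_riemann hg hx i j

lemma contDiffOn_ricci (hg : IsRiemannianOn g U) (i j : Fin n) :
    ContDiffOn ℝ ∞ (fun y => ricci g y i j) U := by
  refine ContDiffOn.congr (f := fun y => ∑ k, riemann g y k k j i) ?_
    (fun y hy => ricci_eq_sum hg hy i j)
  exact ContDiffOn.sum fun k _ => contDiffOn_riemann hg k k j i

lemma contDiffOn_scalarCurv (hg : IsRiemannianOn g U) :
    ContDiffOn ℝ ∞ (fun y => scalarCurv g y) U := by
  unfold scalarCurv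
  exact ContDiffOn.sum fun j _ => ContDiffOn.sum fun k _ =>
    (contDiffOn_inv_entry hg j k).mul (contDiffOn_ricci hg j k)

lemma contDiffOn_nu (hg : IsRiemannianOn g U) (m : ℕ) :
    ContDiffOn ℝ ∞ (fun y => nu g m y) U := by
  unfold nu
  exact (contDiffOn_scalarCurv hg).div_const _

lemma nu_diff (hg : IsRiemannianOn g U) (hx : x ∈ U) (m : ℕ) :
    DifferentiableAt ℝ (fun y => nu g m y) x :=
  ((contDiffOn_nu hg m).contDiffAt (hg.isOpen.mem_nhds hx)).differentiableAt (by norm_num)

lemma covRic_eq {m : ℕ} (hm : 2 ≤ m) (hnm : n = 4 * m) (h : QKOn g J U) (hx : x ∈ U)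
    (V X Y : 𝔼) : covRic g x V X Y =
      (m + 2) * fderiv ℝ (fun y => nu g m y) x V * bil (g x) X Y := by
  have hb : DifferentiableAt ℝ (fun y => bil (g y) X Y) x := by
    have : DifferentiableAt ℝ (fun y => Gf g y X Y) x :=
      ((differentiableAt_Gf h.riem hx).clm_apply (differentiableAt_const _)).clm_apply
        (differentiableAt_const _)
    exact this
  have e : (fun y => ricF g y X Y) =ᶠ[𝓝 x] fun y => (((m : ℝ) + 2) * nu g m y) * bil (g y) X Y := by
    filter_upwards [h.isOpen.mem_nhds hx] with y hy using ricF_eq_nu hm hnm h hy X Y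
  have hν := nu_diff h.riem hx m
  rw [covRic, e.fderiv_eq, ricF_eq_nu hm hnm h hx, ricF_eq_nu hm hnm h hx,
    fderiv_fun_mul (hν.const_mul _) hb]
  simp only [add_apply, smul_apply, smul_eq_mul]
  rw [fderiv_const_mul hν, fderiv_bil h.riem hx (differentiableAt_const _)
    (differentiableAt_const _)]
  simp only [cov_apply, fderiv_fun_const, Pi.zero_apply, zero_apply, zero_add, smul_apply,
    smul_eq_mul]
  ring

/-- `dν = 0`. -/
theorem fderiv_nu {m : ℕ} (hm : 2 ≤ m) (hnm : n = 4 * m) (h : QKOn g J U) (hx : x ∈ U) :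
    fderiv ℝ (fun y => nu g m y) x = 0 := by
  refine ContinuousLinearMap.ext fun V => ?_
  have hF := qv_frame h hx
  have h1 := contracted h.riem hx hF V
  simp only [covRic_eq hm hnm h hx] at h1
  have h2 : ∑ a, (m + 2) * fderiv ℝ (fun y => nu g m y) x ((qv h hx).ξ a) *
      bil (g x) V ((qv h hx).ξ a) = (m + 2) * fderiv ℝ (fun y => nu g m y) x V := by
    conv_rhs => rw [hF.expand h.riem hx V]
    rw [map_sum, Finset.mul_sum]
    refine Finset.sum_congr rfl fun a _ => ?_
    rw [map_smul, smul_eq_mul]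
    ring
  have h3 : ∑ b, (m + 2) * fderiv ℝ (fun y => nu g m y) x V *
      bil (g x) ((qv h hx).ξ b) ((qv h hx).ξ b) =
      (n : ℝ) * ((m + 2) * fderiv ℝ (fun y => nu g m y) x V) := by
    simp only [hF.orth, if_true, mul_one, Finset.sum_const, Finset.card_univ, Fintype.card_fin,
      nsmul_eq_mul]
  rw [h2, h3] at h1
  have hm' : (2 : ℝ) ≤ m := by exact_mod_cast hm
  have hnr : (n : ℝ) = 4 * m := by rw [hnm]; push_cast; ring
  rw [hnr] at h1
  have h4 : ((4 * (m : ℝ) - 2) * (m + 2)) * fderiv ℝ (fun y => nu g m y) x V = 0 := by linarith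
  rcases mul_eq_zero.1 h4 with h5 | h5
  · exfalso
    have : 0 < (4 * (m : ℝ) - 2) * (m + 2) := by nlinarith
    exact this.ne' h5
  · exact h5


/-- `ν` is locally constant. -/
theorem nu_locConst {m : ℕ} (hm : 2 ≤ m) (hnm : n = 4 * m) (h : QKOn g J U) (hx : x ∈ U) :
    ∀ᶠ y in 𝓝 x, nu g m y = nu g m x := by
  obtain ⟨r, hr, hb⟩ := Metric.isOpen_iff.1 h.isOpen x hx
  filter_upwards [Metric.ball_mem_nhds x hr] with y hy
  have hconv : Convex ℝ (Metric.ball x r) := convex_ball x r
  have := hconv.is_const_of_fderivWithin_eq_zero (𝕜 := ℝ) (f := fun y => nu g m y)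
    (fun z hz => (nu_diff h.riem (hb hz) m).differentiableWithinAt)
    (fun z hz => by
      rw [fderivWithin_of_isOpen Metric.isOpen_ball hz, fderiv_nu hm hnm h (hb hz)])
    hy (Metric.mem_ball_self hr)
  exact this

end

end Crest.Agent.R260.Qk6_151
end
end

-- ▼ part R260/Qk7_151

/-!
# Row 260, QK-LOC file 7 (helper151): changes of charts, and `ν` is one constant

For a `ChartMetric` on a smooth manifold and two atlas charts `e, e'`:
* `pull_chart` : the structure `Pull` of R202 (hence `gam_eq`, `curv_eq`, `ricci_pull`, ...) for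
  `Φ = e' ∘ e.symm` on `e.target ∩ e.symm ⁻¹' e'.source`;
* `jac_eq` : `fderiv ℝ Φ (e x)` is the endomorphism of `jacobianMatrix`;
* `nu_const` : under the hypotheses of S0398 there is `ν₀ > 0` with `nu (G.g e) m x = ν₀`.
-/

set_option autoImplicit false
set_option linter.unusedSimpArgs false

open scoped Manifold ContDiff Topology
open Filter Set
open Crest.GeometryTopology.CoordMetric
open Crest.GeometryTopology.ChartRiem
open Crest.Agent.R202.Tens Crest.Agent.R247.Bo84
open Crest.Agent.R249.Bia1_104 Crest.Agent.R249.Bia2_104 Crest.Agent.R249.Bia3_104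

noncomputable section

namespace Crest.Agent.R260.Qk7_151

open Crest.Agent.R260.Qk3_151 Crest.Agent.R260.Qk4_151 Crest.Agent.R260.Qk5_151
open Crest.Agent.R260.Qk6_151

variable {n : ℕ} {M : Type} [TopologicalSpace M]

local notation "𝔼" => EuclideanSpace ℝ (Fin n)

/-- the change of charts -/
def chg (e e' : OpenPartialHomeomorph M (EuclideanSpace ℝ (Fin n)))
    (y : EuclideanSpace ℝ (Fin n)) : EuclideanSpace ℝ (Fin n) := e' (e.symm y)

/-- the domain of the change of charts -/
def dom (e e' : OpenPartialHomeomorph M (EuclideanSpace ℝ (Fin n))) :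
    Set (EuclideanSpace ℝ (Fin n)) := e.target ∩ e.symm ⁻¹' e'.source

lemma isOpen_dom (e e' : OpenPartialHomeomorph M (EuclideanSpace ℝ (Fin n))) :
    IsOpen (dom e e') := e.isOpen_inter_preimage_symm e'.open_source

lemma mem_dom {e e' : OpenPartialHomeomorph M (EuclideanSpace ℝ (Fin n))} {x : M}
    (hx : x ∈ e.source ∩ e'.source) : e x ∈ dom e e' := by
  refine ⟨e.map_source hx.1, ?_⟩
  rw [mem_preimage, e.left_inv hx.1]
  exact hx.2

lemma chg_mem {e e' : OpenPartialHomeomorph M (EuclideanSpace ℝ (Fin n))}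
    {y : EuclideanSpace ℝ (Fin n)} (hy : y ∈ dom e e') : chg e e' y ∈ dom e' e := by
  refine ⟨e'.map_source hy.2, ?_⟩
  rw [mem_preimage, chg, e'.left_inv hy.2]
  exact e.map_target hy.1

lemma chg_chg {e e' : OpenPartialHomeomorph M (EuclideanSpace ℝ (Fin n))}
    {y : EuclideanSpace ℝ (Fin n)} (hy : y ∈ dom e e') : chg e' e (chg e e' y) = y := by
  rw [chg, chg, e'.left_inv hy.2, e.right_inv hy.1]

lemma chg_apply {e e' : OpenPartialHomeomorph M (EuclideanSpace ℝ (Fin n))} {x : M}
    (hx : x ∈ e.source) : chg e e' (e x) = e' x := by rw [chg, e.left_inv hx]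

section

variable [ChartedSpace (EuclideanSpace ℝ (Fin n)) M]
  [IsManifold 𝓘(ℝ, EuclideanSpace ℝ (Fin n)) ∞ M]
  {e e' : OpenPartialHomeomorph M (EuclideanSpace ℝ (Fin n))}

lemma chg_smooth (he : e ∈ atlas (EuclideanSpace ℝ (Fin n)) M)
    (he' : e' ∈ atlas (EuclideanSpace ℝ (Fin n)) M) :
    ContDiffOn ℝ ∞ (chg e e') (dom e e') := by
  have h := (contDiffGroupoid ∞ 𝓘(ℝ, EuclideanSpace ℝ (Fin n))).compatible he he'
  rw [contDiffGroupoid, mem_groupoid_of_pregroupoid] at h
  have h1 := h.1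
  simp only [contDiffPregroupoid, mfld_simps] at h1
  exact h1

lemma chg_diff (he : e ∈ atlas (EuclideanSpace ℝ (Fin n)) M)
    (he' : e' ∈ atlas (EuclideanSpace ℝ (Fin n)) M) {y : EuclideanSpace ℝ (Fin n)}
    (hy : y ∈ dom e e') : DifferentiableAt ℝ (chg e e') y :=
  ((chg_smooth he he').contDiffAt ((isOpen_dom e e').mem_nhds hy)).differentiableAt (by norm_num)

/-- the derivative of the inverse change of charts is the inverse. -/
lemma fderiv_chg_chg (he : e ∈ atlas (EuclideanSpace ℝ (Fin n)) M)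
    (he' : e' ∈ atlas (EuclideanSpace ℝ (Fin n)) M) {y : EuclideanSpace ℝ (Fin n)}
    (hy : y ∈ dom e e') (X : EuclideanSpace ℝ (Fin n)) :
    fderiv ℝ (chg e' e) (chg e e' y) (fderiv ℝ (chg e e') y X) = X := by
  have h1 := fderiv_comp (x := y) (chg_diff he' he (chg_mem hy)) (chg_diff he he' hy)
  have h2 : (chg e' e ∘ chg e e') =ᶠ[𝓝 y] id := by
    filter_upwards [(isOpen_dom e e').mem_nhds hy] with z hz using chg_chg hz
  rw [h2.fderiv_eq, fderiv_id] at h1
  have := congrArg (fun L : EuclideanSpace ℝ (Fin n) →L[ℝ] EuclideanSpace ℝ (Fin n) => L X) h1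
  exact this.symm

lemma jac_eq (he : e ∈ atlas (EuclideanSpace ℝ (Fin n)) M)
    (he' : e' ∈ atlas (EuclideanSpace ℝ (Fin n)) M) {x : M} (hx : x ∈ e.source ∩ e'.source)
    (X : EuclideanSpace ℝ (Fin n)) :
    fderiv ℝ (chg e e') (e x) X = mL (jacobianMatrix n M e e' x) X := by
  conv_lhs => rw [eq_sum_single X]
  conv_rhs => rw [eq_sum_single X]
  rw [map_sum, map_sum]
  refine Finset.sum_congr rfl fun b _ => ?_
  rw [map_smul, map_smul]
  congr 1
  ext a
  rw [mL_single, fderiv_coord (chg_diff he he' (mem_dom hx))]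
  rfl

/-- the change of charts pulls back the metric. -/
theorem pull_chart (G : ChartMetric n M) (he : e ∈ atlas (EuclideanSpace ℝ (Fin n)) M)
    (he' : e' ∈ atlas (EuclideanSpace ℝ (Fin n)) M) :
    Pull (G.g e) (G.g e') (chg e e') (dom e e') e'.target where
  isOpen := isOpen_dom e e'
  riem := G.riemannian e' he'
  maps := fun y hy => (chg_mem hy).1
  smooth := chg_smooth he he'
  pull := by
    intro y hy i j
    have hx : e.symm y ∈ e.source ∩ e'.source := ⟨e.map_target hy.1, hy.2⟩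
    have h1 := G.compat e he e' he' (e.symm y) hx
    rw [e.right_inv hy.1] at h1
    have h2 : G.g e' (e' (e.symm y)) = G.g e' (chg e e' y) := rfl
    rw [h1, h2, Matrix.mul_apply]
    have hP : ∀ a b, jacobianMatrix n M e e' (e.symm y) a b =
        (fderiv ℝ (chg e e') y (EuclideanSpace.single b 1)) a := by
      intro a b
      have h3 := jac_eq he he' hx (EuclideanSpace.single b 1)
      rw [e.right_inv hy.1] at h3
      rw [h3, mL_single]
    have : ∀ b, ((jacobianMatrix n M e e' (e.symm y)).transpose * G.g e' (chg e e' y)) i b *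
        jacobianMatrix n M e e' (e.symm y) b j = ∑ a, G.g e' (chg e e' y) a b *
        (fderiv ℝ (chg e e') y (EuclideanSpace.single i 1)) a *
        (fderiv ℝ (chg e e') y (EuclideanSpace.single j 1)) b := by
      intro b
      rw [Matrix.mul_apply, Finset.sum_mul]
      refine Finset.sum_congr rfl fun a _ => ?_
      rw [Matrix.transpose_apply, hP, hP]
      ring
    simp only [this]
    rw [Finset.sum_comm]
  inj := by
    intro y hy X Y hXY
    rw [← fderiv_chg_chg he he' hy X, hXY, fderiv_chg_chg he he' hy Y]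

/-- `ν` does not depend on the chart. -/
theorem nu_chart {m : ℕ} (hm : 2 ≤ m) (hnm : n = 4 * m) (G : ChartMetric n M)
    (Q : QuaternionicStructure n M G) (he : e ∈ atlas (EuclideanSpace ℝ (Fin n)) M)
    (he' : e' ∈ atlas (EuclideanSpace ℝ (Fin n)) M) {x : M} (hx : x ∈ e.source ∩ e'.source) :
    nu (G.g e) m (e x) = nu (G.g e') m (e' x) := by
  have hP := pull_chart G he he'
  have hd := mem_dom hx
  have hn : 0 < n := by omega
  set X : EuclideanSpace ℝ (Fin n) := EuclideanSpace.single ⟨0, hn⟩ 1 with hX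
  have hX0 : X ≠ 0 := by
    intro h0
    have := congrArg (fun v : EuclideanSpace ℝ (Fin n) => v ⟨0, hn⟩) h0
    simp [hX] at this
  have h1 := hP.ricci_pull hd X X
  have hte : e x ∈ e.target := e.map_source hx.1
  have hte' : chg e e' (e x) ∈ e'.target := (chg_mem hd).1
  rw [← ricF_eq (G.riemannian e he) hte, ← ricF_eq (G.riemannian e' he') hte',
    ricF_eq_nu hm hnm (qkOn G Q he) hte, ricF_eq_nu hm hnm (qkOn G Q he') hte', hP.bil_eq hd X X]
    at h1
  have hpos := bil_pos (G.riemannian e he) hte hX0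
  rw [hP.bil_eq hd X X] at hpos
  have h2 := mul_right_cancel₀ hpos.ne' h1
  have h3 : ((m : ℝ) + 2) ≠ 0 := by positivity
  have h4 := mul_left_cancel₀ h3 h2
  rw [h4, chg_apply hx.1]

/-- **`ν` is one positive constant** under the hypotheses of S0398. -/
theorem nu_const {m : ℕ} (hm : 2 ≤ m) (hnm : n = 4 * m) [ConnectedSpace M] (G : ChartMetric n M)
    (Q : QuaternionicStructure n M G)
    (hpos : ∀ e ∈ atlas (EuclideanSpace ℝ (Fin n)) M, ∀ x ∈ e.target, 0 < scalarCurv (G.g e) x) :
    ∃ ν₀ : ℝ, 0 < ν₀ ∧ ∀ e ∈ atlas (EuclideanSpace ℝ (Fin n)) M, ∀ x ∈ e.target,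
      nu (G.g e) m x = ν₀ := by
  classical
  set c : M → OpenPartialHomeomorph M (EuclideanSpace ℝ (Fin n)) := fun p =>
    chartAt (EuclideanSpace ℝ (Fin n)) p with hc
  have hcm : ∀ p, c p ∈ atlas (EuclideanSpace ℝ (Fin n)) M := fun p => chart_mem_atlas _ p
  have hcs : ∀ p, p ∈ (c p).source := fun p => mem_chart_source _ p
  set N : M → ℝ := fun p => nu (G.g (c p)) m (c p p) with hN
  have hN' : ∀ e ∈ atlas (EuclideanSpace ℝ (Fin n)) M, ∀ p ∈ e.source,
      nu (G.g e) m (e p) = N p := fun e he p hp => nu_chart hm hnm G Q he (hcm p) ⟨hp, hcs p⟩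
  have hloc : IsLocallyConstant N := by
    rw [IsLocallyConstant.iff_eventually_eq]
    intro p
    have h1 := nu_locConst hm hnm (qkOn G Q (hcm p)) ((c p).map_source (hcs p))
    have h2 := ((c p).continuousAt (hcs p)).eventually h1
    filter_upwards [h2, (c p).open_source.mem_nhds (hcs p)] with q hq hqs
    rw [← hN' (c p) (hcm p) q hqs, hq]
  obtain ⟨p0⟩ : Nonempty M := inferInstance
  refine ⟨N p0, ?_, fun e he x hx => ?_⟩
  · have h1 := hpos (c p0) (hcm p0) (c p0 p0) ((c p0).map_source (hcs p0))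
    have hm' : (2 : ℝ) ≤ m := by exact_mod_cast hm
    simp only [hN, nu]
    positivity
  · have h1 := hN' e he (e.symm x) (e.map_target hx)
    rw [e.right_inv hx] at h1
    rw [h1]
    exact hloc.apply_eq_of_isPreconnected isPreconnected_univ (mem_univ _) (mem_univ _)

end

end Crest.Agent.R260.Qk7_151
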