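import Crest.Agent.R260.QKh_838
import Crest.Agent.R260.OutDefs_516
import Crest.Agent.R260.Pair2_764
import Crest.Agent.R260.Tup1_45
import Crest.Agent.R260.LinDefs_678
import Crest.Agent.R260.Qk7_151

-- ▼ part R260/QKi_838
section

/-!
# Row 260: from a dense set of points to all points
-/

set_option autoImplicit false
open scoped ContDiff Topology Manifold
open Crest.GeometryTopology.CoordMetric Crest.GeometryTopology.ChartRiem
open Crest.Agent.R260.QKm_838 Crest.Agent.R260.QKf_838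

namespace Crest.Agent.R260.QKi_838

variable {n : ℕ} {g : MetricField n} {U : Set (EuclideanSpace ℝ (Fin n))}

/-- The covariant derivative of the curvature tensor is smooth. -/
theorem sm_cov (hg : IsRiemannianOn g U) (m l i j k : Fin n) :
    ContDiffOn ℝ ∞ (fun x => covDerivRiemann g x m l i j k) U := by
  have h1 : KEnd_361.SmM U (fun x => KEnd_361.pdM m (KEnd_361.Rm g i j) x
      + (KEnd_361.Gm g m x * KEnd_361.Rm g i j x - KEnd_361.Rm g i j x * KEnd_361.Gm g m x)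
      - ∑ p, KEnd_361.Gm g m x p i • KEnd_361.Rm g p j x
      - ∑ p, KEnd_361.Gm g m x p j • KEnd_361.Rm g i p x) :=
    ((((KEnd_361.sm_Rm hg i j).pd hg.isOpen m).add
      (((KEnd_361.sm_Gm hg m).mul (KEnd_361.sm_Rm hg i j)).sub
        ((KEnd_361.sm_Rm hg i j).mul (KEnd_361.sm_Gm hg m)))).sub
      (KEnd_361.SmM.sum fun p _ => KEnd_361.SmM.smul (KEnd_361.sm_Gm hg m p i)
        (KEnd_361.sm_Rm hg p j))).sub
      (KEnd_361.SmM.sum fun p _ => KEnd_361.SmM.smul (KEnd_361.sm_Gm hg m p j)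
        (KEnd_361.sm_Rm hg i p))
  have h2 := h1.congr (Y := KEnd_361.Nm g m i j) fun y _ => KEnd_361.Nm_eq g m i j y
  exact h2 l k

/-- If every non-empty open subset of `U` contains a point with `∇R = 0`, then `∇R = 0` on `U`. -/
theorem all_of_dense (hg : IsRiemannianOn g U)
    (hd : ∀ O : Set (EuclideanSpace ℝ (Fin n)), IsOpen O → O ⊆ U → O.Nonempty → ∃ x ∈ O,
      ∀ m l i j k : Fin n, covDerivRiemann g x m l i j k = 0)
    {x : EuclideanSpace ℝ (Fin n)} (hx : x ∈ U) (m l i j k : Fin n) :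
    covDerivRiemann g x m l i j k = 0 := by
  by_contra hne
  have hc : ContinuousOn (fun x => covDerivRiemann g x m l i j k) U :=
    (sm_cov hg m l i j k).continuousOn
  have hO : IsOpen (U ∩ (fun x => covDerivRiemann g x m l i j k) ⁻¹' {0}ᶜ) :=
    hc.isOpen_inter_preimage hg.isOpen isOpen_compl_singleton
  obtain ⟨y, hy, hy0⟩ := hd _ hO Set.inter_subset_left ⟨x, hx, hne⟩
  exact hy.2 (hy0 m l i j k)

/-- **K side of `S0398`.**  In every chart `e` of the atlas the data `Dat` (from `QKOn`) on the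
target, and two-point tensors on a neighbourhood of a dense set of points. -/
theorem main_end {M : Type} [TopologicalSpace M] [ChartedSpace (EuclideanSpace ℝ (Fin n)) M]
    (G : ChartMetric n M) (Q : QuaternionicStructure n M G)
    (H : ∀ e ∈ atlas (EuclideanSpace ℝ (Fin n)) M,
      ∃ (c : EuclideanSpace ℝ (Fin n) → Fin n → Fin 3 → Fin 3 → ℝ) (lam : ℝ), lam ≠ 0 ∧
        Dat (G.g e) e.target (Q.J e) c lam ∧
        ∀ O : Set (EuclideanSpace ℝ (Fin n)), IsOpen O → O ⊆ e.target → O.Nonempty →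
          ∃ V ⊆ O, IsOpen V ∧ V.Nonempty ∧ ∃ Gt, End_919.TwoPt (G.g e) V (Q.J e) c Gt) :
    ∀ e ∈ atlas (EuclideanSpace ℝ (Fin n)) M, ∀ x ∈ e.target, ∀ a l i j k : Fin n,
      covDerivRiemann (G.g e) x a l i j k = 0 := by
  intro e he x hx a l i j k
  obtain ⟨c, lam, hlam, hdat, hden⟩ := H e he
  refine all_of_dense (G.riemannian e he) (fun O hO hOU hOn => ?_) hx a l i j k
  obtain ⟨V, hVO, hV, ⟨y, hy⟩, Gt, hT⟩ := hden O hO hOU hOn
  exact ⟨y, hVO hy, fun m l i j k =>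
    QKh_838.symm_of_twoPt (mono hdat hV (hVO.trans hOU)) hlam hT hy m l i j k⟩

end Crest.Agent.R260.QKi_838
end

-- ▼ part R260/MainC_803

/-!
# Row 260 (S0398), MAIN (helper803): the named statements and the composition

* `DatAll`  : (0) QK: the data `Dat` in all charts with one constant `ν₀ > 0`;
* `GeoOut`, `Geo` : (1)-(3), TUP, TOT: the twistor lines over every chart of `M` as tuples over the
              contact manifold `D : CData ℂ I Jt`;
* `AGCore`  : (4), (5): for a family of maps of class `2β` with dense pairs there is, over a smaller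
              open set, the polynomial `P` of 516's `AgFin`;
* `OutT`    : (6): `TwIn → AgIn → OutProp`;
* `main_of` : `DatAll → Geo → AGCore → OutT → S0398`.
-/

set_option autoImplicit false
set_option linter.unusedSectionVars false

open Set Filter Topology Polynomial
open scoped ContDiff Matrix Manifold
open Crest.GeometryTopology.CoordMetric Crest.GeometryTopology.ChartRiem
open Crest.Agent.R270.BM_360 Crest.Agent.R260.Lin_678 Crest.Agent.R260.TwPen_389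
open Crest.Agent.R260.Tw_979 Crest.Agent.R260.Out_516 Crest.Agent.R260.Tup_45

noncomputable section

namespace Crest.Agent.R260.MainC_803

variable {n : ℕ} {I : Type} [Fintype I] {Jt : I → Type} [∀ i, Fintype (Jt i)]

open Classical in
/-- bihomogeneous polynomials on pairs (the form which 764's `Dens` consumes) -/
def BiH (Dn : MvPolynomial ((Σ i, Jt i) ⊕ (Σ i, Jt i)) ℂ) : Prop :=
  ∃ dd : I ⊕ I → ℕ, MvPolynomial.IsWeightedHomogeneous
    (fun x : (Σ i, Jt i) ⊕ (Σ i, Jt i) => (Pi.single (Sum.map Sigma.fst Sigma.fst x) 1 : I ⊕ I → ℕ))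
    Dn dd

/-- `Dn` is not identically zero on `Z × Z` -/
def Ne2 (E : Set (MvPolynomial (Σ i, Jt i) ℂ)) (Dn : MvPolynomial ((Σ i, Jt i) ⊕ (Σ i, Jt i)) ℂ) :
    Prop :=
  ∃ a b, OnZ E a ∧ OnZ E b ∧ valD Dn a b ≠ 0

/-- The twistor lines over the open set `U` of a chart: `F x` is the tuple of the line of `x`. -/
structure GeoOut (g : MetricField n)
    (J : Fin 3 → EuclideanSpace ℝ (Fin n) → Matrix (Fin n) (Fin n) ℝ)
    (c : EuclideanSpace ℝ (Fin n) → Fin n → Fin 3 → Fin 3 → ℝ)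
    (U : Set (EuclideanSpace ℝ (Fin n))) (D : CData ℂ I Jt)
    (F : EuclideanSpace ℝ (Fin n) → ∀ i, Jt i → ℂ[X]) (κ : ℂ) : Prop where
  /-- the multicone is irreducible -/
  prime : (Ideal.span D.E).IsPrime
  tw : TwIn g J c U D.w (fun x => evt (F x))
  fam : TwFam J c U D.E D.β F
  κ0 : κ ≠ 0
  /-- the contact constant of all twistor lines is `κ` -/
  con : ∀ x ∈ U, D.th.Val (F x) (fun i a => derivative (F x i a)) (C κ)
  /-- the pairs of points on a common twistor line over any open set are dense in `Z × Z` -/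
  tot : ∀ Dn, BiH Dn → Ne2 D.E Dn → Dens U (fun x => evt (F x)) Dn

/-- **(0)** -/
def DatAll : Prop :=
  ∀ (m : ℕ), 2 ≤ m → ∀ (M : Type) [TopologicalSpace M] [T2Space M] [CompactSpace M]
    [ConnectedSpace M] [ChartedSpace (EuclideanSpace ℝ (Fin (4 * m))) M]
    [IsManifold 𝓘(ℝ, EuclideanSpace ℝ (Fin (4 * m))) ∞ M] (G : ChartMetric (4 * m) M)
    (Q : QuaternionicStructure (4 * m) M G),
    (∀ e ∈ atlas (EuclideanSpace ℝ (Fin (4 * m))) M, ∀ x ∈ e.target, 0 < scalarCurv (G.g e) x) →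
    ∃ ν₀ : ℝ, 0 < ν₀ ∧ ∀ e ∈ atlas (EuclideanSpace ℝ (Fin (4 * m))) M,
      QKm_838.Dat (G.g e) e.target (Q.J e) (Qk4_151.cf (G.g e) (Q.J e)) (-ν₀)

/-- **(1)-(3), TUP, TOT** -/
def Geo : Prop :=
  ∀ (m : ℕ), 2 ≤ m → ∀ (M : Type) [TopologicalSpace M] [T2Space M] [CompactSpace M]
    [ConnectedSpace M] [ChartedSpace (EuclideanSpace ℝ (Fin (4 * m))) M]
    [IsManifold 𝓘(ℝ, EuclideanSpace ℝ (Fin (4 * m))) ∞ M] (G : ChartMetric (4 * m) M)
    (Q : QuaternionicStructure (4 * m) M G),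
    (∀ e ∈ atlas (EuclideanSpace ℝ (Fin (4 * m))) M, ∀ x ∈ e.target, 0 < scalarCurv (G.g e) x) →
    ∀ e ∈ atlas (EuclideanSpace ℝ (Fin (4 * m))) M,
    ∃ (I : Type) (_ : Fintype I) (Jt : I → Type) (_ : ∀ i, Fintype (Jt i)) (D : CData ℂ I Jt)
      (F : EuclideanSpace ℝ (Fin (4 * m)) → ∀ i, Jt i → ℂ[X]) (κ : ℂ), Fintype.card I = 2 ∧ D.m = m ∧
      GeoOut (G.g e) (Q.J e) (Qk4_151.cf (G.g e) (Q.J e)) e.target D F κ

/-- **(4), (5)** the algebraic core (only needed for two blocks). -/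
def AGCore : Prop :=
  ∀ (I : Type) [Fintype I] (Jt : I → Type) [∀ i, Fintype (Jt i)] (D : CData ℂ I Jt),
    Fintype.card I = 2 → 2 ≤ D.m →
    (Ideal.span D.E).IsPrime →
    ∀ (n : ℕ) (U : Set (EuclideanSpace ℝ (Fin n))), IsOpen U → U.Nonempty →
    ∀ (F : EuclideanSpace ℝ (Fin n) → ∀ i, Jt i → ℂ[X]) (κ : ℂ), κ ≠ 0 →
    (∀ x ∈ U, IsMap D.E (F x)) → (∀ x ∈ U, cls (F x) = 2 • D.β) →
    (∀ x ∈ U, D.th.Val (F x) (fun i a => derivative (F x i a)) (C κ)) →
    (∀ i a k, ContinuousOn (fun x => (F x i a).coeff k) U) →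
    (∀ Dn, BiH Dn → Ne2 D.E Dn → Dens U (fun x => evt (F x)) Dn) →
    ∃ U' ⊆ U, IsOpen U' ∧ U'.Nonempty ∧
      ∃ (R : (∀ i, Jt i → ℂ[X]) → ℂ → Prop)
        (P : Polynomial (MvPolynomial ((Σ i, Jt i) ⊕ (Σ i, Jt i)) ℂ))
        (Dn : MvPolynomial ((Σ i, Jt i) ⊕ (Σ i, Jt i)) ℂ),
        AgFin D.E D.w R P Dn ∧ (∀ x ∈ U', R (F x) κ) ∧ BiH Dn ∧ Ne2 D.E Dn

/-- **(6)** -/
def OutT : Prop :=
  ∀ (I : Type) [Fintype I] (Jt : I → Type) [∀ i, Fintype (Jt i)] (n : ℕ) (g : MetricField n)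
    (J : Fin 3 → EuclideanSpace ℝ (Fin n) → Matrix (Fin n) (Fin n) ℝ)
    (c : EuclideanSpace ℝ (Fin n) → Fin n → Fin 3 → Fin 3 → ℝ)
    (U : Set (EuclideanSpace ℝ (Fin n))) (w : I → ℤ) (S : EuclideanSpace ℝ (Fin n) → ℂ → Pt Jt)
    (κ : ℂ) (P : Polynomial (MvPolynomial ((Σ i, Jt i) ⊕ (Σ i, Jt i)) ℂ))
    (Dn : MvPolynomial ((Σ i, Jt i) ⊕ (Σ i, Jt i)) ℂ), IsOpen U →
    TwIn g J c U w S → AgIn U w S κ P Dn → OutProp g J c U

/-! ### small lemmas -/

theorem Dens.mono {U U' : Set (EuclideanSpace ℝ (Fin n))} {S : EuclideanSpace ℝ (Fin n) → ℂ → Pt Jt}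
    {Dn : MvPolynomial ((Σ i, Jt i) ⊕ (Σ i, Jt i)) ℂ} (h : Dens U S Dn) (hU : U' ⊆ U) :
    Dens U' S Dn := fun W hW hn hs => h W hW hn (hs.trans hU)

theorem QH.mono {g : MetricField n}
    {J : Fin 3 → EuclideanSpace ℝ (Fin n) → Matrix (Fin n) (Fin n) ℝ}
    {c : EuclideanSpace ℝ (Fin n) → Fin n → Fin 3 → Fin 3 → ℝ}
    {U U' : Set (EuclideanSpace ℝ (Fin n))} (h : QH g J c U) (hU : U' ⊆ U) (ho : IsOpen U') :
    QH g J c U' where
  riem := ⟨ho, fun i j => (h.riem.contDiffOn i j).mono hU, fun x hx => h.riem.posDef x (hU hx)⟩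
  smooth a l p := (h.smooth a l p).mono hU
  sq x hx := h.sq x (hU hx)
  mul x hx := h.mul x (hU hx)
  orth x hx := h.orth x (hU hx)
  skew x hx := h.skew x (hU hx)
  csm i a b := (h.csm i a b).mono hU

theorem TwIn.mono {g : MetricField n}
    {J : Fin 3 → EuclideanSpace ℝ (Fin n) → Matrix (Fin n) (Fin n) ℝ}
    {c : EuclideanSpace ℝ (Fin n) → Fin n → Fin 3 → Fin 3 → ℝ}
    {U U' : Set (EuclideanSpace ℝ (Fin n))} {w : I → ℤ}
    {S : EuclideanSpace ℝ (Fin n) → ℂ → Pt Jt} (h : TwIn g J c U w S) (hU : U' ⊆ U)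
    (ho : IsOpen U') : TwIn g J c U' w S where
  qh := QH.mono h.qh hU ho
  sm y := (h.sm y).mono (prod_mono hU le_rfl)
  hol x hx := h.hol x (hU hx)
  cr x hx := h.cr x (hU hx)

/-- a coprime vector has a non-zero value at every point -/
theorem Cop.ne {T : Type} {f : T → ℂ[X]} (h : Cop f) (u : ℂ) : ∃ a, (f a).eval u ≠ 0 := by
  by_contra hcon
  push Not at hcon
  have h1 : Ideal.span (Set.range f) ≤ RingHom.ker (Polynomial.evalRingHom u) := by
    rw [Ideal.span_le]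
    rintro _ ⟨a, rfl⟩
    exact hcon a
  have h2 : (1 : ℂ[X]) ∈ RingHom.ker (Polynomial.evalRingHom u) := by
    apply h1
    have : Ideal.span (Set.range f) = ⊤ := h
    rw [this]
    exact Submodule.mem_top
  simp [RingHom.mem_ker] at h2

omit [Fintype I] [∀ i, Fintype (Jt i)] in
theorem onZ_evt {E : Set (MvPolynomial (Σ i, Jt i) ℂ)} {F : ∀ i, Jt i → ℂ[X]} (h : IsMap E F)
    (u : ℂ) : OnZ E (evt F u) := by
  refine ⟨fun p hp => ?_, fun i => Cop.ne (h.cop i) u⟩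
  have h1 := h.on p hp
  have h2 := eval_aeval_poly (F := F) u p
  rw [h1, eval_zero] at h2
  exact h2.symm

/-! ### the composition -/

/-- two-point tensors near a dense set of points of the chart -/
theorem outProp_of (hAG : AGCore) (hOut : OutT) (hI : Fintype.card I = 2) {g : MetricField n}
    {J : Fin 3 → EuclideanSpace ℝ (Fin n) → Matrix (Fin n) (Fin n) ℝ}
    {c : EuclideanSpace ℝ (Fin n) → Fin n → Fin 3 → Fin 3 → ℝ}
    {U : Set (EuclideanSpace ℝ (Fin n))} {D : CData ℂ I Jt} (hm : 2 ≤ D.m)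
    {F : EuclideanSpace ℝ (Fin n) → ∀ i, Jt i → ℂ[X]} {κ : ℂ} (h : GeoOut g J c U D F κ) :
    OutProp g J c U := by
  intro W hW hWn hWU
  obtain ⟨U', hU'W, hU'o, hU'n, R, P, Dn, hA, hR, hB, hN⟩ := hAG I Jt D hI hm h.prime n W hW hWn F κ
    h.κ0 (fun x hx => h.fam.map x (hWU hx)) (fun x hx => h.fam.cls x (hWU hx))
    (fun x hx => h.con x (hWU hx)) (fun i a k => ((h.fam.sm i a k).continuousOn).mono hWU)
    (fun Dn hB hN => Dens.mono (h.tot Dn hB hN) hWU)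
  have hU'U : U' ⊆ U := hU'W.trans hWU
  have h1 : AgIn U' D.w (fun x => evt (F x)) (κ ^ 2) P Dn :=
    hA.agIn h.κ0 hR (fun x hx u => onZ_evt (h.fam.map x (hU'U hx)) u)
      (Dens.mono (h.tot Dn hB hN) hU'U)
  obtain ⟨V, hV, hVn, hVU', Gt, hG⟩ := hOut I Jt n g J c U' D.w _ _ P Dn hU'o
    (TwIn.mono h.tw hU'U hU'o) h1 U' hU'o hU'n le_rfl
  exact ⟨V, hV, hVn, hVU'.trans hU'W, Gt, hG⟩

/-- **the composition**, conclusion = S0398 -/
theorem main_of (hDat : DatAll) (hGeo : Geo) (hAG : AGCore) (hOut : OutT)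
    (m : ℕ) (hm : 2 ≤ m) (M : Type) [TopologicalSpace M] [T2Space M] [CompactSpace M]
    [ConnectedSpace M] [ChartedSpace (EuclideanSpace ℝ (Fin (4 * m))) M]
    [IsManifold 𝓘(ℝ, EuclideanSpace ℝ (Fin (4 * m))) ∞ M] (G : ChartMetric (4 * m) M)
    (Q : QuaternionicStructure (4 * m) M G)
    (hpos : ∀ e ∈ atlas (EuclideanSpace ℝ (Fin (4 * m))) M, ∀ x ∈ e.target,
      0 < scalarCurv (G.g e) x) :
    ∀ e ∈ atlas (EuclideanSpace ℝ (Fin (4 * m))) M, ∀ x ∈ e.target,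
      ∀ a l i j k : Fin (4 * m), covDerivRiemann (G.g e) x a l i j k = 0 := by
  obtain ⟨ν₀, hν, hD⟩ := hDat m hm M G Q hpos
  refine QKi_838.main_end G Q fun e he => ?_
  refine ⟨_, _, neg_ne_zero.2 hν.ne', hD e he, fun O hO hOU hOn => ?_⟩
  obtain ⟨I, _, Jt, _, D, F, κ, hI, hDm, hG⟩ := hGeo m hm M G Q hpos e he
  obtain ⟨V, hV, hVn, hVO, Gt, hGt⟩ := outProp_of hAG hOut hI (by omega) hG O hO hOn hOU
  exact ⟨V, hVO, hV, hVn, Gt, hGt⟩

end Crest.Agent.R260.MainC_803
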