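import Crest.Agent.R260.Fm3_323_Mg
import Crest.Agent.R260.MainC_803

-- ▼ part R260/Fam4_919
section

/-!
# Row 260 (S0398), GENFAM (F0) (helper919): the family from the hypotheses of `MainC_803.AGCore`
-/

set_option autoImplicit false
set_option linter.unusedSectionVars false

namespace Crest.Agent.R260.Fam_919

open Polynomial Topology
open Crest.Agent.R270.BM_360 Crest.Agent.R260.Lin_678 Crest.Agent.R260.Mob_919
open Crest.Agent.R260.Out_516 Crest.Agent.R260.MainC_803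

variable {I : Type} {J : I → Type} [Fintype I] [∀ i, Fintype (J i)]




theorem ne2_of {E : Set (MvPolynomial (Σ i, J i) ℂ)}
    {Δ : MvPolynomial ((Σ i, J i) ⊕ (Σ i, J i)) ℂ}
    (h : ∃ v v' : ∀ i, J i → ℂ, OnX E v ∧ (∀ i, v i ≠ 0) ∧ OnX E v' ∧ (∀ i, v' i ≠ 0) ∧
        pval Δ v v' ≠ 0) : Ne2 E Δ := by
  obtain ⟨v, v', h1, h2, h3, h4, h5⟩ := h
  exact ⟨fun y => v y.1 y.2, fun y => v' y.1 y.2,
    ⟨h1, fun i => Function.ne_iff.1 (h2 i)⟩, ⟨h3, fun i => Function.ne_iff.1 (h4 i)⟩, h5⟩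

/-- **(F0) in the language of `AGCore`.** -/
theorem exists_fam_core (D : CData ℂ I J) {n : ℕ} {U : Set (EuclideanSpace ℝ (Fin n))}
    (hU : IsOpen U) (hne : U.Nonempty) (F : EuclideanSpace ℝ (Fin n) → ∀ i, J i → ℂ[X])
    {κ : ℂ} (hκ : κ ≠ 0) (hmap : ∀ x ∈ U, IsMap D.E (F x)) (hcls : ∀ x ∈ U, cls (F x) = 2 • D.β)
    (hcon : ∀ x ∈ U, D.th.Val (F x) (fun i a => derivative (F x i a)) (C κ))
    (hcont : ∀ i a k, ContinuousOn (fun x => (F x i a).coeff k) U)
    (htot : ∀ Dn, BiH Dn → Ne2 D.E Dn → Dens U (fun x => evt (F x)) Dn) :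
    ∃ U' ⊆ U, IsOpen U' ∧ U'.Nonempty ∧
      ∃ P : Ideal (MvPolynomial (Cx J (fun i => 2 * D.β i)) ℂ), Fam D P ∧
        ∀ x ∈ U', InC (fun i => 2 * D.β i) P (F x) := by
  refine exists_fam D hU hne F hmap hcls hκ hcon hcont ?_
  intro Δ hΔ hn V hVU hV hVne
  obtain ⟨x, hx, s, t, -, h⟩ := htot Δ hΔ (ne2_of hn) V hV hVne hVU
  exact ⟨x, hx, s, t, h⟩

end Crest.Agent.R260.Fam_919
end

-- ▼ part R260/Fin12_600

/-!
Row 260 (S0398), AG-FINAL: assembly of `MainC_803.AGCore`.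
-/

set_option autoImplicit false
set_option linter.unusedSectionVars false

namespace Crest.Agent.R260.Fin12_600

open Polynomial Crest.Agent.R270.BM_360 Crest.Agent.R260.Lin_678 Crest.Agent.R260.Fam_919
open Crest.Agent.R260.Fin_600 Crest.Agent.R260.Fin5_600 Crest.Agent.R260.Fin6_600
open Crest.Agent.R260.Fin7_600 Crest.Agent.R260.Fin8_600 Crest.Agent.R260.QuadDefs_517
open Crest.Agent.R260.Fin9_600 Crest.Agent.R260.Fin10_600 Crest.Agent.R260.Fin11_600
open Crest.Agent.R260.Fin4_600 Crest.Agent.R260.Out_516 Crest.Agent.R260.MainC_803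
open Metric

universe u

/-- the ideal of pairs is prime. -/
theorem qp_prime {I : Type} {J : I → Type} [Fintype I] [∀ i, Fintype (J i)] {k : Type u} [Field k]
    [IsAlgClosed k] [CharZero k] (D : CData k I J) (hE : (Ideal.span D.E).IsPrime)
    (hne : ∃ v : ∀ i, J i → k, OnZ' D.E v) : (qp D.E).IsPrime := by
  obtain ⟨F₀, _, _, i1, i2, i3, x₀, hx, hx0, hxt, hxa⟩ := Gpt_33.exists_gen_pt D hE hne k
  have hi : i2 = i1 := by
    refine Algebra.algebra_ext _ _ fun r => ?_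
    exact (@IsScalarTower.algebraMap_apply k k F₀ _ _ _ (Algebra.id k) i2 i1 i3 r).symm
  subst hi
  obtain ⟨L, _, _, _, _, _, y, hy, hy0, hyt, -⟩ := Gpt_33.exists_gen_pt D hE hne F₀
  have h : Gnr (qp D.E) (pr (up L x₀) y) := gnr_pair D hE ⟨hx, hx0⟩ hxt ⟨hy, hy0⟩ hyt
  have h1 : qp D.E = RingHom.ker (MvPolynomial.aeval (pr (up L x₀) y) :
      MvPolynomial (PIdx J) k →ₐ[k] L).toRingHom := by
    ext p
    rw [RingHom.mem_ker]
    exact (h p).symm
  rw [h1]
  exact RingHom.ker_isPrime _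

/-- **analytic form of the splitting**. -/
theorem an_of_splits {N : ℕ} {Q0 : ℂ[X][X]} (h : SplitsLE N Q0) {v1 : ℂ} {r : ℝ} (hr : 0 < r)
    {f : ℂ → ℂ} (hf : DifferentiableOn ℂ f (ball v1 r))
    (hroot : ∀ v ∈ ball v1 r, (Q0.map (evalRingHom v)).eval (f v) = 0) :
    ∃ q : ℂ[X], q.natDegree ≤ N ∧ ∀ v ∈ ball v1 r, f v = q.eval v := by
  classical
  obtain ⟨n, σ, q', c', hc', hdeg, hor, heq⟩ := h
  set V := ball v1 r with hVdef
  have hVo : IsOpen V := isOpen_ball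
  have hV : IsPreconnected V := (convex_ball v1 r).isPreconnected
  have hVne : V.Nonempty := ⟨v1, mem_ball_self hr⟩
  have hinf : V.Infinite := infinite_of_mem_nhds v1 (hVo.mem_nhds (mem_ball_self hr))
  have hfa : AnalyticOnNhd ℂ f V := hf.analyticOnNhd hVo
  have hev : ∀ u ∈ V, c'.eval u * ∏ i, (σ i * f u - (q' i).eval u) = 0 := by
    intro u hu
    have := hroot u hu
    rw [heq, Polynomial.map_mul, Polynomial.map_C, Polynomial.map_prod, eval_mul, eval_C,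
      eval_prod] at this
    simpa using this
  have h1 := AnalyticOnNhd.eq_zero_or_eq_zero_of_mul_eq_zero
    (f := fun u => c'.eval u) (g := fun u => ∏ i, (σ i * f u - (q' i).eval u))
    (fun u _ => (AnalyticOnNhd.eval_polynomial c') u (Set.mem_univ u))
    (Finset.analyticOnNhd_fun_prod _ fun i _ =>
      (analyticOnNhd_const.mul hfa).sub
        (fun u _ => (AnalyticOnNhd.eval_polynomial (q' i)) u (Set.mem_univ u)))
    hev hV
  rcases h1 with h1 | h1
  · exact absurd (Polynomial.eq_zero_of_infinite_isRoot c' (hinf.mono fun u hu => h1 u hu)) hc'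
  · obtain ⟨i, -, hi⟩ := Fin3_600.prod_zero hV hVne Finset.univ
      (fun i u => σ i * f u - (q' i).eval u)
      (fun i _ => (analyticOnNhd_const.mul hfa).sub
        (fun u _ => (AnalyticOnNhd.eval_polynomial (q' i)) u (Set.mem_univ u))) h1
    have hσ : σ i ≠ 0 := by
      intro h0
      rcases hor i with h | h
      · exact h h0
      · refine h (Polynomial.eq_zero_of_infinite_isRoot (q' i) (hinf.mono fun u hu => ?_))
        have := hi u hu
        rw [h0] at this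
        simpa using this
    refine ⟨C (σ i)⁻¹ * q' i, (natDegree_C_mul_le _ _).trans (hdeg i), fun u hu => ?_⟩
    have := hi u hu
    rw [sub_eq_zero] at this
    rw [eval_mul, eval_C, ← this, ← mul_assoc, inv_mul_cancel₀ hσ, one_mul]

variable {I : Type} [Fintype I] {Jt : I → Type} [∀ i, Fintype (Jt i)]

/-- the two descriptions of points of the cone -/
theorem onZ_of {E : Set (MvPolynomial (Σ i, Jt i) ℂ)} {a : Pt Jt} (h : OnZ E a) :
    OnZ' E (fun i j => a ⟨i, j⟩) :=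
  ⟨h.1, fun i h0 => by
    obtain ⟨j, hj⟩ := h.2 i
    exact hj (congrFun h0 j)⟩

theorem onZ_to {E : Set (MvPolynomial (Σ i, Jt i) ℂ)} {v : ∀ i, Jt i → ℂ} (h : OnZ' E v) :
    OnZ E (fun s => v s.1 s.2) := by
  refine ⟨h.1, fun i => ?_⟩
  by_contra hcon
  push Not at hcon
  exact h.2 i (funext hcon)

theorem pr_eq (a b : Pt Jt) :
    (Sum.elim a b : PIdx Jt → ℂ) = pr (fun i j => a ⟨i, j⟩) (fun i j => b ⟨i, j⟩) := by
  funext s
  rcases s with s | s <;> rfl

/-- one holomorphic root, second slot -/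
theorem quad_an (D : CData ℂ I Jt) {P : Ideal (MvPolynomial (Cx Jt (N2 D)) ℂ)}
    {Q : Polynomial (MvPolynomial (PIdx Jt) ℂ)} (hE : (Ideal.span D.E).IsPrime)
    (hne : ∃ v : ∀ i, Jt i → ℂ, OnZ' D.E v) (hex : ExGenP (N2 D) P) (hmap : GenMapP D P)
    (htr : GenTrP D P) (hL : Lft2 D P Q) {a : ∀ i, Jt i → ℂ} (ha : OnX D.E a)
    {H : ∀ i, Jt i → ℂ[X]} (hH : InC (N2 D) P H)
    (hne0 : ∃ v, Pv Q (pr a (fun i j => (H i j).eval v)) ≠ 0) {v1 : ℂ} {r : ℝ} (hr : 0 < r)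
    {f : ℂ → ℂ} (hf : DifferentiableOn ℂ f (ball v1 r))
    (hroot : ∀ v ∈ ball v1 r, (Pv Q (pr a (fun i j => (H i j).eval v))).eval (f v) = 0) :
    ∃ q : ℂ[X], q.natDegree ≤ 2 ∧ ∀ v ∈ ball v1 r, f v = q.eval v := by
  have hev : ∀ v : ℂ, (Pv Q (pr (fun i j => C (a i j)) H)).map (evalRingHom v) =
      Pv Q (pr a (fun i j => (H i j).eval v)) := by
    intro v
    have h1 := Pv_map Q (Polynomial.aeval v : ℂ[X] →ₐ[ℂ] ℂ) (pr (fun i j => C (a i j)) H)
    have h2 : ((Polynomial.aeval v : ℂ[X] →ₐ[ℂ] ℂ) : ℂ[X] →+* ℂ) = evalRingHom v := by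
      ext x <;> simp
    rw [h2] at h1
    rw [h1]
    congr 1
    funext s
    rcases s with s | s
    · change aeval v (C (a s.1 s.2)) = _
      rw [aeval_C]
      rfl
    · rfl
  have hne1 : Pv Q (pr (fun i j => C (a i j)) H) ≠ 0 := by
    obtain ⟨v, hv⟩ := hne0
    intro h0
    apply hv
    rw [← hev, h0, Polynomial.map_zero]
  have hs := splits D hE hne hex hmap htr hL ha hH hne1
  exact an_of_splits hs hr hf fun v hv => by rw [hev]; exact hroot v hv

/-- the class of maps: conics of the family with their contact constant -/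
def RR (D : CData ℂ I Jt) (P : Ideal (MvPolynomial (Cx Jt (N2 D)) ℂ)) :
    (∀ i, Jt i → ℂ[X]) → ℂ → Prop :=
  fun F q => QuadDefs_517.Con D (FC D P) F ∧ D.th.Val F (dd F) (C q)

/-- **AG-FINAL for one family**. -/
theorem agFin_of (D : CData ℂ I Jt) (hE : (Ideal.span D.E).IsPrime)
    {P : Ideal (MvPolynomial (Cx Jt (N2 D)) ℂ)} (hF : Fam D P) (hQ : QUAD D (FC D P))
    (hG : Gen1P D (FC D P)) (hM : GenMapP D P) (hT : GenTrP D P) :
    ∃ Q Dn, AgFin D.E D.w (RR D P) Q Dn ∧ BiH Dn ∧ Ne2 D.E Dn := by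
  have hne : ∃ v : ∀ i, Jt i → ℂ, OnZ' D.E v := by
    obtain ⟨F, -, hFm, -⟩ := hF.good
    exact ⟨_, onZ_at hFm (0 : ℂ)⟩
  have hex : ExGenP (N2 D) P := Fge_33.exists_gen hF.prime
  obtain ⟨Q, D', hQD⟩ := exists_hom2 D P (fun K _ _ F h => hF.onX K F h) hne
    (qp_prime D hE hne)
  have hL1 := lft2 D hE hQ hG hQD
  have hL2 := lft2_swap D hF hE hQ hG hQD
  have hvan : ∀ a b : Pt Jt, OnZ D.E a → OnZ D.E b → ∀ p ∈ qp D.E,
      MvPolynomial.aeval (Sum.elim a b : PIdx Jt → ℂ) p = 0 := by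
    intro a b ha hb p hp
    rw [pr_eq]
    exact hp _ _ (onZ_of ha) (onZ_of hb)
  have hcne : ∀ x : PIdx Jt → ℂ, (∀ p ∈ qp D.E, MvPolynomial.aeval x p = 0) →
      MvPolynomial.aeval x D' ≠ 0 → Pv Q x ≠ 0 := by
    intro x hx hD h0
    refine hQD.simple x hx hD 0 ?_ ?_
    · rw [h0]; exact eval_zero
    · rw [h0, derivative_zero]; exact eval_zero
  refine ⟨Q, D', ⟨?_, ?_, ?_, ?_, ?_⟩, ?_, ?_⟩
  · intro a b ha hb l m hl hm t ht
    have h1 := hQD.hom ℂ (Sum.elim a b) (Sum.elim l m) (fun i => by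
      rcases i with i | i
      · exact hl i
      · exact hm i) t ht
    have h2 : sc pb (Sum.elim l m) (Sum.elim a b : PIdx Jt → ℂ) = Sum.elim (scl l a) (scl m b) := by
      funext s
      rcases s with s | s <;> rfl
    have h3 : ∏ i, (Sum.elim l m : I ⊕ I → ℂ) i ^ WW D i = (∏ i, l i ^ D.w i) * ∏ i, m i ^ D.w i := by
      rw [Fintype.prod_sum_type]
      rfl
    rw [h2, h3] at h1
    exact h1
  · intro a b ha hb hD t ht
    exact hQD.simple _ (hvan a b ha hb) hD t ht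
  · intro F c hR s t hst hD
    have hvz : ∀ p ∈ qp D.E, MvPolynomial.aeval (Sum.elim (evt F s) (evt F t) : PIdx Jt → ℂ) p = 0 :=
      hvan _ _ (onZ_evt hR.1.map s) (onZ_evt hR.1.map t)
    have hc : QuadDefs_517.Con D (FC D P)
        (fun i x => Mob_919.mob (N2 D i) s t 1 1 (F i x)) :=
      con_mob D hF hR.1 (by rw [mul_one, mul_one]; exact sub_ne_zero.2 hst)
    have h1 := hQD.root (Sum.elim (evt F s) (evt F t)) _ _ _ _ hvz hD hc (joins_mob D hR.1 hR.2 hst)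
    rw [phi_one] at h1
    have h2 : ((s - t) * c) ^ 2 = c ^ 2 * (s - t) ^ 2 := by ring
    rw [h2] at h1
    exact h1
  · intro H c hR a ha hD v1 r hr f hf hroot
    obtain ⟨v, hv⟩ := hD
    have e : ∀ v, (Sum.elim a (evt H v) : PIdx Jt → ℂ) =
        pr (fun i j => a ⟨i, j⟩) (fun i j => (H i j).eval v) := fun v => pr_eq _ _
    have hz : OnZ D.E (evt H v) := onZ_evt hR.1.map v
    refine quad_an D hE hne hex hM hT hL1 (onZ_of ha).1 hR.1.cc ⟨v, ?_⟩ hr hf fun v hv => ?_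
    · rw [← e]
      exact hcne _ (hvan _ _ ha hz) hv
    · rw [← e]
      exact hroot v hv
  · intro H c hR b hb hD v1 r hr f hf hroot
    obtain ⟨v, hv⟩ := hD
    have e : ∀ v, (Sum.elim (evt H v) b : PIdx Jt → ℂ) =
        pr (fun i j => (H i j).eval v) (fun i j => b ⟨i, j⟩) := fun v => pr_eq _ _
    have hz : OnZ D.E (evt H v) := onZ_evt hR.1.map v
    refine quad_an D hE hne hex hM hT hL2 (a := fun i j => b ⟨i, j⟩) (onZ_of hb).1 hR.1.cc
      ⟨v, ?_⟩ hr hf fun v hv => ?_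
    · rw [Pv_swp, ← e]
      exact hcne _ (hvan _ _ hz hb) hv
    · rw [Pv_swp, ← e]
      exact hroot v hv
  · obtain ⟨e, he⟩ := hQD.bih
    refine ⟨e, ?_⟩
    have hw : bw (pb (J := Jt)) = (fun x : (Σ i, Jt i) ⊕ (Σ i, Jt i) =>
        (open Classical in Pi.single (Sum.map Sigma.fst Sigma.fst x) 1 : I ⊕ I → ℕ)) := by
      funext x
      unfold bw
      congr
      exact Subsingleton.elim _ _
    rw [hw] at he
    exact he
  · have h1 := hQD.ne
    by_contra hcon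
    apply h1
    intro v w hv hw
    by_contra h2
    exact hcon ⟨fun s => v s.1 s.2, fun s => w s.1 s.2, onZ_to hv, onZ_to hw, h2⟩

/-- **AGCore** from the statements about the generic conic of a family. -/
theorem agCore_of
    (hyp : ∀ (I : Type) [Fintype I] (Jt : I → Type) [∀ i, Fintype (Jt i)] (D : CData ℂ I Jt),
      Fintype.card I = 2 → 2 ≤ D.m → (Ideal.span D.E).IsPrime →
      ∀ P : Ideal (MvPolynomial (Cx Jt (fun i => 2 * D.β i)) ℂ), Fam D P →
        QUAD D (FCls D P) ∧ Gen1P D (FCls D P) ∧ GenMapP D P ∧ GenTrP D P) : AGCore := by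
  intro I _ Jt _ D hI hm hE n U hU hUne F κ hκ hmap hcls hcon hcont htot
  obtain ⟨U', hU'U, hU'o, hU'n, P, hP, hin⟩ := exists_fam_core D hU hUne F hκ hmap hcls hcon hcont
    htot
  obtain ⟨h1, h2, h3, h4⟩ := hyp I Jt D hI hm hE P hP
  obtain ⟨Q, Dn, hA, hB, hN⟩ := agFin_of D hE hP h1 h2 h3 h4
  exact ⟨U', hU'U, hU'o, hU'n, RR D P, Q, Dn, hA, fun x hx =>
    ⟨⟨hmap x (hU'U hx), hcls x (hU'U hx), hin x hx⟩, hcon x (hU'U hx)⟩, hB, hN⟩

end Crest.Agent.R260.Fin12_600
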