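import Mathlib
import Crest.Agent.R260.Irr2_33

/-!
# Row 260, IRR, part 3 (helper33): the generic point of the cone is unique

`ker_eq` : `E` equations over the algebraically closed field `k` of characteristic zero with prime
ideal, all tangent spaces (at points with non-zero blocks) of dimension at most `N`; `F` any field
extension of `k`; `v` a point over `κ ⊇ F` with non-zero blocks and transcendence degree at least `N`
over `F`. Then the polynomials over `F` vanishing at `v` are exactly those of `(E) F[X]`.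
-/

set_option autoImplicit false
set_option linter.unusedSectionVars false

namespace Crest.Agent.R260.Irr_33

open MvPolynomial Module
open Crest.Agent.R270.BM_360 Crest.Agent.R260.Lin_678 Crest.Agent.R270.Fr_928

universe u v w

section main

variable {k : Type u} [Field k] {I : Type} {J : I → Type} [Fintype I] [∀ i, Fintype (J i)]

/-- **abstract version**: a prime ideal `P` of `F[X]` containing the equations, a point of `V(P)` of
maximal transcendence degree is a generic point of `V(P)`. -/
theorem ker_eq_abs {E : Set (MvPolynomial (Σ i, J i) k)} {F : Type u} [Field F] [CharZero F]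
    [Algebra k F] {P : Ideal (MvPolynomial (Σ i, J i) F)} (hP : P.IsPrime)
    (hEP : ∀ p ∈ E, MvPolynomial.map (algebraMap k F) p ∈ P) {N : ℕ}
    (hdim : ∀ (K : Type u) [Field K] [Algebra k K] (g : ∀ i, J i → K), OnX E g →
      (∀ i, g i ≠ 0) → finrank K (TanSp E g) ≤ N)
    {κ : Type u} [Field κ] [Algebra F κ] {v : ∀ i, J i → κ}
    (hv : ∀ p ∈ P, aeval (fun x : Σ i, J i => v x.1 x.2) p = 0) (hv0 : ∀ i, v i ≠ 0)
    (htr : TrGe F {c | ∃ i a, v i a = c} N) (p : MvPolynomial (Σ i, J i) F)
    (hp : aeval (fun x : Σ i, J i => v x.1 x.2) p = 0) : p ∈ P := by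
  by_contra hcon
  rw [← ent_eq] at htr
  obtain ⟨x, hx⟩ := exists_sub (v := fun x : Σ i, J i => v x.1 x.2) htr
  let A := MvPolynomial (Σ i, J i) F ⧸ P
  have : IsDomain A := Ideal.Quotient.isDomain P
  let φ : A →ₐ[F] κ := Ideal.Quotient.liftₐ P (aeval (fun x : Σ i, J i => v x.1 x.2)) hv
  have hφ : ∀ q, φ (Ideal.Quotient.mk P q) = aeval (fun x : Σ i, J i => v x.1 x.2) q :=
    fun q => rfl
  let K := FractionRing A
  let g : ∀ i, J i → K := fun i a => algebraMap A K (Ideal.Quotient.mk P (X ⟨i, a⟩))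
  have hg : ∀ q : MvPolynomial (Σ i, J i) F, aeval (fun x : Σ i, J i => g x.1 x.2) q =
      algebraMap A K (Ideal.Quotient.mk P q) := by
    intro q
    have h1 : (aeval (fun x : Σ i, J i => g x.1 x.2) : MvPolynomial (Σ i, J i) F →ₐ[F] K) =
        (IsScalarTower.toAlgHom F A K).comp (Ideal.Quotient.mkₐ F P) := by
      refine algHom_ext fun x => ?_
      rw [aeval_X]
      rfl
    rw [h1]
    rfl
  have hinj : Function.Injective (algebraMap A K) := IsFractionRing.injective A K
  have hg0 : ∀ i, g i ≠ 0 := by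
    intro i hi
    obtain ⟨a, ha⟩ := Function.ne_iff.1 (hv0 i)
    refine ha ?_
    have h1 : g i a = 0 := congrFun hi a
    have h2 : (Ideal.Quotient.mk P (X ⟨i, a⟩) : A) = 0 := hinj (h1.trans (map_zero _).symm)
    have h3 := hφ (X ⟨i, a⟩)
    rw [h2, map_zero, aeval_X] at h3
    exact h3.symm
  have hgE : OnX E g := by
    intro q hq
    rw [← aeval_map_algebraMap F (fun x : Σ i, J i => g x.1 x.2) q, hg,
      Ideal.Quotient.eq_zero_iff_mem.2 (hEP q hq), map_zero]
  -- independence in `A`
  have h1 : AlgebraicIndependent F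
      (fun o : Option (Fin N) => o.elim (Ideal.Quotient.mk P p : A)
        (fun j => Ideal.Quotient.mk P (X (x j)))) := by
    refine indep_option φ (a := fun j => (Ideal.Quotient.mk P (X (x j)) : A)) ?_ ?_ ?_
    · have h2 : (fun j => φ (Ideal.Quotient.mk P (X (x j)))) =
          fun j => v (x j).1 (x j).2 := by
        funext j
        rw [hφ, aeval_X]
      rw [h2]
      exact hx
    · intro h0
      exact hcon (Ideal.Quotient.eq_zero_iff_mem.1 h0)
    · rw [hφ, hp]
  have h2 : AlgebraicIndependent F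
      (fun o : Option (Fin N) => algebraMap A K (o.elim (Ideal.Quotient.mk P p : A)
        (fun j => Ideal.Quotient.mk P (X (x j))))) :=
    h1.map' (f := IsScalarTower.toAlgHom F A K) hinj
  have hmem : ∀ a : A, algebraMap A K a ∈
      IntermediateField.adjoin F {c | ∃ i a, g i a = c} := by
    intro a
    obtain ⟨q, rfl⟩ := Ideal.Quotient.mk_surjective a
    rw [← hg]
    have h3 : Algebra.adjoin F (Set.range fun x : Σ i, J i => g x.1 x.2) ≤
        (IntermediateField.adjoin F {c | ∃ i a, g i a = c}).toSubalgebra := by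
      rw [Algebra.adjoin_le_iff]
      rintro _ ⟨x, rfl⟩
      exact IntermediateField.subset_adjoin F _ ⟨x.1, x.2, rfl⟩
    refine h3 ?_
    rw [Algebra.adjoin_range_eq_range_aeval]
    exact ⟨q, rfl⟩
  have h3 : TrGe F {c | ∃ i a, g i a = c} (N + 1) := by
    let e : Fin (N + 1) ≃ Option (Fin N) := finSuccEquiv N
    exact ⟨fun j => algebraMap A K ((e j).elim (Ideal.Quotient.mk P p : A)
        (fun j => Ideal.Quotient.mk P (X (x j)))), fun j => hmem _, h2.comp e e.injective⟩
  have h4 := le_finrank (k := k) hgE h3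
  have h5 := hdim K g hgE hg0
  omega


variable [IsAlgClosed k] [CharZero k]

/-- **the generic point over an extension `F` of the algebraically closed field `k`.** -/
theorem ker_eq {E : Set (MvPolynomial (Σ i, J i) k)} (hP : (Ideal.span E).IsPrime)
    {N : ℕ} (hdim : ∀ (K : Type u) [Field K] [Algebra k K] (g : ∀ i, J i → K), OnX E g →
      (∀ i, g i ≠ 0) → finrank K (TanSp E g) ≤ N)
    {F : Type u} [Field F] [Algebra k F] {κ : Type u} [Field κ] [Algebra k κ] [Algebra F κ]
    [IsScalarTower k F κ] {v : ∀ i, J i → κ} (hv : OnX E v) (hv0 : ∀ i, v i ≠ 0)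
    (htr : TrGe F {c | ∃ i a, v i a = c} N) (p : MvPolynomial (Σ i, J i) F) :
    aeval (fun x : Σ i, J i => v x.1 x.2) p = 0 ↔
      p ∈ (Ideal.span E).map (MvPolynomial.map (algebraMap k F) :
        MvPolynomial (Σ i, J i) k →+* MvPolynomial (Σ i, J i) F) := by
  have : CharZero F := charZero_of_injective_algebraMap (algebraMap k F).injective
  have h1 : ∀ p ∈ Ideal.span E, aeval (fun x : Σ i, J i => v x.1 x.2) p = 0 := by
    intro p hp
    have h2 : Ideal.span E ≤ RingHom.ker (aeval (fun x : Σ i, J i => v x.1 x.2) :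
        MvPolynomial (Σ i, J i) k →ₐ[k] κ).toRingHom := by
      rw [Ideal.span_le]
      intro q hq
      exact hv q hq
    exact h2 hp
  refine ⟨fun hp => ?_, fun hp => eval_of_mem_map hp h1⟩
  refine ker_eq_abs (k := k) (isPrime_map (K := F) hP)
    (fun p hp => Ideal.mem_map_of_mem _ (Ideal.subset_span hp)) hdim ?_ hv0 htr p hp
  intro q hq
  exact eval_of_mem_map hq h1

/-- **IRR**: two points of the cone (non-zero blocks) of transcendence degree at least `N` over `F`
satisfy the same polynomials over `F`. -/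
theorem irr {E : Set (MvPolynomial (Σ i, J i) k)} (hP : (Ideal.span E).IsPrime)
    {N : ℕ} (hdim : ∀ (K : Type u) [Field K] [Algebra k K] (g : ∀ i, J i → K), OnX E g →
      (∀ i, g i ≠ 0) → finrank K (TanSp E g) ≤ N)
    {F : Type u} [Field F] [Algebra k F]
    {κ : Type u} [Field κ] [Algebra k κ] [Algebra F κ] [IsScalarTower k F κ] {v : ∀ i, J i → κ}
    (hv : OnX E v) (hv0 : ∀ i, v i ≠ 0) (htr : TrGe F {c | ∃ i a, v i a = c} N)
    {κ' : Type u} [Field κ'] [Algebra k κ'] [Algebra F κ'] [IsScalarTower k F κ']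
    {v' : ∀ i, J i → κ'} (hv' : OnX E v') (hv0' : ∀ i, v' i ≠ 0)
    (htr' : TrGe F {c | ∃ i a, v' i a = c} N) (p : MvPolynomial (Σ i, J i) F) :
    aeval (fun x : Σ i, J i => v x.1 x.2) p = 0 ↔
      aeval (fun x : Σ i, J i => v' x.1 x.2) p = 0 :=
  (ker_eq hP hdim hv hv0 htr p).trans (ker_eq hP hdim hv' hv0' htr' p).symm

/-- a point of full transcendence degree specialises to every point of the cone (points with values
in any `F`-algebra, no condition on the blocks). -/
theorem specialise {E : Set (MvPolynomial (Σ i, J i) k)} (hP : (Ideal.span E).IsPrime)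
    {N : ℕ} (hdim : ∀ (K : Type u) [Field K] [Algebra k K] (g : ∀ i, J i → K), OnX E g →
      (∀ i, g i ≠ 0) → finrank K (TanSp E g) ≤ N)
    {F : Type u} [Field F] [Algebra k F]
    {κ : Type u} [Field κ] [Algebra k κ] [Algebra F κ] [IsScalarTower k F κ] {v : ∀ i, J i → κ}
    (hv : OnX E v) (hv0 : ∀ i, v i ≠ 0) (htr : TrGe F {c | ∃ i a, v i a = c} N)
    {A : Type v} [CommRing A] [Algebra k A] [Algebra F A] [IsScalarTower k F A]
    {y : ∀ i, J i → A} (hy : OnX E y) (p : MvPolynomial (Σ i, J i) F)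
    (hp : aeval (fun x : Σ i, J i => v x.1 x.2) p = 0) :
    aeval (fun x : Σ i, J i => y x.1 x.2) p = 0 := by
  refine eval_of_mem_map ((ker_eq hP hdim hv hv0 htr p).1 hp) ?_
  intro p hp
  have h2 : Ideal.span E ≤ RingHom.ker (aeval (fun x : Σ i, J i => y x.1 x.2) :
      MvPolynomial (Σ i, J i) k →ₐ[k] A).toRingHom := by
    rw [Ideal.span_le]
    intro q hq
    exact hy q hq
  exact h2 hp

end main

/-! ### amalgamation -/

section amalg



end amalg

/-! ### `CData` versions -/

section cdata

variable {k : Type u} [Field k] [IsAlgClosed k] [CharZero k] {I : Type} {J : I → Type} [Fintype I]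
  [∀ i, Fintype (J i)] (D : CData k I J)

/-- the transcendence degree over any field of constants of a point of the cone. -/
theorem cd_trge_le {F : Type u} [Field F] [Algebra k F] {κ : Type u} [Field κ] [Algebra k κ]
    [Algebra F κ] [IsScalarTower k F κ] {v : ∀ i, J i → κ} (hv : OnX D.E v) (hv0 : ∀ i, v i ≠ 0)
    {m : ℕ} (h : TrGe F {c | ∃ i a, v i a = c} m) : m ≤ 2 * D.m + 1 + Fintype.card I := by
  have : CharZero F := charZero_of_injective_algebraMap (algebraMap k F).injective
  rw [← D.tan_dim κ v hv hv0]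
  exact le_finrank hv h

theorem cd_ker_eq (hP : (Ideal.span D.E).IsPrime)
    {F : Type u} [Field F] [Algebra k F] {κ : Type u} [Field κ] [Algebra k κ] [Algebra F κ]
    [IsScalarTower k F κ] {v : ∀ i, J i → κ} (hv : OnX D.E v) (hv0 : ∀ i, v i ≠ 0)
    (htr : TrGe F {c | ∃ i a, v i a = c} (2 * D.m + 1 + Fintype.card I))
    (p : MvPolynomial (Σ i, J i) F) :
    aeval (fun x : Σ i, J i => v x.1 x.2) p = 0 ↔
      p ∈ (Ideal.span D.E).map (MvPolynomial.map (algebraMap k F) :
        MvPolynomial (Σ i, J i) k →+* MvPolynomial (Σ i, J i) F) :=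
  ker_eq hP (fun K _ _ g hg hg0 => (D.tan_dim K g hg hg0).le) hv hv0 htr p

/-- **IRR** for `CData`. -/
theorem cd_irr (hP : (Ideal.span D.E).IsPrime)
    {F : Type u} [Field F] [Algebra k F]
    {κ : Type u} [Field κ] [Algebra k κ] [Algebra F κ] [IsScalarTower k F κ] {v : ∀ i, J i → κ}
    (hv : OnX D.E v) (hv0 : ∀ i, v i ≠ 0)
    (htr : TrGe F {c | ∃ i a, v i a = c} (2 * D.m + 1 + Fintype.card I))
    {κ' : Type u} [Field κ'] [Algebra k κ'] [Algebra F κ'] [IsScalarTower k F κ']
    {v' : ∀ i, J i → κ'} (hv' : OnX D.E v') (hv0' : ∀ i, v' i ≠ 0)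
    (htr' : TrGe F {c | ∃ i a, v' i a = c} (2 * D.m + 1 + Fintype.card I))
    (p : MvPolynomial (Σ i, J i) F) :
    aeval (fun x : Σ i, J i => v x.1 x.2) p = 0 ↔
      aeval (fun x : Σ i, J i => v' x.1 x.2) p = 0 :=
  (cd_ker_eq D hP hv hv0 htr p).trans (cd_ker_eq D hP hv' hv0' htr' p).symm


end cdata

end Crest.Agent.R260.Irr_33
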