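import Mathlib
import Crest.Agent.R260.LinDefs_678
import Crest.Agent.R260.Fin5_600
import Crest.Agent.R260.Irr3_33
import Crest.Agent.R260.QuadDefs_517

-- ▼ part R260/Fin1_600
section

/-!
Row 260 (S0398), AG-FINAL (A): **PHI-POLY**.

A function `φ` on a family of finite type (fibre variables `β`) over an irreducible base (base
variables `α`, prime ideal `q`) which is algebraic over the function field of the base at every
field valued point over the generic point is, over a non-empty open set of the base, a root of ONE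
polynomial with simple roots; over the generic point all the roots of that polynomial are values
of `φ`.
-/

namespace Crest.Agent.R260.Fin1_600

open Polynomial

universe u v

section FieldCase

variable {F : Type u} [Field F] [CharZero F] {A : Type v} [CommRing A] [Algebra F A]
  [Algebra.FiniteType F A]

/-- the case of a base which is a point. -/
theorem field_case (φ : A)
    (halg : ∀ p : Ideal A, p.IsPrime → IsAlgebraic F (Ideal.Quotient.mk p φ)) :
    ∃ P : F[X], P.Separable ∧ P.Monic ∧ IsNilpotent (aeval φ P) ∧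
      ∀ (K : Type u) [Field K] [Algebra F K] [IsAlgClosed K] (t : K), aeval t P = 0 →
        ∃ g : A →ₐ[F] K, g φ = t := by
  classical
  have hN : IsNoetherianRing A := Algebra.FiniteType.isNoetherianRing F A
  have hfin : (minimalPrimes A).Finite := minimalPrimes.finite_of_isNoetherianRing A
  let m : Ideal A → F[X] := fun p => minpoly F (Ideal.Quotient.mk p φ)
  let s : Finset F[X] := hfin.toFinset.image m
  have hs : ∀ f ∈ s, ∃ p ∈ minimalPrimes A, m p = f := by
    intro f hf
    obtain ⟨p, hp, rfl⟩ := Finset.mem_image.1 hf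
    exact ⟨p, hfin.mem_toFinset.1 hp, rfl⟩
  have hprime : ∀ p ∈ minimalPrimes A, p.IsPrime := fun p hp => hp.1.1
  have hint : ∀ p ∈ minimalPrimes A, IsIntegral F (Ideal.Quotient.mk p φ) := fun p hp =>
    (halg p (hprime p hp)).isIntegral
  have hmon : ∀ f ∈ s, f.Monic := by
    intro f hf
    obtain ⟨p, hp, rfl⟩ := hs f hf
    exact minpoly.monic (hint p hp)
  have hirr : ∀ f ∈ s, Irreducible f := by
    intro f hf
    obtain ⟨p, hp, rfl⟩ := hs f hf
    have := hprime p hp
    exact minpoly.irreducible (hint p hp)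
  refine ⟨∏ f ∈ s, f, ?_, monic_prod_of_monic _ _ hmon, ?_, ?_⟩
  · refine separable_prod' ?_ fun f hf => (hirr f hf).separable
    intro f hf g hg hfg
    refine (hirr f hf).coprime_iff_not_dvd.2 fun hd => hfg ?_
    exact eq_of_monic_of_associated (hmon f hf) (hmon g hg)
      ((hirr f hf).associated_of_dvd (hirr g hg) hd)
  · rw [← mem_nilradical, nilradical, ← Ideal.sInf_minimalPrimes, Submodule.mem_sInf]
    intro p hp
    have hp' : p ∈ minimalPrimes A := hp
    rw [← Ideal.Quotient.eq_zero_iff_mem]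
    have h1 : Ideal.Quotient.mk p (aeval φ (∏ f ∈ s, f)) =
        aeval (Ideal.Quotient.mk p φ) (∏ f ∈ s, f) := by
      have := (aeval_algHom_apply (Ideal.Quotient.mkₐ F p) φ (∏ f ∈ s, f))
      exact this.symm
    rw [h1, map_prod]
    refine Finset.prod_eq_zero (i := m p) ?_ (minpoly.aeval _ _)
    exact Finset.mem_image.2 ⟨p, hfin.mem_toFinset.2 hp', rfl⟩
  · intro K _ _ _ t ht
    rw [map_prod] at ht
    obtain ⟨f, hf, hft⟩ := Finset.prod_eq_zero_iff.1 ht
    obtain ⟨p, hp, rfl⟩ := hs f hf
    have := hprime p hp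
    obtain ⟨M, hM⟩ := Ideal.exists_maximal (A ⧸ p)
    let E := (A ⧸ p) ⧸ M
    let _ : Field E := Ideal.Quotient.field M
    have hft' : Algebra.FiniteType F E := inferInstance
    have hfinE : Module.Finite F E := finite_of_finite_type_of_isJacobsonRing F E
    let x : E := Ideal.Quotient.mk M (Ideal.Quotient.mk p φ)
    have hx : aeval x (m p) = 0 := by
      have h1 : aeval x (m p) = Ideal.Quotient.mk M (aeval (Ideal.Quotient.mk p φ) (m p)) :=
        (aeval_algHom_apply (Ideal.Quotient.mkₐ F M) (Ideal.Quotient.mk p φ) (m p))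
      rw [h1, minpoly.aeval, map_zero]
    have hmx : m p = minpoly F x :=
      minpoly.eq_of_irreducible_of_monic (hirr _ hf) hx (hmon _ hf)
    rw [hmx] at hft
    obtain ⟨g, hg⟩ := IntermediateField.exists_algHom_of_splits_of_aeval (F := F) (E := E)
      (K := K) (fun s => ⟨Algebra.IsIntegral.isIntegral s, IsAlgClosed.splits _⟩) hft
    refine ⟨(g.comp (Ideal.Quotient.mkₐ F M)).comp (Ideal.Quotient.mkₐ F p), hg⟩

end FieldCase

section Rel

variable {k : Type u} [Field k] {α β : Type}

/-- the coordinate ring of the base -/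
abbrev Rb (q : Ideal (MvPolynomial α k)) : Type u := MvPolynomial α k ⧸ q

/-- polynomials on the family as polynomials in the fibre variables over the base ring -/
noncomputable def io (q : Ideal (MvPolynomial α k)) :
    MvPolynomial (α ⊕ β) k →ₐ[k] MvPolynomial β (Rb q) :=
  MvPolynomial.aeval (Sum.elim (fun a => MvPolynomial.C (Ideal.Quotient.mk q (MvPolynomial.X a)))
    MvPolynomial.X)

/-- evaluation at a point of the base -/
noncomputable def th (q : Ideal (MvPolynomial α k)) {K : Type*} [CommRing K] [Algebra k K]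
    (x : α → K) (hx : ∀ p ∈ q, MvPolynomial.aeval x p = 0) : Rb q →ₐ[k] K :=
  Ideal.Quotient.liftₐ q (MvPolynomial.aeval x) hx

theorem th_mk (q : Ideal (MvPolynomial α k)) {K : Type*} [CommRing K] [Algebra k K]
    (x : α → K) (hx : ∀ p ∈ q, MvPolynomial.aeval x p = 0) (p : MvPolynomial α k) :
    th q x hx (Ideal.Quotient.mk q p) = MvPolynomial.aeval x p := rfl

theorem eval_io (q : Ideal (MvPolynomial α k)) {K : Type*} [CommRing K] [Algebra k K]
    (x : α → K) (hx : ∀ p ∈ q, MvPolynomial.aeval x p = 0) (y : β → K) (p : MvPolynomial (α ⊕ β) k) :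
    MvPolynomial.eval₂ (th q x hx : Rb q →+* K) y (io q p) = MvPolynomial.aeval (Sum.elim x y) p := by
  induction p using MvPolynomial.induction_on with
  | C a =>
    rw [← MvPolynomial.algebraMap_eq, AlgHom.commutes, AlgHom.commutes,
      IsScalarTower.algebraMap_apply k (Rb q) (MvPolynomial β (Rb q)),
      MvPolynomial.algebraMap_eq, MvPolynomial.eval₂_C]
    exact (th q x hx).commutes a
  | add p r hp hr => rw [map_add, MvPolynomial.eval₂_add, map_add, hp, hr]
  | mul_X p n hp =>
    rw [map_mul, MvPolynomial.eval₂_mul, map_mul, hp]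
    congr 1
    unfold io
    rw [MvPolynomial.aeval_X, MvPolynomial.aeval_X]
    rcases n with a | b
    · rw [Sum.elim_inl, Sum.elim_inl, MvPolynomial.eval₂_C]
      change th q x hx (Ideal.Quotient.mk q (MvPolynomial.X a)) = x a
      rw [th_mk, MvPolynomial.aeval_X]
    · rw [Sum.elim_inr, Sum.elim_inr, MvPolynomial.eval₂_X]

/-- from algebraic over the field generated by the point to algebraic over the function field. -/
theorem alg_of_adjoin {F E : Type*} [Field F] [Field E] [Algebra k F] [Algebra F E] [Algebra k E]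
    [IsScalarTower k F E] (x : α → F) (t : E)
    (h : IsAlgebraic (IntermediateField.adjoin k (Set.range fun a => algebraMap F E (x a))) t) :
    IsAlgebraic F t := by
  obtain ⟨g, hg0, hg⟩ := h
  have hle : IntermediateField.adjoin k (Set.range fun a => algebraMap F E (x a)) ≤
      (IsScalarTower.toAlgHom k F E).fieldRange := by
    rw [IntermediateField.adjoin_le_iff]
    rintro _ ⟨a, rfl⟩
    exact ⟨x a, rfl⟩
  have hl : g.map (algebraMap (IntermediateField.adjoin k
      (Set.range fun a => algebraMap F E (x a))) E) ∈ Polynomial.lifts (algebraMap F E) := by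
    rw [Polynomial.lifts_iff_coeff_lifts]
    intro n
    rw [Polynomial.coeff_map]
    obtain ⟨z, hz⟩ := hle (g.coeff n).2
    exact ⟨z, hz⟩
  obtain ⟨g', hg'⟩ := hl
  rw [Polynomial.coe_mapRingHom] at hg'
  refine ⟨g', ?_, ?_⟩
  · rintro rfl
    rw [Polynomial.map_zero] at hg'
    exact hg0 ((Polynomial.map_eq_zero _).1 hg'.symm)
  · rw [Polynomial.aeval_def, ← Polynomial.eval_map, hg', Polynomial.eval_map,
      ← Polynomial.aeval_def, hg]

attribute [local instance] MvPolynomial.algebraMvPolynomial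

/-- the function field of the base -/
abbrev Fr (q : Ideal (MvPolynomial α k)) [q.IsPrime] : Type u := FractionRing (Rb q)

/-- the ideal of the family over the generic point -/
noncomputable abbrev aI (q : Ideal (MvPolynomial α k)) [q.IsPrime]
    (Sys : Set (MvPolynomial (α ⊕ β) k)) : Ideal (MvPolynomial β (Fr q)) :=
  (Ideal.span (io q '' Sys)).map (MvPolynomial.map (algebraMap (Rb q) (Fr q)))

/-- the coordinate ring of the family over the generic point -/
def Aq (q : Ideal (MvPolynomial α k)) [q.IsPrime]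
    (Sys : Set (MvPolynomial (α ⊕ β) k)) : Type u := MvPolynomial β (Fr q) ⧸ aI q Sys

noncomputable instance (q : Ideal (MvPolynomial α k)) [q.IsPrime]
    (Sys : Set (MvPolynomial (α ⊕ β) k)) : CommRing (Aq q Sys) :=
  inferInstanceAs (CommRing (MvPolynomial β (Fr q) ⧸ aI q Sys))

noncomputable instance (q : Ideal (MvPolynomial α k)) [q.IsPrime]
    (Sys : Set (MvPolynomial (α ⊕ β) k)) : Algebra (Fr q) (Aq q Sys) :=
  inferInstanceAs (Algebra (Fr q) (MvPolynomial β (Fr q) ⧸ aI q Sys))

/-- the quotient map -/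
noncomputable def mkA (q : Ideal (MvPolynomial α k)) [q.IsPrime]
    (Sys : Set (MvPolynomial (α ⊕ β) k)) : MvPolynomial β (Fr q) →ₐ[Fr q] Aq q Sys :=
  Ideal.Quotient.mkₐ (Fr q) (aI q Sys)

theorem mkA_surj (q : Ideal (MvPolynomial α k)) [q.IsPrime]
    (Sys : Set (MvPolynomial (α ⊕ β) k)) : Function.Surjective (mkA q Sys) :=
  Ideal.Quotient.mkₐ_surjective _ _

theorem mkA_zero (q : Ideal (MvPolynomial α k)) [q.IsPrime]
    (Sys : Set (MvPolynomial (α ⊕ β) k)) (f : MvPolynomial β (Fr q)) :
    mkA q Sys f = 0 ↔ f ∈ aI q Sys :=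
  Ideal.Quotient.eq_zero_iff_mem

instance [Finite β] (q : Ideal (MvPolynomial α k)) [q.IsPrime]
    (Sys : Set (MvPolynomial (α ⊕ β) k)) : Algebra.FiniteType (Fr q) (Aq q Sys) :=
  Algebra.FiniteType.of_surjective (mkA q Sys) (mkA_surj q Sys)

/-- **PHI-POLY**. -/
theorem phi_poly [CharZero k] [Finite β] (q : Ideal (MvPolynomial α k)) [hq : q.IsPrime]
    (Sys : Set (MvPolynomial (α ⊕ β) k)) (φ : MvPolynomial (α ⊕ β) k)
    (halg : ∀ (K : Type u) [Field K] [Algebra k K] [IsAlgClosed K] (x : α → K) (y : β → K),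
      (∀ p, MvPolynomial.aeval x p = 0 ↔ p ∈ q) → (∀ s ∈ Sys, MvPolynomial.aeval (Sum.elim x y) s = 0) →
      IsAlgebraic (IntermediateField.adjoin k (Set.range x)) (MvPolynomial.aeval (Sum.elim x y) φ)) :
    ∃ (P : Polynomial (MvPolynomial α k)) (Dn : MvPolynomial α k), Dn ∉ q ∧
      (∀ (K : Type u) [Field K] [Algebra k K] (x : α → K) (y : β → K),
        (∀ p ∈ q, MvPolynomial.aeval x p = 0) → (∀ s ∈ Sys, MvPolynomial.aeval (Sum.elim x y) s = 0) → MvPolynomial.aeval x Dn ≠ 0 →
        (P.map (MvPolynomial.aeval (R := k) x).toRingHom).IsRoot (MvPolynomial.aeval (Sum.elim x y) φ)) ∧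
      (∀ (K : Type u) [Field K] [Algebra k K] (x : α → K), (∀ p ∈ q, MvPolynomial.aeval x p = 0) →
        MvPolynomial.aeval x Dn ≠ 0 → ∀ t : K, (P.map (MvPolynomial.aeval (R := k) x).toRingHom).IsRoot t →
        ¬ (derivative (P.map (MvPolynomial.aeval (R := k) x).toRingHom)).IsRoot t) ∧
      (∀ (K : Type u) [Field K] [Algebra k K] [IsAlgClosed K] (x : α → K),
        (∀ p, MvPolynomial.aeval x p = 0 ↔ p ∈ q) → ∀ t : K, (P.map (MvPolynomial.aeval (R := k) x).toRingHom).IsRoot t →
        ∃ y : β → K, (∀ s ∈ Sys, MvPolynomial.aeval (Sum.elim x y) s = 0) ∧ MvPolynomial.aeval (Sum.elim x y) φ = t) := by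
  classical
  have hkF : Function.Injective (algebraMap k (Fr q)) := (algebraMap k (Fr q)).injective
  have hcF : CharZero (Fr q) := charZero_of_injective_algebraMap hkF
  have hRF : Function.Injective (algebraMap (Rb q) (Fr q)) := IsFractionRing.injective (Rb q) (Fr q)
  let φ0 : MvPolynomial β (Rb q) := io q φ
  let mR : MvPolynomial β (Rb q) →+* MvPolynomial β (Fr q) := MvPolynomial.map (algebraMap (Rb q) (Fr q))
  have hmRinj : Function.Injective mR := MvPolynomial.map_injective _ hRF
  let a0 : Ideal (MvPolynomial β (Rb q)) := Ideal.span (io q '' Sys)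
  let φA : Aq q Sys := mkA q Sys (mR φ0)
  -- points with values in `(Fr q)`-algebras
  have hpt : ∀ {K : Type u} [CommRing K] [Algebra (Fr q) K] (g : (Aq q Sys) →ₐ[(Fr q)] K) [Algebra k K]
      [IsScalarTower k (Fr q) K] (f : MvPolynomial (α ⊕ β) k),
      MvPolynomial.aeval (Sum.elim (fun a => algebraMap (Fr q) K (algebraMap (Rb q) (Fr q) (Ideal.Quotient.mk q
        (MvPolynomial.X a)))) (fun b => g (mkA q Sys (MvPolynomial.X b)))) f =
      g (mkA q Sys (mR (io q f))) := by
    intro K _ _ g _ _ f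
    induction f using MvPolynomial.induction_on with
    | C c =>
      rw [← MvPolynomial.algebraMap_eq, AlgHom.commutes, AlgHom.commutes,
        IsScalarTower.algebraMap_apply k (Rb q) (MvPolynomial β (Rb q)), MvPolynomial.algebraMap_eq]
      change _ = g (mkA q Sys (MvPolynomial.map (algebraMap (Rb q) (Fr q)) (MvPolynomial.C _)))
      rw [MvPolynomial.map_C]
      have h1 : mkA q Sys (MvPolynomial.C (algebraMap (Rb q) (Fr q) (algebraMap k (Rb q) c))) =
          algebraMap (Fr q) (Aq q Sys) (algebraMap k (Fr q) c) := rfl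
      rw [h1, AlgHom.commutes, ← IsScalarTower.algebraMap_apply]
    | add p r hp hr => simp only [map_add, hp, hr]
    | mul_X p n hp =>
      rw [map_mul, map_mul, map_mul, map_mul, map_mul, hp]
      congr 1
      unfold io
      rw [MvPolynomial.aeval_X, MvPolynomial.aeval_X]
      rcases n with a' | b
      · rw [Sum.elim_inl, Sum.elim_inl]
        change _ = g (mkA q Sys (MvPolynomial.map (algebraMap (Rb q) (Fr q)) (MvPolynomial.C _)))
        rw [MvPolynomial.map_C]
        exact (g.commutes _).symm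
      · rw [Sum.elim_inr, Sum.elim_inr]
        change _ = g (mkA q Sys (MvPolynomial.map (algebraMap (Rb q) (Fr q)) (MvPolynomial.X _)))
        rw [MvPolynomial.map_X]
  have hgen : ∀ {K : Type u} [Field K] [Algebra (Fr q) K] [Algebra k K]
      [IsScalarTower k (Fr q) K] (p : MvPolynomial α k),
      MvPolynomial.aeval (fun a => algebraMap (Fr q) K (algebraMap (Rb q) (Fr q) (Ideal.Quotient.mk q
        (MvPolynomial.X a)))) p = algebraMap (Fr q) K (algebraMap (Rb q) (Fr q) (Ideal.Quotient.mk q p)) := by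
    intro K _ _ _ _ p
    have h1 : (MvPolynomial.aeval (fun a => algebraMap (Fr q) K (algebraMap (Rb q) (Fr q) (Ideal.Quotient.mk q
        (MvPolynomial.X a)))) : MvPolynomial α k →ₐ[k] K) =
        ((IsScalarTower.toAlgHom k (Fr q) K).comp ((IsScalarTower.toAlgHom k (Rb q) (Fr q)).comp
          (Ideal.Quotient.mkₐ k q))) := by
      apply MvPolynomial.algHom_ext
      intro i
      rw [MvPolynomial.aeval_X]
      rfl
    rw [h1]
    rfl
  have halg' : ∀ p : Ideal (Aq q Sys), p.IsPrime → IsAlgebraic (Fr q) (Ideal.Quotient.mk p φA) := by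
    intro p hp
    let B := (Aq q Sys) ⧸ p
    let E := AlgebraicClosure (FractionRing B)
    have hBE : Function.Injective (algebraMap B E) := by
      rw [IsScalarTower.algebraMap_eq B (FractionRing B) E]
      exact (algebraMap (FractionRing B) E).injective.comp (IsFractionRing.injective B _)
    let g : (Aq q Sys) →ₐ[(Fr q)] E := (IsScalarTower.toAlgHom (Fr q) B E).comp (Ideal.Quotient.mkₐ (Fr q) p)
    let _ : Algebra k E := ((algebraMap (Fr q) E).comp (algebraMap k (Fr q))).toAlgebra
    have : IsScalarTower k (Fr q) E := IsScalarTower.of_algebraMap_eq fun _ => rfl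
    have h1 := halg E (fun a => algebraMap (Fr q) E (algebraMap (Rb q) (Fr q) (Ideal.Quotient.mk q
        (MvPolynomial.X a)))) (fun b => g (mkA q Sys (MvPolynomial.X b))) (by
          intro r
          rw [hgen, map_eq_zero_iff _ (algebraMap (Fr q) E).injective, map_eq_zero_iff _ hRF,
            Ideal.Quotient.eq_zero_iff_mem]) (by
          intro s hs
          rw [hpt g s]
          have : mR (io q s) ∈ (aI q Sys) := Ideal.mem_map_of_mem _ (Ideal.subset_span ⟨s, hs, rfl⟩)
          rw [(mkA_zero q Sys _).2 this, map_zero])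
    rw [hpt g φ] at h1
    have h2 : IsAlgebraic (Fr q) (g φA) := alg_of_adjoin _ _ h1
    exact (isAlgebraic_algHom_iff (IsScalarTower.toAlgHom (Fr q) B E) hBE).1 h2
  obtain ⟨PF, hsep, hmon, hnil, hlift⟩ := field_case (F := (Fr q)) (A := (Aq q Sys)) φA halg'
  -- clear denominators
  obtain ⟨b, hb, hP0⟩ := IsLocalization.integerNormalization_spec (nonZeroDivisors (Rb q)) PF
  set P0 : (Rb q)[X] := IsLocalization.integerNormalization (nonZeroDivisors (Rb q)) PF with hP0def
  have hbne : algebraMap (Rb q) (Fr q) b ≠ 0 := by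
    rw [Ne, map_eq_zero_iff _ hRF]; exact nonZeroDivisors.ne_zero hb
  -- the nilpotent relation
  obtain ⟨N, hN⟩ := hnil
  have hz : mR ((P0.eval₂ MvPolynomial.C φ0) ^ N) ∈ aI q Sys := by
    rw [← mkA_zero, map_pow, map_pow]
    have h1 : mkA q Sys (mR (P0.eval₂ MvPolynomial.C φ0)) =
        algebraMap (Fr q) (Aq q Sys) (algebraMap (Rb q) (Fr q) b) * Polynomial.aeval φA PF := by
      have h2 : mR (P0.eval₂ MvPolynomial.C φ0) =
          (P0.map (algebraMap (Rb q) (Fr q))).eval₂ MvPolynomial.C (mR φ0) := by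
        rw [Polynomial.hom_eval₂, Polynomial.eval₂_map]
        congr 1
        exact RingHom.ext fun r => MvPolynomial.map_C _ _
      rw [h2, hP0]
      have h3 : b • PF = Polynomial.C (algebraMap (Rb q) (Fr q) b) * PF := by
        rw [← Polynomial.smul_eq_C_mul]
        exact (algebraMap_smul (Fr q) b PF).symm
      have h4 := Polynomial.hom_eval₂ PF (MvPolynomial.C) ((mkA q Sys :
        MvPolynomial β (Fr q) →ₐ[Fr q] Aq q Sys) : MvPolynomial β (Fr q) →+* Aq q Sys) (mR φ0)
      have h5 : ((mkA q Sys : MvPolynomial β (Fr q) →ₐ[Fr q] Aq q Sys) :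
          MvPolynomial β (Fr q) →+* Aq q Sys).comp MvPolynomial.C = algebraMap (Fr q) (Aq q Sys) :=
        RingHom.ext fun c => (mkA q Sys).commutes c
      rw [h5] at h4
      rw [h3, Polynomial.eval₂_mul, Polynomial.eval₂_C, map_mul]
      exact congrArg₂ (· * ·) ((mkA q Sys).commutes _) h4
    rw [h1, mul_pow, hN, mul_zero]
  obtain ⟨⟨⟨z, hz1⟩, ⟨d', hd'⟩⟩, hzd⟩ := (IsLocalization.mem_map_algebraMap_iff
    ((nonZeroDivisors (Rb q)).map MvPolynomial.C) (MvPolynomial β (Fr q))).1 hz
  obtain ⟨d, hd, rfl⟩ := hd'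
  have hzd' : (P0.eval₂ MvPolynomial.C φ0) ^ N * MvPolynomial.C d = z := by
    apply hmRinj
    rw [map_mul]
    exact hzd
  -- separability
  obtain ⟨u0, v0, huv⟩ := hsep
  obtain ⟨bu, hbu, hu⟩ := IsLocalization.integerNormalization_spec (nonZeroDivisors (Rb q)) u0
  set U : (Rb q)[X] := IsLocalization.integerNormalization (nonZeroDivisors (Rb q)) u0
  obtain ⟨bv, hbv, hv⟩ := IsLocalization.integerNormalization_spec (nonZeroDivisors (Rb q)) v0
  set W : (Rb q)[X] := IsLocalization.integerNormalization (nonZeroDivisors (Rb q)) v0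
  have hsm : ∀ (r : (Rb q)) (f : (Fr q)[X]), r • f = Polynomial.C (algebraMap (Rb q) (Fr q) r) * f := by
    intro r f
    rw [← Polynomial.smul_eq_C_mul]
    exact (algebraMap_smul (Fr q) r f).symm
  have hUW : Polynomial.C bv * U * P0 + Polynomial.C bu * W * derivative P0 =
      Polynomial.C (bu * bv * b) := by
    apply Polynomial.map_injective _ hRF
    rw [hsm] at hu hv hP0
    rw [Polynomial.map_add, Polynomial.map_mul, Polynomial.map_mul, Polynomial.map_mul,
      Polynomial.map_mul, Polynomial.map_C, Polynomial.map_C, Polynomial.map_C, hu, hv, hP0,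
      ← Polynomial.derivative_map, hP0, Polynomial.derivative_C_mul]
    simp only [map_mul]
    linear_combination Polynomial.C (algebraMap (Rb q) (Fr q) bu) * Polynomial.C (algebraMap (Rb q) (Fr q) bv) *
      Polynomial.C (algebraMap (Rb q) (Fr q) b) * huv
  -- lifts to polynomials over the base
  obtain ⟨P, hP⟩ : ∃ P : Polynomial (MvPolynomial α k), P.map (Ideal.Quotient.mk q) = P0 :=
    Polynomial.map_surjective _ Ideal.Quotient.mk_surjective P0
  obtain ⟨Dn, hDn⟩ := Ideal.Quotient.mk_surjective (I := q) (d * (bu * bv * b))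
  have hPx : ∀ {K : Type u} [CommRing K] [Algebra k K] (x : α → K)
      (hx : ∀ p ∈ q, MvPolynomial.aeval x p = 0), P.map (MvPolynomial.aeval (R := k) x).toRingHom =
      P0.map (th q x hx : (Rb q) →+* K) := by
    intro K _ _ x hx
    rw [← hP, Polynomial.map_map]
    rfl
  have hne0 : ∀ {r : (Rb q)}, r ∈ nonZeroDivisors (Rb q) → r ≠ 0 := fun h => nonZeroDivisors.ne_zero h
  refine ⟨P, Dn, ?_, ?_, ?_, ?_⟩
  · rw [← Ideal.Quotient.eq_zero_iff_mem, hDn]
    exact mul_ne_zero (hne0 hd) (mul_ne_zero (mul_ne_zero (hne0 hbu) (hne0 hbv)) (hne0 hb))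
  · intro K _ _ x y hx hs hD
    have hD' : th q x hx d ≠ 0 := by
      intro h0
      apply hD
      have : MvPolynomial.aeval x Dn = th q x hx (Ideal.Quotient.mk q Dn) := rfl
      rw [this, hDn, map_mul, h0, zero_mul]
    let e : MvPolynomial β (Rb q) →+* K := MvPolynomial.eval₂Hom (th q x hx : (Rb q) →+* K) y
    have he : ∀ f, e (io q f) = MvPolynomial.aeval (Sum.elim x y) f := fun f => eval_io q x hx y f
    have hea : ∀ f ∈ a0, e f = 0 := by
      intro f hf
      have hle : a0 ≤ RingHom.ker e := by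
        rw [Ideal.span_le]
        rintro _ ⟨s, hs', rfl⟩
        change e (io q s) = 0
        rw [he, hs s hs']
      exact hle hf
    have h1 := hea z hz1
    rw [← hzd', map_mul, map_pow] at h1
    have h2 : e (MvPolynomial.C d) = th q x hx d := by
      simp [e]
    rw [h2] at h1
    have h4 : e (P0.eval₂ MvPolynomial.C φ0) = 0 := by
      rcases mul_eq_zero.1 h1 with h | h
      · exact eq_zero_of_pow_eq_zero h
      · exact absurd h hD'
    rw [Polynomial.IsRoot.def, hPx x hx, Polynomial.eval_map, ← he φ]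
    rw [Polynomial.hom_eval₂] at h4
    have h5 : e.comp MvPolynomial.C = (th q x hx : (Rb q) →+* K) :=
      RingHom.ext fun r => by simp [e]
    rw [h5] at h4
    exact h4
  · intro K _ _ x hx hD t ht ht'
    have hD' : th q x hx (bu * bv * b) ≠ 0 := by
      intro h0
      apply hD
      have : MvPolynomial.aeval x Dn = th q x hx (Ideal.Quotient.mk q Dn) := rfl
      rw [this, hDn, map_mul, h0, mul_zero]
    rw [hPx x hx] at ht ht'
    rw [Polynomial.derivative_map] at ht'
    apply hD'
    have h1 := congrArg (fun f => (f.map (th q x hx : (Rb q) →+* K)).eval t) hUW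
    simp only [Polynomial.map_add, Polynomial.map_mul, Polynomial.map_C, Polynomial.eval_add,
      Polynomial.eval_mul, Polynomial.eval_C] at h1
    rw [Polynomial.IsRoot.def] at ht ht'
    rw [ht, ht', mul_zero, mul_zero, zero_add] at h1
    exact h1.symm
  · intro K _ _ _ x hx t ht
    have hx' : ∀ p ∈ q, MvPolynomial.aeval x p = 0 := fun p hp => (hx p).2 hp
    have hinj : Function.Injective (th q x hx' : (Rb q) →+* K) := by
      rw [injective_iff_map_eq_zero]
      intro r hr
      obtain ⟨p, rfl⟩ := Ideal.Quotient.mk_surjective r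
      exact Ideal.Quotient.eq_zero_iff_mem.2 ((hx p).1 hr)
    let j : (Fr q) →+* K := IsFractionRing.lift hinj
    have hj : ∀ r : (Rb q), j (algebraMap (Rb q) (Fr q) r) = th q x hx' r := fun r =>
      IsFractionRing.lift_algebraMap hinj r
    let _ : Algebra (Fr q) K := j.toAlgebra
    have hst : IsScalarTower k (Fr q) K := IsScalarTower.of_algebraMap_eq fun c => by
      change algebraMap k K c = j (algebraMap (Rb q) (Fr q) (algebraMap k (Rb q) c))
      rw [hj]
      exact ((th q x hx').commutes c).symm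
    have ht' : Polynomial.aeval t PF = 0 := by
      rw [hPx x hx', Polynomial.IsRoot.def, Polynomial.eval_map] at ht
      have h1 : (th q x hx' : (Rb q) →+* K) = j.comp (algebraMap (Rb q) (Fr q)) :=
        RingHom.ext fun r => (hj r).symm
      rw [h1, ← Polynomial.eval₂_map, hP0, hsm, Polynomial.eval₂_mul, Polynomial.eval₂_C] at ht
      rcases mul_eq_zero.1 ht with h | h
      · exact absurd ((map_eq_zero j).1 h) hbne
      · exact h
    obtain ⟨g, hg⟩ := hlift K t ht'
    have hxe : x = fun a => algebraMap (Fr q) K (algebraMap (Rb q) (Fr q) (Ideal.Quotient.mk q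
        (MvPolynomial.X a))) := by
      funext i
      change x i = j _
      rw [hj]
      change x i = MvPolynomial.aeval x (MvPolynomial.X i)
      rw [MvPolynomial.aeval_X]
    refine ⟨fun b => g (mkA q Sys (MvPolynomial.X b)), ?_, ?_⟩
    · intro s hs
      rw [hxe, hpt g s]
      have : mR (io q s) ∈ (aI q Sys) := Ideal.mem_map_of_mem _ (Ideal.subset_span ⟨s, hs, rfl⟩)
      rw [(mkA_zero q Sys _).2 this, map_zero]
    · rw [hxe, hpt g φ]
      exact hg

end Rel

end Crest.Agent.R260.Fin1_600
end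

-- ▼ part R260/FinDefs_600
section

/-!
Row 260 (S0398), task AG-FINAL: **the interface algebra → analysis**, everything over `ℂ`.

`D : CData ℂ I J` is the contact manifold `Z` in tuple language (`LinDefs_678`). Points of `Z` are
written as vectors normalised in a chart `c : ∀ i, J i` (`v i (c i) = 1`). The statement `AgFinal`
says: there is ONE polynomial `P (v, w; T)` (and a discriminant/denominator `Dn (v, w)`, not
identically zero on `Z × Z`) such that, where `Dn ≠ 0`, all roots of `P (v, w; ·)` are simple and the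
two-point numbers `Φ_F` of all conics `F` through `v` and `w` are roots; and along every very free
conic every holomorphic root is a quadratic polynomial.
-/

namespace Crest.Agent.R260.Fin_600

open Polynomial Crest.Agent.R270.BM_360 Crest.Agent.R260.Lin_678

universe u

variable {I : Type} {J : I → Type} [Fintype I] [∀ i, Fintype (J i)]

/-- index set of the coordinates of a pair of vectors -/
abbrev PIdx (J : I → Type) : Type := (Σ i, J i) ⊕ (Σ i, J i)

/-- a pair of vectors as one point -/
def pr {A : Type*} (v w : ∀ i, J i → A) : PIdx J → A :=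
  Sum.elim (fun x => v x.1 x.2) (fun x => w x.1 x.2)

/-- the polynomial in `T` obtained by evaluating the coefficients at the pair `(v, w)` -/
noncomputable def PT {k : Type u} [Field k] (P : Polynomial (MvPolynomial (PIdx J) k))
    {A : Type*} [CommRing A] [Algebra k A] (v w : ∀ i, J i → A) : Polynomial A :=
  P.map (MvPolynomial.aeval (pr v w)).toRingHom

/-- `v` is a point of the cone, normalised in the chart `c` -/
def NPt {k : Type u} [Field k] (E : Set (MvPolynomial (Σ i, J i) k)) (c : ∀ i, J i)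
    {A : Type*} [CommRing A] [Algebra k A] (v : ∀ i, J i → A) : Prop :=
  OnX E v ∧ ∀ i, v i (c i) = 1

/-- the value of the tuple `F` at `u`, normalised in the chart `c` -/
noncomputable def nrm {κ : Type u} [Field κ] (c : ∀ i, J i) (F : ∀ i, J i → κ[X]) (u : κ) :
    ∀ i, J i → κ :=
  fun i a => (F i a).eval u / (F i (c i)).eval u

/-- `F` is very free (tested at the point `0`): every tangent vector of the cone at `F (0)` is, up
to Euler vectors, the value of a tangent field along `F` of degree `< cls F`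
(all splitting degrees of `T_Z` along `F` are `≥ 1`; this is `VF` of helper703 at `0`). -/
def VF0 {k : Type u} [Field k] (E : Set (MvPolynomial (Σ i, J i) k)) {κ : Type u} [Field κ]
    [Algebra k κ] (F : ∀ i, J i → κ[X]) : Prop :=
  ∀ t : ∀ i, J i → κ, Tan E (fun i a => (F i a).eval 0) t →
    ∃ (G : ∀ i, J i → κ[X]) (a : I → κ), Tan E F G ∧ (∀ i x, (G i x).degree < cls F i) ∧
      ∀ i x, t i x = (G i x).eval 0 + a i * (F i x).eval 0

/-- **AG-FINAL**, the output of the algebraic part of row 260, for the charts `c`, `c'`. -/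
structure AgFinal (D : CData ℂ I J) (c c' : ∀ i, J i) (P : Polynomial (MvPolynomial (PIdx J) ℂ))
    (Dn : MvPolynomial (PIdx J) ℂ) : Prop where
  /-- `Dn` is not identically zero on `Z × Z` -/
  nz : ∃ v w : ∀ i, J i → ℂ, NPt D.E c v ∧ NPt D.E c' w ∧ MvPolynomial.aeval (pr v w) Dn ≠ 0
  /-- simple roots (in particular `PT P v w ≠ 0`) -/
  simple : ∀ v w : ∀ i, J i → ℂ, NPt D.E c v → NPt D.E c' w →
    MvPolynomial.aeval (pr v w) Dn ≠ 0 →
    ∀ t, (PT P v w).IsRoot t → ¬ (derivative (PT P v w)).IsRoot t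
  /-- the numbers `Φ_F` are roots -/
  root : ∀ F : ∀ i, J i → ℂ[X], IsMap D.E F → cls F = 2 • D.β →
    ∀ q : ℂ, D.th.Val F (fun i a => derivative (F i a)) (C q) →
    ∀ u₁ u₂ : ℂ, u₁ ≠ u₂ → (∀ i, (F i (c i)).eval u₁ ≠ 0) → (∀ i, (F i (c' i)).eval u₂ ≠ 0) →
    MvPolynomial.aeval (pr (nrm c F u₁) (nrm c' F u₂)) Dn ≠ 0 →
    (PT P (nrm c F u₁) (nrm c' F u₂)).IsRoot ((u₁ - u₂) ^ 2 * q ^ 2 *
      (∏ i, (F i (c i)).eval u₁ ^ (-D.w i)) * ∏ i, (F i (c' i)).eval u₂ ^ (-D.w i))
  /-- holomorphic roots are quadratic along very free conics, second slot -/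
  quad : ∀ H : ∀ i, J i → ℂ[X], IsMap D.E H → cls H = 2 • D.β → VF0 D.E H →
    ∀ v : ∀ i, J i → ℂ, NPt D.E c v → ∀ V : Set ℂ, IsOpen V → IsPreconnected V →
    (∀ u ∈ V, ∀ i, (H i (c' i)).eval u ≠ 0) →
    (∃ u ∈ V, MvPolynomial.aeval (pr v (nrm c' H u)) Dn ≠ 0) →
    ∀ f : ℂ → ℂ, AnalyticOnNhd ℂ f V → (∀ u ∈ V, (PT P v (nrm c' H u)).IsRoot (f u)) →
    ∃ p : ℂ[X], p.natDegree ≤ 2 ∧ ∀ u ∈ V, f u * ∏ i, (H i (c' i)).eval u ^ D.w i = p.eval u
  /-- the same in the first slot -/
  quad' : ∀ H : ∀ i, J i → ℂ[X], IsMap D.E H → cls H = 2 • D.β → VF0 D.E H →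
    ∀ w : ∀ i, J i → ℂ, NPt D.E c' w → ∀ V : Set ℂ, IsOpen V → IsPreconnected V →
    (∀ u ∈ V, ∀ i, (H i (c i)).eval u ≠ 0) →
    (∃ u ∈ V, MvPolynomial.aeval (pr (nrm c H u) w) Dn ≠ 0) →
    ∀ f : ℂ → ℂ, AnalyticOnNhd ℂ f V → (∀ u ∈ V, (PT P (nrm c H u) w).IsRoot (f u)) →
    ∃ p : ℂ[X], p.natDegree ≤ 2 ∧ ∀ u ∈ V, f u * ∏ i, (H i (c i)).eval u ^ D.w i = p.eval u


end Crest.Agent.R260.Fin_600
end

-- ▼ part R260/Fin6_600

/-!
Row 260 (S0398), AG-FINAL: the prime ideal `qp E` of the pairs of points of the cone and its generic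
pairs.
-/

set_option autoImplicit false
set_option linter.unusedSectionVars false

namespace Crest.Agent.R260.Fin6_600

open MvPolynomial Crest.Agent.R270.BM_360 Crest.Agent.R260.Lin_678 Crest.Agent.R260.Fin_600
open Crest.Agent.R260.Fin5_600 Crest.Agent.R260.QuadDefs_517

universe u v w

/-- **points over an algebraically closed field**. -/
theorem exists_pt {k : Type u} [Field k] [IsAlgClosed k] {σ : Type} [Finite σ] {L : Type v}
    [Field L] [Algebra k L] (x : σ → L) (g : MvPolynomial σ k) (hg : aeval x g ≠ 0) :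
    ∃ x' : σ → k, (∀ p : MvPolynomial σ k, aeval x p = 0 → aeval x' p = 0) ∧ aeval x' g ≠ 0 := by
  have hP : (RingHom.ker (aeval x : MvPolynomial σ k →ₐ[k] L).toRingHom).IsPrime :=
    RingHom.ker_isPrime _
  have hg' : g ∉ RingHom.ker (aeval x : MvPolynomial σ k →ₐ[k] L).toRingHom := hg
  obtain ⟨x', h1, h2⟩ := Irr_33.exists_point hP hg'
  have he : ∀ p : MvPolynomial σ k, eval x' p = aeval x' p := fun p => by
    rw [aeval_def, Algebra.algebraMap_self, eval₂_id]
  exact ⟨x', fun p hp => by rw [← he]; exact h1 p hp, by rwa [← he]⟩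

variable {I : Type} {J : I → Type} [Fintype I] [∀ i, Fintype (J i)] {k : Type u} [Field k]

/-- a point of the cone with non-zero blocks -/
def OnZ' (E : Set (MvPolynomial (Σ i, J i) k)) {A : Type*} [CommRing A] [Algebra k A]
    (v : ∀ i, J i → A) : Prop := OnX E v ∧ ∀ i, v i ≠ 0

/-- the ideal of the pairs of points of the cone -/
def qp (E : Set (MvPolynomial (Σ i, J i) k)) : Ideal (MvPolynomial (PIdx J) k) where
  carrier := {p | ∀ v w : ∀ i, J i → k, OnZ' E v → OnZ' E w → aeval (pr v w) p = 0}
  add_mem' := fun ha hb v w hv hw => by rw [map_add, ha v w hv hw, hb v w hv hw, add_zero]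
  zero_mem' := fun v w _ _ => map_zero _
  smul_mem' := fun a b hb v w hv hw => by
    rw [smul_eq_mul, map_mul, hb v w hv hw, mul_zero]


/-- evaluation of the first half of the variables -/
noncomputable def evL {A : Type*} [CommRing A] [Algebra k A] (v : ∀ i, J i → A) :
    MvPolynomial (PIdx J) k →ₐ[k] MvPolynomial (Σ i, J i) A :=
  aeval (Sum.elim (fun s => C (v s.1 s.2)) X)

/-- evaluation of the second half of the variables -/
noncomputable def evR {A : Type*} [CommRing A] [Algebra k A] (v : ∀ i, J i → A) :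
    MvPolynomial (PIdx J) k →ₐ[k] MvPolynomial (Σ i, J i) A :=
  aeval (Sum.elim X (fun s => C (v s.1 s.2)))

theorem aeval_evL {A B : Type*} [CommRing A] [Algebra k A] [CommRing B] [Algebra k B] [Algebra A B]
    [IsScalarTower k A B] (v : ∀ i, J i → A) (w : ∀ i, J i → B) (p : MvPolynomial (PIdx J) k) :
    aeval (fun x : Σ i, J i => w x.1 x.2) (evL v p) =
      aeval (pr (fun i a => algebraMap A B (v i a)) w) p := by
  have h : ((aeval (fun x : Σ i, J i => w x.1 x.2) : MvPolynomial (Σ i, J i) A →ₐ[A] B).restrictScalars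
      k).comp (evL v) = (aeval (pr (fun i a => algebraMap A B (v i a)) w) :
      MvPolynomial (PIdx J) k →ₐ[k] B) := by
    refine algHom_ext fun x => ?_
    rcases x with x | x
    · simp [evL, pr]
    · simp [evL, pr]
  exact DFunLike.congr_fun h p

theorem aeval_evR {A B : Type*} [CommRing A] [Algebra k A] [CommRing B] [Algebra k B] [Algebra A B]
    [IsScalarTower k A B] (v : ∀ i, J i → A) (w : ∀ i, J i → B) (p : MvPolynomial (PIdx J) k) :
    aeval (fun x : Σ i, J i => w x.1 x.2) (evR v p) =
      aeval (pr w (fun i a => algebraMap A B (v i a))) p := by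
  have h : ((aeval (fun x : Σ i, J i => w x.1 x.2) : MvPolynomial (Σ i, J i) A →ₐ[A] B).restrictScalars
      k).comp (evR v) = (aeval (pr w (fun i a => algebraMap A B (v i a))) :
      MvPolynomial (PIdx J) k →ₐ[k] B) := by
    refine algHom_ext fun x => ?_
    rcases x with x | x
    · simp [evR, pr]
    · simp [evR, pr]
  exact DFunLike.congr_fun h p

theorem onX_map {E : Set (MvPolynomial (Σ i, J i) k)} {A B : Type*} [CommRing A] [Algebra k A]
    [CommRing B] [Algebra k B] [Algebra A B] [IsScalarTower k A B] {v : ∀ i, J i → A}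
    (h : OnX E v) : OnX E (fun i a => algebraMap A B (v i a)) := by
  intro p hp
  have h1 := congrArg (algebraMap A B) (h p hp)
  rw [map_zero, ← MvPolynomial.aeval_algebraMap_apply] at h1
  exact h1

theorem blk_map {A B : Type*} [Field A] [Field B] [Algebra A B] {v : ∀ i, J i → A}
    (h : ∀ i, v i ≠ 0) : ∀ i, (fun a => algebraMap A B (v i a)) ≠ 0 := by
  intro i h0
  refine h i (funext fun a => ?_)
  have := congrFun h0 a
  rwa [Pi.zero_apply, map_eq_zero] at this

theorem OnZ'.map {E : Set (MvPolynomial (Σ i, J i) k)} {A B : Type*} [Field A] [Algebra k A]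
    [Field B] [Algebra k B] [Algebra A B] [IsScalarTower k A B] {v : ∀ i, J i → A}
    (h : OnZ' E v) : OnZ' E (fun i a => algebraMap A B (v i a)) :=
  ⟨onX_map h.1, blk_map h.2⟩

/-- pairs over fields come from pairs over `k`. -/
theorem qp_field [IsAlgClosed k] {E : Set (MvPolynomial (Σ i, J i) k)} {L : Type v} [Field L]
    [Algebra k L] {v w : ∀ i, J i → L} (hv : OnZ' E v) (hw : OnZ' E w)
    {p : MvPolynomial (PIdx J) k} (hp : p ∈ qp E) : aeval (pr v w) p = 0 := by
  classical
  by_contra hcon
  have h1 : ∀ i, ∃ a, v i a ≠ 0 := fun i => by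
    by_contra h0; push Not at h0; exact hv.2 i (funext h0)
  have h2 : ∀ i, ∃ a, w i a ≠ 0 := fun i => by
    by_contra h0; push Not at h0; exact hw.2 i (funext h0)
  choose a ha using h1
  choose b hb using h2
  obtain ⟨x', h3, h4⟩ := exists_pt (pr v w) (p * ((∏ i, X (Sum.inl ⟨i, a i⟩)) *
    ∏ i, X (Sum.inr ⟨i, b i⟩))) (by
      rw [map_mul, map_mul, map_prod, map_prod]
      refine mul_ne_zero hcon (mul_ne_zero ?_ ?_)
      · refine Finset.prod_ne_zero_iff.2 fun i _ => ?_
        rw [aeval_X]; exact ha i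
      · refine Finset.prod_ne_zero_iff.2 fun i _ => ?_
        rw [aeval_X]; exact hb i)
  rw [map_mul, map_mul, map_prod, map_prod] at h4
  have h5 := left_ne_zero_of_mul h4
  have h6 := left_ne_zero_of_mul (right_ne_zero_of_mul h4)
  have h7 := right_ne_zero_of_mul (right_ne_zero_of_mul h4)
  rw [Finset.prod_ne_zero_iff] at h6 h7
  have hx : pr (fun i a => x' (Sum.inl ⟨i, a⟩)) (fun i a => x' (Sum.inr ⟨i, a⟩)) = x' := by
    funext s
    rcases s with s | s <;> rfl
  apply h5
  rw [← hx]
  refine hp _ _ ⟨fun e he => ?_, fun i h0 => ?_⟩ ⟨fun e he => ?_, fun i h0 => ?_⟩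
  · have h8 := h3 (rename Sum.inl e) (by
      rw [aeval_rename]
      exact hv.1 e he)
    rw [aeval_rename] at h8
    exact h8
  · have := h6 i (Finset.mem_univ i)
    rw [aeval_X] at this
    exact this (congrFun h0 (a i))
  · have h8 := h3 (rename Sum.inr e) (by
      rw [aeval_rename]
      exact hw.1 e he)
    rw [aeval_rename] at h8
    exact h8
  · have := h7 i (Finset.mem_univ i)
    rw [aeval_X] at this
    exact this (congrFun h0 (b i))

variable [IsAlgClosed k] [CharZero k]

/-- **generic pairs are generic for `qp`**. -/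
theorem gnr_pair (D : CData k I J) (hP : (Ideal.span D.E).IsPrime) {F L : Type u} [Field F]
    [Field L] [Algebra k F] [Algebra k L] [Algebra F L] [IsScalarTower k F L]
    {x : ∀ i, J i → F} (hx : OnZ' D.E x) (hxt : TrGe k (ent x) (nn D))
    {y : ∀ i, J i → L} (hy : OnZ' D.E y) (hyt : TrGe F (ent y) (nn D)) :
    Gnr (qp D.E) (pr (up L x) y) := by
  intro p
  constructor
  · intro hp v w hv hw
    have h1 : aeval (fun s : Σ i, J i => y s.1 s.2) (evL x p) = 0 := by
      rw [aeval_evL]; exact hp
    have h2 := Irr_33.specialise hP (fun K _ _ g hg hg0 => (D.tan_dim K g hg hg0).le) hy.1 hy.2 hyt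
      (A := F) (y := fun i a => algebraMap k F (w i a)) (onX_map hw.1) _ h1
    have h2' : aeval (pr x (fun i a => algebraMap k F (w i a))) p = 0 := by
      rw [← h2]
      exact (aeval_evL (B := F) x (fun i a => algebraMap k F (w i a)) p).symm
    have h3 : aeval (fun s : Σ i, J i => x s.1 s.2) (evR w p) = 0 := by
      rw [aeval_evR]; exact h2'
    have h4 := Irr_33.specialise hP (fun K _ _ g hg hg0 => (D.tan_dim K g hg hg0).le) hx.1 hx.2 hxt
      (A := k) (y := v) hv.1 _ h3
    rw [aeval_evR] at h4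
    exact h4
  · intro hp
    exact qp_field hx.map hy hp

/-- swapping the points of a pair -/
noncomputable def swp : MvPolynomial (PIdx J) k →ₐ[k] MvPolynomial (PIdx J) k := rename Sum.swap

theorem aeval_swp {A : Type*} [CommRing A] [Algebra k A] (v w : ∀ i, J i → A)
    (p : MvPolynomial (PIdx J) k) : aeval (pr v w) (swp p) = aeval (pr w v) p := by
  unfold swp
  rw [aeval_rename]
  congr 1
  congr 1
  funext s
  rcases s with s | s <;> rfl


theorem swp_mem {E : Set (MvPolynomial (Σ i, J i) k)} {p : MvPolynomial (PIdx J) k} :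
    swp p ∈ qp E ↔ p ∈ qp E := by
  constructor
  · intro h v w hv hw
    have := h w v hw hv
    rwa [aeval_swp] at this
  · intro h v w hv hw
    rw [aeval_swp]
    exact h w v hw hv

theorem gnr_swap {E : Set (MvPolynomial (Σ i, J i) k)} {A : Type*} [CommRing A] [Algebra k A]
    {v w : ∀ i, J i → A} (h : Gnr (qp E) (pr v w)) : Gnr (qp E) (pr w v) := by
  intro p
  rw [← swp_mem, ← h, aeval_swp]

/-- scalings of `PIdx` by blocks -/
abbrev pb : PIdx J → I ⊕ I := Sum.map Sigma.fst Sigma.fst

/-- multihomogeneous sets of equations are preserved by scalings -/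
theorem onX_smul {E : Set (MvPolynomial (Σ i, J i) k)} (hE : MHom E) {A : Type*} [CommRing A]
    [Algebra k A] (l : I → A) {v : ∀ i, J i → A} (h : OnX E v) :
    OnX E (fun i a => l i * v i a) := by
  classical
  intro p hp
  obtain ⟨d, hd⟩ := hE p hp
  have key : aeval (fun x : Σ i, J i => l x.1 * v x.1 x.2) p =
      (∏ i, l i ^ d i) * aeval (fun x : Σ i, J i => v x.1 x.2) p := by
    rw [aeval_def, aeval_def, eval₂_eq, eval₂_eq, Finset.mul_sum]
    refine Finset.sum_congr rfl fun m hm => ?_
    have h1 : ∏ s ∈ m.support, (l s.1 * v s.1 s.2) ^ m s =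
        (∏ s ∈ m.support, l s.1 ^ m s) * ∏ s ∈ m.support, (v s.1 s.2) ^ m s := by
      rw [← Finset.prod_mul_distrib]
      exact Finset.prod_congr rfl fun s _ => mul_pow _ _ _
    have h2 : ∏ s ∈ m.support, l s.1 ^ m s = ∏ i, l i ^ d i := by
      have h3 := hd (mem_support_iff.1 hm)
      have h4 : ∀ i, d i = ∑ a, m ⟨i, a⟩ := by
        intro i
        rw [← h3, Finsupp.weight_apply, Finsupp.sum_fintype _ _ (fun _ => by simp)]
        rw [Finset.sum_apply, Fintype.sum_sigma, Finset.sum_eq_single i]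
        · refine Finset.sum_congr rfl fun a _ => ?_
          simp
        · intro j _ hj
          refine Finset.sum_eq_zero fun a _ => ?_
          simp [Ne.symm hj]
        · intro h; exact absurd (Finset.mem_univ i) h
      have h5 : ∏ s ∈ m.support, l s.1 ^ m s = ∏ s : (Σ i, J i), l s.1 ^ m s := by
        refine Finset.prod_subset (Finset.subset_univ _) fun s _ hs => ?_
        rw [Finsupp.notMem_support_iff.1 hs, pow_zero]
      rw [h5, Fintype.prod_sigma]
      refine Finset.prod_congr rfl fun i _ => ?_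
      rw [h4, ← Finset.prod_pow_eq_pow_sum]
    rw [h1, h2]
    ring
  rw [key, h p hp, mul_zero]

theorem OnZ'.smul {E : Set (MvPolynomial (Σ i, J i) k)} (hE : MHom E) {A : Type*} [Field A]
    [Algebra k A] {l : I → A} (hl : ∀ i, l i ≠ 0) {v : ∀ i, J i → A} (h : OnZ' E v) :
    OnZ' E (fun i a => l i * v i a) := by
  refine ⟨onX_smul hE l h.1, fun i h0 => h.2 i (funext fun a => ?_)⟩
  have := congrFun h0 a
  exact (mul_eq_zero.1 this).resolve_left (hl i)

theorem sc_pr {A : Type*} [Mul A] (l : I ⊕ I → A) (v w : ∀ i, J i → A) :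
    sc pb l (pr v w) = pr (fun i a => l (Sum.inl i) * v i a) (fun i a => l (Sum.inr i) * w i a) := by
  funext s
  rcases s with s | s <;> rfl

theorem qp_inv (D : CData k I J) (l : I ⊕ I → k) (hl : ∀ i, l i ≠ 0) (p : MvPolynomial (PIdx J) k)
    (hp : p ∈ qp D.E) :
    aeval (fun s : PIdx J => C (l (pb s)) * X s) p ∈ qp D.E := by
  intro v w hv hw
  have h1 : aeval (pr v w) (aeval (fun s : PIdx J => (C (l (pb s)) * X s : MvPolynomial (PIdx J) k))
      p) = aeval (sc pb l (pr v w)) p := by
    have h2 : ((aeval (pr v w) : MvPolynomial (PIdx J) k →ₐ[k] k).comp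
        (aeval (fun s : PIdx J => (C (l (pb s)) * X s : MvPolynomial (PIdx J) k)))) =
        (aeval (sc pb l (pr v w)) : MvPolynomial (PIdx J) k →ₐ[k] k) := by
      refine algHom_ext fun x => ?_
      rw [AlgHom.comp_apply, aeval_X, map_mul, aeval_X, aeval_X]
      simp [sc]
    exact DFunLike.congr_fun h2 p
  rw [h1, sc_pr]
  exact hp _ _ (hv.smul D.hom fun i => hl _) (hw.smul D.hom fun i => hl _)

/-- scaling a generic pair by elements of `k` -/
theorem gnr_sc (D : CData k I J) {A : Type*} [CommRing A] [Algebra k A] {x : PIdx J → A}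
    (hx : Gnr (qp D.E) x) (l : I ⊕ I → k) (hl : ∀ i, l i ≠ 0) :
    Gnr (qp D.E) (sc pb (fun i => algebraMap k A (l i)) x) := by
  have key : ∀ (l : I ⊕ I → k) (x : PIdx J → A) (p : MvPolynomial (PIdx J) k),
      aeval (sc pb (fun i => algebraMap k A (l i)) x) p =
      aeval x (aeval (fun s : PIdx J => (C (l (pb s)) * X s : MvPolynomial (PIdx J) k)) p) := by
    intro l x p
    have h2 : ((aeval x : MvPolynomial (PIdx J) k →ₐ[k] A).comp
        (aeval (fun s : PIdx J => (C (l (pb s)) * X s : MvPolynomial (PIdx J) k)))) =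
        (aeval (sc pb (fun i => algebraMap k A (l i)) x) : MvPolynomial (PIdx J) k →ₐ[k] A) := by
      refine algHom_ext fun x => ?_
      rw [AlgHom.comp_apply, aeval_X, map_mul, aeval_X, aeval_X]
      simp [sc]
    exact (DFunLike.congr_fun h2 p).symm
  intro p
  rw [key, hx]
  constructor
  · intro h
    have h1 := qp_inv D (fun i => (l i)⁻¹) (fun i => inv_ne_zero (hl i)) _ h
    have h2 : aeval (fun s : PIdx J => (C ((l (pb s))⁻¹) * X s : MvPolynomial (PIdx J) k))
        (aeval (fun s : PIdx J => (C (l (pb s)) * X s : MvPolynomial (PIdx J) k)) p) = p := by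
      have h3 : ((aeval (fun s : PIdx J => (C ((l (pb s))⁻¹) * X s : MvPolynomial (PIdx J) k)) :
          MvPolynomial (PIdx J) k →ₐ[k] MvPolynomial (PIdx J) k).comp
          (aeval (fun s : PIdx J => (C (l (pb s)) * X s : MvPolynomial (PIdx J) k)))) =
          AlgHom.id k _ := by
        refine algHom_ext fun x => ?_
        rw [AlgHom.comp_apply, aeval_X, map_mul, aeval_X, ← algebraMap_eq, AlgHom.commutes,
          algebraMap_eq, ← mul_assoc, ← C_mul, mul_inv_cancel₀ (hl _), C_1, one_mul]
        rfl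
      exact DFunLike.congr_fun h3 p
    rwa [h2] at h1
  · intro h
    exact qp_inv D l hl p h

end Crest.Agent.R260.Fin6_600
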