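import Mathlib
import Crest.Agent.R260.LinDefs_678
import Crest.Agent.R270.Fin_305
import Crest.Agent.R260.QuadDefs_517

-- ▼ part R260/Loc1_678
section

/-!
Row 260 (S0398), local part of LIN: a two parameter filtration of `K[X]` by a valuation
(coefficients on the closed annulus between two radii), and the neck lemma: the contact constant of
a map of `L`-degree two is bounded by the inner radius.
-/

set_option autoImplicit false

namespace Crest.Agent.R260.Lin_678

open Polynomial
open Crest.Agent.R270.BM_360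

universe u

section fil

variable {K : Type u} [Field K] {O : ValuationSubring K} {α γ : O.ValueGroup}

theorem val_add_mul_le {x y : K} {δ g : O.ValueGroup} (hx : O.valuation x * δ ≤ g)
    (hy : O.valuation y * δ ≤ g) : O.valuation (x + y) * δ ≤ g := by
  have h := O.valuation.map_add x y
  calc _ ≤ max (O.valuation x) (O.valuation y) * δ := by gcongr
    _ ≤ _ := by
      rcases max_choice (O.valuation x) (O.valuation y) with h1 | h1 <;> rw [h1]
      · exact hx
      · exact hy

theorem val_sum_mul_le {ι : Type*} {s : Finset ι} {f : ι → K} {δ g : O.ValueGroup}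
    (h : ∀ i ∈ s, O.valuation (f i) * δ ≤ g) : O.valuation (∑ i ∈ s, f i) * δ ≤ g := by
  classical
  induction s using Finset.induction_on with
  | empty => simp
  | insert a s ha ih =>
    rw [Finset.sum_insert ha]
    exact val_add_mul_le (h a (Finset.mem_insert_self _ _))
      (ih fun i hi => h i (Finset.mem_insert_of_mem hi))

/-- coefficients bounded by the two radii `α` (outer) and `α * γ` (inner). -/
def Sf (α γ : O.ValueGroup) (n : ℕ) (f : K[X]) : Prop :=
  ∀ j, O.valuation (f.coeff j) * α ^ j ≤ α ^ (2 * n) * γ ^ (n - j)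

/-- moreover the middle coefficient is small. -/
def Sf0 (α γ : O.ValueGroup) (n : ℕ) (f : K[X]) : Prop :=
  Sf α γ n f ∧ O.valuation (f.coeff n) * α ^ n ≤ α ^ (2 * n) * γ

theorem Sf.zero (n : ℕ) : Sf α γ n (0 : K[X]) := fun j => by simp

theorem Sf.add {n : ℕ} {f g : K[X]} (hf : Sf α γ n f) (hg : Sf α γ n g) : Sf α γ n (f + g) :=
  fun j => by
    rw [coeff_add]
    exact val_add_mul_le (hf j) (hg j)

theorem Sf0.zero (n : ℕ) : Sf0 α γ n (0 : K[X]) := ⟨Sf.zero n, by simp⟩

theorem Sf0.add {n : ℕ} {f g : K[X]} (hf : Sf0 α γ n f) (hg : Sf0 α γ n g) :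
    Sf0 α γ n (f + g) := by
  refine ⟨hf.1.add hg.1, ?_⟩
  rw [coeff_add]
  exact val_add_mul_le hf.2 hg.2

theorem Sf.sum {ι : Type*} {s : Finset ι} {n : ℕ} {f : ι → K[X]} (h : ∀ i ∈ s, Sf α γ n (f i)) :
    Sf α γ n (∑ i ∈ s, f i) := by
  classical
  induction s using Finset.induction_on with
  | empty => simpa using Sf.zero n
  | insert a s ha ih =>
    rw [Finset.sum_insert ha]
    exact (h a (Finset.mem_insert_self _ _)).add
      (ih fun i hi => h i (Finset.mem_insert_of_mem hi))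

theorem Sf0.sum {ι : Type*} {s : Finset ι} {n : ℕ} {f : ι → K[X]}
    (h : ∀ i ∈ s, Sf0 α γ n (f i)) : Sf0 α γ n (∑ i ∈ s, f i) := by
  classical
  induction s using Finset.induction_on with
  | empty => simpa using Sf0.zero n
  | insert a s ha ih =>
    rw [Finset.sum_insert ha]
    exact (h a (Finset.mem_insert_self _ _)).add
      (ih fun i hi => h i (Finset.mem_insert_of_mem hi))

theorem term_le {n m i j : ℕ} {f g : K[X]} (hf : Sf α γ n f) (hg : Sf α γ m g) :
    O.valuation (f.coeff i * g.coeff j) * α ^ (i + j) ≤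
      α ^ (2 * (n + m)) * γ ^ ((n - i) + (m - j)) := by
  have h1 := mul_le_mul' (hf i) (hg j)
  calc _ = (O.valuation (f.coeff i) * α ^ i) * (O.valuation (g.coeff j) * α ^ j) := by
        rw [map_mul, pow_add]
        ac_rfl
    _ ≤ _ := h1
    _ = _ := by
        rw [mul_add, pow_add, pow_add]
        ac_rfl

theorem Sf.mul {n m : ℕ} {f g : K[X]} (hγ : γ ≤ 1) (hf : Sf α γ n f) (hg : Sf α γ m g) :
    Sf α γ (n + m) (f * g) := by
  intro s
  rw [coeff_mul]
  refine val_sum_mul_le fun x hx => ?_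
  rw [Finset.HasAntidiagonal.mem_antidiagonal] at hx
  rw [← hx]
  refine (term_le hf hg).trans ?_
  have h : γ ^ ((n - x.1) + (m - x.2)) ≤ γ ^ (n + m - (x.1 + x.2)) :=
    pow_le_pow_right_of_le_one' hγ (by omega)
  gcongr

/-- the middle coefficient of a product. -/
theorem Sf.coeff_mul_sub {n m : ℕ} {f g : K[X]} (hγ : γ ≤ 1) (hf : Sf α γ n f)
    (hg : Sf α γ m g) :
    O.valuation ((f * g).coeff (n + m) - f.coeff n * g.coeff m) * α ^ (n + m) ≤
      α ^ (2 * (n + m)) * γ := by
  classical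
  rw [coeff_mul, ← Finset.add_sum_erase (Finset.HasAntidiagonal.antidiagonal (n + m))
    (fun x : ℕ × ℕ => f.coeff x.1 * g.coeff x.2) (a := (n, m)) (Finset.HasAntidiagonal.mem_antidiagonal.mpr rfl), add_sub_cancel_left]
  refine val_sum_mul_le fun x hx => ?_
  rw [Finset.mem_erase, Finset.HasAntidiagonal.mem_antidiagonal] at hx
  obtain ⟨h1, h2⟩ := hx
  rw [← h2]
  refine (term_le hf hg).trans ?_
  rw [h2]
  gcongr
  have h3 : x.1 ≠ n := by
    intro h
    apply h1
    ext
    · exact h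
    · change x.2 = m
      omega
  calc γ ^ (n - x.1 + (m - x.2)) ≤ γ ^ 1 := pow_le_pow_right_of_le_one' hγ (by omega)
    _ = γ := pow_one _

theorem Sf.mul0 {n m : ℕ} {f g : K[X]} (hγ : γ ≤ 1) (hf : Sf α γ n f) (hg : Sf0 α γ m g) :
    Sf0 α γ (n + m) (f * g) := by
  refine ⟨hf.mul hγ hg.1, ?_⟩
  have h1 := hf.coeff_mul_sub hγ hg.1
  have h2 : O.valuation (f.coeff n * g.coeff m) * α ^ (n + m) ≤ α ^ (2 * (n + m)) * γ := by
    have h3 := mul_le_mul' (hf n) hg.2
    calc _ = (O.valuation (f.coeff n) * α ^ n) * (O.valuation (g.coeff m) * α ^ m) := by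
          rw [map_mul, pow_add]
          ac_rfl
      _ ≤ _ := h3
      _ = _ := by
          rw [Nat.sub_self, pow_zero, mul_one, mul_add, pow_add]
          ac_rfl
  have h4 := val_add_mul_le h1 h2
  rwa [sub_add_cancel] at h4

theorem Sf.one : Sf α γ 0 (1 : K[X]) := by
  intro j
  rw [coeff_one]
  split_ifs with h
  · simp [h]
  · simp

theorem Sf.C {c : K} (hc : O.valuation c ≤ 1) : Sf α γ 0 (Polynomial.C c) := by
  intro j
  rw [coeff_C]
  split_ifs with h
  · simpa [h] using hc
  · simp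

theorem Sf.pow {n : ℕ} {f : K[X]} (hγ : γ ≤ 1) (hf : Sf α γ n f) (m : ℕ) :
    Sf α γ (m * n) (f ^ m) := by
  induction m with
  | zero => simpa using Sf.one
  | succ m ih =>
    rw [pow_succ, Nat.succ_mul]
    exact ih.mul hγ hf

theorem Sf.prod {ι : Type*} {s : Finset ι} {n : ι → ℕ} {f : ι → K[X]} (hγ : γ ≤ 1)
    (h : ∀ i ∈ s, Sf α γ (n i) (f i)) : Sf α γ (∑ i ∈ s, n i) (∏ i ∈ s, f i) := by
  classical
  induction s using Finset.induction_on with
  | empty => simpa using Sf.one
  | insert a s ha ih =>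
    rw [Finset.sum_insert ha, Finset.prod_insert ha]
    exact (h a (Finset.mem_insert_self _ _)).mul hγ
      (ih fun i hi => h i (Finset.mem_insert_of_mem hi))

/-- the middle coefficient is maximal. -/
def Um (α γ : O.ValueGroup) (n : ℕ) (f : K[X]) : Prop :=
  Sf α γ n f ∧ O.valuation (f.coeff n) = α ^ n

theorem Um.mul {n m : ℕ} {f g : K[X]} (hα : α ≠ 0) (hγ : γ < 1) (hf : Um α γ n f)
    (hg : Um α γ m g) : Um α γ (n + m) (f * g) := by
  refine ⟨hf.1.mul hγ.le hg.1, ?_⟩
  have h1 := hf.1.coeff_mul_sub hγ.le hg.1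
  have h2 : O.valuation (f.coeff n * g.coeff m) = α ^ (n + m) := by
    rw [map_mul, hf.2, hg.2, pow_add]
  have hpos : 0 < α ^ (n + m) := zero_lt_iff.mpr (pow_ne_zero _ hα)
  have h3 : O.valuation ((f * g).coeff (n + m) - f.coeff n * g.coeff m) < α ^ (n + m) := by
    by_contra hcon
    push Not at hcon
    have h4 : α ^ (n + m) * α ^ (n + m) ≤ α ^ (2 * (n + m)) * γ :=
      le_trans (by gcongr) h1
    have h5 : α ^ (2 * (n + m)) * γ < α ^ (2 * (n + m)) * 1 :=
      mul_lt_mul_of_pos_left hγ (zero_lt_iff.mpr (pow_ne_zero _ hα))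
    have h6 : α ^ (2 * (n + m)) = α ^ (n + m) * α ^ (n + m) := by rw [two_mul, pow_add]
    rw [mul_one] at h5
    rw [← h6] at h4
    exact absurd h4 (not_le.mpr h5)
  have h4 : (f * g).coeff (n + m) = ((f * g).coeff (n + m) - f.coeff n * g.coeff m) +
      f.coeff n * g.coeff m := by ring
  rw [h4, Valuation.map_add_eq_of_lt_right _ (by rw [h2]; exact h3)]
  exact h2

theorem Um.one : Um α γ 0 (1 : K[X]) := ⟨Sf.one, by simp⟩

theorem Um.pow {n : ℕ} {f : K[X]} (hα : α ≠ 0) (hγ : γ < 1) (hf : Um α γ n f) (m : ℕ) :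
    Um α γ (m * n) (f ^ m) := by
  induction m with
  | zero => simpa using Um.one
  | succ m ih =>
    rw [pow_succ, Nat.succ_mul]
    exact ih.mul hα hγ hf

theorem Um.prod {ι : Type*} {s : Finset ι} {n : ι → ℕ} {f : ι → K[X]} (hα : α ≠ 0) (hγ : γ < 1)
    (h : ∀ i ∈ s, Um α γ (n i) (f i)) : Um α γ (∑ i ∈ s, n i) (∏ i ∈ s, f i) := by
  classical
  induction s using Finset.induction_on with
  | empty => simpa using Um.one
  | insert a s ha ih =>
    rw [Finset.sum_insert ha, Finset.prod_insert ha]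
    exact (h a (Finset.mem_insert_self _ _)).mul hα hγ
      (ih fun i hi => h i (Finset.mem_insert_of_mem hi))

end fil

section aev

variable {k : Type u} [Field k] {K : Type u} [Field K] [Algebra k K] {O : ValuationSubring K}
  {α γ : O.ValueGroup}

theorem Sf.aeval {σ : Type} [Fintype σ] (hk : ∀ a : k, O.valuation (algebraMap k K a) ≤ 1)
    (hγ : γ ≤ 1) {d : σ → ℕ} {n : ℕ} {p : MvPolynomial σ k}
    (hp : ∀ m ∈ p.support, ∑ x, m x * d x = n) {G : σ → K[X]} (hG : ∀ x, Sf α γ (d x) (G x)) :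
    Sf α γ n (MvPolynomial.aeval G p) := by
  rw [MvPolynomial.aeval_def, MvPolynomial.eval₂_eq']
  refine Sf.sum fun m hm => ?_
  have h1 : Sf α γ (0 + ∑ x, m x * d x) (algebraMap k K[X] (p.coeff m) * ∏ x, G x ^ m x) := by
    refine Sf.mul hγ ?_ (Sf.prod hγ fun x _ => (hG x).pow hγ (m x))
    rw [IsScalarTower.algebraMap_apply k K K[X]]
    exact Sf.C (hk _)
  rwa [zero_add, hp m hm] at h1

end aev

section neck

variable {I : Type} {J : I → Type} [Fintype I] [∀ i, Fintype (J i)]
variable {k : Type u} [Field k] {K : Type u} [Field K] [Algebra k K] {O : ValuationSubring K}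
  {α γ : O.ValueGroup}

/-- weighted degree of the coefficients of the contact form. -/
theorem CForm.wdeg {E : Set (MvPolynomial (Σ i, J i) k)} {w : I → ℤ} (th : CForm E w)
    (β : I → ℕ) (hβ : ∑ i, w i * (β i : ℤ) = 1) (c : ∀ i, J i) (x : Σ i, J i)
    (m : (Σ i, J i) →₀ ℕ) (hm : m ∈ (th.p c x).support) :
    (∑ y : Σ i, J i, m y * β y.1) + β x.1 = th.N * (∑ i, β i) + 1 := by
  classical
  have h1 := fun i => th.hom c x m hm i
  have h2 : (∑ y : Σ i, J i, m y * β y.1) = ∑ i, (∑ a, m ⟨i, a⟩) * β i := by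
    rw [Fintype.sum_sigma]
    refine Finset.sum_congr rfl fun i _ => ?_
    rw [Finset.sum_mul]
  have h3 : ∑ i, ((((∑ a, m ⟨i, a⟩ : ℕ) : ℤ) + (if x.1 = i then 1 else 0)) * (β i : ℤ)) =
      ∑ i, (((th.N : ℤ) + w i) * (β i : ℤ)) := by
    refine Finset.sum_congr rfl fun i _ => ?_
    rw [← h1 i]
  have h4 : ((∑ y : Σ i, J i, m y * β y.1 : ℕ) : ℤ) + (β x.1 : ℤ) =
      (th.N : ℤ) * (∑ i, (β i : ℤ)) + 1 := by
    rw [h2, ← hβ, Finset.mul_sum, ← Finset.sum_add_distrib]
    have h5 : ∑ i, ((if x.1 = i then (1 : ℤ) else 0) * (β i : ℤ)) = β x.1 := by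
      simp
    calc _ = ∑ i, ((((∑ a, m ⟨i, a⟩ : ℕ) : ℤ) + (if x.1 = i then 1 else 0)) * (β i : ℤ)) := by
          rw [← h5]
          push_cast
          rw [← Finset.sum_add_distrib]
          refine Finset.sum_congr rfl fun i _ => ?_
          ring
      _ = _ := by
          rw [h3]
          refine Finset.sum_congr rfl fun i _ => ?_
          ring
  exact_mod_cast h4

theorem Sf0.euler {n : ℕ} {f : K[X]} (hf : Sf α γ n f) :
    Sf0 α γ n (X * derivative f - Polynomial.C (n : K) * f) := by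
  have h1 : ∀ j : ℕ, (X * derivative f - Polynomial.C (n : K) * f).coeff j =
      ((j : K) - n) * f.coeff j := by
    intro j
    rw [coeff_sub, coeff_C_mul]
    cases j with
    | zero => simp
    | succ j =>
      rw [coeff_X_mul, coeff_derivative]
      push_cast
      ring
  have h2 : ∀ j : ℕ, O.valuation ((j : K) - n) ≤ 1 := by
    intro j
    rw [O.valuation_le_one_iff]
    exact sub_mem (natCast_mem _ _) (natCast_mem _ _)
  refine ⟨fun j => ?_, ?_⟩
  · rw [h1, map_mul, mul_assoc]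
    calc _ ≤ 1 * (O.valuation (f.coeff j) * α ^ j) := by
          gcongr
          exact h2 j
      _ ≤ _ := by
        rw [one_mul]
        exact hf j
  · rw [h1, sub_self, zero_mul, map_zero, zero_mul]
    exact zero_le

theorem neck_aux {E : Set (MvPolynomial (Σ i, J i) k)} {w : I → ℤ} (th : CForm E w)
    {β : I → ℕ} (hβ : ∑ i, w i * (β i : ℤ) = 1)
    (hk : ∀ a : k, O.valuation (algebraMap k K a) ≤ 1) (hγ : γ ≤ 1)
    {F : ∀ i, J i → K[X]} (hF : OnX E F) (hS : ∀ i x, Sf α γ (β i) (F i x)) (c : ∀ i, J i) :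
    Sf0 α γ (th.N * (∑ i, β i) + 1)
      (X * form (th.p c) F (fun i x => derivative (F i x))) := by
  have h1 : X * form (th.p c) F (fun i x => derivative (F i x)) =
      ∑ x : Σ i, J i, MvPolynomial.aeval (fun y : Σ i, J i => F y.1 y.2) (th.p c x) *
        (X * derivative (F x.1 x.2) - Polynomial.C ((β x.1 : ℕ) : K) * F x.1 x.2) := by
    have h2 : ∑ x : Σ i, J i, MvPolynomial.aeval (fun y : Σ i, J i => F y.1 y.2) (th.p c x) *
        (Polynomial.C ((β x.1 : ℕ) : K) * F x.1 x.2) = 0 := by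
      rw [Fintype.sum_sigma]
      refine Finset.sum_eq_zero fun i _ => ?_
      have h3 := th.euler K[X] F hF c i
      calc _ = Polynomial.C ((β i : ℕ) : K) * ∑ a,
            MvPolynomial.aeval (fun y : Σ i, J i => F y.1 y.2) (th.p c ⟨i, a⟩) * F i a := by
            rw [Finset.mul_sum]
            refine Finset.sum_congr rfl fun a _ => ?_
            ring
        _ = 0 := by rw [h3, mul_zero]
    rw [form, Finset.mul_sum, ← sub_zero (∑ x : Σ i, J i, X * _), ← h2,
      ← Finset.sum_sub_distrib]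
    refine Finset.sum_congr rfl fun x _ => ?_
    ring
  rw [h1]
  refine Sf0.sum fun x _ => ?_
  by_cases hp : th.p c x = 0
  · rw [hp, map_zero, zero_mul]
    exact Sf0.zero _
  · obtain ⟨m₀, hm₀⟩ := MvPolynomial.support_nonempty.mpr hp
    have h3 := th.wdeg β hβ c x m₀ hm₀
    have h4 : Sf α γ (∑ y : Σ i, J i, m₀ y * β y.1)
        (MvPolynomial.aeval (fun y : Σ i, J i => F y.1 y.2) (th.p c x)) := by
      refine Sf.aeval (d := fun y : Σ i, J i => β y.1) hk hγ (fun m hm => ?_)
        fun y => hS y.1 y.2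
      have h5 := th.wdeg β hβ c x m hm
      omega
    rw [← h3]
    exact h4.mul0 hγ (Sf0.euler (hS x.1 x.2))

/-- the neck lemma: if the middle coefficients are maximal, the contact constant is bounded by
the inner radius. -/
theorem neck_lt {E : Set (MvPolynomial (Σ i, J i) k)} {w : I → ℤ} (th : CForm E w)
    {β : I → ℕ} (hβ : ∑ i, w i * (β i : ℤ) = 1)
    (hk : ∀ a : k, O.valuation (algebraMap k K a) ≤ 1) (hα : α ≠ 0) (hγ : γ < 1)
    {F : ∀ i, J i → K[X]} (hF : OnX E F) (hS : ∀ i x, Sf α γ (β i) (F i x))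
    (c : ∀ i, J i) (hU : ∀ i, O.valuation ((F i (c i)).coeff (β i)) = α ^ β i) {q : K}
    (hq : th.Val F (fun i x => derivative (F i x)) (Polynomial.C q)) :
    O.valuation q ≤ α * γ := by
  have h1 : Um α γ (th.N * ∑ i, β i) (den c F ^ th.N) :=
    Um.pow hα hγ (Um.prod hα hγ fun i _ => ⟨hS i (c i), hU i⟩) _
  have h2 := (neck_aux th hβ hk hγ.le hF hS c).2
  rw [← hq c, coeff_X_mul, coeff_mul_C, map_mul, h1.2] at h2
  set D := th.N * ∑ i, β i
  have hpos : 0 < α ^ (2 * D + 1) := zero_lt_iff.mpr (pow_ne_zero _ hα)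
  have h3 : α ^ (2 * D + 1) * O.valuation q ≤ α ^ (2 * D + 1) * (α * γ) := by
    calc _ = α ^ D * O.valuation q * α ^ (D + 1) := by
          rw [show 2 * D + 1 = D + (D + 1) by ring, pow_add]
          ac_rfl
      _ ≤ _ := h2
      _ = _ := by
          rw [show 2 * (D + 1) = (2 * D + 1) + 1 by ring, pow_succ α (2 * D + 1), mul_assoc]
  exact le_of_mul_le_mul_left h3 hpos

theorem coeff_prod_le {ι : Type*} {s : Finset ι} {f : ι → K[X]} {n : ι → ℕ}
    (h : ∀ i ∈ s, (f i).natDegree ≤ n i) :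
    (∏ i ∈ s, f i).coeff (∑ i ∈ s, n i) = ∏ i ∈ s, (f i).coeff (n i) := by
  classical
  induction s using Finset.induction_on with
  | empty => simp
  | insert a s ha ih =>
    rw [Finset.sum_insert ha, Finset.prod_insert ha, Finset.prod_insert ha,
      coeff_mul_add_eq_of_natDegree_le (h a (Finset.mem_insert_self _ _)) ?_,
      ih fun i hi => h i (Finset.mem_insert_of_mem hi)]
    exact (natDegree_prod_le _ _).trans
      (Finset.sum_le_sum fun i hi => h i (Finset.mem_insert_of_mem hi))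

/-- the contact constant is bounded by the outer radius. -/
theorem neck_one {E : Set (MvPolynomial (Σ i, J i) k)} {w : I → ℤ} (th : CForm E w)
    {β : I → ℕ} (hβ : ∑ i, w i * (β i : ℤ) = 1)
    (hk : ∀ a : k, O.valuation (algebraMap k K a) ≤ 1) (hα : α ≠ 0) (hγ : γ ≤ 1)
    {F : ∀ i, J i → K[X]} (hF : OnX E F) (hS : ∀ i x, Sf α γ (β i) (F i x))
    (c : ∀ i, J i) (hd : ∀ i, (F i (c i)).natDegree ≤ 2 * β i)
    (hU : ∀ i, O.valuation ((F i (c i)).coeff (2 * β i)) = 1) {q : K}
    (hq : th.Val F (fun i x => derivative (F i x)) (Polynomial.C q)) :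
    O.valuation q ≤ α := by
  have h1 : (den c F ^ th.N).coeff (th.N * ∑ i, 2 * β i) =
      (∏ i, (F i (c i)).coeff (2 * β i)) ^ th.N := by
    have h2 : (den c F).natDegree ≤ ∑ i, 2 * β i :=
      (natDegree_prod_le _ _).trans (Finset.sum_le_sum fun i _ => hd i)
    rw [coeff_pow_of_natDegree_le h2]
    congr 1
    exact coeff_prod_le fun i _ => hd i
  have h2 := (neck_aux th hβ hk hγ hF hS c).1 (th.N * (∑ i, 2 * β i) + 1)
  rw [← hq c, coeff_X_mul, coeff_mul_C, map_mul, h1, map_pow, map_prod,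
    Finset.prod_congr rfl fun i _ => hU i, Finset.prod_const_one, one_pow, one_mul,
    ← Finset.mul_sum] at h2
  set D := th.N * ∑ i, β i with hD
  have h3 : th.N * (2 * ∑ i, β i) = 2 * D := by rw [hD]; ring
  rw [h3] at h2
  have hpos : 0 < α ^ (2 * D + 1) := zero_lt_iff.mpr (pow_ne_zero _ hα)
  have h4 : α ^ (2 * D + 1) * O.valuation q ≤ α ^ (2 * D + 1) * α := by
    calc _ = O.valuation q * α ^ (2 * D + 1) := mul_comm _ _
      _ ≤ _ := h2
      _ ≤ α ^ (2 * (D + 1)) * 1 := by
          gcongr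
          exact pow_le_one' hγ _
      _ = _ := by
          rw [show 2 * (D + 1) = (2 * D + 1) + 1 by ring, pow_succ α (2 * D + 1), mul_one]
  exact le_of_mul_le_mul_left h4 hpos

end neck

end Crest.Agent.R260.Lin_678
end

-- ▼ part R260/Loc2_678
section

/-!
Row 260 (S0398), local part of LIN: the two radii of a map of `L`-degree two over a valued field,
the bound for the contact constant and for the derivative (REG).
-/

set_option autoImplicit false

namespace Crest.Agent.R260.Lin_678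

open Polynomial IsLocalRing
open Crest.Agent.R270.BM_360 Crest.Agent.R270.Fin_305

universe u

section newton

variable {I : Type} {J : I → Type}
variable {k : Type u} [Field k] {L : Type u} [Field L] [Algebra k L] {O : ValuationSubring L}

theorem lam0_mul [∀ i, Fintype (J i)] {E : Set (MvPolynomial (Σ i, J i) k)} {β : I → ℕ}
    (hcls : ∀ (κ : Type u) [Field κ] [Algebra k κ] (F : ∀ i, J i → Polynomial κ),
      IsMap E F → ∃ e : ℕ, cls F = e • β) {b : I → ℕ} (hb : b ∈ Lam0 E) : ∃ e : ℕ, b = e • β := by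
  refine AddSubmonoid.closure_induction (motive := fun b _ => ∃ e : ℕ, b = e • β) ?_ ?_ ?_ hb
  · rintro b ⟨κ, _, _, _, F, hF, rfl⟩
    exact hcls κ F hF
  · exact ⟨0, by simp⟩
  · rintro x y _ _ ⟨e, rfl⟩ ⟨e', rfl⟩
    exact ⟨e + e', by rw [add_smul]⟩

theorem exists_lead {κ : Type u} [Field κ] {T : Type} [Fintype T] {r : T → κ[X]} (hr : r ≠ 0) :
    ∃ a, (r a).coeff (vdeg r) ≠ 0 := by
  obtain ⟨b, hb⟩ := Function.ne_iff.mp hr
  obtain ⟨a, -, ha⟩ := Finset.exists_mem_eq_sup (Finset.univ : Finset T) ⟨b, Finset.mem_univ b⟩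
    (fun a => (r a).natDegree)
  have ha' : vdeg r = (r a).natDegree := ha
  by_cases h0 : r a = 0
  · rw [h0, natDegree_zero] at ha'
    have h1 : (r b).natDegree ≤ vdeg r :=
      Finset.le_sup (f := fun a => (r a).natDegree) (Finset.mem_univ b)
    refine ⟨b, ?_⟩
    have h2 : vdeg r = (r b).natDegree := by omega
    rw [h2, coeff_natDegree, Ne, leadingCoeff_eq_zero]
    exact hb
  · refine ⟨a, ?_⟩
    rw [ha', coeff_natDegree, Ne, leadingCoeff_eq_zero]
    exact h0

/-- the Newton polygon of a map at one scale: the indices where the maximum is attained first and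
last are multiples of `β` with a common factor. -/
theorem newton [IsAlgClosed L] [Fintype I] [∀ i, Fintype (J i)]
    {E : Set (MvPolynomial (Σ i, J i) k)} (hE : MHom E) {β : I → ℕ}
    (hlam : ∀ b ∈ Lam0 E, ∃ e : ℕ, b = e • β) (hk : ∀ a : k, algebraMap k L a ∈ O)
    {F : ∀ i, J i → L[X]} (hF : IsMap E F) {π : L} {μ : I → L} (hμ0 : ∀ i, μ i ≠ 0)
    (hle : ∀ i a j, O.valuation ((F i a).coeff j * π ^ j) ≤ O.valuation (μ i))
    (hatt : ∀ i, ∃ a j, O.valuation ((F i a).coeff j * π ^ j) = O.valuation (μ i)) :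
    ∃ e₀ e₁ : ℕ, e₀ ≤ e₁ ∧ ∀ i,
      (∃ a, O.valuation ((F i a).coeff (e₀ * β i) * π ^ (e₀ * β i)) = O.valuation (μ i)) ∧
      (∀ a j, j < e₀ * β i → O.valuation ((F i a).coeff j * π ^ j) < O.valuation (μ i)) ∧
      (∃ a, O.valuation ((F i a).coeff (e₁ * β i) * π ^ (e₁ * β i)) = O.valuation (μ i)) ∧
      (∀ a j, e₁ * β i < j → O.valuation ((F i a).coeff j * π ^ j) < O.valuation (μ i)) := by
  classical
  let _ : Algebra k O := ((algebraMap k L).codRestrict O.toSubring hk).toAlgebra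
  have _ : IsScalarTower k O L := IsScalarTower.of_algebraMap_eq fun _ => rfl
  have hmap2 : IsMap E (fun i a => (F i a).comp (C π * X)) := hF.comp _
  set F₂ : ∀ i, J i → L[X] := fun i a => (F i a).comp (C π * X) with hF₂
  have hcoef : ∀ i a j, (F₂ i a).coeff j = (F i a).coeff j * π ^ j := by
    intro i a j
    rw [hF₂]
    exact comp_C_mul_X_coeff
  have hμv : ∀ i, 0 < O.valuation (μ i) := fun i => by
    rw [zero_lt_iff, Ne, Valuation.zero_iff]; exact hμ0 i
  have hred2 : ∀ i, ∃ r, RedBy O (μ i)⁻¹ (F₂ i) r := by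
    intro i
    refine exists_redBy (inv_ne_zero (hμ0 i)) fun a j => ?_
    rw [hcoef, map_mul, map_inv₀, inv_mul_le_one₀ (hμv i)]
    exact hle i a j
  choose R₂ hR₂ using hred2
  have hz : ∀ i a j, (R₂ i a).coeff j = 0 ↔
      O.valuation ((F i a).coeff j * π ^ j) < O.valuation (μ i) := by
    intro i a j
    rw [(hR₂ i).coeff_eq_zero, hcoef, map_mul, map_inv₀, inv_mul_lt_one₀ (hμv i)]
  have hnz : ∀ i a j, (R₂ i a).coeff j ≠ 0 ↔
      O.valuation ((F i a).coeff j * π ^ j) = O.valuation (μ i) := by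
    intro i a j
    rw [Ne, hz, not_lt]
    exact ⟨fun h => le_antisymm (hle i a j) h, fun h => h.ge⟩
  have hR₂0 : ∀ i, R₂ i ≠ 0 := by
    intro i h
    obtain ⟨a, j, haj⟩ := hatt i
    have := (hnz i a j).mpr haj
    apply this
    rw [h]; simp
  have hred : ∀ i, IsRed O (F₂ i) (R₂ i) := fun i => ⟨hR₂0 i, _, hR₂ i⟩
  obtain ⟨e₀, he₀⟩ := hlam _ (tree0 hE hmap2 hred 0)
  obtain ⟨e', he'⟩ := hlam _ (tree0_annulus hE hmap2 hred)
  have h0 : ∀ i, vmul 0 (R₂ i) = e₀ * β i := fun i => by
    have := congrFun he₀ i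
    simpa using this
  have h1 : ∀ i, vdeg (R₂ i) = (e₀ + e') * β i := fun i => by
    have h2 := congrFun he' i
    have h3 := vmul_le_vdeg (hR₂0 i) 0
    have h4 := h0 i
    simp only [Pi.smul_apply, smul_eq_mul] at h2
    rw [add_mul]
    omega
  refine ⟨e₀, e₀ + e', Nat.le_add_right _ _, fun i => ⟨?_, ?_, ?_, ?_⟩⟩
  · by_contra hcon
    push Not at hcon
    have h2 : e₀ * β i + 1 ≤ vmul 0 (R₂ i) := by
      rw [le_vmul_zero_iff (hR₂0 i)]
      intro a j hj
      rcases Nat.lt_succ_iff_lt_or_eq.mp hj with h | h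
      · exact (le_vmul_zero_iff (hR₂0 i) _).mp (h0 i).ge a j h
      · rw [h]
        by_contra hne
        exact hcon a ((hnz i a _).mp hne)
    rw [h0 i] at h2
    omega
  · intro a j hj
    rw [← hz]
    exact (le_vmul_zero_iff (hR₂0 i) _).mp (h0 i).ge a j hj
  · obtain ⟨a, ha⟩ := exists_lead (hR₂0 i)
    rw [h1 i] at ha
    exact ⟨a, (hnz i a _).mp ha⟩
  · intro a j hj
    rw [← hz]
    refine coeff_eq_zero_of_natDegree_lt (lt_of_le_of_lt ?_ hj)
    rw [← h1 i]
    exact Finset.le_sup (f := fun a => (R₂ i a).natDegree) (Finset.mem_univ a)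

/-- **the two radii** of a map of `L`-degree two with unimodular leading vectors. -/
theorem radii [IsAlgClosed L] [Fintype I] [Nonempty I] [∀ i, Fintype (J i)]
    {E : Set (MvPolynomial (Σ i, J i) k)} (hE : MHom E) {β : I → ℕ} (hβ0 : ∀ i, 0 < β i)
    (hlam : ∀ b ∈ Lam0 E, ∃ e : ℕ, b = e • β) (hk : ∀ a : k, algebraMap k L a ∈ O)
    {F : ∀ i, J i → L[X]} (hF : IsMap E F) (hcls : cls F = 2 • β)
    (hl : ∀ i, ∃ x, O.valuation ((F i x).coeff (2 * β i)) = 1)
    (hl1 : ∀ i x, O.valuation ((F i x).coeff (2 * β i)) ≤ 1) :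
    ∃ a b : L, a ≠ 0 ∧ b ≠ 0 ∧ O.valuation b ≤ O.valuation a ∧
      (∀ i x, Sf (O.valuation a) (O.valuation b / O.valuation a) (β i) (F i x)) ∧
      (∀ i, ∃ x, O.valuation ((F i x).coeff 0) = (O.valuation a * O.valuation b) ^ β i) ∧
      (O.valuation b < O.valuation a →
        ∀ i, ∃ x, O.valuation ((F i x).coeff (β i)) = O.valuation a ^ β i) := by
  classical
  choose xl hxl using hl
  have hgt : ∀ i x j, 2 * β i < j → (F i x).coeff j = 0 := by
    intro i x j hj
    refine coeff_eq_zero_of_natDegree_lt (lt_of_le_of_lt ?_ hj)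
    have : (F i x).natDegree ≤ cls F i :=
      Finset.le_sup (f := fun a => (F i a).natDegree) (Finset.mem_univ x)
    rw [hcls] at this
    simpa using this
  obtain ⟨i₀⟩ := (inferInstance : Nonempty I)
  obtain ⟨a₀, ha₀⟩ := exists_coeff_zero_ne (hF.cop i₀)
  have hbl : ∀ i, (F i (xl i)).coeff (2 * β i) ≠ 0 := by
    intro i h0
    have := hxl i
    rw [h0, map_zero] at this
    exact zero_ne_one this
  obtain ⟨π, hπ0, hle, i₁, a₁, j₁, hj₁, heq⟩ := exists_outer (O := O) (c := fun i => 2 * β i)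
    (b := xl) hbl (fun i a => by rw [hxl]; exact hl1 i a) hgt (i₀ := i₀)
    (by have := hβ0 i₀; omega) ha₀
  have hπv : O.valuation π ≠ 0 := by rw [Ne, Valuation.zero_iff]; exact hπ0
  have hμ : ∀ i, O.valuation ((F i (xl i)).coeff (2 * β i) * π ^ (2 * β i)) =
      O.valuation π ^ (2 * β i) := fun i => by
    rw [map_mul, hxl, one_mul, map_pow]
  obtain ⟨e₀, e₁, he, hn⟩ := newton (O := O) hE hlam hk hF (π := π)
    (μ := fun i => (F i (xl i)).coeff (2 * β i) * π ^ (2 * β i))
    (fun i => mul_ne_zero (hbl i) (pow_ne_zero _ hπ0)) hle (fun i => ⟨xl i, 2 * β i, rfl⟩)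
  have he₀ : e₀ ≤ 1 := by
    by_contra hcon
    push Not at hcon
    have h1 : 2 * β i₁ ≤ e₀ * β i₁ := Nat.mul_le_mul_right _ hcon
    have h2 := (hn i₁).2.1 a₁ j₁ (lt_of_lt_of_le hj₁ h1)
    rw [heq] at h2
    exact lt_irrefl _ h2
  have hle' : ∀ i x j, O.valuation ((F i x).coeff j) * O.valuation π ^ j ≤
      O.valuation π ^ (2 * β i) := by
    intro i x j
    have h1 := hle i x j
    rw [hμ i, map_mul, map_pow] at h1
    exact h1
  rcases Nat.le_one_iff_eq_zero_or_eq_one.mp he₀ with h0 | h1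
  · -- one radius
    refine ⟨π, π, hπ0, hπ0, le_rfl, fun i x j => ?_, fun i => ?_, fun h => absurd h (lt_irrefl _)⟩
    · rw [div_self hπv, one_pow, mul_one]
      exact hle' i x j
    · obtain ⟨x, hx⟩ := (hn i).1
      refine ⟨x, ?_⟩
      rw [hμ i, h0, zero_mul, pow_zero, mul_one] at hx
      rw [hx, ← sq, ← pow_mul]
  · -- two radii
    rw [h1] at hn
    have hmid : ∀ i, ∃ x, O.valuation ((F i x).coeff (β i)) = O.valuation π ^ β i := by
      intro i
      obtain ⟨x, hx⟩ := (hn i).1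
      refine ⟨x, ?_⟩
      rw [hμ i, one_mul, map_mul, map_pow, two_mul, pow_add] at hx
      exact mul_right_cancel₀ (pow_ne_zero _ hπv) hx
    choose xm hxm using hmid
    set F₂ : ∀ i, J i → L[X] := fun i a => (F i a).comp (C π * X) with hF₂
    have hcoef : ∀ i a j, (F₂ i a).coeff j = (F i a).coeff j * π ^ j := by
      intro i a j
      rw [hF₂]
      exact comp_C_mul_X_coeff
    have hμ2 : ∀ i, O.valuation ((F₂ i (xm i)).coeff (β i)) = O.valuation π ^ (2 * β i) := by
      intro i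
      rw [hcoef, map_mul, map_pow, hxm, two_mul, pow_add]
    obtain ⟨ρ, hρ0, hρ1, hc1, hc2, i₂, a₂, j₂, hj₂, hne₂, heq₂⟩ := exists_crit (O := O) (F := F₂)
      (N := β) (b := xm) (fun i a j => by
        rw [hμ2, hcoef, map_mul, map_pow]
        exact hle' i a j)
      (fun i a j hj => by
        rw [hμ2, hcoef]
        have h2 := (hn i).2.1 a j (by rw [one_mul]; exact hj)
        rw [hμ i] at h2
        exact h2)
      (i₀ := i₀) (hβ0 i₀) (a₀ := a₀) (by rw [hcoef, pow_zero, mul_one]; exact ha₀)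
    have hρv : O.valuation ρ ≠ 0 := by rw [Ne, Valuation.zero_iff]; exact hρ0
    have hmul : ∀ i a j, (F₂ i a).coeff j * ρ ^ j = (F i a).coeff j * (π * ρ) ^ j := by
      intro i a j
      rw [hcoef, mul_pow, mul_assoc]
    have hμ3 : ∀ i, O.valuation ((F₂ i (xm i)).coeff (β i) * ρ ^ β i) =
        (O.valuation π * O.valuation (π * ρ)) ^ β i := by
      intro i
      rw [map_mul, hμ2, map_pow, map_mul, mul_pow, mul_pow, two_mul, pow_add, mul_assoc]
    have hne : ∀ i, (F₂ i (xm i)).coeff (β i) ≠ 0 := by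
      intro i h0
      have := hμ2 i
      rw [h0, map_zero] at this
      exact pow_ne_zero _ hπv this.symm
    obtain ⟨e₂, e₃, he', hn'⟩ := newton (O := O) hE hlam hk hF (π := π * ρ)
      (μ := fun i => (F₂ i (xm i)).coeff (β i) * ρ ^ β i)
      (fun i => mul_ne_zero (hne i) (pow_ne_zero _ hρ0))
      (fun i a j => by rw [← hmul]; exact hc1 i a j)
      (fun i => ⟨xm i, β i, by rw [← hmul]⟩)
    have he₂ : e₂ = 0 := by
      by_contra hcon
      have h2 : β i₂ ≤ e₂ * β i₂ := Nat.le_mul_of_pos_left _ (Nat.pos_of_ne_zero hcon)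
      have h3 := (hn' i₂).2.1 a₂ j₂ (lt_of_lt_of_le hj₂ h2)
      rw [← hmul, heq₂] at h3
      exact lt_irrefl _ h3
    have hba : O.valuation (π * ρ) ≤ O.valuation π := by
      rw [map_mul]
      exact mul_le_of_le_one_right' hρ1.le
    refine ⟨π, π * ρ, hπ0, mul_ne_zero hπ0 hρ0, hba, fun i x j => ?_, fun i => ?_,
      fun _ i => ⟨xm i, hxm i⟩⟩
    · have hdiv : O.valuation (π * ρ) / O.valuation π = O.valuation ρ := by
        rw [map_mul, mul_div_cancel_left₀ _ hπv]
      rw [hdiv]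
      rcases le_total (β i) j with hj | hj
      · rw [Nat.sub_eq_zero_of_le hj, pow_zero, mul_one]
        exact hle' i x j
      · have h2 := hc1 i x j
        rw [hmul, hμ3 i, map_mul, map_pow] at h2
        have h3 : 0 < O.valuation ρ ^ j := zero_lt_iff.mpr (pow_ne_zero _ hρv)
        refine le_of_mul_le_mul_right ?_ h3
        calc _ = O.valuation ((F i x).coeff j) * O.valuation (π * ρ) ^ j := by
              rw [map_mul, mul_pow, mul_assoc]
          _ ≤ _ := h2
          _ = O.valuation π ^ (2 * β i) * O.valuation ρ ^ β i := by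
              rw [map_mul, mul_pow, mul_pow, two_mul, pow_add, mul_assoc]
          _ = _ := by
              rw [mul_assoc, ← pow_add, Nat.sub_add_cancel hj]
    · obtain ⟨x, hx⟩ := (hn' i).1
      refine ⟨x, ?_⟩
      rw [he₂, zero_mul, pow_zero, mul_one, hμ3 i] at hx
      exact hx

end newton

section reg

variable {I : Type} {J : I → Type} [Fintype I] [∀ i, Fintype (J i)]
variable {k : Type u} [Field k] {K : Type u} [Field K] [Algebra k K] [IsAlgClosed K]
  {O : ValuationSubring K}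

theorem pow_div_aux {Γ : Type*} [CommGroupWithZero Γ] {a b : Γ} (ha : a ≠ 0) (n : ℕ) :
    a ^ (2 * (n + 1)) * (b / a) ^ n = a ^ (n + 1) * b ^ n * a := by
  rw [div_pow, mul_div_assoc', div_eq_iff (pow_ne_zero _ ha),
      show 2 * (n + 1) = (n + 1) + 1 + n by ring, pow_add _ (n + 1 + 1), pow_succ _ (n + 1)]
  simp only [mul_comm, mul_left_comm]

theorem CData.nonempty (D : CData k I J) : Nonempty I := by
  by_contra h
  rw [not_nonempty_iff] at h
  have h1 := D.wβ
  rw [Fintype.sum_empty] at h1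
  exact zero_ne_one h1

theorem CData.lam0 (D : CData k I J) : ∀ b ∈ Lam0 D.E, ∃ e : ℕ, b = e • D.β :=
  fun _ hb => lam0_mul D.cls_eq hb

omit [Fintype I] in
theorem natDegree_le_cls {κ : Type u} [Field κ] (F : ∀ i, J i → κ[X]) (i : I) (x : J i) :
    (F i x).natDegree ≤ cls F i :=
  Finset.le_sup (f := fun a => (F i a).natDegree) (Finset.mem_univ x)

/-- **REG with radii**: the two radii of a map of `L`-degree two, the neck lemma `v q ≤ v b` for the
contact constant `q`, the bound for the derivative at `0`. -/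
theorem CData.reg_radii (D : CData k I J) (hk : ∀ a : k, algebraMap k K a ∈ O)
    {F : ∀ i, J i → K[X]} (hF : IsMap D.E F) (hcls : cls F = 2 • D.β)
    (hl : ∀ i, ∃ x, O.valuation ((F i x).coeff (2 * D.β i)) = 1)
    (hl1 : ∀ i x, O.valuation ((F i x).coeff (2 * D.β i)) ≤ 1) :
    ∃ a b : K, a ≠ 0 ∧ b ≠ 0 ∧ O.valuation b ≤ O.valuation a ∧
      (∀ i x, Sf (O.valuation a) (O.valuation b / O.valuation a) (D.β i) (F i x)) ∧
      (∀ i, ∃ x, O.valuation ((F i x).coeff 0) = (O.valuation a * O.valuation b) ^ D.β i) ∧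
      (O.valuation b < O.valuation a →
        ∀ i, ∃ x, O.valuation ((F i x).coeff (D.β i)) = O.valuation a ^ D.β i) ∧
      (∀ q : K, D.th.Val F (fun i x => derivative (F i x)) (C q) →
        O.valuation q ≤ O.valuation b) ∧
      (∀ i x, O.valuation ((F i x).coeff 1) ≤
        O.valuation a ^ D.β i * O.valuation b ^ (D.β i - 1)) := by
  have := D.nonempty
  obtain ⟨a, b, ha, hb, hba, hS, h0, hm⟩ := radii D.hom D.β_pos D.lam0 hk hF hcls hl hl1
  have hav : O.valuation a ≠ 0 := by rw [Ne, Valuation.zero_iff]; exact ha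
  have hbv : O.valuation b ≠ 0 := by rw [Ne, Valuation.zero_iff]; exact hb
  have hk' : ∀ c : k, O.valuation (algebraMap k K c) ≤ 1 := fun c =>
    (O.valuation_le_one_iff _).mpr (hk c)
  have hγ : O.valuation b / O.valuation a ≤ 1 := by
    rw [div_le_one₀ (zero_lt_iff.mpr hav)]
    exact hba
  refine ⟨a, b, ha, hb, hba, hS, h0, hm, fun q hq => ?_, fun i x => ?_⟩
  · rcases hba.lt_or_eq with hlt | heq
    · choose c hc using hm hlt
      have h1 := neck_lt D.th D.wβ hk' hav (by rwa [div_lt_one₀ (zero_lt_iff.mpr hav)]) hF.on hS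
        c hc hq
      rwa [mul_div_cancel₀ _ hav] at h1
    · choose c hc using hl
      rw [heq]
      exact neck_one D.th D.wβ hk' hav hγ hF.on hS c
        (fun i => by
          have := natDegree_le_cls F i (c i)
          rw [hcls] at this
          simpa using this) hc hq
  · have h1 := hS i x 1
    have hβ := D.β_pos i
    rw [pow_one] at h1
    refine le_of_mul_le_mul_right (h1.trans_eq ?_) (zero_lt_iff.mpr hav)
    obtain ⟨n, hn⟩ : ∃ n, D.β i = n + 1 := ⟨D.β i - 1, by omega⟩
    rw [hn, Nat.add_sub_cancel]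
    exact pow_div_aux hav n

/-- `c F'(0)` is bounded by `F(0)`. -/
theorem CData.reg_aux (D : CData k I J) (hk : ∀ a : k, algebraMap k K a ∈ O)
    {F : ∀ i, J i → K[X]} (hF : IsMap D.E F) (hcls : cls F = 2 • D.β)
    (hl : ∀ i, ∃ x, O.valuation ((F i x).coeff (2 * D.β i)) = 1)
    (hl1 : ∀ i x, O.valuation ((F i x).coeff (2 * D.β i)) ≤ 1)
    {q : K} (hq : D.th.Val F (fun i x => derivative (F i x)) (C q)) (i : I) (x : J i) :
    ∃ y : J i, O.valuation (q * (F i x).coeff 1) ≤ O.valuation ((F i y).coeff 0) := by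
  obtain ⟨a, b, ha, hb, hba, hS, h0, hm, hn, hd⟩ := D.reg_radii hk hF hcls hl hl1
  obtain ⟨y, hy⟩ := h0 i
  refine ⟨y, ?_⟩
  rw [hy, map_mul]
  have hβ := D.β_pos i
  obtain ⟨n, hn'⟩ : ∃ n, D.β i = n + 1 := ⟨D.β i - 1, by omega⟩
  calc _ ≤ O.valuation b * (O.valuation a ^ D.β i * O.valuation b ^ (D.β i - 1)) :=
        mul_le_mul' (hn q hq) (hd i x)
    _ = _ := by
        rw [hn', Nat.add_sub_cancel, mul_pow, pow_succ (O.valuation b) n]
        ac_rfl

omit [Fintype I] [IsAlgClosed K] in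
/-- leading vectors with entries in the small field are unimodular. -/
theorem based_lead {β : I → ℕ} (hk : ∀ a : k, algebraMap k K a ∈ O) {F : ∀ i, J i → K[X]}
    (hcls : cls F = 2 • β) {x₀ : ∀ i, J i → k} (hx₀ : ∀ i, x₀ i ≠ 0) (hb : Based x₀ F) :
    (∀ i, ∃ x, O.valuation ((F i x).coeff (2 * β i)) = 1) ∧
      ∀ i x, O.valuation ((F i x).coeff (2 * β i)) ≤ 1 := by
  have h1 : ∀ i, vdeg (F i) = 2 * β i := fun i => by
    have := congrFun hcls i
    simpa [cls] using this
  have h2 : ∀ i x, (F i x).coeff (2 * β i) = algebraMap k K (x₀ i x) := by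
    intro i x
    rw [← h1 i]
    exact hb i x
  refine ⟨fun i => ?_, fun i x => ?_⟩
  · obtain ⟨x, hx⟩ := Function.ne_iff.mp (hx₀ i)
    refine ⟨x, le_antisymm ?_ ?_⟩
    · rw [h2, O.valuation_le_one_iff]
      exact hk _
    · have h3 : O.valuation ((algebraMap k K (x₀ i x))⁻¹) ≤ 1 := by
        rw [O.valuation_le_one_iff, ← map_inv₀]
        exact hk _
      rw [h2]
      rw [map_inv₀] at h3
      have h4 : algebraMap k K (x₀ i x) ≠ 0 := by
        rw [Ne, map_eq_zero]
        exact hx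
      have h5 : 0 < O.valuation (algebraMap k K (x₀ i x)) := by
        rw [zero_lt_iff, Ne, Valuation.zero_iff]
        exact h4
      rwa [inv_le_one₀ h5] at h3
  · rw [h2, O.valuation_le_one_iff]
    exact hk _

/-- **REG** (integrality of `X = c F'(0)` at a unimodular representative of the point `F(0)`). -/
theorem CData.reg (D : CData k I J) (hk : ∀ a : k, algebraMap k K a ∈ O)
    {F : ∀ i, J i → K[X]} (hF : IsMap D.E F) (hcls : cls F = 2 • D.β)
    {x₀ : ∀ i, J i → k} (hx₀ : ∀ i, x₀ i ≠ 0) (hb : Based x₀ F)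
    {q : K} (hq : D.th.Val F (fun i x => derivative (F i x)) (C q))
    {y : ∀ i, J i → K} (hy : ∀ i x, y i x ∈ O) {r : I → K} (hr : ∀ i, r i ≠ 0)
    (hFy : ∀ i x, (F i x).coeff 0 = r i * y i x) (i : I) (x : J i) :
    q * (F i x).coeff 1 / r i ∈ O := by
  obtain ⟨hl, hl1⟩ := based_lead hk hcls hx₀ hb
  obtain ⟨z, hz⟩ := D.reg_aux hk hF hcls hl hl1 hq i x
  have hrv : 0 < O.valuation (r i) := by
    rw [zero_lt_iff, Ne, Valuation.zero_iff]
    exact hr i
  rw [← O.valuation_le_one_iff, map_div₀, div_le_one₀ hrv]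
  refine hz.trans ?_
  rw [hFy, map_mul]
  exact mul_le_of_le_one_right' ((O.valuation_le_one_iff _).mpr (hy i z))

end reg

end Crest.Agent.R260.Lin_678
end

-- ▼ part R260/Scl_678

/-!
Row 260: block scalars. The value of the contact form, maps, classes, the number `Φ` under
constant scaling of the blocks.
-/

set_option autoImplicit false

namespace Crest.Agent.R260.Scl_678

open Polynomial
open Crest.Agent.R270.BM_360 Crest.Agent.R260.Lin_678 Crest.Agent.R260.QuadDefs_517

universe u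

section scale

variable {I : Type} {J : I → Type} [Fintype I] [∀ i, Fintype (J i)]
variable {k : Type u} [Field k] {E : Set (MvPolynomial (Σ i, J i) k)} {w : I → ℤ}

/-- homogeneity of a coefficient of the contact form. -/
theorem aeval_scale_p (th : CForm E w) {A : Type*} [CommRing A] [Algebra k A] (lam : I → A)
    (v : ∀ i, J i → A) (c : ∀ i, J i) (x : Σ i, J i) (d : I → ℕ)
    (hd : ∀ i, (d i : ℤ) = th.N + w i) :
    MvPolynomial.aeval (fun y : Σ i, J i => lam y.1 * v y.1 y.2) (th.p c x) * lam x.1 =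
      (∏ i, lam i ^ d i) *
        MvPolynomial.aeval (fun y : Σ i, J i => v y.1 y.2) (th.p c x) := by
  classical
  rw [MvPolynomial.aeval_def, MvPolynomial.aeval_def, MvPolynomial.eval₂_eq',
    MvPolynomial.eval₂_eq', Finset.sum_mul, Finset.mul_sum]
  refine Finset.sum_congr rfl fun m hm => ?_
  have h1 := fun i => th.hom c x m hm i
  have h2 : ∀ i, (∑ a, m ⟨i, a⟩) + (if x.1 = i then 1 else 0) = d i := by
    intro i
    have h3 := h1 i
    rw [← hd i] at h3
    by_cases hi : x.1 = i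
    · simp only [hi, if_true] at h3 ⊢
      exact_mod_cast h3
    · simp only [hi, if_false] at h3 ⊢
      exact_mod_cast h3
  have h4 : ∏ y : Σ i, J i, (lam y.1 * v y.1 y.2) ^ m y =
      (∏ i, lam i ^ (∑ a, m ⟨i, a⟩)) * ∏ y : Σ i, J i, (v y.1 y.2) ^ m y := by
    simp only [mul_pow, Finset.prod_mul_distrib]
    congr 1
    rw [Fintype.prod_sigma]
    refine Finset.prod_congr rfl fun i _ => ?_
    exact (Finset.prod_pow_eq_pow_sum Finset.univ (fun a => m ⟨i, a⟩) (lam i))
  have h5 : (∏ i, lam i ^ (∑ a, m ⟨i, a⟩)) * lam x.1 = ∏ i, lam i ^ d i := by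
    have h6 : lam x.1 = ∏ i, lam i ^ (if x.1 = i then 1 else 0) := by
      simp
    rw [h6, ← Finset.prod_mul_distrib]
    refine Finset.prod_congr rfl fun i _ => ?_
    rw [← h2 i, pow_add]
  rw [h4, ← h5]
  ring

theorem form_scale (th : CForm E w) {A : Type*} [CommRing A] [Algebra k A] (lam : I → A)
    (v t : ∀ i, J i → A) (c : ∀ i, J i) (d : I → ℕ) (hd : ∀ i, (d i : ℤ) = th.N + w i) :
    form (th.p c) (fun i j => lam i * v i j) (fun i j => lam i * t i j) =
      (∏ i, lam i ^ d i) * form (th.p c) v t := by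
  unfold form
  rw [Finset.mul_sum]
  refine Finset.sum_congr rfl fun x _ => ?_
  rw [← mul_assoc, aeval_scale_p th lam v c x d hd, mul_assoc]

omit [∀ i, Fintype (J i)] in
theorem den_scale {A : Type*} [CommRing A] (lam : I → A) (v : ∀ i, J i → A) (c : ∀ i, J i) :
    den c (fun i j => lam i * v i j) = (∏ i, lam i) * den c v := by
  unfold den
  rw [Finset.prod_mul_distrib]

/-- the value of `θ` under constant scaling of the blocks. -/
theorem val_scale (th : CForm E w) {K A : Type u} [Field K] [CommRing A] [Algebra K A]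
    [Algebra k A] {lam : I → K} (hlam : ∀ i, lam i ≠ 0) {v t : ∀ i, J i → A} {q : A}
    (h : th.Val v t q) :
    th.Val (fun i j => algebraMap K A (lam i) * v i j) (fun i j => algebraMap K A (lam i) * t i j)
      (algebraMap K A (∏ i, lam i ^ w i) * q) := by
  classical
  intro c
  rw [den_scale, mul_pow]
  by_cases hd : ∀ i, 0 ≤ (th.N : ℤ) + w i
  · choose d hd' using fun i => Int.eq_ofNat_of_zero_le (hd i)
    have hd2 : ∀ i, (d i : ℤ) = th.N + w i := fun i => (hd' i).symm
    rw [form_scale th _ v t c d hd2, ← h c]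
    have h1 : (∏ i, lam i) ^ th.N * ∏ i, lam i ^ w i = ∏ i, lam i ^ d i := by
      rw [← Finset.prod_pow, ← Finset.prod_mul_distrib]
      refine Finset.prod_congr rfl fun i _ => ?_
      rw [← zpow_natCast (lam i) (d i), hd2 i, zpow_add₀ (hlam i), zpow_natCast]
    have h2 := congrArg (algebraMap K A) h1
    simp only [map_mul, map_pow, map_prod] at h2
    rw [← h2, map_prod]
    ring
  · push Not at hd
    obtain ⟨i, hi⟩ := hd
    have hp : ∀ x, th.p c x = 0 := by
      intro x
      by_contra hne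
      obtain ⟨m, hm⟩ := MvPolynomial.support_nonempty.mpr hne
      have h1 := th.hom c x m hm i
      rw [← h1] at hi
      have h2 : (0 : ℤ) ≤ (open Classical in if x.1 = i then 1 else 0) := by
        split_ifs <;> simp
      have h3 : (0 : ℤ) ≤ ((∑ a, m ⟨i, a⟩ : ℕ) : ℤ) := Int.natCast_nonneg _
      omega
    have hf : ∀ v' t' : ∀ i, J i → A, form (th.p c) v' t' = 0 := by
      intro v' t'
      unfold form
      refine Finset.sum_eq_zero fun x _ => ?_
      rw [hp x, map_zero, zero_mul]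
    have h1 := h c
    rw [hf] at h1 ⊢
    calc _ = (∏ i, algebraMap K A (lam i)) ^ th.N * algebraMap K A (∏ i, lam i ^ w i) *
          (den c v ^ th.N * q) := by ring
      _ = 0 := by rw [h1, mul_zero]

end scale

section maps

variable {I : Type} {J : I → Type}
variable {k : Type u} [Field k] {K : Type u} [Field K] [Algebra k K]

theorem cop_scale {T : Type} {f : T → K[X]} (hf : Cop f) {a : K} (ha : a ≠ 0) :
    Cop (fun x => C a * f x) := by
  unfold Cop at *
  rw [Ideal.eq_top_iff_one] at *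
  have h1 : C a * (1 : K[X]) ∈ Ideal.span (Set.range fun x => C a * f x) := by
    have h2 : ∀ p ∈ Ideal.span (Set.range f), C a * p ∈
        Ideal.span (Set.range fun x => C a * f x) := by
      intro p hp
      refine Submodule.span_induction (p := fun p _ => C a * p ∈
        Ideal.span (Set.range fun x => C a * f x)) ?_ ?_ ?_ ?_ hp
      · rintro _ ⟨x, rfl⟩
        exact Ideal.subset_span ⟨x, rfl⟩
      · rw [mul_zero]
        exact zero_mem _
      · intro x y _ _ hx hy
        rw [mul_add]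
        exact add_mem hx hy
      · intro b x _ hx
        rw [smul_eq_mul, mul_left_comm]
        exact Ideal.mul_mem_left _ _ hx
    exact h2 1 hf
  rw [mul_one] at h1
  have h3 := Ideal.mul_mem_left _ (C a⁻¹) h1
  rwa [← C_mul, inv_mul_cancel₀ ha, C_1] at h3

theorem isMap_scale [Fintype I] {E : Set (MvPolynomial (Σ i, J i) k)} (hE : MHom E)
    {F : ∀ i, J i → K[X]} (hF : IsMap E F) {a : I → K} (ha : ∀ i, a i ≠ 0) :
    IsMap E (fun i x => C (a i) * F i x) :=
  ⟨hF.on.scale hE (fun i => C (a i)), fun i => cop_scale (hF.cop i) (ha i)⟩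

theorem cls_scale [∀ i, Fintype (J i)] {F : ∀ i, J i → K[X]} {a : I → K} (ha : ∀ i, a i ≠ 0) :
    cls (fun i x => C (a i) * F i x) = cls F := by
  funext i
  unfold cls vdeg
  refine Finset.sup_congr rfl fun x _ => ?_
  exact natDegree_C_mul (ha i)

end maps

section joins

variable {I : Type} {J : I → Type} [Fintype I] [∀ i, Fintype (J i)]
variable {k : Type u} [Field k] {K : Type u} [Field K] [Algebra k K]

/-- scaling of the blocks of a conic. -/
theorem joins_scale (D : CData k I J) {f : ∀ i, J i → K[X]} {x y : ∀ i, J i → K} {a b : I → K}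
    {c : K} (h : Joins D f x y a b c) {l : I → K} (hl : ∀ i, l i ≠ 0) :
    Joins D (fun i j => C (l i) * f i j) x y (fun i => l i * a i) (fun i => l i * b i)
      ((∏ i, l i ^ D.w i) * c) where
  a0 := fun i => mul_ne_zero (hl i) (h.a0 i)
  b0 := fun i => mul_ne_zero (hl i) (h.b0 i)
  lead := fun i j => by rw [coeff_C_mul, h.lead, mul_assoc]
  bot := fun i j => by rw [coeff_C_mul, h.bot, mul_assoc]
  val := by
    have h1 := val_scale D.th (A := K[X]) hl h.val
    have h2 : dd (fun i j => C (l i) * f i j) =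
        fun i j => algebraMap K K[X] (l i) * dd f i j := by
      funext i j
      simp only [dd, derivative_C_mul]
      rfl
    rw [h2, C_mul]
    exact h1

theorem phi_scale (D : CData k I J) {a b : I → K} {c : K} {l : I → K} (hl : ∀ i, l i ≠ 0) :
    phi D (fun i => l i * a i) (fun i => l i * b i) ((∏ i, l i ^ D.w i) * c) = phi D a b c := by
  unfold phi
  have h1 : (∏ i, l i ^ D.w i) * ∏ i, l i ^ (-D.w i) = 1 := by
    rw [← Finset.prod_mul_distrib]
    refine Finset.prod_eq_one fun i _ => ?_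
    rw [← zpow_add₀ (hl i), add_neg_cancel, zpow_zero]
  simp only [mul_zpow, Finset.prod_mul_distrib]
  calc _ = ((∏ i, l i ^ D.w i) * ∏ i, l i ^ (-D.w i)) * ((∏ i, l i ^ D.w i) *
        ∏ i, l i ^ (-D.w i)) * (c ^ 2 * (∏ i, a i ^ (-D.w i)) * ∏ i, b i ^ (-D.w i)) := by ring
    _ = _ := by rw [h1, one_mul, one_mul]

/-- normalisation of the leading vector. -/
theorem joins_normalise (D : CData k I J) {f : ∀ i, J i → K[X]} {x y : ∀ i, J i → K}
    {a b : I → K} {c : K} (h : Joins D f x y a b c) :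
    Joins D (fun i j => C (a i)⁻¹ * f i j) x y (fun _ => 1) (fun i => (a i)⁻¹ * b i)
        ((∏ i, (a i)⁻¹ ^ D.w i) * c) ∧
      phi D (fun _ => 1) (fun i => (a i)⁻¹ * b i) ((∏ i, (a i)⁻¹ ^ D.w i) * c) =
        phi D a b c := by
  have hl : ∀ i, (a i)⁻¹ ≠ 0 := fun i => inv_ne_zero (h.a0 i)
  have h1 := joins_scale D h hl
  have h2 := phi_scale D (a := a) (b := b) (c := c) hl
  have h3 : (fun i => (a i)⁻¹ * a i) = fun _ => (1 : K) := by
    funext i
    exact inv_mul_cancel₀ (h.a0 i)
  rw [h3] at h1 h2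
  exact ⟨h1, h2⟩

end joins

end Crest.Agent.R260.Scl_678
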