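import Crest.Agent.R260.FamDefs_919
import Crest.Agent.R260.Fin6_600_Mg
import Crest.Agent.R260.Alg3_661
import Crest.Agent.R260.Hmg3_516
import Crest.Agent.R260.Mob2_919
import Crest.Agent.R260.Scl_678
import Mathlib
import Crest.Agent.R260.Prop2_703
import Crest.Agent.R260.Gpt_33
import Crest.Agent.R260.FamP_919
import Crest.Agent.R260.Gp2_169
import Crest.Agent.R260.Irr1_33
import Crest.Agent.R260.Fam2_919
import Crest.Agent.R260.Fam1_919
import Crest.Agent.R260.Alg1_661

-- ▼ part R260/Fin7_600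
section

/-!
Row 260 (S0398), AG-FINAL: tuples of bounded degree and Bezout cofactors of bounded degree.
-/

set_option autoImplicit false
set_option linter.unusedSectionVars false

namespace Crest.Agent.R260.Fin7_600

open Polynomial Crest.Agent.R270.BM_360 Crest.Agent.R260.Lin_678 Crest.Agent.R260.Fam_919

universe u v w

/-- **Bezout cofactors of bounded degree**. -/
theorem bezout_bound {K : Type u} [Field K] {T : Type} [Fintype T] (f : T → K[X]) (N : ℕ)
    (hN : ∀ t, (f t).natDegree ≤ N) (hf : Cop f) :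
    ∃ g : T → K[X], (∀ t, (g t).natDegree ≤ N) ∧ ∑ t, g t * f t = 1 := by
  classical
  have h1 : (1 : K[X]) ∈ Ideal.span (Set.range f) := by
    have : Ideal.span (Set.range f) = ⊤ := hf
    rw [this]; exact Submodule.mem_top
  obtain ⟨g, hg⟩ := Ideal.mem_span_range_iff_exists_fun.1 h1
  have h2 : ∃ t₀, f t₀ ≠ 0 := by
    by_contra hcon
    push Not at hcon
    rw [Finset.sum_eq_zero (fun t _ => by rw [hcon t, mul_zero])] at hg
    exact zero_ne_one hg
  obtain ⟨t₀, ht₀⟩ := h2
  set h := f t₀ with hh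
  let g0 : K[X] := g t₀ + ∑ t ∈ Finset.univ.erase t₀, (g t / h) * f t
  have hsum : g0 * h + ∑ t ∈ Finset.univ.erase t₀, (g t % h) * f t = 1 := by
    have h3 : ∀ t, g t = h * (g t / h) + g t % h := fun t => (EuclideanDomain.div_add_mod _ _).symm
    rw [← hg, ← Finset.add_sum_erase Finset.univ _ (Finset.mem_univ t₀), ← hh]
    have h4 : ∑ t ∈ Finset.univ.erase t₀, g t * f t =
        (∑ t ∈ Finset.univ.erase t₀, (g t / h) * f t) * h +
          ∑ t ∈ Finset.univ.erase t₀, (g t % h) * f t := by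
      rw [Finset.sum_mul, ← Finset.sum_add_distrib]
      refine Finset.sum_congr rfl fun t _ => ?_
      conv_lhs => rw [h3 t]
      ring
    rw [h4]
    ring
  have hmod : ∀ t, (g t % h).natDegree ≤ h.natDegree := fun t =>
    natDegree_le_natDegree (EuclideanDomain.mod_lt (g t) ht₀).le
  refine ⟨fun t => if t = t₀ then g0 else g t % h, fun t => ?_, ?_⟩
  · by_cases ht : t = t₀
    · simp only [ht, if_true]
      by_cases h0 : g0 = 0
      · rw [h0]; simp
      · have h5 : g0 * h = 1 - ∑ t ∈ Finset.univ.erase t₀, (g t % h) * f t := by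
          rw [← hsum]; ring
        have h6 : (g0 * h).natDegree ≤ h.natDegree + N := by
          rw [h5]
          refine (natDegree_sub_le _ _).trans (max_le (by simp) ?_)
          refine natDegree_sum_le_of_forall_le _ _ fun t _ => ?_
          exact (natDegree_mul_le).trans (Nat.add_le_add (hmod t) (hN t))
        rw [natDegree_mul h0 ht₀] at h6
        omega
    · simp only [ht, if_false]
      exact (hmod t).trans (hN t₀)
  · rw [← Finset.add_sum_erase Finset.univ _ (Finset.mem_univ t₀)]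
    simp only [if_true]
    rw [← hsum, ← hh]
    congr 1
    refine Finset.sum_congr rfl fun t ht => ?_
    rw [if_neg (Finset.ne_of_mem_erase ht)]

variable {I : Type} {J : I → Type} [Fintype I] [∀ i, Fintype (J i)]

/-- the tuple with given coefficients -/
noncomputable def tup {A : Type v} [CommRing A] (N : I → ℕ) (c : Cx J N → A) : ∀ i, J i → A[X] :=
  fun i j => ∑ n : Fin (N i + 1), C (c ⟨⟨i, j⟩, n⟩) * X ^ (n : ℕ)

theorem coeff_tup {A : Type v} [CommRing A] (N : I → ℕ) (c : Cx J N → A) (i : I) (j : J i)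
    (n : ℕ) : (tup N c i j).coeff n = if h : n < N i + 1 then c ⟨⟨i, j⟩, ⟨n, h⟩⟩ else 0 := by
  classical
  unfold tup
  rw [finsetSum_coeff]
  simp only [coeff_C_mul, coeff_X_pow]
  split_ifs with h
  · rw [Finset.sum_eq_single (⟨n, h⟩ : Fin (N i + 1))]
    · simp
    · intro b _ hb
      have : n ≠ (b : ℕ) := fun h' => hb (Fin.ext h'.symm)
      simp [this]
    · intro h'; exact absurd (Finset.mem_univ _) h'
  · refine Finset.sum_eq_zero fun b _ => ?_
    have : n ≠ (b : ℕ) := fun h' => h (by rw [h']; exact b.2)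
    simp [this]

theorem natDegree_tup {A : Type v} [CommRing A] (N : I → ℕ) (c : Cx J N → A) (i : I) (j : J i) :
    (tup N c i j).natDegree ≤ N i := by
  rw [natDegree_le_iff_coeff_eq_zero]
  intro n hn
  rw [coeff_tup, dif_neg (by omega)]

theorem cfv_tup {A : Type v} [CommRing A] (N : I → ℕ) (c : Cx J N → A) : cfv N (tup N c) = c := by
  funext y
  obtain ⟨⟨i, j⟩, n⟩ := y
  unfold cfv
  rw [coeff_tup, dif_pos n.2]

theorem tup_cfv {A : Type v} [CommRing A] (N : I → ℕ) {F : ∀ i, J i → A[X]}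
    (hF : ∀ i j, (F i j).natDegree ≤ N i) : tup N (cfv N F) = F := by
  funext i j
  ext n
  rw [coeff_tup]
  split_ifs with h
  · rfl
  · exact (coeff_eq_zero_of_natDegree_lt ((hF i j).trans_lt (by omega))).symm

theorem map_tup {A : Type v} {B : Type w} [CommRing A] [CommRing B] (e : A →+* B) (N : I → ℕ)
    (c : Cx J N → A) (i : I) (j : J i) : (tup N c i j).map e = tup N (fun y => e (c y)) i j := by
  ext n
  rw [coeff_map, coeff_tup, coeff_tup]
  split_ifs <;> simp

/-- the fibre variables of the family of conics with end data -/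
inductive BV (J : I → Type) (N : I → ℕ) : Type
  /-- coefficients of the tuple -/
  | f (y : Cx J N) : BV J N
  /-- coefficients of the cofactors -/
  | g (y : Cx J N) : BV J N
  /-- scalars at infinity -/
  | a (i : I) : BV J N
  /-- their inverses -/
  | a' (i : I) : BV J N
  /-- scalars at zero -/
  | b (i : I) : BV J N
  /-- their inverses -/
  | b' (i : I) : BV J N
  /-- contact constant -/
  | c : BV J N

/-- `BV` as a sum -/
def BV.toSum {N : I → ℕ} : BV J N → (Cx J N ⊕ Cx J N) ⊕ ((I ⊕ I) ⊕ (I ⊕ I)) ⊕ Unit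
  | .f y => Sum.inl (Sum.inl y)
  | .g y => Sum.inl (Sum.inr y)
  | .a i => Sum.inr (Sum.inl (Sum.inl (Sum.inl i)))
  | .a' i => Sum.inr (Sum.inl (Sum.inl (Sum.inr i)))
  | .b i => Sum.inr (Sum.inl (Sum.inr (Sum.inl i)))
  | .b' i => Sum.inr (Sum.inl (Sum.inr (Sum.inr i)))
  | .c => Sum.inr (Sum.inr ())

instance {N : I → ℕ} : Finite (BV J N) := by
  refine Finite.of_injective BV.toSum fun x y h => ?_
  cases x <;> cases y <;> simp_all [BV.toSum]

/-- a power with integral exponent, the inverse given separately -/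
def zp {A : Type v} [CommRing A] (w : ℤ) (a a' : A) : A := a ^ w.toNat * a' ^ (-w).toNat

theorem zp_eq {K : Type v} [Field K] (w : ℤ) {a a' : K} (h : a * a' = 1) : zp w a a' = a ^ w := by
  have ha : a ≠ 0 := left_ne_zero_of_mul_eq_one h
  have h2 : a' = a⁻¹ := eq_inv_of_mul_eq_one_right h
  unfold zp
  rw [h2, inv_pow, ← div_eq_mul_inv, ← zpow_natCast, ← zpow_natCast, ← zpow_sub₀ ha]
  congr 1
  omega

theorem map_zp {A : Type v} {B : Type w} [CommRing A] [CommRing B] (e : A →+* B) (n : ℤ)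
    (a a' : A) : e (zp n a a') = zp n (e a) (e a') := by
  unfold zp
  rw [map_mul, map_pow, map_pow]

end Crest.Agent.R260.Fin7_600
private theorem rz_a5e7a1c029 : type_of% @_root_.Crest.Agent.R260.Fin7_600.BV.toSum.eq_1 := @_root_.Crest.Agent.R260.Fin7_600.BV.toSum.eq_1 -- L138
end

-- ▼ part R260/Fin8_600
section

/-!
Row 260 (S0398), AG-FINAL: the polynomial `P` whose roots are the numbers `Φ` of the conics of the
family (PHI-POLY for the family of conics with end data).
-/

set_option autoImplicit false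
set_option linter.unusedSectionVars false

namespace Crest.Agent.R260.Fin8_600

open Polynomial Crest.Agent.R270.BM_360 Crest.Agent.R260.Lin_678 Crest.Agent.R260.Fam_919
open Crest.Agent.R260.Fin_600 Crest.Agent.R260.Fin5_600 Crest.Agent.R260.Fin6_600
open Crest.Agent.R260.Fin7_600 Crest.Agent.R260.QuadDefs_517

universe u v w

variable {I : Type} {J : I → Type} [Fintype I] [∀ i, Fintype (J i)] {k : Type u} [Field k]

/-- the first point of a pair -/
def fst {A : Type*} (x : PIdx J → A) : ∀ i, J i → A := fun i j => x (Sum.inl ⟨i, j⟩)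

/-- the second point of a pair -/
def snd {A : Type*} (x : PIdx J → A) : ∀ i, J i → A := fun i j => x (Sum.inr ⟨i, j⟩)


theorem den_map {A B : Type*} [CommRing A] [CommRing B] (e : A →+* B) (c : ∀ i, J i)
    (v : ∀ i, J i → A) : e (den c v) = den c (fun i a => e (v i a)) := by
  unfold den
  rw [map_prod]

theorem form_map {A B : Type*} [CommRing A] [Algebra k A] [CommRing B] [Algebra k B] (e : A →ₐ[k] B)
    (p : (Σ i, J i) → MvPolynomial (Σ i, J i) k) (v t : ∀ i, J i → A) :
    e (form p v t) = form p (fun i a => e (v i a)) (fun i a => e (t i a)) := by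
  unfold form
  rw [map_sum]
  refine Finset.sum_congr rfl fun x _ => ?_
  rw [map_mul, ← MvPolynomial.comp_aeval_apply]

variable (D : CData k I J)

/-- degrees of the conics -/
abbrev N2 : I → ℕ := fun i => 2 * D.β i

/-- total ring of the family -/
abbrev RR : Type u := MvPolynomial (PIdx J ⊕ BV J (N2 D)) k

variable {D}

/-- fibre variable -/
noncomputable def vb (v : BV J (N2 D)) : RR D := MvPolynomial.X (Sum.inr v)

/-- base variable -/
noncomputable def va (s : PIdx J) : RR D := MvPolynomial.X (Sum.inl s)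

variable (D)

/-- universal tuple -/
noncomputable def fU : ∀ i, J i → (RR D)[X] := tup (N2 D) (fun y => vb (.f y))

/-- universal cofactors -/
noncomputable def gU : ∀ i, J i → (RR D)[X] := tup (N2 D) (fun y => vb (.g y))

/-- equation of the contact constant -/
noncomputable def zval (ch : ∀ i, J i) : (RR D)[X] :=
  den ch (fU D) ^ D.th.N * C (vb .c) - form (D.th.p ch) (fU D) (fun i a => derivative (fU D i a))

/-- the equations in the universal tuple -/
inductive ZP : (RR D)[X] → Prop
  | val (ch : ∀ i, J i) : ZP (zval D ch)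
  | bez (i : I) : ZP (∑ j, gU D i j * fU D i j - 1)
  | ia (i : I) : ZP (C (vb (.a i) * vb (.a' i) - 1))
  | ib (i : I) : ZP (C (vb (.b i) * vb (.b' i) - 1))
  | top (i : I) (j : J i) : ZP (C ((fU D i j).coeff (N2 D i) - vb (.a i) * va (Sum.inl ⟨i, j⟩)))
  | bot (i : I) (j : J i) : ZP (C ((fU D i j).coeff 0 - vb (.b i) * va (Sum.inr ⟨i, j⟩)))

/-- the system of equations -/
def Sys (P : Ideal (MvPolynomial (Cx J (N2 D)) k)) : Set (RR D) :=
  {s | ∃ q, ZP D q ∧ ∃ n : ℕ, s = q.coeff n} ∪
    {s | ∃ p ∈ P, s = MvPolynomial.rename (fun y => Sum.inr (BV.f y)) p}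

/-- the number `Φ` as a polynomial -/
noncomputable def phiU : RR D :=
  vb .c ^ 2 * (∏ i, zp (-D.w i) (vb (.a i)) (vb (.a' i))) *
    ∏ i, zp (-D.w i) (vb (.b i)) (vb (.b' i))

/-- point of the system over a field -/
structure PtS (P : Ideal (MvPolynomial (Cx J (N2 D)) k)) {K : Type u} [Field K] [Algebra k K]
    (x : PIdx J → K) (y : BV J (N2 D) → K) : Prop where
  inC : InC (N2 D) P (tup (N2 D) fun z => y (.f z))
  bez : ∀ i, ∑ j, tup (N2 D) (fun z => y (.g z)) i j * tup (N2 D) (fun z => y (.f z)) i j = 1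
  ia : ∀ i, y (.a i) * y (.a' i) = 1
  ib : ∀ i, y (.b i) * y (.b' i) = 1
  top : ∀ i j, (tup (N2 D) (fun z => y (.f z)) i j).coeff (N2 D i) = y (.a i) * x (Sum.inl ⟨i, j⟩)
  bot : ∀ i j, (tup (N2 D) (fun z => y (.f z)) i j).coeff 0 = y (.b i) * x (Sum.inr ⟨i, j⟩)
  val : D.th.Val (tup (N2 D) fun z => y (.f z))
    (fun i a => derivative (tup (N2 D) (fun z => y (.f z)) i a)) (C (y .c))

theorem sys_iff (P : Ideal (MvPolynomial (Cx J (N2 D)) k)) {K : Type u} [Field K] [Algebra k K]
    (x : PIdx J → K) (y : BV J (N2 D) → K) :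
    (∀ s ∈ Sys D P, MvPolynomial.aeval (Sum.elim x y) s = 0) ↔ PtS D P x y := by
  let e : RR D →ₐ[k] K := MvPolynomial.aeval (Sum.elim x y)
  let E : (RR D)[X] →ₐ[k] K[X] := Polynomial.mapAlgHom e
  have hE : ∀ q, E q = q.map (e : RR D →+* K) := fun q => rfl
  have hevb : ∀ v, e (vb v) = y v := fun v => by
    change MvPolynomial.aeval _ (MvPolynomial.X _) = _
    rw [MvPolynomial.aeval_X]; rfl
  have heva : ∀ v, e (va v) = x v := fun v => by
    change MvPolynomial.aeval _ (MvPolynomial.X _) = _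
    rw [MvPolynomial.aeval_X]; rfl
  have hfU : ∀ i j, E (fU D i j) = tup (N2 D) (fun z => y (.f z)) i j := fun i j => by
    rw [hE]
    unfold fU
    rw [map_tup]
    congr 1
    funext z
    exact hevb _
  have hgU : ∀ i j, E (gU D i j) = tup (N2 D) (fun z => y (.g z)) i j := fun i j => by
    rw [hE]
    unfold gU
    rw [map_tup]
    congr 1
    funext z
    exact hevb _
  have hC : ∀ a, E (C a) = C (e a) := fun a => by rw [hE, map_C]; rfl
  have hval : ∀ ch, E (zval D ch) = den ch (tup (N2 D) fun z => y (.f z)) ^ D.th.N * C (y .c) -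
      form (D.th.p ch) (tup (N2 D) fun z => y (.f z))
        (fun i a => derivative (tup (N2 D) (fun z => y (.f z)) i a)) := by
    intro ch
    unfold zval
    rw [map_sub, map_mul, map_pow, hC, hevb, form_map]
    have h1 : E (den ch (fU D)) = den ch (tup (N2 D) fun z => y (.f z)) := by
      have := den_map (E : (RR D)[X] →+* K[X]) ch (fU D)
      refine this.trans ?_
      congr 1
      funext i a
      exact hfU i a
    rw [h1]
    congr 2
    · funext i a
      exact hfU i a
    · funext i a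
      rw [← hfU i a, hE, hE, derivative_map]
  have hsys : (∀ s ∈ Sys D P, e s = 0) ↔ (∀ q, ZP D q → E q = 0) ∧
      ∀ p ∈ P, MvPolynomial.aeval (fun z => y (.f z)) p = 0 := by
    constructor
    · intro h
      refine ⟨fun q hq => ?_, fun p hp => ?_⟩
      · ext n
        rw [hE, coeff_map, coeff_zero]
        exact h _ (Or.inl ⟨q, hq, n, rfl⟩)
      · have := h _ (Or.inr ⟨p, hp, rfl⟩)
        change MvPolynomial.aeval (Sum.elim x y) _ = 0 at this
        rwa [MvPolynomial.aeval_rename] at this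
    · rintro ⟨h1, h2⟩ s (⟨q, hq, n, rfl⟩ | ⟨p, hp, rfl⟩)
      · have := congrArg (fun r => r.coeff n) (h1 q hq)
        simp only [hE, coeff_map, coeff_zero] at this
        exact this
      · change MvPolynomial.aeval (Sum.elim x y) _ = 0
        rw [MvPolynomial.aeval_rename]
        exact h2 p hp
  change (∀ s ∈ Sys D P, e s = 0) ↔ _
  rw [hsys]
  have htopU : ∀ i j n, e ((fU D i j).coeff n) = (tup (N2 D) (fun z => y (.f z)) i j).coeff n := by
    intro i j n
    rw [← hfU i j, hE, coeff_map]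
    rfl
  constructor
  · rintro ⟨h1, h2⟩
    refine ⟨⟨fun i j => natDegree_tup _ _ _ _, fun p hp => ?_⟩, fun i => ?_, fun i => ?_, fun i => ?_,
      fun i j => ?_, fun i j => ?_, fun ch => ?_⟩
    · rw [cfv_tup]
      exact h2 p hp
    · have := h1 _ (ZP.bez i)
      rw [map_sub, map_sum, map_one, sub_eq_zero] at this
      rw [← this]
      refine Finset.sum_congr rfl fun j _ => ?_
      rw [map_mul, hfU, hgU]
    · have := h1 _ (ZP.ia i)
      rwa [hC, C_eq_zero, map_sub, map_mul, hevb, hevb, map_one, sub_eq_zero] at this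
    · have := h1 _ (ZP.ib i)
      rwa [hC, C_eq_zero, map_sub, map_mul, hevb, hevb, map_one, sub_eq_zero] at this
    · have := h1 _ (ZP.top i j)
      rwa [hC, C_eq_zero, map_sub, map_mul, hevb, heva, htopU, sub_eq_zero] at this
    · have := h1 _ (ZP.bot i j)
      rwa [hC, C_eq_zero, map_sub, map_mul, hevb, heva, htopU, sub_eq_zero] at this
    · have := h1 _ (ZP.val ch)
      rwa [hval, sub_eq_zero] at this
  · intro h
    refine ⟨fun q hq => ?_, fun p hp => ?_⟩
    · cases hq with
      | val ch => rw [hval, sub_eq_zero]; exact h.val ch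
      | bez i =>
        rw [map_sub, map_sum, map_one, sub_eq_zero, ← h.bez i]
        refine Finset.sum_congr rfl fun j _ => ?_
        rw [map_mul, hfU, hgU]
      | ia i => rw [hC, C_eq_zero, map_sub, map_mul, hevb, hevb, map_one, sub_eq_zero, h.ia]
      | ib i => rw [hC, C_eq_zero, map_sub, map_mul, hevb, hevb, map_one, sub_eq_zero, h.ib]
      | top i j => rw [hC, C_eq_zero, map_sub, map_mul, hevb, heva, htopU, sub_eq_zero, h.top]
      | bot i j => rw [hC, C_eq_zero, map_sub, map_mul, hevb, heva, htopU, sub_eq_zero, h.bot]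
    · have := h.inC.mem p hp
      rwa [cfv_tup] at this

theorem aeval_phiU {K : Type u} [Field K] [Algebra k K] (x : PIdx J → K) (y : BV J (N2 D) → K)
    (ha : ∀ i, y (.a i) * y (.a' i) = 1) (hb : ∀ i, y (.b i) * y (.b' i) = 1) :
    MvPolynomial.aeval (Sum.elim x y) (phiU D) =
      phi D (fun i => y (.a i)) (fun i => y (.b i)) (y .c) := by
  let e : RR D →ₐ[k] K := MvPolynomial.aeval (Sum.elim x y)
  have hevb : ∀ v, e (vb v) = y v := fun v => by
    change MvPolynomial.aeval _ (MvPolynomial.X _) = _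
    rw [MvPolynomial.aeval_X]; rfl
  change e (phiU D) = _
  unfold phiU phi
  rw [map_mul, map_mul, map_pow, map_prod, map_prod, hevb]
  congr 1
  · congr 1
    refine Finset.prod_congr rfl fun i _ => ?_
    have := map_zp (e : RR D →+* K) (-D.w i) (vb (.a i)) (vb (.a' i))
    refine this.trans ?_
    have h1 : (e : RR D →+* K) (vb (.a i)) = y (.a i) := hevb _
    have h2 : (e : RR D →+* K) (vb (.a' i)) = y (.a' i) := hevb _
    rw [h1, h2, zp_eq _ (ha i)]
  · refine Finset.prod_congr rfl fun i _ => ?_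
    have := map_zp (e : RR D →+* K) (-D.w i) (vb (.b i)) (vb (.b' i))
    refine this.trans ?_
    have h1 : (e : RR D →+* K) (vb (.b i)) = y (.b i) := hevb _
    have h2 : (e : RR D →+* K) (vb (.b' i)) = y (.b' i) := hevb _
    rw [h1, h2, zp_eq _ (hb i)]

/-- the class of conics of the family -/
def FC (P : Ideal (MvPolynomial (Cx J (N2 D)) k)) : Cls k J :=
  fun κ _ _ F => InC (N2 D) P F

theorem cls_of_top {K : Type u} [Field K] {F : ∀ i, J i → K[X]} {N : I → ℕ}
    (hd : ∀ i j, (F i j).natDegree ≤ N i) (ht : ∀ i, ∃ j, (F i j).coeff (N i) ≠ 0) : cls F = N := by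
  funext i
  refine le_antisymm (Finset.sup_le fun j _ => hd i j) ?_
  obtain ⟨j, hj⟩ := ht i
  exact (le_natDegree_of_ne_zero hj).trans (Finset.le_sup (f := fun a => (F i a).natDegree)
    (Finset.mem_univ j))

theorem N2_eq : N2 D = 2 • D.β := by
  funext i
  simp [N2]

/-- points of the system are conics of the family joining the two points. -/
theorem PtS.joins {P : Ideal (MvPolynomial (Cx J (N2 D)) k)}
    (hon : ∀ (K : Type u) [Field K] [Algebra k K] (F : ∀ i, J i → K[X]), InC (N2 D) P F → OnX D.E F)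
    {K : Type u} [Field K] [Algebra k K] {x : PIdx J → K} {y : BV J (N2 D) → K}
    (h : PtS D P x y) (hx : ∀ i, fst x i ≠ 0) :
    Con D (FC D P) (tup (N2 D) fun z => y (.f z)) ∧
      Joins D (tup (N2 D) fun z => y (.f z)) (fst x) (snd x) (fun i => y (.a i))
        (fun i => y (.b i)) (y .c) := by
  have ha : ∀ i, y (.a i) ≠ 0 := fun i => left_ne_zero_of_mul_eq_one (h.ia i)
  have hb : ∀ i, y (.b i) ≠ 0 := fun i => left_ne_zero_of_mul_eq_one (h.ib i)
  refine ⟨⟨⟨hon K _ h.inC, fun i => ?_⟩, ?_, h.inC⟩, ⟨ha, hb, h.top, h.bot, h.val⟩⟩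
  · rw [Cop, Ideal.eq_top_iff_one]
    rw [← h.bez i]
    exact Ideal.sum_mem _ fun j _ => Ideal.mul_mem_left _ _ (Ideal.subset_span ⟨j, rfl⟩)
  · rw [← N2_eq]
    refine cls_of_top (fun i j => natDegree_tup _ _ _ _) fun i => ?_
    by_contra hcon
    push Not at hcon
    refine hx i (funext fun j => ?_)
    have := hcon j
    rw [h.top i j] at this
    exact (mul_eq_zero.1 this).resolve_left (ha i)

/-- conics of the family joining two points are points of the system. -/
theorem exists_ptS {P : Ideal (MvPolynomial (Cx J (N2 D)) k)} {K : Type u} [Field K] [Algebra k K]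
    {x : PIdx J → K} {F : ∀ i, J i → K[X]} {a b : I → K} {c : K} (hF : Con D (FC D P) F)
    (hj : Joins D F (fst x) (snd x) a b c) :
    ∃ y : BV J (N2 D) → K, PtS D P x y ∧ (∀ i, y (.a i) = a i) ∧ (∀ i, y (.b i) = b i) ∧
      y .c = c := by
  have hd : ∀ i j, (F i j).natDegree ≤ N2 D i := hF.cc.deg
  have h1 := fun i => bezout_bound (F i) (N2 D i) (hd i) (hF.map.cop i)
  choose g hg1 hg2 using h1
  let y : BV J (N2 D) → K := fun v => match v with
    | .f z => cfv (N2 D) F z
    | .g z => cfv (N2 D) g z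
    | .a i => a i
    | .a' i => (a i)⁻¹
    | .b i => b i
    | .b' i => (b i)⁻¹
    | .c => c
  have hyf : tup (N2 D) (fun z => y (.f z)) = F := tup_cfv _ hd
  have hyg : tup (N2 D) (fun z => y (.g z)) = g := tup_cfv _ hg1
  refine ⟨y, ⟨?_, fun i => ?_, fun i => mul_inv_cancel₀ (hj.a0 i), fun i => mul_inv_cancel₀ (hj.b0 i),
    fun i j => ?_, fun i j => ?_, ?_⟩, fun i => rfl, fun i => rfl, rfl⟩
  · rw [hyf]; exact hF.cc
  · rw [hyf, hyg]; exact hg2 i
  · rw [hyf]; exact hj.lead i j
  · rw [hyf]; exact hj.bot i j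
  · rw [hyf]; exact hj.val

/-- the components of a generic pair are points of the cone with non-zero blocks. -/
theorem gnr_onZ [IsAlgClosed k] [CharZero k] {K : Type u} [Field K] [Algebra k K] {x : PIdx J → K}
    (hx : Gnr (qp D.E) x) (hne : ∃ v : ∀ i, J i → k, OnZ' D.E v) :
    OnZ' D.E (fst x) ∧ OnZ' D.E (snd x) := by
  obtain ⟨v, hv⟩ := hne
  refine ⟨⟨fun e he => ?_, fun i h0 => ?_⟩, ⟨fun e he => ?_, fun i h0 => ?_⟩⟩
  · have h1 : MvPolynomial.rename Sum.inl e ∈ qp D.E := fun v w hv _ => by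
      rw [MvPolynomial.aeval_rename]
      exact hv.1 e he
    have := (hx _).2 h1
    rwa [MvPolynomial.aeval_rename] at this
  · have h1 : ∀ j, v i j = 0 := fun j => by
      have h2 : (MvPolynomial.X (Sum.inl ⟨i, j⟩) : MvPolynomial (PIdx J) k) ∈ qp D.E :=
        (hx _).1 (by rw [MvPolynomial.aeval_X]; exact congrFun h0 j)
      have := h2 v v hv hv
      rwa [MvPolynomial.aeval_X] at this
    exact hv.2 i (funext h1)
  · have h1 : MvPolynomial.rename Sum.inr e ∈ qp D.E := fun v w _ hw => by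
      rw [MvPolynomial.aeval_rename]
      exact hw.1 e he
    have := (hx _).2 h1
    rwa [MvPolynomial.aeval_rename] at this
  · have h1 : ∀ j, v i j = 0 := fun j => by
      have h2 : (MvPolynomial.X (Sum.inr ⟨i, j⟩) : MvPolynomial (PIdx J) k) ∈ qp D.E :=
        (hx _).1 (by rw [MvPolynomial.aeval_X]; exact congrFun h0 j)
      have := h2 v v hv hv
      rwa [MvPolynomial.aeval_X] at this
    exact hv.2 i (funext h1)

/-- algebraicity of `Φ` (helper661), for a pair. -/
theorem phi_alg [CharZero k] {P : Ideal (MvPolynomial (Cx J (N2 D)) k)} {K : Type u} [Field K]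
    [Algebra k K] {x : PIdx J → K} {F : ∀ i, J i → K[X]} {a b : I → K} {c : K}
    (hF : Con D (FC D P) F) (hj : Joins D F (fst x) (snd x) a b c) :
    IsAlgebraic (IntermediateField.adjoin k (Set.range x)) (phi D a b c) := by
  have he : ∑ i, D.w i * (cls F i : ℤ) = (2 : ℕ) := Alg0_661.sum_w_cls D.wβ hF.cls
  have h1 := Alg0_661.phi_algebraic D.th hF.map he hj.val hj.b0 hj.a0
    (x := snd x) (y := fst x) (fun i j => hj.bot i j) (fun i j => by
      change (F i j).coeff (cls F i) = _
      rw [hF.cls]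
      exact hj.lead i j)
  have h2 : Alg0_661.ents (snd x) (fst x) ⊆ Set.range x := by
    rintro s (⟨i, j, rfl⟩ | ⟨i, j, rfl⟩)
    · exact ⟨Sum.inr ⟨i, j⟩, rfl⟩
    · exact ⟨Sum.inl ⟨i, j⟩, rfl⟩
  have h3 : phi D a b c = Alg0_661.phi D.w b a c := by
    unfold phi Alg0_661.phi
    rw [mul_assoc, ← Finset.prod_mul_distrib]
    congr 1
    refine Finset.prod_congr rfl fun i _ => ?_
    rw [mul_comm (b i), mul_zpow]
  rw [h3]
  have hle : IntermediateField.adjoin k (Alg0_661.ents (snd x) (fst x)) ≤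
      IntermediateField.adjoin k (Set.range x) := IntermediateField.adjoin.mono _ _ _ h2
  obtain ⟨p, hp0, hp⟩ := h1
  refine ⟨p.map (IntermediateField.inclusion hle).toRingHom, ?_, ?_⟩
  · rwa [Ne, Polynomial.map_eq_zero]
  · have hcomp : (algebraMap (IntermediateField.adjoin k (Set.range x)) K).comp
        (IntermediateField.inclusion hle).toRingHom =
        algebraMap (IntermediateField.adjoin k (Alg0_661.ents (snd x) (fst x))) K := rfl
    rw [aeval_def, eval₂_map, hcomp, ← aeval_def]
    exact hp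

/-- **PHI-POLY for the family**. -/
theorem phi_fam [IsAlgClosed k] [CharZero k] (P : Ideal (MvPolynomial (Cx J (N2 D)) k))
    (hon : ∀ (K : Type u) [Field K] [Algebra k K] (F : ∀ i, J i → K[X]), InC (N2 D) P F → OnX D.E F)
    (hne : ∃ v : ∀ i, J i → k, OnZ' D.E v) (hq : (qp D.E).IsPrime) :
    ∃ (Q : Polynomial (MvPolynomial (PIdx J) k)) (Dn : MvPolynomial (PIdx J) k), Dn ∉ qp D.E ∧
      (∀ (K : Type u) [Field K] [Algebra k K] (x : PIdx J → K) (F : ∀ i, J i → K[X]) (a b : I → K)
        (c : K), (∀ p ∈ qp D.E, MvPolynomial.aeval x p = 0) → Con D (FC D P) F →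
        Joins D F (fst x) (snd x) a b c → MvPolynomial.aeval x Dn ≠ 0 →
        (Pv Q x).IsRoot (phi D a b c)) ∧
      (∀ (K : Type u) [Field K] [Algebra k K] (x : PIdx J → K),
        (∀ p ∈ qp D.E, MvPolynomial.aeval x p = 0) → MvPolynomial.aeval x Dn ≠ 0 →
        ∀ t : K, (Pv Q x).IsRoot t → ¬ (derivative (Pv Q x)).IsRoot t) ∧
      (∀ (K : Type u) [Field K] [Algebra k K] [IsAlgClosed K] (x : PIdx J → K), Gnr (qp D.E) x →
        ∀ t : K, (Pv Q x).IsRoot t → ∃ (F : ∀ i, J i → K[X]) (a b : I → K) (c : K),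
          Con D (FC D P) F ∧ Joins D F (fst x) (snd x) a b c ∧ phi D a b c = t) := by
  obtain ⟨Q, Dn, hDn, hroot, hsimple, hlift⟩ := Fin1_600.phi_poly (qp D.E) (Sys D P) (phiU D) (by
    intro K _ _ _ x y hx hy
    rw [sys_iff] at hy
    rw [aeval_phiU D x y hy.ia hy.ib]
    obtain ⟨h1, h2⟩ := hy.joins D hon (gnr_onZ D (fun p => hx p) hne).1.2
    exact phi_alg D h1 h2)
  refine ⟨Q, Dn, hDn, ?_, hsimple, ?_⟩
  · intro K _ _ x F a b c hx hF hj hD
    obtain ⟨y, hy, hya, hyb, hyc⟩ := exists_ptS D hF hj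
    have h1 := hroot K x y hx ((sys_iff D P x y).2 hy) hD
    rw [aeval_phiU D x y hy.ia hy.ib] at h1
    have h2 : phi D (fun i => y (.a i)) (fun i => y (.b i)) (y .c) = phi D a b c := by
      rw [hyc, funext hya, funext hyb]
    rw [h2] at h1
    exact h1
  · intro K _ _ _ x hx t ht
    obtain ⟨y, hy, hyt⟩ := hlift K x (fun p => hx p) t ht
    rw [sys_iff] at hy
    obtain ⟨h1, h2⟩ := hy.joins D hon (gnr_onZ D hx hne).1.2
    rw [aeval_phiU D x y hy.ia hy.ib] at hyt
    exact ⟨_, _, _, _, h1, h2, hyt⟩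

end Crest.Agent.R260.Fin8_600
end

-- ▼ part R260/Fin9_600
section

/-!
Row 260 (S0398), AG-FINAL: the bihomogeneous polynomial of the numbers `Φ`.
-/

set_option autoImplicit false
set_option linter.unusedSectionVars false

namespace Crest.Agent.R260.Fin9_600

open Polynomial Crest.Agent.R270.BM_360 Crest.Agent.R260.Lin_678 Crest.Agent.R260.Fam_919
open Crest.Agent.R260.Fin_600 Crest.Agent.R260.Fin5_600 Crest.Agent.R260.Fin6_600
open Crest.Agent.R260.Fin7_600 Crest.Agent.R260.Fin8_600 Crest.Agent.R260.QuadDefs_517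

universe u v w

variable {I : Type} {J : I → Type} [Fintype I] [∀ i, Fintype (J i)] {k : Type u} [Field k]
  (D : CData k I J)

/-- weights of `Φ` -/
abbrev WW : I ⊕ I → ℤ := Sum.elim D.w D.w

variable {D} in
theorem joins_sc {K : Type u} [Field K] [Algebra k K] {F : ∀ i, J i → K[X]} {x : PIdx J → K}
    {a b : I → K} {c : K} (h : Joins D F (fst x) (snd x) a b c) (l : I ⊕ I → K)
    (hl : ∀ i, l i ≠ 0) :
    Joins D F (fst (sc pb l x)) (snd (sc pb l x)) (fun i => a i / l (Sum.inl i))
      (fun i => b i / l (Sum.inr i)) c := by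
  refine ⟨fun i => div_ne_zero (h.a0 i) (hl _), fun i => div_ne_zero (h.b0 i) (hl _), fun i j => ?_,
    fun i j => ?_, h.val⟩
  · rw [h.lead i j]
    change _ = a i / l (Sum.inl i) * (l (Sum.inl i) * x (Sum.inl ⟨i, j⟩))
    rw [← mul_assoc, div_mul_cancel₀ _ (hl _)]
    rfl
  · rw [h.bot i j]
    change _ = b i / l (Sum.inr i) * (l (Sum.inr i) * x (Sum.inr ⟨i, j⟩))
    rw [← mul_assoc, div_mul_cancel₀ _ (hl _)]
    rfl

theorem phi_sc {K : Type u} [Field K] (a b : I → K) (c : K) (l : I ⊕ I → K)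
    (hl : ∀ i, l i ≠ 0) :
    phi D (fun i => a i / l (Sum.inl i)) (fun i => b i / l (Sum.inr i)) c =
      (∏ i, l i ^ WW D i) * phi D a b c := by
  have key : ∀ (a l : I → K), (∀ i, l i ≠ 0) → ∏ i, (a i / l i) ^ (-D.w i) =
      (∏ i, l i ^ D.w i) * ∏ i, a i ^ (-D.w i) := by
    intro a l hl
    rw [← Finset.prod_mul_distrib]
    refine Finset.prod_congr rfl fun i _ => ?_
    rw [div_zpow, zpow_neg (l i), div_inv_eq_mul, mul_comm]
  unfold phi
  rw [key a _ fun i => hl _, key b _ fun i => hl _, Fintype.prod_sum_type]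
  simp only [WW, Sum.elim_inl, Sum.elim_inr]
  ring

theorem van_sc [IsAlgClosed k] [CharZero k] {x : PIdx J → k}
    (hx : ∀ p ∈ qp D.E, MvPolynomial.aeval x p = 0) (l : I ⊕ I → k) (hl : ∀ i, l i ≠ 0) :
    ∀ p ∈ qp D.E, MvPolynomial.aeval (sc pb l x) p = 0 := by
  intro p hp
  have h1 := hx _ (qp_inv D l hl p hp)
  have h2 : ((MvPolynomial.aeval x : MvPolynomial (PIdx J) k →ₐ[k] k).comp
      (MvPolynomial.aeval (fun s : PIdx J =>
        (MvPolynomial.C (l (pb s)) * MvPolynomial.X s : MvPolynomial (PIdx J) k)))) =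
      (MvPolynomial.aeval (sc pb l x) : MvPolynomial (PIdx J) k →ₐ[k] k) := by
    refine MvPolynomial.algHom_ext fun x => ?_
    rw [AlgHom.comp_apply, MvPolynomial.aeval_X, map_mul, MvPolynomial.aeval_X,
      MvPolynomial.aeval_X]
    simp [sc]
  rw [← h2]
  exact h1

/-- what the assembly uses of the polynomial of the numbers `Φ`. -/
structure Hom2 (P : Ideal (MvPolynomial (Cx J (N2 D)) k)) (Q : Polynomial (MvPolynomial (PIdx J) k))
    (D' : MvPolynomial (PIdx J) k) : Prop where
  ne : D' ∉ qp D.E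
  bih : ∃ e, MvPolynomial.IsWeightedHomogeneous (bw (pb (J := J))) D' e
  hom : ∀ (K : Type u) [Field K] [Algebra k K] (x : PIdx J → K) (l : I ⊕ I → K),
    (∀ i, l i ≠ 0) → ∀ t, (Pv Q x).IsRoot t → (Pv Q (sc pb l x)).IsRoot ((∏ i, l i ^ WW D i) * t)
  root : ∀ (x : PIdx J → k) (F : ∀ i, J i → k[X]) (a b : I → k) (c : k),
    (∀ p ∈ qp D.E, MvPolynomial.aeval x p = 0) → MvPolynomial.aeval x D' ≠ 0 →
    Con D (FC D P) F → Joins D F (fst x) (snd x) a b c → (Pv Q x).IsRoot (phi D a b c)
  simple : ∀ (x : PIdx J → k), (∀ p ∈ qp D.E, MvPolynomial.aeval x p = 0) →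
    MvPolynomial.aeval x D' ≠ 0 → ∀ t, (Pv Q x).IsRoot t → ¬ (derivative (Pv Q x)).IsRoot t
  lift : ∀ (K : Type u) [Field K] [Algebra k K] [IsAlgClosed K] (x : PIdx J → K),
    Gnr (qp D.E) x → ∀ t : K, (Pv Q x).IsRoot t →
      ∃ (F : ∀ i, J i → K[X]) (a b : I → K) (c : K),
        Con D (FC D P) F ∧ Joins D F (fst x) (snd x) a b c ∧ phi D a b c = t
  gne : ∀ (K : Type u) [Field K] [Algebra k K] (x : PIdx J → K), Gnr (qp D.E) x → Pv Q x ≠ 0

theorem exists_hom2 [IsAlgClosed k] [CharZero k] (P : Ideal (MvPolynomial (Cx J (N2 D)) k))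
    (hon : ∀ (K : Type u) [Field K] [Algebra k K] (F : ∀ i, J i → K[X]), InC (N2 D) P F → OnX D.E F)
    (hne : ∃ v : ∀ i, J i → k, OnZ' D.E v) (hq : (qp D.E).IsPrime) :
    ∃ Q D', Hom2 D P Q D' := by
  obtain ⟨Q, Dn, hDn, hroot, hsimple, hlift⟩ := phi_fam D P hon hne hq
  obtain ⟨Q', D', e, h1, h2, h3, h4, h5⟩ := Hmg3_516.homog k (PIdx J) (I ⊕ I) pb (WW D) (qp D.E)
    (fun l hl p hp => qp_inv D l hl p hp) Q Dn hDn
    (fun K _ _ _ x hx t ht => hsimple K x (fun p hp => (hx p).2 hp) (fun h0 => hDn ((hx _).1 h0)) t ht)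
    (fun K _ _ _ x hx l hl t ht => by
      obtain ⟨F, a, b, c, hF, hj, rfl⟩ := hlift K x hx t ht
      have hl' : ∀ i, algebraMap k K (l i) ≠ 0 := fun i => by
        rw [Ne, map_eq_zero]; exact hl i
      have hx' := gnr_sc D hx l hl
      have h := hroot K _ F _ _ _ (fun p hp => (hx' p).2 hp) hF (joins_sc hj _ hl')
        (fun h0 => hDn ((hx' _).1 h0))
      rwa [phi_sc D a b c _ hl'] at h)
  refine ⟨Q', D', h1, ⟨e, h2⟩, h3, ?_, ?_, ?_, ?_⟩
  · intro x F a b c hx hD hF hj
    obtain ⟨l, hl, hDl, c', hc', hQ⟩ := h5 x hx hD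
    have h := hroot k _ F _ _ _ (van_sc D hx l hl) hF (joins_sc hj l hl) hDl
    rw [phi_sc D a b c l hl] at h
    rw [hQ, IsRoot, eval_mul, eval_comp, eval_mul, eval_C, eval_C, eval_X]
    rw [IsRoot] at h
    rw [h, mul_zero]
  · intro x hx hD t ht ht'
    obtain ⟨l, hl, hDl, c', hc', hQ⟩ := h5 x hx hD
    have hlam : (∏ i, l i ^ WW D i) ≠ 0 :=
      Finset.prod_ne_zero_iff.2 fun i _ => zpow_ne_zero _ (hl i)
    rw [hQ, IsRoot, eval_mul, eval_comp, eval_mul, eval_C, eval_C, eval_X] at ht
    rw [hQ, IsRoot, derivative_mul, derivative_C, zero_mul, zero_add, derivative_comp, eval_mul,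
      eval_mul, derivative_mul, derivative_C, zero_mul, zero_add, derivative_X, mul_one, eval_C,
      eval_C, eval_comp, eval_mul, eval_C, eval_X] at ht'
    refine hsimple k _ (van_sc D hx l hl) hDl _ ((mul_eq_zero.1 ht).resolve_left hc') ?_
    rcases mul_eq_zero.1 ht' with h | h
    · exact absurd h hc'
    · rcases mul_eq_zero.1 h with h | h
      · exact absurd h hlam
      · exact h
  · intro K _ _ _ x hx t ht
    obtain ⟨c, hc, hQ⟩ := h4 K x hx
    refine hlift K x hx t ?_
    rw [hQ, IsRoot, eval_mul, eval_C] at ht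
    exact (mul_eq_zero.1 ht).resolve_left hc
  · intro K _ _ x hx h0
    obtain ⟨c, hc, hQ⟩ := h4 K x hx
    have h6 : Pv Q x = 0 := by
      rw [hQ] at h0
      exact (mul_eq_zero.1 h0).resolve_left (C_ne_zero.2 hc)
    have h7 := hsimple K x (fun p hp => (hx p).2 hp) (fun h0 => hDn ((hx _).1 h0)) 0
      (by rw [h6]; exact eval_zero)
    apply h7
    rw [h6, derivative_zero]
    exact eval_zero

end Crest.Agent.R260.Fin9_600
end

-- ▼ part R260/Fin10_600
section

/-!
Row 260 (S0398), AG-FINAL: Möbius substitutions of conics of the family (maps, class, contact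
constant).
-/

set_option autoImplicit false
set_option linter.unusedSectionVars false

namespace Crest.Agent.R260.Fin10_600

open Polynomial Crest.Agent.R270.BM_360 Crest.Agent.R260.Lin_678 Crest.Agent.R260.Fam_919
open Crest.Agent.R260.Fin_600 Crest.Agent.R260.Fin5_600 Crest.Agent.R260.Fin6_600
open Crest.Agent.R260.Fin7_600 Crest.Agent.R260.Fin8_600 Crest.Agent.R260.QuadDefs_517
open Crest.Agent.R260.Mob_919

universe u v w

/-- coprimality over an algebraically closed field. -/
theorem cop_of_eval {K : Type u} [Field K] [IsAlgClosed K] {T : Type} {g : T → K[X]}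
    (h : ∀ z : K, ∃ t, (g t).eval z ≠ 0) : Cop g := by
  by_contra hcon
  obtain ⟨M, hM, hle⟩ := Ideal.exists_le_maximal _ hcon
  obtain ⟨p, hp⟩ := (IsPrincipalIdealRing.principal M).principal
  have hp' : M = Ideal.span {p} := hp
  have hnu : ¬ IsUnit p := fun hu => hM.ne_top (by rw [hp', Ideal.span_singleton_eq_top]; exact hu)
  have hdvd : ∀ t, p ∣ g t := fun t => by
    rw [← Ideal.mem_span_singleton, ← hp']
    exact hle (Ideal.subset_span ⟨t, rfl⟩)
  have hroot : ∃ z, p.IsRoot z := by
    by_cases h0 : p = 0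
    · exact ⟨0, by rw [h0]; exact eval_zero⟩
    · refine IsAlgClosed.exists_root p fun hd => hnu ?_
      rw [isUnit_iff_degree_eq_zero]
      exact hd
  obtain ⟨z, hz⟩ := hroot
  obtain ⟨t, ht⟩ := h z
  obtain ⟨q, hq⟩ := hdvd t
  apply ht
  rw [hq, eval_mul, hz.eq_zero, zero_mul]

/-- coprime vectors have no common root -/
theorem cop_ne {K : Type u} [Field K] {T : Type} {f : T → K[X]} (h : Cop f) (z : K) :
    ∃ t, (f t).eval z ≠ 0 := by
  by_contra hcon
  push Not at hcon
  have h1 : Ideal.span (Set.range f) ≤ RingHom.ker (Polynomial.evalRingHom z) := by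
    rw [Ideal.span_le]
    rintro _ ⟨a, rfl⟩
    exact hcon a
  have h2 : (1 : K[X]) ∈ RingHom.ker (Polynomial.evalRingHom z) := by
    apply h1
    have : Ideal.span (Set.range f) = ⊤ := h
    rw [this]
    exact Submodule.mem_top
  simp [RingHom.mem_ker] at h2

/-- value of a substituted vector -/
theorem hev_ne {K : Type u} [Field K] {T : Type} {f : T → K[X]} {N : ℕ}
    (hN : ∀ t, (f t).natDegree ≤ N) (hf : Cop f) (htop : ∃ t, (f t).coeff N ≠ 0) {s t : K}
    (hst : s ≠ 0 ∨ t ≠ 0) : ∃ j, hev N s t (f j) ≠ 0 := by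
  by_cases ht : t = 0
  · subst ht
    obtain ⟨j, hj⟩ := htop
    refine ⟨j, ?_⟩
    rw [hev_t_zero]
    have hs : s ≠ 0 := hst.resolve_right (fun h => h rfl)
    exact mul_ne_zero hj (pow_ne_zero _ hs)
  · obtain ⟨j, hj⟩ := cop_ne hf (s / t)
    refine ⟨j, ?_⟩
    rw [hev_div _ ht (hN j)]
    exact mul_ne_zero (pow_ne_zero _ ht) hj

theorem lin_ne {K : Type u} [Field K] {a b c d : K} (h : a * d - b * c ≠ 0) (z : K) :
    a * z + b ≠ 0 ∨ c * z + d ≠ 0 := by
  by_contra hcon
  push Not at hcon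
  apply h
  have e : a * d - b * c = a * (c * z + d) - c * (a * z + b) := by ring
  rw [e, hcon.1, hcon.2, mul_zero, mul_zero, sub_zero]

theorem cop_mob {K : Type u} [Field K] [IsAlgClosed K] {T : Type} {f : T → K[X]} {N : ℕ}
    (hN : ∀ t, (f t).natDegree ≤ N) (hf : Cop f) (htop : ∃ t, (f t).coeff N ≠ 0) {a b c d : K}
    (h : a * d - b * c ≠ 0) : Cop (fun t => mob N a b c d (f t)) := by
  refine cop_of_eval fun z => ?_
  obtain ⟨j, hj⟩ := hev_ne hN hf htop (lin_ne h z)
  exact ⟨j, by rw [eval_mob]; exact hj⟩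

variable {I : Type} {J : I → Type} [Fintype I] [∀ i, Fintype (J i)] {k : Type u} [Field k]

theorem mobT_one {R : Type v} [CommRing R] (N : I → ℕ) (a b c d : R) (F : ∀ i, J i → R[X]) :
    mobT N (fun _ => 1) a b c d F = fun i x => mob (N i) a b c d (F i x) := by
  funext i x
  unfold mobT
  rw [C_1, one_mul]

/-- the contact form kills Euler vectors -/
theorem form_euler {E : Set (MvPolynomial (Σ i, J i) k)} {w : I → ℤ} (th : CForm E w)
    {K : Type u} [Field K] [Algebra k K] {v : ∀ i, J i → K} (hv : OnX E v) (ch : ∀ i, J i)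
    (μ : I → K) : form (th.p ch) v (fun i a => μ i * v i a) = 0 := by
  unfold form
  rw [Fintype.sum_sigma]
  refine Finset.sum_eq_zero fun i _ => ?_
  have h := th.euler K v hv ch i
  calc _ = μ i * ∑ a, MvPolynomial.aeval (fun y : Σ i, J i => v y.1 y.2) (th.p ch ⟨i, a⟩) *
        v i a := by
        rw [Finset.mul_sum]
        exact Finset.sum_congr rfl fun a _ => by ring
    _ = 0 := by rw [h, mul_zero]

theorem form_add {A : Type*} [CommRing A] [Algebra k A]
    (p : (Σ i, J i) → MvPolynomial (Σ i, J i) k) (v t s : ∀ i, J i → A) :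
    form p v (fun i a => t i a + s i a) = form p v t + form p v s := by
  unfold form
  rw [← Finset.sum_add_distrib]
  exact Finset.sum_congr rfl fun x _ => by ring

theorem form_smul {A : Type*} [CommRing A] [Algebra k A]
    (p : (Σ i, J i) → MvPolynomial (Σ i, J i) k) (v t : ∀ i, J i → A) (r : A) :
    form p v (fun i a => r * t i a) = r * form p v t := by
  unfold form
  rw [Finset.mul_sum]
  exact Finset.sum_congr rfl fun x _ => by ring

/-- evaluation of the value of the contact form at a point -/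
theorem val_eval {E : Set (MvPolynomial (Σ i, J i) k)} {w : I → ℤ} (th : CForm E w)
    {K : Type u} [Field K] [Algebra k K] {F t : ∀ i, J i → K[X]} {q : K[X]} (h : th.Val F t q)
    (z : K) : th.Val (fun i a => (F i a).eval z) (fun i a => (t i a).eval z) (q.eval z) := by
  intro ch
  let e : K[X] →ₐ[k] K := (Polynomial.aeval z : K[X] →ₐ[K] K).restrictScalars k
  have he : ∀ p : K[X], e p = p.eval z := fun p => Polynomial.coe_aeval_eq_eval z ▸ rfl
  have h1 := congrArg e (h ch)
  rw [map_mul, map_pow, form_map] at h1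
  have h2 : e (den ch F) = den ch (fun i a => (F i a).eval z) := by
    have := Fin8_600.den_map (e : K[X] →+* K) ch F
    exact this
  rw [h2] at h1
  simp only [he] at h1
  exact h1

theorem onX_eval {E : Set (MvPolynomial (Σ i, J i) k)} {K : Type u} [Field K] [Algebra k K]
    {F : ∀ i, J i → K[X]} (h : OnX E F) (z : K) : OnX E (fun i a => (F i a).eval z) := by
  intro p hp
  let e : K[X] →ₐ[k] K := (Polynomial.aeval z : K[X] →ₐ[K] K).restrictScalars k
  have h1 := congrArg e (h p hp)
  rw [map_zero, MvPolynomial.comp_aeval_apply] at h1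
  exact h1

/-- **the contact constant under a Möbius substitution**. -/
theorem val_mob {E : Set (MvPolynomial (Σ i, J i) k)} (hE : MHom E) {w : I → ℤ}
    (th : CForm E w)
    {K : Type u} [Field K] [Infinite K] [Algebra k K] {F : ∀ i, J i → K[X]} {N : I → ℕ}
    (hN : ∀ i j, (F i j).natDegree ≤ N i) (hw : ∑ i, w i * (N i : ℤ) = 2) (hX : OnX E F) {q : K}
    (hq : th.Val F (dd F) (C q)) {a b c d : K} (h : a * d - b * c ≠ 0) :
    th.Val (fun i x => mob (N i) a b c d (F i x)) (dd fun i x => mob (N i) a b c d (F i x))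
      (C ((a * d - b * c) * q)) := by
  intro ch
  set G : ∀ i, J i → K[X] := fun i x => mob (N i) a b c d (F i x) with hG
  -- it is enough to check off the zero of `c z + d`
  have hcd : (C c * X + C d : K[X]) ≠ 0 := by
    intro h0
    have h1 : c = 0 := by
      have := congrArg (fun p => coeff p 1) h0
      simpa using this
    have h2 : d = 0 := by
      have := congrArg (fun p => coeff p 0) h0
      simpa using this
    apply h
    rw [h1, h2, mul_zero, mul_zero, sub_zero]
  refine mul_right_cancel₀ hcd (Polynomial.funext fun z => ?_)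
  have e1 : ∀ P : K[X], (P * (C c * X + C d)).eval z = P.eval z * (c * z + d) := fun P => by
    simp
  rw [e1, e1]
  by_cases hz : c * z + d = 0
  · rw [hz, mul_zero, mul_zero]
  congr 1
  -- evaluate
  let e : K[X] →ₐ[k] K := (Polynomial.aeval z : K[X] →ₐ[K] K).restrictScalars k
  have he : ∀ p : K[X], e p = p.eval z := fun p => Polynomial.coe_aeval_eq_eval z ▸ rfl
  have hLHS : (den ch G ^ th.N * C ((a * d - b * c) * q)).eval z =
      den ch (fun i x => (G i x).eval z) ^ th.N * ((a * d - b * c) * q) := by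
    rw [eval_mul, eval_pow, eval_C]
    congr 2
    exact Fin8_600.den_map (e : K[X] →+* K) ch G
  have hRHS : (form (th.p ch) G (dd G)).eval z =
      form (th.p ch) (fun i x => (G i x).eval z) (fun i x => (dd G i x).eval z) := by
    rw [← he, form_map]
    simp only [he]
  rw [hLHS, hRHS]
  -- the values of `G` and `G'`
  set y : K := (a * z + b) / (c * z + d) with hy
  set lam : I → K := fun i => (c * z + d) ^ N i with hlam
  have hlam0 : ∀ i, lam i ≠ 0 := fun i => pow_ne_zero _ hz
  set r : K := (a * d - b * c) / (c * z + d) ^ 2 with hr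
  set v : ∀ i, J i → K := fun i x => (F i x).eval y with hv
  set t : ∀ i, J i → K := fun i x => (dd F i x).eval y with ht
  have hGv : (fun i x => (G i x).eval z) = fun i x => lam i * v i x := by
    funext i x
    exact eval_mob_div a b c d hz (hN i x)
  have hGt : (fun i x => (dd G i x).eval z) = fun i x => r * (lam i * t i x) +
      (N i * c / (c * z + d)) * (lam i * v i x) := by
    funext i x
    have h1 := eval_derivative_mob a b c d hz (hN i x)
    have h2 : (G i x).eval z = lam i * v i x := congrFun (congrFun hGv i) x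
    change (derivative (mob (N i) a b c d (F i x))).eval z = _
    rw [h2, ← hy] at h1
    have h3 : (derivative (mob (N i) a b c d (F i x))).eval z =
        ((N i * c * (lam i * v i x)) + (c * z + d) ^ N i * ((a * d - b * c) / (c * z + d))
          * t i x) / (c * z + d) := by
      rw [eq_div_iff hz, h1]
      rfl
    rw [h3, hr]
    change _ = _ * ((c * z + d) ^ N i * t i x) + _
    generalize lam i * v i x = V
    generalize t i x = T
    generalize (c * z + d) ^ N i = L
    field_simp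
    ring
  have hXG : OnX E (fun i x => (G i x).eval z) := by
    have h1 := onX_mobT hE N hN hX (fun _ => 1) a b c d
    rw [mobT_one] at h1
    exact onX_eval h1 z
  rw [hGt, form_add, form_smul]
  have hX' : OnX E (fun i x => lam i * v i x) := by rw [← hGv]; exact hXG
  rw [hGv, form_euler th hX' ch, add_zero]
  -- scaling of the value
  have h4 := val_eval th hq y
  have h5 := Scl_678.val_scale th (A := K) hlam0 h4
  have h6 := h5 ch
  simp only [Algebra.algebraMap_self, RingHom.id_apply, eval_C] at h6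
  have h7 : ∏ i, lam i ^ w i = (c * z + d) ^ 2 := by
    have h8 : ∀ i, lam i ^ w i = (c * z + d) ^ (w i * (N i : ℤ)) := fun i => by
      change ((c * z + d) ^ N i) ^ w i = _
      rw [mul_comm (w i), zpow_mul, zpow_natCast]
    rw [Finset.prod_congr rfl fun i _ => h8 i]
    have h9 : ∀ (S : Finset I) (f : I → ℤ), ∏ i ∈ S, (c * z + d) ^ f i =
        (c * z + d) ^ ∑ i ∈ S, f i := by
      classical
      intro S f
      induction S using Finset.induction_on with
      | empty => simp
      | insert i S hi ih => rw [Finset.prod_insert hi, Finset.sum_insert hi, ih, zpow_add₀ hz]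
    rw [h9, hw]
    norm_cast
  rw [h7] at h6
  change den ch (fun i x => lam i * v i x) ^ th.N * ((c * z + d) ^ 2 * q) =
    form (th.p ch) (fun i x => lam i * v i x) (fun i x => lam i * t i x) at h6
  rw [← h6, hr]
  generalize den ch (fun i x => lam i * v i x) ^ th.N = M
  field_simp

variable (D : CData k I J)

theorem wN2 : ∑ i, D.w i * ((N2 D i : ℕ) : ℤ) = 2 := by
  have h : ∀ i, D.w i * ((N2 D i : ℕ) : ℤ) = 2 * (D.w i * (D.β i : ℤ)) := fun i => by
    simp only [N2]
    push_cast
    ring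
  rw [Finset.sum_congr rfl fun i _ => h i, ← Finset.mul_sum, D.wβ, mul_one]

/-- leading vector of a conic is non-zero -/
theorem top_ne {K : Type u} [Field K] {F : ∀ i, J i → K[X]} (hc : cls F = 2 • D.β)
    (hne : ∀ i, ∃ x, F i x ≠ 0) (i : I) : ∃ x, (F i x).coeff (N2 D i) ≠ 0 := by
  classical
  have h1 : N2 D i = vdeg (F i) := by
    have := congrFun hc i
    unfold cls at this
    rw [this]
    simp [N2]
  have hJ : (Finset.univ : Finset (J i)).Nonempty := by
    obtain ⟨x, -⟩ := hne i
    exact ⟨x, Finset.mem_univ x⟩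
  by_cases h0 : N2 D i = 0
  · obtain ⟨x, hx⟩ := hne i
    refine ⟨x, fun h => hx ?_⟩
    have h2 : (F i x).natDegree ≤ 0 := by
      rw [← h0, h1]
      exact Finset.le_sup (f := fun a => (F i a).natDegree) (Finset.mem_univ x)
    rw [eq_C_of_natDegree_le_zero h2]
    rw [h0] at h
    rw [h, C_0]
  · obtain ⟨x, -, hx⟩ := Finset.exists_mem_eq_sup Finset.univ hJ fun a => (F i a).natDegree
    refine ⟨x, ?_⟩
    have h3 : (F i x).natDegree = N2 D i := by
      rw [h1]; exact hx.symm
    rw [← h3]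
    intro h
    apply h0
    rw [← h3]
    have : F i x = 0 := leadingCoeff_eq_zero.1 h
    rw [this, natDegree_zero]

theorem Con.top_ne {P : Ideal (MvPolynomial (Cx J (N2 D)) k)} {K : Type u} [Field K] [Algebra k K]
    {F : ∀ i, J i → K[X]} (h : Con D (FC D P) F) (i : I) : ∃ x, (F i x).coeff (N2 D i) ≠ 0 :=
  Fin10_600.top_ne D h.cls (fun i => by
    obtain ⟨x, hx⟩ := cop_ne (h.map.cop i) 0
    exact ⟨x, fun h0 => hx (by rw [h0, eval_zero])⟩) i

/-- Möbius substitutions of conics of the family. -/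
theorem con_mob {P : Ideal (MvPolynomial (Cx J (N2 D)) k)} (hP : Fam D P) {K : Type u} [Field K]
    [IsAlgClosed K] [Algebra k K] {F : ∀ i, J i → K[X]} (h : Con D (FC D P) F) {a b c d : K}
    (hd : a * d - b * c ≠ 0) :
    Con D (FC D P) (fun i x => mob (N2 D i) a b c d (F i x)) := by
  have hin : InC (N2 D) P (fun i x => mob (N2 D i) a b c d (F i x)) := by
    have := hP.inv K F h.cc (fun _ => 1) a b c d
    rwa [mobT_one] at this
  have hdeg : ∀ i x, (F i x).natDegree ≤ N2 D i := h.cc.deg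
  refine ⟨⟨hP.onX K _ hin, fun i => cop_mob (hdeg i) (h.map.cop i) (Con.top_ne D h i) hd⟩, ?_, hin⟩
  rw [← N2_eq]
  refine cls_of_top (fun i x => natDegree_mob_le _ _ _ _ _ _) fun i => ?_
  have hac : a ≠ 0 ∨ c ≠ 0 := by
    by_contra hcon
    push Not at hcon
    apply hd
    rw [hcon.1, hcon.2, zero_mul, mul_zero, sub_zero]
  obtain ⟨x, hx⟩ := hev_ne (hdeg i) (h.map.cop i) (Con.top_ne D h i) hac
  exact ⟨x, by rw [coeff_mob_top]; exact hx⟩

/-- two points of a conic of the family are joined by a conic of the family. -/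
theorem joins_mob {P : Ideal (MvPolynomial (Cx J (N2 D)) k)} {K : Type u}
    [Field K] [Infinite K] [Algebra k K] {F : ∀ i, J i → K[X]} (h : Con D (FC D P) F) {q : K}
    (hq : D.th.Val F (dd F) (C q)) {s t : K} (hst : s ≠ t) :
    Joins D (fun i x => mob (N2 D i) s t 1 1 (F i x)) (pt F s) (pt F t) (fun _ => 1) (fun _ => 1)
      ((s - t) * q) where
  a0 := fun _ => one_ne_zero
  b0 := fun _ => one_ne_zero
  lead := fun i x => by
    have h1 := coeff_mob_top (N2 D i) s t 1 1 (F i x)
    rw [hev_t_one s (h.cc.deg i x)] at h1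
    rw [one_mul]
    exact h1
  bot := fun i x => by
    rw [coeff_mob_zero, hev_t_one t (h.cc.deg i x), one_mul]
    rfl
  val := by
    have h1 := val_mob D.hom D.th (N := N2 D) (h.cc.deg) (wN2 D) h.map.on hq (a := s) (b := t)
      (c := 1) (d := 1) (by rw [mul_one, mul_one]; exact sub_ne_zero.2 hst)
    rw [mul_one, mul_one] at h1
    exact h1

/-- the reversed conic. -/
theorem joins_rev {P : Ideal (MvPolynomial (Cx J (N2 D)) k)} {K : Type u}
    [Field K] [Infinite K] [Algebra k K] {F : ∀ i, J i → K[X]} (h : Con D (FC D P) F)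
    {x y : ∀ i, J i → K} {a b : I → K} {c : K} (hj : Joins D F x y a b c) :
    Joins D (fun i x => mob (N2 D i) 0 1 1 0 (F i x)) y x b a (-c) where
  a0 := hj.b0
  b0 := hj.a0
  lead := fun i j => by
    have h1 := coeff_mob_top (N2 D i) 0 1 1 0 (F i j)
    rw [hev_t_one (0 : K) (h.cc.deg i j)] at h1
    rw [h1, ← hj.bot i j, coeff_zero_eq_eval_zero]
    rfl
  bot := fun i j => by
    rw [coeff_mob_zero, hev_t_zero, one_pow, mul_one, ← hj.lead i j]
    rfl
  val := by
    have h1 := val_mob D.hom D.th (N := N2 D) (h.cc.deg) (wN2 D) h.map.on hj.val (a := 0) (b := 1)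
      (c := 1) (d := 0) (by simp)
    have h2 : (0 * 0 - 1 * 1 : K) * c = -c := by ring
    rw [h2] at h1
    exact h1

theorem phi_rev {K : Type u} [Field K] (a b : I → K) (c : K) :
    phi D b a (-c) = phi D a b c := by
  unfold phi
  ring

theorem phi_one {K : Type u} [Field K] (c : K) : phi D (fun _ => 1) (fun _ => 1) c = c ^ 2 := by
  unfold phi
  simp

end Crest.Agent.R260.Fin10_600
end

-- ▼ part R260/Fin2_600
section

/-!
Row 260 (S0398), AG-FINAL (B): **SPEC-QUAD**, "splits into polynomials of degree `≤ N` along a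
curve" is a closed condition.

`O` is a valuation ring of the field `L`, `ρ : O → κ` a local homomorphism to a field. If
`Q ∈ O[u][T]` becomes `c(u) ∏ (T - q_i(u))` over `L` with `q_i` polynomials of degree `≤ N`, and the
reduction of `Q` is not zero, then every root `f` of the reduction in a domain containing `κ[u]` is
a polynomial of degree `≤ N`.
-/

namespace Crest.Agent.R260.Fin2_600

open Polynomial

universe u v w

variable {L : Type u} [Field L] (O : ValuationSubring L) {κ : Type v} [Field κ]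

/-- scaling of a finite family to a primitive one. -/
theorem exists_scale {ι : Type*} [Finite ι] (x : ι → L) (hx : ∃ i, x i ≠ 0) :
    ∃ s : L, s ≠ 0 ∧ (∀ i, s * x i ∈ O) ∧ ∃ i, ∃ h : s * x i ∈ O, IsUnit (⟨s * x i, h⟩ : O) := by
  classical
  obtain ⟨i0, hi0⟩ := hx
  have : Nonempty ι := ⟨i0⟩
  obtain ⟨i, hi⟩ := Finite.exists_max (fun i => O.valuation (x i))
  have hne : x i ≠ 0 := by
    intro h
    have := hi i0
    rw [h, map_zero] at this
    exact hi0 ((map_eq_zero O.valuation).1 (le_antisymm this zero_le))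
  refine ⟨(x i)⁻¹, inv_ne_zero hne, ?_, i, ?_, ?_⟩
  · intro j
    rw [← O.valuation_le_one_iff, map_mul, map_inv₀]
    have h0 : O.valuation (x i) ≠ 0 := (map_ne_zero O.valuation).2 hne
    calc (O.valuation (x i))⁻¹ * O.valuation (x j)
        ≤ (O.valuation (x i))⁻¹ * O.valuation (x i) := by gcongr; exact hi j
      _ = 1 := inv_mul_cancel₀ h0
  · rw [inv_mul_cancel₀ hne]; exact O.one_mem
  · have : (⟨(x i)⁻¹ * x i, by rw [inv_mul_cancel₀ hne]; exact O.one_mem⟩ : O) = 1 := by
      ext; exact inv_mul_cancel₀ hne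
    rw [this]; exact isUnit_one

/-- the polynomial over `O` with prescribed coefficients. -/
theorem exists_lift_poly (N : ℕ) (p : L[X]) (hp : p.natDegree ≤ N) (h : ∀ i ≤ N, p.coeff i ∈ O) :
    ∃ p' : O[X], p'.map (algebraMap O L) = p ∧ p'.natDegree ≤ N := by
  classical
  refine ⟨∑ i ∈ (Finset.range (N + 1)).attach,
    C (⟨p.coeff i.1, h i.1 (Nat.lt_succ_iff.1 (Finset.mem_range.1 i.2))⟩ : O) * X ^ i.1, ?_, ?_⟩
  · rw [Polynomial.map_sum]
    conv_rhs => rw [p.as_sum_range' (N + 1) (Nat.lt_succ_of_le hp), ← Finset.sum_attach]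
    refine Finset.sum_congr rfl fun i _ => ?_
    rw [Polynomial.map_mul, Polynomial.map_pow, Polynomial.map_X, Polynomial.map_C,
      ← C_mul_X_pow_eq_monomial]
    rfl
  · refine Polynomial.natDegree_sum_le_of_forall_le _ _ fun i _ => ?_
    exact (natDegree_C_mul_X_pow_le _ _).trans (Nat.lt_succ_iff.1 (Finset.mem_range.1 i.2))


/-- a non-zero polynomial made primitive. -/
theorem poly_prim (ρ : O →+* κ) [IsLocalHom ρ] (c : L[X]) (hc : c ≠ 0) :
    ∃ (s : L) (c' : O[X]), s ≠ 0 ∧ c'.map (algebraMap O L) = C s * c ∧ c'.map ρ ≠ 0 := by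
  classical
  have hne : ∃ i : Fin (c.natDegree + 1), (fun i : Fin (c.natDegree + 1) => c.coeff i) i ≠ 0 :=
    ⟨Fin.last _, by simpa using hc⟩
  obtain ⟨s, hs, hmem, i, hi, hu⟩ := exists_scale O _ hne
  obtain ⟨q', hq', hdeg⟩ := exists_lift_poly O c.natDegree (C s * c)
    (natDegree_C_mul_le _ _) (fun j hj => by
      rw [coeff_C_mul]; simpa using hmem ⟨j, Nat.lt_succ_of_le hj⟩)
  refine ⟨s, q', hs, hq', ?_⟩
  intro h0
  have h1 : (q'.coeff i : O) = ⟨s * c.coeff i, hi⟩ := by
    apply Subtype.ext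
    have := congrArg (fun p => p.coeff (i : ℕ)) hq'
    simp only [coeff_map, coeff_C_mul] at this
    exact this
  have h2 := congrArg (fun p => p.coeff (i : ℕ)) h0
  simp only [coeff_map, coeff_zero] at h2
  rw [h1] at h2
  exact (hu.map ρ).ne_zero h2



/-- a polynomial all of whose roots (in an algebraically closed field) are polynomials of degree
`≤ N` is a product of linear factors. -/
theorem split_of_roots {K : Type w} [Field K] [IsAlgClosed K] (j : L[X] →+* K)
    (hj : Function.Injective j) (N : ℕ) (Q : L[X][X])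
    (h : ∀ r : K, Q.eval₂ j r = 0 → ∃ q : L[X], q.natDegree ≤ N ∧ r = j q) :
    ∃ (n : ℕ) (q : Fin n → L[X]) (c : L[X]), (∀ i, (q i).natDegree ≤ N) ∧
      Q = C c * ∏ i, (X - C (q i)) := by
  classical
  by_cases hQ0 : Q = 0
  · exact ⟨0, Fin.elim0, 0, fun i => i.elim0, by simp [hQ0]⟩
  have hQj : Q.map j ≠ 0 := (Polynomial.map_ne_zero_iff hj).2 hQ0
  have hsp := (IsAlgClosed.splits (Q.map j)).eq_prod_roots
  have hl : ∀ l : List K, (∀ r ∈ l, r ∈ (Q.map j).roots) →
      ∃ l' : List L[X], (∀ q ∈ l', q.natDegree ≤ N) ∧ l'.map j = l := by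
    intro l
    induction l with
    | nil => intro _; exact ⟨[], by simp, by simp⟩
    | cons a l ih =>
      intro hl
      obtain ⟨l', h1, h2⟩ := ih fun r hr => hl r (List.mem_cons_of_mem _ hr)
      have ha := hl a List.mem_cons_self
      rw [mem_roots hQj, IsRoot.def, eval_map] at ha
      obtain ⟨q, hq, hqa⟩ := h a ha
      refine ⟨q :: l', ?_, ?_⟩
      · intro p hp
        rcases List.mem_cons.1 hp with rfl | hp
        · exact hq
        · exact h1 p hp
      · simp [h2, hqa]
  obtain ⟨l', hl1, hl2⟩ := hl (Q.map j).roots.toList fun r hr => Multiset.mem_toList.1 hr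
  refine ⟨l'.length, fun i => l'.get i, Q.leadingCoeff, fun i => hl1 _ (List.get_mem _ _), ?_⟩
  apply Polynomial.map_injective j hj
  conv_lhs => rw [hsp]
  rw [Polynomial.map_mul, Polynomial.map_C, Polynomial.map_prod, leadingCoeff_map_of_injective hj]
  congr 1
  have h3 : (Q.map j).roots = ((l'.map j : List K) : Multiset K) := by
    rw [hl2, Multiset.coe_toList]
  rw [h3, Multiset.map_coe, Multiset.prod_coe, List.map_map]
  have h4 : ∏ i : Fin l'.length, Polynomial.map j (X - C (l'.get i)) =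
      (l'.map fun q => Polynomial.map j (X - C q)).prod := by
    rw [← List.prod_ofFn]
    congr 1
    apply List.ext_get
    · simp
    · intro n h1 h2
      simp
  rw [h4]
  congr 1
  apply List.map_congr_left
  intro q _
  simp


end Crest.Agent.R260.Fin2_600
end

-- ▼ part R260/Fin4_600
section

/-!
Row 260 (S0398), AG-FINAL (B''): the property `SplitsLE N Q` (`Q ∈ K[u][T]` is a product of a
polynomial in `u` and linear factors `σ T - q(u)`, `deg q ≤ N`), its specialisation along valuation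
rings and its descent to an algebraically closed subfield.
-/

namespace Crest.Agent.R260.Fin4_600

open Polynomial Crest.Agent.R260.Fin2_600

universe u v w

/-- `Q (u, T)` is a product of linear factors in `T` with coefficients of degree `≤ N` in `u`. -/
def SplitsLE (N : ℕ) {K : Type*} [Field K] (Q : K[X][X]) : Prop :=
  ∃ (n : ℕ) (σ : Fin n → K) (q : Fin n → K[X]) (c : K[X]), c ≠ 0 ∧ (∀ i, (q i).natDegree ≤ N) ∧
    (∀ i, σ i ≠ 0 ∨ q i ≠ 0) ∧ Q = C c * ∏ i, (C (C (σ i)) * X - C (q i))

theorem lin_ne {K : Type*} [Field K] {σ : K} {q : K[X]} (h : σ ≠ 0 ∨ q ≠ 0) :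
    (C (C σ) * X - C q : K[X][X]) ≠ 0 := by
  intro h0
  rcases h with h | h
  · have := congrArg (fun p => p.coeff 1) h0
    simp only [coeff_sub, coeff_C_mul, coeff_X_one, mul_one, coeff_zero] at this
    rw [coeff_C_of_ne_zero one_ne_zero, sub_zero] at this
    exact h (C_eq_zero.1 this)
  · have := congrArg (fun p => p.coeff 0) h0
    simp only [coeff_sub, coeff_C_mul, coeff_X_zero, mul_zero, coeff_zero, coeff_C_zero,
      zero_sub, neg_eq_zero] at this
    exact h this

theorem SplitsLE.ne_zero {N : ℕ} {K : Type*} [Field K] {Q : K[X][X]} (h : SplitsLE N Q) :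
    Q ≠ 0 := by
  obtain ⟨n, σ, q, c, hc, -, hor, rfl⟩ := h
  exact mul_ne_zero (C_ne_zero.2 hc) (Finset.prod_ne_zero_iff.2 fun i _ => lin_ne (hor i))

/-- from roots to factors -/
theorem SplitsLE.of_roots {L : Type u} [Field L] {K : Type w} [Field K] [IsAlgClosed K]
    (j : L[X] →+* K) (hj : Function.Injective j) (N : ℕ) (Q : L[X][X]) (hQ : Q ≠ 0)
    (h : ∀ r : K, Q.eval₂ j r = 0 → ∃ q : L[X], q.natDegree ≤ N ∧ r = j q) : SplitsLE N Q := by
  obtain ⟨n, q, c, hq, hQ'⟩ := split_of_roots j hj N Q h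
  refine ⟨n, fun _ => 1, q, c, ?_, hq, fun _ => Or.inl one_ne_zero, ?_⟩
  · rintro rfl
    rw [C_0, zero_mul] at hQ'
    exact hQ hQ'
  · rw [hQ']
    congr 1
    refine Finset.prod_congr rfl fun i _ => ?_
    rw [C_1, C_1, one_mul]

section Spec

variable {L : Type u} [Field L] (O : ValuationSubring L) {κ : Type v} [Field κ]

/-- a linear factor `σ T - q(u)` made primitive. -/
theorem lin_prim' (ρ : O →+* κ) [IsLocalHom ρ] (N : ℕ) (σ : L) (q : L[X]) (hq : q.natDegree ≤ N)
    (hor : σ ≠ 0 ∨ q ≠ 0) :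
    ∃ (s : L) (s' : O) (q' : O[X]), s ≠ 0 ∧ (s' : L) = s * σ ∧
      q'.map (algebraMap O L) = C s * q ∧ q'.natDegree ≤ N ∧ (ρ s' ≠ 0 ∨ q'.map ρ ≠ 0) := by
  classical
  obtain ⟨s, hs, hmem, i, hi, hu⟩ := exists_scale O
    (fun i : Option (Fin (N + 1)) => i.elim σ (fun j => q.coeff j)) (by
      rcases hor with h | h
      · exact ⟨none, h⟩
      · refine ⟨some ⟨q.natDegree, Nat.lt_succ_of_le hq⟩, ?_⟩
        change q.coeff q.natDegree ≠ 0
        rwa [coeff_natDegree, Ne, leadingCoeff_eq_zero])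
  have hs1 : s * σ ∈ O := hmem none
  obtain ⟨q', hq', hdeg⟩ := exists_lift_poly O N (C s * q)
    ((natDegree_C_mul_le _ _).trans hq) (fun j hj => by
      rw [coeff_C_mul]; exact hmem (some ⟨j, Nat.lt_succ_of_le hj⟩))
  refine ⟨s, ⟨s * σ, hs1⟩, q', hs, rfl, hq', hdeg, ?_⟩
  cases i with
  | none =>
    left
    exact (hu.map ρ).ne_zero
  | some j =>
    right
    intro h0
    have h1 : (q'.coeff j : O) = ⟨s * q.coeff j, hi⟩ := by
      apply Subtype.ext
      have := congrArg (fun p => p.coeff (j : ℕ)) hq'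
      simp only [coeff_map, coeff_C_mul] at this
      exact this
    have h2 := congrArg (fun p => p.coeff (j : ℕ)) h0
    simp only [coeff_map, coeff_zero] at h2
    rw [h1] at h2
    exact (hu.map ρ).ne_zero h2

/-- **specialisation** of `SplitsLE`. -/
theorem SplitsLE.spec (ρ : O →+* κ) [IsLocalHom ρ] (N : ℕ) (Q : O[X][X])
    (hQ : SplitsLE N (Q.map (mapRingHom (algebraMap O L))))
    (hne : Q.map (mapRingHom ρ) ≠ 0) : SplitsLE N (Q.map (mapRingHom ρ)) := by
  classical
  obtain ⟨n, σ, q, c, hc, hq, hor, hQ⟩ := hQ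
  have hinj : Function.Injective (algebraMap O L) := FaithfulSMul.algebraMap_injective O L
  have hinj1 : Function.Injective (mapRingHom (algebraMap O L)) := by
    rw [coe_mapRingHom]; exact map_injective _ hinj
  obtain ⟨sc, c1, hsc, hc1, hc1ne⟩ := poly_prim O ρ c hc
  have hch := fun i => lin_prim' O ρ N (σ i) (q i) (hq i) (hor i)
  choose t s' q' ht using hch
  set P : O[X][X] := C c1 * ∏ i, (C (C (s' i)) * X - C (q' i)) with hP
  have hmapP : P.map (mapRingHom (algebraMap O L)) =
      C (C (sc * ∏ i, t i)) * Q.map (mapRingHom (algebraMap O L)) := by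
    rw [hQ, hP, Polynomial.map_mul, Polynomial.map_C, coe_mapRingHom, hc1, Polynomial.map_prod,
      C_mul, C_mul, C_mul, map_prod, map_prod]
    have : ∀ i ∈ Finset.univ, Polynomial.map (mapRingHom (algebraMap O L))
        (C (C (s' i)) * X - C (q' i)) = C (C (t i)) * (C (C (σ i)) * X - C (q i)) := by
      intro i _
      obtain ⟨_, h1, h2, _, _⟩ := ht i
      rw [Polynomial.map_sub, Polynomial.map_mul, Polynomial.map_X, Polynomial.map_C,
        Polynomial.map_C, coe_mapRingHom, h2, Polynomial.map_C, mul_sub]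
      rw [show algebraMap O L (s' i) = t i * σ i from h1, C_mul, C_mul, C_mul]
      ring
    rw [Finset.prod_congr rfl this, Finset.prod_mul_distrib]
    ring
  have hPκ : P.map (mapRingHom ρ) = C (c1.map ρ) *
      ∏ i, (C (C (ρ (s' i))) * X - C ((q' i).map ρ)) := by
    rw [hP, Polynomial.map_mul, Polynomial.map_C, coe_mapRingHom, Polynomial.map_prod]
    congr 1
    refine Finset.prod_congr rfl fun i _ => ?_
    rw [Polynomial.map_sub, Polynomial.map_mul, Polynomial.map_X, Polynomial.map_C,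
      Polynomial.map_C, coe_mapRingHom, Polynomial.map_C]
  have hPκne : P.map (mapRingHom ρ) ≠ 0 := by
    rw [hPκ]
    exact mul_ne_zero (C_ne_zero.2 hc1ne) (Finset.prod_ne_zero_iff.2 fun i _ =>
      lin_ne (ht i).2.2.2.2)
  set σ0 : L := sc * ∏ i, t i with hσ0
  -- a unit coefficient of `P`
  obtain ⟨i, j, hij⟩ : ∃ i j, ρ ((P.coeff i).coeff j) ≠ 0 := by
    by_contra hcon
    push Not at hcon
    apply hPκne
    ext i j
    rw [coeff_map, coe_mapRingHom, coeff_map, hcon i j]
    simp
  have hunit : IsUnit ((P.coeff i).coeff j) :=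
    isUnit_of_map_unit ρ _ (isUnit_iff_ne_zero.2 hij)
  have hcoef : algebraMap O L ((P.coeff i).coeff j) =
      σ0 * algebraMap O L ((Q.coeff i).coeff j) := by
    have := congrArg (fun p => (p.coeff i).coeff j) hmapP
    simpa only [coeff_map, coe_mapRingHom, coeff_C_mul] using this
  obtain ⟨w, hw⟩ := hunit
  set δ : O := (Q.coeff i).coeff j * ((w⁻¹ : Oˣ) : O) with hδ
  have hδσ : algebraMap O L δ * σ0 = 1 := by
    have h1 : ((w : O) * ((w⁻¹ : Oˣ) : O)) = 1 := by simp
    have h2 : algebraMap O L (w : O) * algebraMap O L ((w⁻¹ : Oˣ) : O) = 1 := by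
      rw [← map_mul, h1, map_one]
    rw [hδ, map_mul]
    rw [← hw] at hcoef
    calc algebraMap O L ((Q.coeff i).coeff j) * algebraMap O L ((w⁻¹ : Oˣ) : O) * σ0
        = (σ0 * algebraMap O L ((Q.coeff i).coeff j)) * algebraMap O L ((w⁻¹ : Oˣ) : O) := by ring
      _ = 1 := by rw [← hcoef, h2]
  have hQP : Q = C (C δ) * P := by
    apply map_injective _ hinj1
    rw [Polynomial.map_mul, hmapP, Polynomial.map_C, coe_mapRingHom, Polynomial.map_C,
      ← mul_assoc, ← C_mul, ← C_mul, hδσ, C_1, C_1, one_mul]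
  have hQκ : Q.map (mapRingHom ρ) = C (C (ρ δ)) * P.map (mapRingHom ρ) := by
    conv_lhs => rw [hQP]
    rw [Polynomial.map_mul, Polynomial.map_C, coe_mapRingHom, Polynomial.map_C]
  have hδne : ρ δ ≠ 0 := by
    intro h0
    rw [h0, C_0, C_0, zero_mul] at hQκ
    exact hne hQκ
  refine ⟨n, fun i => ρ (s' i), fun i => (q' i).map ρ, C (ρ δ) * c1.map ρ,
    mul_ne_zero (C_ne_zero.2 hδne) hc1ne, ?_, ?_, ?_⟩
  · intro i
    exact natDegree_map_le.trans (ht i).2.2.2.1
  · intro i
    exact (ht i).2.2.2.2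
  · rw [hQκ, hPκ, C_mul, mul_assoc]

end Spec

/-- a non-trivial algebra of finite type over an algebraically closed field has a rational point. -/
theorem exists_point {k : Type u} [Field k] [IsAlgClosed k] {A : Type v} [CommRing A] [Nontrivial A]
    [Algebra k A] [Algebra.FiniteType k A] : Nonempty (A →ₐ[k] k) := by
  obtain ⟨M, hM⟩ := Ideal.exists_maximal A
  let E := A ⧸ M
  let _ : Field E := Ideal.Quotient.field M
  have h1 : Module.Finite k E := finite_of_finite_type_of_isJacobsonRing k E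
  have h2 : Algebra.IsAlgebraic k E := inferInstance
  let g : E →ₐ[k] k := IsAlgClosed.lift
  exact ⟨g.comp (Ideal.Quotient.mkₐ k M)⟩

/-- **descent** of `SplitsLE` to an algebraically closed subfield. -/
theorem SplitsLE.descend {k : Type u} [Field k] [IsAlgClosed k] {κ : Type v} [Field κ] [Algebra k κ]
    (N : ℕ) (Q : k[X][X]) (hQ : SplitsLE N (Q.map (mapRingHom (algebraMap k κ)))) :
    SplitsLE N Q := by
  classical
  obtain ⟨n, σ, q, c, hc, hq, hor, hQ⟩ := hQ
  -- non-zero elements to be preserved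
  have hz : ∀ i, ∃ z : κ, z ≠ 0 ∧ (z = σ i ∨ ∃ j, z = (q i).coeff j) := by
    intro i
    rcases hor i with h | h
    · exact ⟨σ i, h, Or.inl rfl⟩
    · exact ⟨(q i).leadingCoeff, leadingCoeff_ne_zero.2 h, Or.inr ⟨_, rfl⟩⟩
  choose z hz0 hz using hz
  let S : Finset κ := Finset.univ.image σ ∪
    (Finset.univ.biUnion fun i => (Finset.range (N + 1)).image fun j => (q i).coeff j) ∪
    (Finset.range (c.natDegree + 1)).image (fun j => c.coeff j)
  let A := Algebra.adjoin k (S : Set κ)
  have hmemS : ∀ x ∈ S, x ∈ A := fun x hx => Algebra.subset_adjoin (Finset.mem_coe.2 hx)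
  have hσA : ∀ i, σ i ∈ A := fun i => hmemS _ (by
    simp only [S, Finset.mem_union, Finset.mem_image]
    exact Or.inl (Or.inl ⟨i, Finset.mem_univ _, rfl⟩))
  have hqA : ∀ i j, (q i).coeff j ∈ A := fun i j => by
    by_cases hj : j ≤ N
    · refine hmemS _ ?_
      simp only [S, Finset.mem_union, Finset.mem_image, Finset.mem_biUnion]
      exact Or.inl (Or.inr ⟨i, Finset.mem_univ _, j, Finset.mem_range.2 (Nat.lt_succ_of_le hj), rfl⟩)
    · rw [coeff_eq_zero_of_natDegree_lt (lt_of_le_of_lt (hq i) (not_le.1 hj))]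
      exact A.zero_mem
  have hcA : ∀ j, c.coeff j ∈ A := fun j => by
    by_cases hj : j ≤ c.natDegree
    · refine hmemS _ ?_
      simp only [S, Finset.mem_union, Finset.mem_image]
      exact Or.inr ⟨j, Finset.mem_range.2 (Nat.lt_succ_of_le hj), rfl⟩
    · rw [coeff_eq_zero_of_natDegree_lt (not_le.1 hj)]
      exact A.zero_mem
  have hzA : ∀ i, z i ∈ A := fun i => by
    rcases hz i with h | ⟨j, h⟩
    · rw [h]; exact hσA i
    · rw [h]; exact hqA i j
  let d : A := (∏ i, ⟨z i, hzA i⟩) * ⟨c.leadingCoeff, hcA _⟩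
  have hd : d ≠ 0 := by
    refine mul_ne_zero (Finset.prod_ne_zero_iff.2 fun i _ h => hz0 i (congrArg Subtype.val h))
      fun h => leadingCoeff_ne_zero.2 hc (congrArg Subtype.val h)
  have hft : Algebra.FiniteType k A :=
    (Subalgebra.fg_iff_finiteType _).1 ⟨S, rfl⟩
  let Ad := Localization.Away d
  have hft2 : Algebra.FiniteType A Ad := IsLocalization.finiteType_of_monoid_fg
    (Submonoid.powers d) Ad
  have hft3 : Algebra.FiniteType k Ad := Algebra.FiniteType.trans hft hft2
  have hnt : Nontrivial Ad := by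
    have : Submonoid.powers d ≤ nonZeroDivisors A := powers_le_nonZeroDivisors_of_noZeroDivisors hd
    exact (IsLocalization.injective Ad this).nontrivial
  obtain ⟨g⟩ := exists_point (k := k) (A := Ad)
  let τ : A →ₐ[k] k := g.comp (IsScalarTower.toAlgHom k A Ad)
  have hτd : τ d ≠ 0 := by
    have h1 : IsUnit (algebraMap A Ad d) := IsLocalization.Away.algebraMap_isUnit d
    exact (h1.map g).ne_zero
  have hτz : ∀ i, τ ⟨z i, hzA i⟩ ≠ 0 := by
    intro i h
    apply hτd
    simp only [d]
    rw [map_mul, map_prod, Finset.prod_eq_zero (Finset.mem_univ i) h, zero_mul]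
  have hτc : τ ⟨c.leadingCoeff, hcA _⟩ ≠ 0 := by
    intro h
    apply hτd
    simp only [d]
    rw [map_mul, h, mul_zero]
  -- lifts to `A`
  have hlift : ∀ p : κ[X], (∀ j, p.coeff j ∈ A) → ∃ p' : A[X], p'.map (algebraMap A κ) = p ∧
      p'.natDegree = p.natDegree := by
    intro p hp
    have h1 : p ∈ Polynomial.lifts (algebraMap A κ) := by
      rw [Polynomial.lifts_iff_coeff_lifts]
      intro j
      exact ⟨⟨_, hp j⟩, rfl⟩
    obtain ⟨p', hp'⟩ := h1
    rw [coe_mapRingHom] at hp'
    refine ⟨p', hp', ?_⟩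
    rw [← hp', natDegree_map_eq_of_injective]
    exact Subtype.val_injective
  obtain ⟨c', hc', hc'd⟩ := hlift c hcA
  have hq1 := fun i => hlift (q i) (hqA i)
  choose q' hq' hq'd using hq1
  have hAκ : Function.Injective (algebraMap A κ) := Subtype.val_injective
  have hAκ1 : Function.Injective (mapRingHom (algebraMap A κ)) := by
    rw [coe_mapRingHom]; exact map_injective _ hAκ
  have hQA : Q.map (mapRingHom (algebraMap k A)) =
      C c' * ∏ i, (C (C (⟨σ i, hσA i⟩ : A)) * X - C (q' i)) := by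
    apply map_injective _ hAκ1
    rw [Polynomial.map_map, mapRingHom_comp, ← IsScalarTower.algebraMap_eq k A κ, hQ,
      Polynomial.map_mul, Polynomial.map_C, coe_mapRingHom, hc', Polynomial.map_prod]
    congr 1
    refine Finset.prod_congr rfl fun i _ => ?_
    rw [Polynomial.map_sub, Polynomial.map_mul, Polynomial.map_X, Polynomial.map_C,
      Polynomial.map_C, coe_mapRingHom, Polynomial.map_C, hq']
    rfl
  refine ⟨n, fun i => τ ⟨σ i, hσA i⟩, fun i => (q' i).map (τ : A →+* k), c'.map (τ : A →+* k),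
    ?_, ?_, ?_, ?_⟩
  · intro h0
    have h1 := congrArg (fun p => p.coeff c.natDegree) h0
    simp only [coeff_map, coeff_zero] at h1
    apply hτc
    have h2 : (c'.coeff c.natDegree : A) = ⟨c.leadingCoeff, hcA _⟩ := by
      apply Subtype.ext
      have := congrArg (fun p => p.coeff c.natDegree) hc'
      simp only [coeff_map] at this
      exact this
    rw [← h2]
    exact h1
  · intro i
    refine natDegree_map_le.trans ?_
    rw [hq'd i]
    exact hq i
  · intro i
    rcases hz i with h | ⟨j, h⟩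
    · left
      have := hτz i
      have h2 : (⟨z i, hzA i⟩ : A) = ⟨σ i, hσA i⟩ := Subtype.ext h
      rwa [h2] at this
    · right
      intro h0
      have h1 := congrArg (fun p => p.coeff j) h0
      simp only [coeff_map, coeff_zero] at h1
      apply hτz i
      have h2 : ((q' i).coeff j : A) = ⟨z i, hzA i⟩ := by
        apply Subtype.ext
        have := congrArg (fun p => p.coeff j) (hq' i)
        simp only [coeff_map] at this
        rw [← h] at this
        exact this
      rw [← h2]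
      exact h1
  · have h1 := congrArg (fun p => Polynomial.map (mapRingHom (τ : A →+* k)) p) hQA
    beta_reduce at h1
    rw [Polynomial.map_map, mapRingHom_comp] at h1
    have h2 : (τ : A →+* k).comp (algebraMap k A) = RingHom.id k :=
      RingHom.ext fun a => τ.commutes a
    rw [h2, mapRingHom_id, Polynomial.map_id] at h1
    rw [h1, Polynomial.map_mul, Polynomial.map_C, coe_mapRingHom, Polynomial.map_prod]
    congr 1
    refine Finset.prod_congr rfl fun i _ => ?_
    rw [Polynomial.map_sub, Polynomial.map_mul, Polynomial.map_X, Polynomial.map_C,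
      Polynomial.map_C, coe_mapRingHom, Polynomial.map_C]
    rfl

/-- **specialisation along a valuation ring containing an algebraically closed field `k`** to a
polynomial with coefficients in `k`. -/
theorem SplitsLE.spec_alg {k : Type u} [Field k] [IsAlgClosed k] {L : Type v} [Field L]
    [Algebra k L] (O : ValuationSubring L) (hk : ∀ a : k, algebraMap k L a ∈ O) (N : ℕ)
    (Q : L[X][X]) (Q0 : k[X][X])
    (hcoef : ∀ i j, (Q.coeff i).coeff j - algebraMap k L ((Q0.coeff i).coeff j) ∈ O.nonunits)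
    (hQ : SplitsLE N Q) (hQ0 : Q0 ≠ 0) : SplitsLE N Q0 := by
  classical
  let ι : k →+* O := (algebraMap k L).codRestrict O.toSubring hk
  let κ := IsLocalRing.ResidueField O
  let ρ : O →+* κ := IsLocalRing.residue O
  let _ : Algebra k κ := (ρ.comp ι).toAlgebra
  have hnu : ∀ x : L, x ∈ O.nonunits → ∃ h : x ∈ O, ρ ⟨x, h⟩ = 0 := by
    intro x hx
    have h1 : x ∈ O := by
      have := ValuationSubring.nonunits_subset (A := O) hx
      exact this
    refine ⟨h1, ?_⟩
    rw [IsLocalRing.residue_eq_zero_iff]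
    exact (ValuationSubring.mem_nonunits_iff_exists_mem_maximalIdeal.1 hx).2
  have hO : ∀ i j, (Q.coeff i).coeff j ∈ O := by
    intro i j
    have h1 := (hnu _ (hcoef i j)).1
    have h2 := O.add_mem _ _ h1 (hk ((Q0.coeff i).coeff j))
    rwa [sub_add_cancel] at h2
  -- lift
  have hl1 : ∀ i, ∃ p : O[X], p.map (algebraMap O L) = Q.coeff i := by
    intro i
    have h1 : Q.coeff i ∈ Polynomial.lifts (algebraMap O L) := by
      rw [Polynomial.lifts_iff_coeff_lifts]
      intro j
      exact ⟨⟨_, hO i j⟩, rfl⟩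
    obtain ⟨p, hp⟩ := h1
    exact ⟨p, hp⟩
  have hl2 : Q ∈ Polynomial.lifts (mapRingHom (algebraMap O L)) := by
    rw [Polynomial.lifts_iff_coeff_lifts]
    intro i
    obtain ⟨p, hp⟩ := hl1 i
    exact ⟨p, hp⟩
  obtain ⟨Q', hQ'⟩ := hl2
  rw [coe_mapRingHom] at hQ'
  have hred : Q'.map (mapRingHom ρ) = Q0.map (mapRingHom (algebraMap k κ)) := by
    ext i j
    rw [coeff_map, coeff_map, coe_mapRingHom, coe_mapRingHom, coeff_map, coeff_map]
    obtain ⟨h1, h2⟩ := hnu _ (hcoef i j)
    have h3 : (⟨(Q.coeff i).coeff j - algebraMap k L ((Q0.coeff i).coeff j), h1⟩ : O) =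
        (Q'.coeff i).coeff j - ι ((Q0.coeff i).coeff j) := by
      apply Subtype.ext
      change (Q.coeff i).coeff j - algebraMap k L ((Q0.coeff i).coeff j) =
        ((Q'.coeff i).coeff j : L) - algebraMap k L ((Q0.coeff i).coeff j)
      rw [← hQ', coeff_map, coe_mapRingHom, coeff_map]
      rfl
    rw [h3, map_sub, sub_eq_zero] at h2
    exact h2
  have hne : Q'.map (mapRingHom ρ) ≠ 0 := by
    rw [hred]
    refine (Polynomial.map_ne_zero_iff ?_).2 hQ0
    rw [coe_mapRingHom]
    exact map_injective _ (algebraMap k κ).injective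
  have h1 := SplitsLE.spec O ρ N Q' (by rw [hQ']; exact hQ) hne
  rw [hred] at h1
  exact SplitsLE.descend N Q0 h1

end Crest.Agent.R260.Fin4_600
end

-- ▼ part R260/Fin11_600
section

/-!
Row 260 (S0398), AG-FINAL: along the generic conic all roots are quadratic polynomials, and this
property passes to all conics of the family over `k`.
-/

set_option autoImplicit false
set_option linter.unusedSectionVars false

namespace Crest.Agent.R260.Fin11_600

open Polynomial Crest.Agent.R270.BM_360 Crest.Agent.R260.Lin_678 Crest.Agent.R260.Fam_919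
open Crest.Agent.R260.Fin_600 Crest.Agent.R260.Fin5_600 Crest.Agent.R260.Fin6_600
open Crest.Agent.R260.Fin7_600 Crest.Agent.R260.Fin8_600 Crest.Agent.R260.QuadDefs_517
open Crest.Agent.R260.Fin9_600 Crest.Agent.R260.Fin10_600 Crest.Agent.R260.Mob_919
open Crest.Agent.R260.Fin4_600

universe u v w

/-- a transcendental extension, algebraically closed and algebraic over one element. -/
theorem exists_trans (K : Type u) [Field K] : ∃ (L : Type u) (_ : Field L) (_ : IsAlgClosed L)
    (_ : Algebra K L) (t : L), Transcendental K t ∧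
      Algebra.IsAlgebraic (IntermediateField.adjoin K {t}) L := by
  let Q := FractionRing K[X]
  let L := AlgebraicClosure Q
  let t : L := algebraMap Q L (algebraMap K[X] Q X)
  have hinj : Function.Injective (algebraMap Q L) := (algebraMap Q L).injective
  have hinj2 : Function.Injective (algebraMap K[X] Q) := IsFractionRing.injective _ _
  have haev : ∀ p : K[X], aeval t p = algebraMap Q L (algebraMap K[X] Q p) := by
    intro p
    have h1 : (aeval t : K[X] →ₐ[K] L) =
        ((IsScalarTower.toAlgHom K Q L).comp (IsScalarTower.toAlgHom K K[X] Q)) := by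
      refine Polynomial.algHom_ext ?_
      rw [aeval_X]
      rfl
    rw [h1]
    rfl
  have htr : Transcendental K t := by
    rw [transcendental_iff]
    intro p hp
    rw [haev, map_eq_zero_iff _ hinj, map_eq_zero_iff _ hinj2] at hp
    exact hp
  refine ⟨L, inferInstance, inferInstance, inferInstance, t, htr, ?_⟩
  let A := IntermediateField.adjoin K {t}
  have ht : t ∈ A := IntermediateField.subset_adjoin K _ rfl
  have hpol : ∀ p : K[X], aeval t p ∈ A := fun p =>
    IntermediateField.algebra_adjoin_le_adjoin K {t} (Polynomial.aeval_mem_adjoin_singleton K t)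
  have hmem : ∀ x : Q, algebraMap Q L x ∈ A := by
    intro x
    obtain ⟨p, q, hq, rfl⟩ := IsFractionRing.div_surjective (A := K[X]) x
    rw [map_div₀, ← haev, ← haev]
    exact div_mem (hpol p) (hpol q)
  let φ : Q →+* A := (algebraMap Q L).codRestrict A hmem
  let _ : Algebra Q A := φ.toAlgebra
  have : IsScalarTower Q A L := IsScalarTower.of_algebraMap_eq fun x => rfl
  exact Algebra.IsAlgebraic.tower_top (K := Q) A

variable {I : Type} {J : I → Type} [Fintype I] [∀ i, Fintype (J i)] {k : Type u} [Field k]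

/-- naturality of `P(x; T)` -/
theorem Pv_map {σ : Type} (Q : Polynomial (MvPolynomial σ k)) {A B : Type*} [CommRing A]
    [Algebra k A] [CommRing B] [Algebra k B] (φ : A →ₐ[k] B) (x : σ → A) :
    (Pv Q x).map (φ : A →+* B) = Pv Q (fun s => φ (x s)) := by
  unfold Pv
  rw [Polynomial.map_map]
  congr 1
  have h : φ.comp (MvPolynomial.aeval x : MvPolynomial σ k →ₐ[k] A) =
      MvPolynomial.aeval (fun s => φ (x s)) := by
    refine MvPolynomial.algHom_ext fun s => ?_
    rw [AlgHom.comp_apply, MvPolynomial.aeval_X, MvPolynomial.aeval_X]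
  rw [← h]
  rfl

variable (D : CData k I J)

/-- **LIFT2**: along the generic conic all roots of `Q` are quadratic polynomials. -/
def Lft2 (P : Ideal (MvPolynomial (Cx J (N2 D)) k)) (Q : Polynomial (MvPolynomial (PIdx J) k)) :
    Prop :=
  ∀ (F₀ k' L : Type u) [Field F₀] [Field k'] [Field L] [IsAlgClosed F₀] [IsAlgClosed k']
    [IsAlgClosed L] [Algebra k F₀] [Algebra k k'] [Algebra k L] [Algebra F₀ k'] [Algebra F₀ L]
    [Algebra k' L] [IsScalarTower k F₀ k'] [IsScalarTower k F₀ L] [IsScalarTower k k' L]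
    [IsScalarTower F₀ k' L]
    (x₀ : ∀ i, J i → F₀) (H : ∀ i, J i → k'[X]) (u : L),
    OnX D.E x₀ → (∀ i, x₀ i ≠ 0) → TrGe k (ent x₀) (nn D) →
    Algebra.IsAlgebraic (IntermediateField.adjoin k (ent x₀)) F₀ →
    Con D (FC D P) H → TrGe F₀ (coeffs H) (hc D) →
    Algebra.IsAlgebraic (IntermediateField.adjoin F₀ (coeffs H)) k' →
    Transcendental k' u → Algebra.IsAlgebraic (IntermediateField.adjoin k' {u}) L →
    Pv Q (pr (up L x₀) (at' H u)) ≠ 0 ∧
      ∀ t : L, (Pv Q (pr (up L x₀) (at' H u))).IsRoot t →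
        ∃ p : k'[X], p.natDegree ≤ 2 ∧ t = aeval u p

theorem onZ_at {E : Set (MvPolynomial (Σ i, J i) k)} {K L : Type u} [Field K] [Field L]
    [Algebra k K] [Algebra k L] [Algebra K L] [IsScalarTower k K L] {H : ∀ i, J i → K[X]}
    (h : IsMap E H) (u : L) : OnZ' E (at' H u) := by
  refine ⟨fun p hp => ?_, fun i h0 => ?_⟩
  · let e : K[X] →ₐ[k] L := (Polynomial.aeval u : K[X] →ₐ[K] L).restrictScalars k
    have h1 := congrArg e (h.on p hp)
    rw [map_zero, MvPolynomial.comp_aeval_apply] at h1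
    exact h1
  · have h1 : (1 : K[X]) ∈ Ideal.span (Set.range (H i)) := by
      have : Ideal.span (Set.range (H i)) = ⊤ := h.cop i
      rw [this]; exact Submodule.mem_top
    have h2 : Ideal.span (Set.range (H i)) ≤
        RingHom.ker (Polynomial.aeval u : K[X] →ₐ[K] L).toRingHom := by
      rw [Ideal.span_le]
      rintro _ ⟨a, rfl⟩
      exact congrFun h0 a
    have h3 := h2 h1
    rw [RingHom.mem_ker, map_one] at h3
    exact one_ne_zero h3

variable [IsAlgClosed k] [CharZero k]

theorem lft2 {P : Ideal (MvPolynomial (Cx J (N2 D)) k)}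
    {Q : Polynomial (MvPolynomial (PIdx J) k)} {D' : MvPolynomial (PIdx J) k}
    (hE : (Ideal.span D.E).IsPrime) (hQ : QUAD D (FC D P)) (hG : Gen1P D (FC D P))
    (h : Hom2 D P Q D') : Lft2 D P Q := by
  intro F₀ k' L _ _ _ _ _ _ _ _ _ _ _ _ _ _ _ _ x₀ H u hx hx0 hxt hxa hH hHt hHa hu hua
  have hHu : OnZ' D.E (at' H u) := onZ_at hH.map u
  have hgt : TrGe F₀ (ent (at' H u)) (nn D) := hG F₀ k' L H u hH hHt hu
  have hgn : Gnr (qp D.E) (pr (up L x₀) (at' H u)) := gnr_pair D hE ⟨hx, hx0⟩ hxt hHu hgt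
  refine ⟨h.gne L _ hgn, fun t ht => ?_⟩
  obtain ⟨F, a, b, c, hF, hj, rfl⟩ := h.lift L _ hgn t ht
  exact hQ F₀ k' L x₀ H u F a b c hx hx0 hxt hxa hH hHt hHa hu hua hF hj

theorem Pv_swp (Q : Polynomial (MvPolynomial (PIdx J) k)) {A : Type*} [CommRing A] [Algebra k A]
    (v w : ∀ i, J i → A) :
    Pv (Q.map (swp : MvPolynomial (PIdx J) k →ₐ[k] _).toRingHom) (pr v w) = Pv Q (pr w v) := by
  unfold Pv
  rw [Polynomial.map_map]
  congr 1
  have h : (MvPolynomial.aeval (pr v w) : MvPolynomial (PIdx J) k →ₐ[k] A).comp swp =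
      MvPolynomial.aeval (pr w v) := by
    refine AlgHom.ext fun p => ?_
    exact aeval_swp v w p
  rw [← h]
  rfl

theorem lft2_swap {P : Ideal (MvPolynomial (Cx J (N2 D)) k)}
    {Q : Polynomial (MvPolynomial (PIdx J) k)} {D' : MvPolynomial (PIdx J) k} (hP : Fam D P)
    (hE : (Ideal.span D.E).IsPrime) (hQ : QUAD D (FC D P)) (hG : Gen1P D (FC D P))
    (h : Hom2 D P Q D') :
    Lft2 D P (Q.map (swp : MvPolynomial (PIdx J) k →ₐ[k] _).toRingHom) := by
  intro F₀ k' L _ _ _ _ _ _ _ _ _ _ _ _ _ _ _ _ x₀ H u hx hx0 hxt hxa hH hHt hHa hu hua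
  have hHu : OnZ' D.E (at' H u) := onZ_at hH.map u
  have hgt : TrGe F₀ (ent (at' H u)) (nn D) := hG F₀ k' L H u hH hHt hu
  have hgn : Gnr (qp D.E) (pr (up L x₀) (at' H u)) := gnr_pair D hE ⟨hx, hx0⟩ hxt hHu hgt
  have hgn' := gnr_swap hgn
  rw [Pv_swp]
  refine ⟨h.gne L _ hgn', fun t ht => ?_⟩
  obtain ⟨F, a, b, c, hF, hj, rfl⟩ := h.lift L _ hgn' t ht
  have hF' : Con D (FC D P) (fun i x => mob (N2 D i) 0 1 1 0 (F i x)) :=
    con_mob D hP hF (by simp)
  have hj' := joins_rev D hF hj
  have h1 := hQ F₀ k' L x₀ H u _ b a (-c) hx hx0 hxt hxa hH hHt hHa hu hua hF' hj'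
  rwa [phi_rev] at h1

/-- **the place**. -/
theorem exists_val {P : Ideal (MvPolynomial (Cx J (N2 D)) k)} (hE : (Ideal.span D.E).IsPrime)
    {F₀ k' : Type u} [Field F₀] [Field k'] [Algebra k F₀] [Algebra k k'] [Algebra F₀ k']
    [IsScalarTower k F₀ k'] {x₀ : ∀ i, J i → F₀} (hx : OnZ' D.E x₀)
    (hxt : TrGe k (ent x₀) (nn D)) {H : ∀ i, J i → k'[X]} (hH : Gen (N2 D) P F₀ H)
    {a : ∀ i, J i → k} (ha : OnX D.E a) {H₀ : ∀ i, J i → k[X]} (hH₀ : InC (N2 D) P H₀) :
    ∃ V : ValuationSubring k', (∀ c : k, algebraMap k k' c ∈ V) ∧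
      ∀ r : MvPolynomial ((Σ i, J i) ⊕ Cx J (N2 D)) k,
        MvPolynomial.aeval (Sum.elim (fun s : Σ i, J i => algebraMap F₀ k' (x₀ s.1 s.2))
          (cfv (N2 D) H)) r - algebraMap k k' (MvPolynomial.aeval
            (Sum.elim (fun s : Σ i, J i => a s.1 s.2) (cfv (N2 D) H₀)) r) ∈ V.nonunits := by
  let ψ : MvPolynomial ((Σ i, J i) ⊕ Cx J (N2 D)) k →ₐ[k] k' :=
    MvPolynomial.aeval (Sum.elim (fun s : Σ i, J i => algebraMap F₀ k' (x₀ s.1 s.2))
      (cfv (N2 D) H))
  let θ : MvPolynomial ((Σ i, J i) ⊕ Cx J (N2 D)) k →ₐ[k] k :=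
    MvPolynomial.aeval (Sum.elim (fun s : Σ i, J i => a s.1 s.2) (cfv (N2 D) H₀))
  have hspec : ∀ r, (ψ : MvPolynomial ((Σ i, J i) ⊕ Cx J (N2 D)) k →+* k') r = 0 →
      (θ : MvPolynomial ((Σ i, J i) ⊕ Cx J (N2 D)) k →+* k) r = 0 := by
    intro r hr
    -- first step: specialise `H`
    let e1 : MvPolynomial ((Σ i, J i) ⊕ Cx J (N2 D)) k →ₐ[k] MvPolynomial (Cx J (N2 D)) F₀ :=
      MvPolynomial.aeval (Sum.elim (fun s : Σ i, J i => MvPolynomial.C (x₀ s.1 s.2)) MvPolynomial.X)
    have h1 : ∀ {B : Type u} [Field B] [Algebra k B] [Algebra F₀ B] [IsScalarTower k F₀ B]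
        (z : Cx J (N2 D) → B) (r : MvPolynomial ((Σ i, J i) ⊕ Cx J (N2 D)) k),
        MvPolynomial.aeval z (e1 r) = MvPolynomial.aeval (Sum.elim
          (fun s : Σ i, J i => algebraMap F₀ B (x₀ s.1 s.2)) z) r := by
      intro B _ _ _ _ z r
      have h : ((MvPolynomial.aeval z : MvPolynomial (Cx J (N2 D)) F₀ →ₐ[F₀] B).restrictScalars
          k).comp e1 = MvPolynomial.aeval (Sum.elim
            (fun s : Σ i, J i => algebraMap F₀ B (x₀ s.1 s.2)) z) := by
        refine MvPolynomial.algHom_ext fun x => ?_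
        rcases x with x | x
        · simp [e1]
        · simp [e1]
      exact DFunLike.congr_fun h r
    have h2 : MvPolynomial.aeval (cfv (N2 D) H) (e1 r) = 0 := by
      rw [h1]; exact hr
    have h3 := (hH.iff _).1 h2
    have h4 : ∀ p ∈ P, MvPolynomial.aeval (fun z => algebraMap k F₀ (cfv (N2 D) H₀ z)) p = 0 := by
      intro p hp
      have := MvPolynomial.aeval_algebraMap_apply (B := F₀) (cfv (N2 D) H₀) p
      rw [hH₀.mem p hp, map_zero] at this
      exact this
    have h5 := Irr_33.eval_of_mem_map (K := F₀) h3 h4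
    rw [h1] at h5
    -- second step: specialise `x₀`
    let e2 : MvPolynomial ((Σ i, J i) ⊕ Cx J (N2 D)) k →ₐ[k] MvPolynomial (Σ i, J i) k :=
      MvPolynomial.aeval (Sum.elim MvPolynomial.X (fun z => MvPolynomial.C (cfv (N2 D) H₀ z)))
    have h6 : ∀ {B : Type u} [Field B] [Algebra k B] (y : ∀ i, J i → B)
        (r : MvPolynomial ((Σ i, J i) ⊕ Cx J (N2 D)) k),
        MvPolynomial.aeval (fun s : Σ i, J i => y s.1 s.2) (e2 r) = MvPolynomial.aeval (Sum.elim
          (fun s : Σ i, J i => y s.1 s.2) (fun z => algebraMap k B (cfv (N2 D) H₀ z))) r := by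
      intro B _ _ y r
      have h : ((MvPolynomial.aeval (fun s : Σ i, J i => y s.1 s.2) :
          MvPolynomial (Σ i, J i) k →ₐ[k] B)).comp e2 = MvPolynomial.aeval (Sum.elim
            (fun s : Σ i, J i => y s.1 s.2) (fun z => algebraMap k B (cfv (N2 D) H₀ z))) := by
        refine MvPolynomial.algHom_ext fun x => ?_
        rcases x with x | x
        · simp [e2]
        · simp [e2]
      exact DFunLike.congr_fun h r
    have h7 : MvPolynomial.aeval (fun s : Σ i, J i => x₀ s.1 s.2) (e2 r) = 0 := by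
      rw [h6]; exact h5
    have h8 := Irr_33.specialise hE (fun K _ _ g hg hg0 => (D.tan_dim K g hg hg0).le) hx.1 hx.2 hxt
      (A := k) (y := a) ha _ h7
    rw [h6] at h8
    exact h8
  obtain ⟨V, hV, hiff⟩ := Prop_703.exists_place (ψ : MvPolynomial ((Σ i, J i) ⊕ Cx J (N2 D)) k →+* k')
    (θ : MvPolynomial ((Σ i, J i) ⊕ Cx J (N2 D)) k →+* k) hspec
  refine ⟨V, fun c => ?_, fun r => ?_⟩
  · have := hV (MvPolynomial.C c)
    have h1 : (ψ : MvPolynomial ((Σ i, J i) ⊕ Cx J (N2 D)) k →+* k') (MvPolynomial.C c) = algebraMap k k' c := by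
      change ψ (MvPolynomial.C c) = _
      rw [← MvPolynomial.algebraMap_eq, AlgHom.commutes]
    rwa [h1] at this
  · have h1 := (hiff (r - MvPolynomial.C (θ r))).1 (by
      change θ (r - MvPolynomial.C (θ r)) = 0
      rw [map_sub, ← MvPolynomial.algebraMap_eq, AlgHom.commutes]
      exact sub_self _)
    have h2 : (ψ : MvPolynomial ((Σ i, J i) ⊕ Cx J (N2 D)) k →+* k') (r - MvPolynomial.C (θ r)) = ψ r - algebraMap k k' (θ r) := by
      change ψ (r - MvPolynomial.C (θ r)) = _
      rw [map_sub, ← MvPolynomial.algebraMap_eq, AlgHom.commutes]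
    rw [ValuationSubring.mem_nonunits_iff_exists_mem_maximalIdeal]
    have h3 := hV (r - MvPolynomial.C (θ r))
    rw [h2] at h3
    refine ⟨h3, ?_⟩
    convert h1 using 2
    exact h2.symm

/-- the universal pair (point, tuple in the second slot) -/
noncomputable def xU : PIdx J → (MvPolynomial ((Σ i, J i) ⊕ Cx J (N2 D)) k)[X] :=
  pr (fun i j => C (MvPolynomial.X (Sum.inl ⟨i, j⟩)))
    (tup (N2 D) (fun z => MvPolynomial.X (Sum.inr z)))

theorem coeff_univ (Q : Polynomial (MvPolynomial (PIdx J) k)) {A : Type u} [Field A]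
    [Algebra k A] (v : ∀ i, J i → A) {F : ∀ i, J i → A[X]}
    (hF : ∀ i j, (F i j).natDegree ≤ N2 D i) (m n : ℕ) :
    ((Pv Q (pr (fun i j => C (v i j)) F)).coeff m).coeff n =
      MvPolynomial.aeval (Sum.elim (fun s : Σ i, J i => v s.1 s.2) (cfv (N2 D) F))
        (((Pv Q (xU D)).coeff m).coeff n) := by
  let e : MvPolynomial ((Σ i, J i) ⊕ Cx J (N2 D)) k →ₐ[k] A :=
    MvPolynomial.aeval (Sum.elim (fun s : Σ i, J i => v s.1 s.2) (cfv (N2 D) F))
  let E : (MvPolynomial ((Σ i, J i) ⊕ Cx J (N2 D)) k)[X] →ₐ[k] A[X] := Polynomial.mapAlgHom e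
  have h1 := Pv_map Q E (xU D)
  have h2 : (fun s => E (xU D s)) = pr (fun i j => C (v i j)) F := by
    funext s
    rcases s with ⟨i, j⟩ | ⟨i, j⟩
    · change (C (MvPolynomial.X (Sum.inl ⟨i, j⟩)) : (MvPolynomial ((Σ i, J i) ⊕ Cx J (N2 D)) k)[X]).map
        (e : MvPolynomial ((Σ i, J i) ⊕ Cx J (N2 D)) k →+* A) = _
      rw [map_C]
      change C (e (MvPolynomial.X _)) = _
      simp only [e, MvPolynomial.aeval_X]
      rfl
    · change (tup (N2 D) (fun z => (MvPolynomial.X (Sum.inr z) :
        MvPolynomial ((Σ i, J i) ⊕ Cx J (N2 D)) k)) i j).map (e : MvPolynomial ((Σ i, J i) ⊕ Cx J (N2 D)) k →+* A) = _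
      rw [map_tup]
      have h3 : (fun z => (e : MvPolynomial ((Σ i, J i) ⊕ Cx J (N2 D)) k →+* A) (MvPolynomial.X (Sum.inr z) :
          MvPolynomial ((Σ i, J i) ⊕ Cx J (N2 D)) k)) = cfv (N2 D) F := by
        funext z
        change e (MvPolynomial.X _) = _
        simp only [e, MvPolynomial.aeval_X]
        rfl
      rw [h3, tup_cfv _ hF]
      rfl
  rw [h2] at h1
  rw [← h1, coeff_map]
  change (Polynomial.map (e : MvPolynomial ((Σ i, J i) ⊕ Cx J (N2 D)) k →+* A) ((Pv Q (xU D)).coeff m)).coeff n = _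
  rw [coeff_map]
  rfl

/-- **all conics of the family over `k`**: `Q(a, H₀(X); T)` is a product of linear factors with
quadratic roots. -/
theorem splits {P : Ideal (MvPolynomial (Cx J (N2 D)) k)}
    {Q : Polynomial (MvPolynomial (PIdx J) k)} (hE : (Ideal.span D.E).IsPrime)
    (hne : ∃ v : ∀ i, J i → k, OnZ' D.E v) (hex : ExGenP (N2 D) P) (hmap : GenMapP D P)
    (htr : GenTrP D P) (hL : Lft2 D P Q) {a : ∀ i, J i → k} (ha : OnX D.E a)
    {H₀ : ∀ i, J i → k[X]} (hH₀ : InC (N2 D) P H₀)
    (hne0 : Pv Q (pr (fun i j => C (a i j)) H₀) ≠ 0) :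
    SplitsLE 2 (Pv Q (pr (fun i j => C (a i j)) H₀)) := by
  obtain ⟨F₀, _, _, i1, i2, i3, x₀, hx, hx0, hxt, hxa⟩ := Gpt_33.exists_gen_pt D hE hne k
  have hi : i2 = i1 := by
    refine Algebra.algebra_ext _ _ fun r => ?_
    exact (@IsScalarTower.algebraMap_apply k k F₀ _ _ _ (Algebra.id k) i2 i1 i3 r).symm
  subst hi
  obtain ⟨k', _, _, _, _, _, H, hH, hHa⟩ := hex F₀
  obtain ⟨hHm, hHc, -⟩ := hmap F₀ k' H hH
  have hHt := htr F₀ k' H hH
  have hHcon : Con D (FC D P) H := ⟨hHm, hHc, Gp_169.inC_of_gen hH⟩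
  obtain ⟨L, _, _, _, u, hu, hua⟩ := exists_trans k'
  let _ : Algebra k L := ((algebraMap k' L).comp (algebraMap k k')).toAlgebra
  let _ : Algebra F₀ L := ((algebraMap k' L).comp (algebraMap F₀ k')).toAlgebra
  have t1 : IsScalarTower k k' L := IsScalarTower.of_algebraMap_eq fun _ => rfl
  have t2 : IsScalarTower F₀ k' L := IsScalarTower.of_algebraMap_eq fun _ => rfl
  have t3 : IsScalarTower k F₀ L := IsScalarTower.of_algebraMap_eq fun r => by
    change algebraMap k' L (algebraMap k k' r) = algebraMap k' L (algebraMap F₀ k' _)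
    rw [← IsScalarTower.algebraMap_apply k F₀ k']
  obtain ⟨hL1, hL2⟩ := hL F₀ k' L x₀ H u hx hx0 hxt hxa hHcon hHt hHa hu hua
  -- the generic polynomial
  set Q1 : k'[X][X] := Pv Q (pr (fun i j => C (algebraMap F₀ k' (x₀ i j))) H) with hQ1
  let j : k'[X] →ₐ[k] L := (Polynomial.aeval u : k'[X] →ₐ[k'] L).restrictScalars k
  have hjinj : Function.Injective (j : k'[X] →+* L) := by
    have := transcendental_iff_injective.1 hu
    exact this
  have hQ1map : Q1.map (j : k'[X] →+* L) = Pv Q (pr (up L x₀) (at' H u)) := by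
    rw [hQ1, Pv_map]
    congr 1
    funext s
    rcases s with s | s
    · change aeval u (C (algebraMap F₀ k' (x₀ s.1 s.2))) = _
      rw [aeval_C, ← IsScalarTower.algebraMap_apply]
      rfl
    · rfl
  have hQ1s : SplitsLE 2 Q1 := by
    refine SplitsLE.of_roots (j : k'[X] →+* L) hjinj 2 Q1 (fun h0 => hL1 ?_) fun r hr => ?_
    · rw [← hQ1map, h0, Polynomial.map_zero]
    · rw [← eval_map, hQ1map] at hr
      exact hL2 r hr
  obtain ⟨V, hVk, hV⟩ := exists_val D hE ⟨hx, hx0⟩ hxt hH ha hH₀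
  refine SplitsLE.spec_alg V hVk 2 Q1 _ (fun m n => ?_) hQ1s hne0
  rw [hQ1, coeff_univ D Q _ (hH.deg) m n, coeff_univ D Q _ (hH₀.deg) m n]
  exact hV _

end Crest.Agent.R260.Fin11_600
end

-- ▼ part R260/Fin3_600
section

/-!
Row 260 (S0398), AG-FINAL (B'): the analytic form of SPEC-QUAD over `ℂ`.
-/

namespace Crest.Agent.R260.Fin3_600

open Polynomial Crest.Agent.R260.Fin2_600

universe u

/-- a product of analytic functions vanishing on a connected open set has a vanishing factor. -/
theorem prod_zero {V : Set ℂ} (hV : IsPreconnected V) (hne : V.Nonempty) {ι : Type*} (s : Finset ι)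
    (g : ι → ℂ → ℂ) (hg : ∀ i ∈ s, AnalyticOnNhd ℂ (g i) V)
    (h : ∀ u ∈ V, ∏ i ∈ s, g i u = 0) : ∃ i ∈ s, ∀ u ∈ V, g i u = 0 := by
  classical
  induction s using Finset.induction_on with
  | empty =>
    obtain ⟨u, hu⟩ := hne
    simpa using h u hu
  | insert a s ha ih =>
    have h1 := AnalyticOnNhd.eq_zero_or_eq_zero_of_mul_eq_zero
      (f := g a) (g := fun u => ∏ i ∈ s, g i u)
      (hg a (Finset.mem_insert_self _ _))
      (by
        have := Finset.analyticOnNhd_fun_prod s (f := g) (s := V)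
          (fun i hi => hg i (Finset.mem_insert_of_mem hi))
        exact this)
      (fun u hu => by
        have := h u hu
        rwa [Finset.prod_insert ha] at this) hV
    rcases h1 with h1 | h1
    · exact ⟨a, Finset.mem_insert_self _ _, h1⟩
    · obtain ⟨i, hi, hi'⟩ := ih (fun i hi => hg i (Finset.mem_insert_of_mem hi)) h1
      exact ⟨i, Finset.mem_insert_of_mem hi, hi'⟩


end Crest.Agent.R260.Fin3_600
end

-- ▼ part R260/Fge_33
section

/-!
# Row 260, GENFAM (F1) (helper33): generic members of the family over any extension of `k`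
-/

set_option autoImplicit false
set_option linter.all false

namespace Crest.Agent.R260.Fge_33

open MvPolynomial Module
open Crest.Agent.R270.BM_360 Crest.Agent.R260.Lin_678
  Crest.Agent.R260.QuadDefs_517 Crest.Agent.R260.Fam_919 Crest.Agent.R260.Mob_919

universe u v

/-- generic point of a prime ideal of polynomials over any extension of the algebraically closed
base field, with values in an algebraically closed field algebraic over the generic point. -/
theorem exists_gen_abs {k : Type u} [Field k] [IsAlgClosed k] {σ : Type} [Finite σ]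
    {P : Ideal (MvPolynomial σ k)} (hP : P.IsPrime) (F : Type u) [Field F] [Algebra k F] :
    ∃ (κ : Type u) (_ : Field κ) (_ : IsAlgClosed κ) (_ : Algebra k κ) (_ : Algebra F κ)
      (_ : IsScalarTower k F κ) (x : σ → κ), (∀ p : MvPolynomial σ F, aeval x p = 0 ↔
        p ∈ P.map (MvPolynomial.map (algebraMap k F))) ∧
      Algebra.IsAlgebraic (IntermediateField.adjoin F (Set.range x)) κ := by
  let P' : Ideal (MvPolynomial σ F) := P.map
    (MvPolynomial.map (algebraMap k F) : MvPolynomial σ k →+* MvPolynomial σ F)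
  have hPP : P'.IsPrime := Irr_33.isPrime_map (K := F) hP
  let A := MvPolynomial σ F ⧸ P'
  have : IsDomain A := Ideal.Quotient.isDomain P'
  let K := FractionRing A
  let κ := AlgebraicClosure K
  have htow : IsScalarTower k F κ := inferInstance
  let φ : A →ₐ[F] κ := (IsScalarTower.toAlgHom F K κ).comp (IsScalarTower.toAlgHom F A K)
  have hφi : Function.Injective φ :=
    ((algebraMap K κ).injective).comp (IsFractionRing.injective A K)
  let x : σ → κ := fun i => φ (Ideal.Quotient.mk P' (X i))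
  have hx : ∀ q : MvPolynomial σ F, aeval x q = φ (Ideal.Quotient.mk P' q) := by
    intro q
    have h1 : (aeval x : MvPolynomial σ F →ₐ[F] κ) = φ.comp (Ideal.Quotient.mkₐ F P') := by
      refine algHom_ext fun y => ?_
      rw [aeval_X]
      rfl
    rw [h1]
    rfl
  refine ⟨κ, inferInstance, inferInstance, inferInstance, inferInstance, htow, x, ?_, ?_⟩
  · intro q
    rw [hx]
    constructor
    · intro hq
      exact Ideal.Quotient.eq_zero_iff_mem.1 (hφi (hq.trans (map_zero φ).symm))
    · intro hq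
      rw [Ideal.Quotient.eq_zero_iff_mem.2 hq, map_zero]
  · have hA : ∀ a : A, φ a ∈ IntermediateField.adjoin F (Set.range x) := by
      intro a
      obtain ⟨q, rfl⟩ := Ideal.Quotient.mk_surjective a
      rw [← hx]
      have h3 : Algebra.adjoin F (Set.range x) ≤
          (IntermediateField.adjoin F (Set.range x)).toSubalgebra := by
        rw [Algebra.adjoin_le_iff]
        exact IntermediateField.subset_adjoin F _
      refine h3 ?_
      rw [Algebra.adjoin_range_eq_range_aeval]
      exact ⟨q, rfl⟩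
    have hK : ∀ z : K, algebraMap K κ z ∈ IntermediateField.adjoin F (Set.range x) := by
      intro z
      obtain ⟨a, b, hb, rfl⟩ := IsFractionRing.div_surjective (A := A) z
      rw [map_div₀]
      exact div_mem (hA a) (hA b)
    let ψ : K →+* IntermediateField.adjoin F (Set.range x) :=
      (algebraMap K κ).codRestrict _ hK
    let _ : Algebra K (IntermediateField.adjoin F (Set.range x)) := ψ.toAlgebra
    have : IsScalarTower K (IntermediateField.adjoin F (Set.range x)) κ :=
      IsScalarTower.of_algebraMap_eq fun z => rfl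
    exact Algebra.IsAlgebraic.tower_top (K := K) (IntermediateField.adjoin F (Set.range x))

section main

variable {I : Type} {J : I → Type} [Fintype I] [∀ i, Fintype (J i)] {k : Type u} [Field k]

/-- **(F1)** of `FamP_919`: generic members exist over every field. -/
theorem exists_gen [IsAlgClosed k] {N : I → ℕ} {P : Ideal (MvPolynomial (Cx J N) k)}
    (hP : P.IsPrime) : ExGenP N P := by
  intro F₀ _ _
  obtain ⟨κ, f1, f2, f3, f4, f5, x, hx, halg⟩ := exists_gen_abs hP F₀
  refine ⟨κ, f1, f2, f3, f4, f5, univT N x, ⟨natDegree_univT_le N x, fun p => ?_⟩, ?_⟩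
  · rw [cfv_univT]
    exact hx p
  · have h1 : Set.range x ⊆ coeffs (univT N x) := by
      rintro _ ⟨y, rfl⟩
      refine ⟨y.1.1, y.1.2, y.2, ?_⟩
      exact congrFun (cfv_univT N x) y
    have h2 : IntermediateField.adjoin F₀ (Set.range x) ≤
        IntermediateField.adjoin F₀ (coeffs (univT N x)) :=
      IntermediateField.adjoin.mono _ _ _ h1
    let _ : Algebra (IntermediateField.adjoin F₀ (Set.range x))
        (IntermediateField.adjoin F₀ (coeffs (univT N x))) :=
      (IntermediateField.inclusion h2).toRingHom.toAlgebra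
    have : IsScalarTower (IntermediateField.adjoin F₀ (Set.range x))
        (IntermediateField.adjoin F₀ (coeffs (univT N x))) κ :=
      IsScalarTower.of_algebraMap_eq fun z => rfl
    exact Algebra.IsAlgebraic.tower_top (K := IntermediateField.adjoin F₀ (Set.range x)) _

end main

end Crest.Agent.R260.Fge_33
end

-- ▼ part R260/Fam3_919
section

/-!
# Row 260 (S0398), GENFAM (F0) (helper919): existence of the irreducible family
-/

set_option autoImplicit false
set_option linter.unusedSectionVars false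

namespace Crest.Agent.R260.Fam_919

open Polynomial Topology
open Crest.Agent.R270.BM_360 Crest.Agent.R260.Lin_678 Crest.Agent.R260.Mob_919

variable {I : Type} {J : I → Type} [Fintype I] [∀ i, Fintype (J i)]

theorem natDegree_le_of_cls {κ : Type*} [Field κ] {F : ∀ i, J i → κ[X]} {N : I → ℕ}
    (h : cls F = N) (i : I) (x : J i) : (F i x).natDegree ≤ N i := by
  rw [← h]
  exact Finset.le_sup (f := fun a => (F i a).natDegree) (Finset.mem_univ x)

/-- the common zero condition is closed. -/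
theorem TT_eventually_ne {X : Type*} [TopologicalSpace X] (N : I → ℕ) {F : X → ∀ i, J i → ℂ[X]}
    {U : Set X} (hU : IsOpen U) (hdeg : ∀ x ∈ U, ∀ i a, (F x i a).natDegree ≤ N i)
    (hcont : ∀ i a n, ContinuousOn (fun x => (F x i a).coeff n) U)
    (p : MvPolynomial (Cx J N) ℂ) {x : X} (hx : x ∈ U) (hp : TT N (F x) p ≠ 0) :
    ∀ᶠ y in 𝓝 x, TT N (F y) p ≠ 0 := by
  have h1 : ∃ e : Fin 4 ⊕ I → ℂ, MvPolynomial.eval e (TT N (F x) p) ≠ 0 := by
    by_contra hcon
    push Not at hcon
    apply hp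
    apply MvPolynomial.funext
    intro e
    rw [hcon e, map_zero]
  obtain ⟨e, he⟩ := h1
  have key : ∀ y, (∀ i a, (F y i a).natDegree ≤ N i) → MvPolynomial.eval e (TT N (F y) p)
      = MvPolynomial.eval₂ ((MvPolynomial.aeval (cfv N (F y)) : MvPolynomial (Cx J N) ℂ →ₐ[ℂ] ℂ) :
        MvPolynomial (Cx J N) ℂ →+* ℂ) e (Psi ℂ N p) := by
    intro y hy
    have h2 := aeval_act_of_TT (R := ℂ) N (F y) e p
    have h3 : mapT (algebraMap ℂ ℂ) (F y) = F y := by
      funext i y
      simp [mapT]
    rw [h3, aeval_act_eq N hy] at h2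
    rw [h2]
    rfl
  have hcts : ContinuousAt (fun y => MvPolynomial.eval₂
      ((MvPolynomial.aeval (cfv N (F y)) : MvPolynomial (Cx J N) ℂ →ₐ[ℂ] ℂ) :
        MvPolynomial (Cx J N) ℂ →+* ℂ) e (Psi ℂ N p)) x := by
    simp only [MvPolynomial.eval₂_eq']
    refine tendsto_finsetSum _ fun m _ => ?_
    refine Filter.Tendsto.mul_const _ ?_
    have h4 : ContinuousAt (fun y => cfv N (F y)) x := by
      refine continuousAt_pi.2 fun c => ?_
      exact (hcont c.1.1 c.1.2 c.2).continuousAt (hU.mem_nhds hx)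
    have h5 : ContinuousAt (fun c => MvPolynomial.eval c ((Psi ℂ N p).coeff m)) (cfv N (F x)) :=
      (MvPolynomial.continuous_eval ((Psi ℂ N p).coeff m)).continuousAt
    exact ContinuousAt.comp (f := fun y => cfv N (F y)) (x := x) h5 h4
  rw [key x (hdeg x hx)] at he
  filter_upwards [hcts.eventually_ne he, hU.mem_nhds hx] with y hy hyU h0
  apply hy
  rw [← key y (hdeg y hyU), h0, map_zero]

/-- **(F0)** -/
theorem exists_fam (D : CData ℂ I J) {X : Type*} [TopologicalSpace X] {U : Set X}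
    (hU : IsOpen U) (hne : U.Nonempty) (F : X → ∀ i, J i → ℂ[X])
    (hmap : ∀ x ∈ U, IsMap D.E (F x)) (hcls : ∀ x ∈ U, cls (F x) = 2 • D.β)
    {κ : ℂ} (hκ : κ ≠ 0) (hcon : ∀ x ∈ U, D.th.Val (F x) (fun i a => derivative (F x i a)) (C κ))
    (hcont : ∀ i a n, ContinuousOn (fun x => (F x i a).coeff n) U)
    (htot : ∀ Δ : MvPolynomial ((Σ i, J i) ⊕ (Σ i, J i)) ℂ, BH Δ →
      (∃ v v' : ∀ i, J i → ℂ, OnX D.E v ∧ (∀ i, v i ≠ 0) ∧ OnX D.E v' ∧ (∀ i, v' i ≠ 0) ∧
        pval Δ v v' ≠ 0) →
      ∀ V ⊆ U, IsOpen V → V.Nonempty → ∃ x ∈ V, ∃ s t : ℂ,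
        pval Δ (fun i a => (F x i a).eval s) (fun i a => (F x i a).eval t) ≠ 0) :
    ∃ U' ⊆ U, IsOpen U' ∧ U'.Nonempty ∧
      ∃ P : Ideal (MvPolynomial (Cx J (fun i => 2 * D.β i)) ℂ), Fam D P ∧
        ∀ x ∈ U', InC (fun i => 2 * D.β i) P (F x) := by
  have hdeg : ∀ x ∈ U, ∀ i a, (F x i a).natDegree ≤ 2 * D.β i := by
    intro x hx i a
    have h1 : cls (F x) = (fun i => 2 * D.β i) := by
      rw [hcls x hx]
      funext i
      simp
    exact natDegree_le_of_cls h1 i a
  set N : I → ℕ := fun i => 2 * D.β i with hN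
  obtain ⟨V, hV, hVne, hVU, hprime, -⟩ := GenFam_919.exists_prime
    (fun x => (TT N (F x) : MvPolynomial (Cx J N) ℂ →+* MvPolynomial (Fin 4 ⊕ I) ℂ)) hU hne
    (fun p x hx hp => TT_eventually_ne N hU hdeg hcont p hx hp)
  refine ⟨V, hVU, hV, hVne, PW N F V, ?_, ?_⟩
  · refine ⟨hprime, ?_, ?_, ?_, ?_⟩
    · intro R _ _ G hG μ a b c d
      exact PW_inv N hG (Sum.elim ![a, b, c, d] μ)
    · intro R _ _ G hG
      exact PW_onX N D.hom (fun x hx => hdeg x (hVU hx)) (fun x hx => (hmap x (hVU hx)).on) hG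
    · obtain ⟨x, hx⟩ := hVne
      exact ⟨F x, inC_of_mem N hx (hdeg x (hVU hx)), hmap x (hVU hx), hcls x (hVU hx), κ, hκ,
        hcon x (hVU hx)⟩
    · intro Δ hΔ h v v' hv hv0 hv' hv0'
      by_contra hne'
      obtain ⟨x, hx, s, t, hst⟩ := htot Δ hΔ ⟨v, v', hv, hv0, hv', hv0', hne'⟩ V hVU hV hVne
      exact hst (h (F x) (inC_of_mem N hx (hdeg x (hVU hx))) s t)
  · intro x hx
    exact inC_of_mem N hx (hdeg x (hVU hx))

end Crest.Agent.R260.Fam_919
end

-- ▼ part R260/Fm3_323

/-!
# Row 260 (S0398), GENFAM (F3) (helper323): the generic member of the family is a transversal map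

`gen_map (hF : Fam D P) [IsAlgClosed k] : GenMapP D P`.
-/

set_option autoImplicit false
set_option linter.unusedSectionVars false

namespace Crest.Agent.R260.Fm3_323

open Polynomial
open Crest.Agent.R270.BM_360 Crest.Agent.R260.Lin_678 Crest.Agent.R260.QuadDefs_517
open Crest.Agent.R260.Fam_919

universe u

variable {I : Type} {J : I → Type} [Fintype I] [∀ i, Fintype (J i)] {k : Type u} [Field k]

section Gen

variable {N : I → ℕ} {P : Ideal (MvPolynomial (Cx J N) k)} {F₀ κ : Type u} [Field F₀] [Field κ]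
  [Algebra k F₀] [Algebra k κ] [Algebra F₀ κ] [IsScalarTower k F₀ κ] {H : ∀ i, J i → κ[X]}

theorem aeval_map_gen (v : Cx J N → κ) (p : MvPolynomial (Cx J N) k) :
    MvPolynomial.aeval v (MvPolynomial.map (algebraMap k F₀) p) = MvPolynomial.aeval v p := by
  rw [MvPolynomial.aeval_map_algebraMap]

theorem inC_of_gen (h : Gen N P F₀ H) : InC N P H where
  deg := h.deg
  mem p hp := by
    rw [← aeval_map_gen (F₀ := F₀)]
    exact (h.iff _).2 (Ideal.mem_map_of_mem _ hp)

/-- relations over `k` of the generic member -/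
theorem gen_spec [IsAlgClosed k] (hP : P.IsPrime) (h : Gen N P F₀ H)
    {p : MvPolynomial (Cx J N) k} (hp : MvPolynomial.aeval (cfv N H) p = 0) : p ∈ P := by
  rw [← aeval_map_gen (F₀ := F₀)] at hp
  exact Irr_33.mem_of_map_mem hP ((h.iff _).1 hp)

end Gen

/-! ### common roots -/

theorem not_cop {κ : Type u} [Field κ] {T : Type} {f : T → κ[X]} (h : ¬ Cop f) :
    ∃ t : AlgebraicClosure κ, ∀ x, aeval t (f x) = 0 := by
  unfold Cop at h
  obtain ⟨d, hd⟩ : ∃ d, Ideal.span (Set.range f) = Ideal.span {d} :=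
    ⟨_, (Ideal.span_singleton_generator _).symm⟩
  have hdx : ∀ x, d ∣ f x := fun x => by
    rw [← Ideal.mem_span_singleton, ← hd]
    exact Ideal.subset_span ⟨x, rfl⟩
  by_cases hd0 : d.degree = 0
  · exfalso
    refine h ?_
    rw [hd, Ideal.span_singleton_eq_top]
    exact isUnit_iff_degree_eq_zero.2 hd0
  · obtain ⟨t, ht⟩ := IsAlgClosed.exists_aeval_eq_zero (AlgebraicClosure κ) d hd0
    refine ⟨t, fun x => ?_⟩
    obtain ⟨q, hq⟩ := hdx x
    rw [hq, map_mul, ht, zero_mul]

/-- the alternative root or point at infinity, specialised -/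
theorem place_root {R κ K : Type u} [CommRing R] [Field κ] [Field K] [IsAlgClosed K]
    (ψ : R →+* κ) (θ : R →+* K) (h : ∀ r, ψ r = 0 → θ r = 0) {T : Type*} {N : ℕ}
    (U : T → R[X]) (hU : ∀ x, (U x).natDegree ≤ N) {t : κ}
    (ht : ∀ x, ((U x).map ψ).eval t = 0) :
    (∃ z : K, ∀ x, ((U x).map θ).eval z = 0) ∨ ∀ x, θ ((U x).coeff N) = 0 := by
  obtain ⟨V, hV, hVm⟩ := Prop_703.exists_place ψ θ h
  let ψV : R →+* V := ψ.codRestrict V.toSubring hV
  have hψV : ∀ r, ((ψV r : V) : κ) = ψ r := fun _ => rfl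
  by_cases htV : t ∈ V
  · left
    let ρ : R →+* IsLocalRing.ResidueField V := (IsLocalRing.residue V).comp ψV
    have hρ : ∀ r, ρ r = 0 ↔ θ r = 0 := by
      intro r
      rw [hVm r]
      exact Ideal.Quotient.eq_zero_iff_mem
    obtain ⟨z, hz⟩ := Prop_703.exists_common_root ρ θ hρ (Set.range U)
      (IsLocalRing.residue V ⟨t, htV⟩) (by
        rintro _ ⟨x, rfl⟩
        have h1 : ((U x).map ψV).eval (⟨t, htV⟩ : V) = 0 := by
          refine Subtype.ext ?_
          have h2 : V.subtype (((U x).map ψV).eval (⟨t, htV⟩ : V)) = ((U x).map ψ).eval t := by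
            rw [← eval₂_hom, eval₂_map, eval_map]
            rfl
          have h3 : V.subtype (((U x).map ψV).eval (⟨t, htV⟩ : V)) = 0 := by
            rw [h2, ht x]
          exact h3
        have h4 := congrArg (IsLocalRing.residue V) h1
        rw [map_zero, ← eval₂_hom, eval₂_map] at h4
        rw [eval_map]
        exact h4)
    exact ⟨z, fun x => hz _ ⟨x, rfl⟩⟩
  · right
    intro x
    have ht0 : t ≠ 0 := fun h0 => htV (h0 ▸ V.zero_mem)
    have hs : t⁻¹ ∈ V := (V.mem_or_inv_mem t).resolve_left htV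
    let s : V := ⟨t⁻¹, hs⟩
    have hsm : s ∈ IsLocalRing.maximalIdeal V := by
      rw [IsLocalRing.mem_maximalIdeal, mem_nonunits_iff]
      intro hu
      obtain ⟨b, hb⟩ := isUnit_iff_exists_inv.1 hu
      refine htV ?_
      have h1 : t⁻¹ * (b : κ) = 1 := congrArg Subtype.val hb
      have h2 : t = b := by
        field_simp at h1
        exact h1.symm
      rw [h2]
      exact b.2
    -- the reversed relation
    have h1 : ∑ j ∈ Finset.range (N + 1), ψV ((U x).coeff j) * s ^ (N - j) = 0 := by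
      refine Subtype.ext ?_
      have h2 : ((∑ j ∈ Finset.range (N + 1), ψV ((U x).coeff j) * s ^ (N - j) : V) : κ) =
          ∑ j ∈ Finset.range (N + 1), ψ ((U x).coeff j) * (t⁻¹) ^ (N - j) := by
        have h3 : ∀ v : V, (v : κ) = V.subtype v := fun _ => rfl
        rw [h3, map_sum]
        exact Finset.sum_congr rfl fun j _ => by rw [map_mul, map_pow]; rfl
      rw [h2]
      have h4 := ht x
      rw [eval_eq_sum_range' (Nat.lt_succ_of_le (natDegree_map_le.trans (hU x)))] at h4
      have h5 : ∀ j ∈ Finset.range (N + 1), ψ ((U x).coeff j) * (t⁻¹) ^ (N - j) =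
          (t⁻¹) ^ N * (((U x).map ψ).coeff j * t ^ j) := by
        intro j hj
        have hj' : j ≤ N := Nat.lt_succ_iff.1 (Finset.mem_range.1 hj)
        have h6 : (t⁻¹) ^ N = (t⁻¹) ^ (N - j) * (t⁻¹) ^ j := by
          rw [← pow_add, Nat.sub_add_cancel hj']
        have h7 : (t⁻¹) ^ j * t ^ j = 1 := by
          rw [← mul_pow, inv_mul_cancel₀ ht0, one_pow]
        rw [coeff_map, h6]
        linear_combination (-(ψ ((U x).coeff j) * (t⁻¹) ^ (N - j))) * h7
      rw [Finset.sum_congr rfl h5, ← Finset.mul_sum, h4, mul_zero]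
      rfl
    rw [Finset.sum_range_succ, Nat.sub_self, pow_zero, mul_one] at h1
    rw [hVm]
    have h8 : ψV ((U x).coeff N) =
        - ∑ j ∈ Finset.range N, ψV ((U x).coeff j) * s ^ (N - j) := by
      rw [eq_neg_iff_add_eq_zero, add_comm]
      exact h1
    have h9 : ψV ((U x).coeff N) ∈ IsLocalRing.maximalIdeal V := by
      rw [h8]
      refine neg_mem (Ideal.sum_mem _ fun j hj => Ideal.mul_mem_left _ _ ?_)
      refine Ideal.pow_mem_of_mem _ hsm _ ?_
      have := Finset.mem_range.1 hj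
      omega
    exact h9

/-! ### the generic member -/

section Main

variable {D : CData k I J} {P : Ideal (MvPolynomial (Cx J (fun i => 2 * D.β i)) k)}

theorem coeff_top {κ : Type u} [Field κ] [Algebra k κ] {F : ∀ i, J i → κ[X]}
    (hcls : cls F = 2 • D.β) (i : I) : ∃ x, (F i x).coeff (2 * D.β i) ≠ 0 := by
  have h1 : vdeg (F i) = 2 * D.β i := congrFun hcls i
  have hpos : 0 < 2 * D.β i := by have := D.β_pos i; omega
  by_contra hcon
  push Not at hcon
  have h2 : ∀ x, (F i x).natDegree < 2 * D.β i := by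
    intro x
    have h3 : (F i x).natDegree ≤ 2 * D.β i := by
      rw [← h1]
      exact Finset.le_sup (f := fun a => (F i a).natDegree) (Finset.mem_univ x)
    refine lt_of_le_of_ne h3 fun h4 => ?_
    have h5 := hcon x
    rw [← h4] at h5
    have h6 : F i x = 0 := leadingCoeff_eq_zero.1 h5
    rw [h6, natDegree_zero] at h4
    omega
  have h3 : vdeg (F i) < 2 * D.β i := (Finset.sup_lt_iff hpos).2 fun x _ => h2 x
  omega

/-- **(F3)** -/
theorem gen_map [IsAlgClosed k] (hF : Fam D P) : GenMapP D P := by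
  classical
  intro F₀ κ _ _ _ _ _ _ H hH
  obtain ⟨G, hGC, hGM, hGcls, c₀, hc₀, hGc⟩ := hF.good
  have hHC := inC_of_gen hH
  -- specialisation
  let R := MvPolynomial (Cx J (fun i => 2 * D.β i)) k
  let ψ : R →ₐ[k] κ := MvPolynomial.aeval (cfv (fun i => 2 * D.β i) H)
  let θ : R →ₐ[k] k := MvPolynomial.aeval (cfv (fun i => 2 * D.β i) G)
  have hsp : ∀ p : R, ψ p = 0 → θ p = 0 := fun p hp => hGC.mem p (gen_spec hF.prime hH hp)
  let U : ∀ i, J i → R[X] := uni k fun i => 2 * D.β i
  have hUd : ∀ i x, (U i x).natDegree ≤ 2 * D.β i := natDegree_uni_le _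
  have hUH : ∀ i x, (U i x).map (ψ : R →+* κ) = H i x := fun i x =>
    congrFun (congrFun (mapT_uni_aeval _ hH.deg) i) x
  have hUG : ∀ i x, (U i x).map (θ : R →+* k) = G i x := fun i x =>
    congrFun (congrFun (mapT_uni_aeval _ hGC.deg) i) x
  have hUGN : ∀ i, ∃ x, θ ((U i x).coeff (2 * D.β i)) ≠ 0 := by
    intro i
    obtain ⟨x, hx⟩ := coeff_top hGcls i
    refine ⟨x, ?_⟩
    rw [← hUG i x, coeff_map] at hx
    exact hx
  -- coprimality
  have hcop : ∀ i, Cop (H i) := by
    intro i
    by_contra hcon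
    obtain ⟨t, ht⟩ := not_cop hcon
    have h1 := place_root (R := R) (((algebraMap κ (AlgebraicClosure κ)) : κ →+*
      AlgebraicClosure κ).comp (ψ : R →+* κ)) (θ : R →+* k) (fun r hr => hsp r
        ((map_eq_zero_iff _ (algebraMap κ (AlgebraicClosure κ)).injective).1 hr))
      (U i) (hUd i) (t := t) (fun x => by
        rw [← Polynomial.map_map, hUH i x, eval_map]
        exact ht x)
    rcases h1 with ⟨z, hz⟩ | h1
    · have h2 : (1 : k[X]) ∈ Ideal.span (Set.range (G i)) := by
        have h3 : Ideal.span (Set.range (G i)) = ⊤ := hGM.cop i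
        rw [h3]
        trivial
      have h4 : Ideal.span (Set.range (G i)) ≤ RingHom.ker (evalRingHom z) := by
        rw [Ideal.span_le]
        rintro _ ⟨x, rfl⟩
        have h5 := hz x
        rw [hUG i x] at h5
        exact h5
      have h6 := h4 h2
      rw [RingHom.mem_ker, map_one] at h6
      exact one_ne_zero h6
    · obtain ⟨x, hx⟩ := hUGN i
      exact hx (h1 x)
  have hM : IsMap D.E H := ⟨hF.onX κ H hHC, hcop⟩
  -- the class
  have hcls : cls H = 2 • D.β := by
    funext i
    refine le_antisymm ?_ ?_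
    · exact Finset.sup_le fun x _ => hH.deg i x
    · obtain ⟨x, hx⟩ := hUGN i
      have h1 : (H i x).coeff (2 * D.β i) ≠ 0 := by
        intro h0
        refine hx (hsp _ ?_)
        rw [← hUH i x, coeff_map] at h0
        exact h0
      exact (le_natDegree_of_ne_zero h1).trans
        (Finset.le_sup (f := fun a => (H i a).natDegree) (Finset.mem_univ x))
  have he : ∑ i, D.w i * (cls H i : ℤ) = (2 : ℕ) := by
    rw [hcls]
    have h1 : ∀ i, D.w i * (((2 • D.β) i : ℕ) : ℤ) = 2 * (D.w i * (D.β i : ℤ)) := by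
      intro i
      rw [Pi.smul_apply, smul_eq_mul]
      push_cast
      ring
    rw [Finset.sum_congr rfl fun i _ => h1 i, ← Finset.mul_sum, D.wβ]
    norm_num
  obtain ⟨c, hc⟩ := Alg0_661.exists_const D.th hM he
  refine ⟨hM, hcls, c, fun hc0 => ?_, hc⟩
  subst hc0
  -- the form vanishes along `H`, hence along `G`
  have hG0 : ∀ ch : ∀ i, J i, form (D.th.p ch) G (fun i x => derivative (G i x)) = 0 := by
    intro ch
    have h1 : form (D.th.p ch) H (fun i x => derivative (H i x)) = 0 := by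
      have h2 := hc ch
      rw [C_0, mul_zero] at h2
      exact h2.symm
    let Ψ : R[X] →ₐ[k] κ[X] := Polynomial.mapAlgHom ψ
    let Θ : R[X] →ₐ[k] k[X] := Polynomial.mapAlgHom θ
    have hnat : ∀ {B : Type u} [CommRing B] [Algebra k B] (g : R[X] →ₐ[k] B),
        g (form (D.th.p ch) U (fun i x => derivative (U i x))) =
        form (D.th.p ch) (fun i x => g (U i x)) (fun i x => g (derivative (U i x))) := by
      intro B _ _ g
      unfold form
      rw [map_sum]
      refine Finset.sum_congr rfl fun y _ => ?_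
      rw [map_mul]
      congr 1
      exact MvPolynomial.comp_aeval_apply (fun y : Σ i, J i => U y.1 y.2) g (D.th.p ch y)
    have h3 : Ψ (form (D.th.p ch) U (fun i x => derivative (U i x))) = 0 := by
      rw [hnat Ψ, ← h1]
      congr 1
      · funext i x
        exact hUH i x
      · funext i x
        show (derivative (U i x)).map (ψ : R →+* κ) = _
        rw [← derivative_map, hUH i x]
    have h4 : Θ (form (D.th.p ch) U (fun i x => derivative (U i x))) = 0 := by
      refine Polynomial.ext fun j => ?_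
      have h5 := congrArg (fun q => Polynomial.coeff q j) h3
      have h6 : ψ ((form (D.th.p ch) U (fun i x => derivative (U i x))).coeff j) = 0 := by
        have h7 : (Ψ (form (D.th.p ch) U (fun i x => derivative (U i x)))).coeff j =
            ψ ((form (D.th.p ch) U (fun i x => derivative (U i x))).coeff j) :=
          coeff_map (ψ : R →+* κ) j
        rw [← h7]
        exact h5
      have h8 : (Θ (form (D.th.p ch) U (fun i x => derivative (U i x)))).coeff j =
          θ ((form (D.th.p ch) U (fun i x => derivative (U i x))).coeff j) :=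
        coeff_map (θ : R →+* k) j
      rw [h8, hsp _ h6, coeff_zero]
    rw [hnat Θ] at h4
    rw [← h4]
    congr 1
    · funext i x
      exact (hUG i x).symm
    · funext i x
      show _ = (derivative (U i x)).map (θ : R →+* k)
      rw [← derivative_map, hUG i x]
  -- a chart
  have hch : ∀ i, ∃ x, G i x ≠ 0 := by
    intro i
    obtain ⟨x, hx⟩ := coeff_top hGcls i
    exact ⟨x, fun h0 => hx (by rw [h0, coeff_zero])⟩
  choose ch hch using hch
  have h1 := hGc ch
  rw [hG0 ch] at h1
  have h2 : den ch G ≠ 0 := Finset.prod_ne_zero_iff.2 fun i _ => hch i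
  rcases mul_eq_zero.1 h1 with h3 | h3
  · exact pow_ne_zero _ h2 h3
  · exact hc₀ (C_eq_zero.1 h3)

end Main

end Crest.Agent.R260.Fm3_323
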