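import Mathlib
import Crest.Agent.R260.Sep3_749
import Crest.Agent.R260.QuadDefs_517
import Crest.Agent.R260.Irr2_33
import Crest.Agent.R260.Glu1_749
import Crest.Agent.R260.Prop3_703
import Crest.Agent.R260.Cnt2_749

-- ▼ part R260/Er_703
section

/-!
# Row 260 (S0398), DivP leaf (L3) (helper703): multihomogeneous relations pass to reductions and to
proportional vectors.
-/

set_option autoImplicit false
set_option linter.all false

noncomputable section

namespace Crest.Agent.R260.Er_703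

open Polynomial IsLocalRing
open Crest.Agent.R270.BM_360 Crest.Agent.R260.Lin_678 Crest.Agent.R260.QuadDefs_517
open Crest.Agent.R270.Span_925 (Same)
open Crest.Agent.R270.Sat_422 (RedPt)

universe u

variable {I : Type} {J : I → Type} [Fintype I] [∀ i, Fintype (J i)]

/-- scaling of the blocks in a multihomogeneous polynomial. -/
theorem evv_scale [DecidableEq I] {F₀ A : Type u} [Field F₀] [CommRing A] [Algebra F₀ A]
    (c : I → A) (v : ∀ i, J i → A)
    {p : MvPolynomial (Σ i, J i) F₀} {d : I → ℕ}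
    (hp : MvPolynomial.IsWeightedHomogeneous
      (fun x : Σ i, J i => (Pi.single x.1 1 : I → ℕ)) p d) :
    evv (fun i a => c i * v i a) p = (∏ i, c i ^ d i) * evv v p := by
  classical
  unfold evv
  have hsum : ∑ m ∈ p.support, MvPolynomial.monomial m (p.coeff m) = p :=
    p.support_sum_monomial_coeff
  rw [← hsum, map_sum, map_sum, Finset.mul_sum]
  refine Finset.sum_congr rfl fun m hm => ?_
  have hw : ∀ i, ∑ a, m ⟨i, a⟩ = d i := by
    intro i
    have h1 := hp (MvPolynomial.mem_support_iff.1 hm)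
    have h2 := congrFun h1 i
    rw [← h2, Finsupp.weight_apply, Finsupp.sum_fintype _ _ (by intro x; exact zero_smul _ _),
      Finset.sum_apply, Fintype.sum_sigma, Finset.sum_eq_single i]
    · refine Finset.sum_congr rfl fun a _ => ?_
      simp
    · intro j _ hj
      refine Finset.sum_eq_zero fun a _ => ?_
      simp [Pi.single_apply, hj.symm]
    · simp
  rw [MvPolynomial.aeval_monomial, MvPolynomial.aeval_monomial,
    Finsupp.prod_fintype _ _ (fun _ => pow_zero _), Finsupp.prod_fintype _ _ (fun _ => pow_zero _)]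
  have h3 : ∏ x : Σ i, J i, (c x.1 * v x.1 x.2) ^ m x =
      (∏ i, c i ^ d i) * ∏ x : Σ i, J i, v x.1 x.2 ^ m x := by
    simp only [mul_pow, Finset.prod_mul_distrib]
    congr 1
    rw [Fintype.prod_sigma]
    refine Finset.prod_congr rfl fun i _ => ?_
    show ∏ a, c i ^ m ⟨i, a⟩ = c i ^ d i
    rw [Finset.prod_pow_eq_pow_sum, hw i]
  rw [h3]
  ring

/-- multihomogeneous relations hold for proportional vectors. -/
theorem evv_same {F₀ κ : Type u} [Field F₀] [Field κ] [Algebra F₀ κ] {v w : ∀ i, J i → κ}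
    (h : Same v w) {p : MvPolynomial (Σ i, J i) F₀} (hp : MHm p) (h0 : evv v p = 0) :
    evv w p = 0 := by
  classical
  obtain ⟨c, hc, hw⟩ := h
  obtain ⟨d, hd⟩ := hp
  have h1 : w = fun i a => c i * v i a := by
    funext i a
    exact hw i a
  have hd' : MvPolynomial.IsWeightedHomogeneous
      (fun x : Σ i, J i => (Pi.single x.1 1 : I → ℕ)) p d := by
    convert hd
  rw [h1, evv_scale c v hd', h0, mul_zero]

/-- multihomogeneous relations pass to the reduction of a point. -/
theorem evv_red {F₀ L : Type u} [Field F₀] [Field L] {O : ValuationSubring L} [Algebra F₀ L]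
    [Algebra F₀ O] [IsScalarTower F₀ O L] {v : ∀ i, J i → L}
    {w : ∀ i, J i → IsLocalRing.ResidueField O} (h : RedPt O v w)
    {p : MvPolynomial (Σ i, J i) F₀} (hp : MHm p) (h0 : evv v p = 0) : evv w p = 0 := by
  classical
  obtain ⟨d, hd⟩ := hp
  have hd' : MvPolynomial.IsWeightedHomogeneous
      (fun x : Σ i, J i => (Pi.single x.1 1 : I → ℕ)) p d := by
    convert hd
  choose hw l hl g hg hr using h
  -- the integral representative
  have h1 : evv (fun i a => l i * v i a) p = 0 := by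
    rw [evv_scale l v hd', h0, mul_zero]
  have h2 : algebraMap O L (evv (A := O) (fun i a => g i a) p) = 0 := by
    rw [← h1]
    unfold evv
    have h3 := MvPolynomial.comp_aeval_apply (f := fun x : Σ i, J i => (g x.1 x.2 : O))
      (IsScalarTower.toAlgHom F₀ O L) p
    rw [IsScalarTower.coe_toAlgHom'] at h3
    rw [h3]
    congr 2
    funext x
    exact hg x.1 x.2
  have h4 : evv (A := O) (fun i a => g i a) p = 0 := by
    have hinj : Function.Injective (algebraMap O L) := Subtype.val_injective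
    exact hinj (by rw [h2, map_zero])
  have h5 := congrArg (residue O) h4
  rw [map_zero] at h5
  rw [← h5]
  unfold evv
  have h6 := MvPolynomial.comp_aeval_apply (f := fun x : Σ i, J i => (g x.1 x.2 : O))
    (IsScalarTower.toAlgHom F₀ O (ResidueField O)) p
  rw [IsScalarTower.coe_toAlgHom'] at h6
  have h7 : algebraMap O (ResidueField O) = residue O := rfl
  rw [h7] at h6
  rw [h6]
  congr 2
  funext x
  exact (hr x.1 x.2).symm

end Crest.Agent.R260.Er_703
end
end

-- ▼ part R260/Scal1_661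
section

/-!
# Row 260, (SCAL) (helper661): generic scalars

The literal leaf `ScalP` of `QuadDefs_517`.
-/

set_option autoImplicit false

namespace Crest.Agent.R260.Scal_661

open Crest.Agent.R270.BM_360 Crest.Agent.R260.QuadDefs_517

universe u

/-- an independent family of `r` elements can be extended by `n` elements if there are `r + n`
independent elements. -/
theorem exists_extend {F K : Type u} [Field F] [Field K] [Algebra F K] {r n : ℕ} {w : Fin r → K}
    (hw : AlgebraicIndependent F w) {w' : Fin (r + n) → K} (hw' : AlgebraicIndependent F w') :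
    ∃ μ : Fin n → K, AlgebraicIndependent F (Fin.append w μ) := by
  classical
  obtain ⟨t, hst, ht⟩ := exists_isTranscendenceBasis_superset (R := F) (s := Set.range w)
    hw.to_subtype_range
  have h1 := hw'.lift_cardinalMk_le_trdeg
  rw [← ht.cardinalMk_eq_trdeg, Cardinal.mk_fintype, Fintype.card_fin, Cardinal.lift_natCast,
    Cardinal.lift_id'] at h1
  have h2 : Cardinal.mk (Set.range w) = (r : Cardinal.{u}) := by
    have := Cardinal.mk_range_eq_of_injective hw.injective
    rw [Cardinal.mk_fin, Cardinal.lift_natCast, Cardinal.lift_id'] at this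
    exact this
  have h3 := Cardinal.mk_sdiff_add_mk hst
  rw [h2] at h3
  have h4 : (n : Cardinal.{u}) ≤ Cardinal.mk (t \ Set.range w : Set K) := by
    by_contra hlt
    push Not at hlt
    obtain ⟨d, hd⟩ := Cardinal.lt_aleph0.1 (hlt.trans (Cardinal.natCast_lt_aleph0 (n := n)))
    rw [hd] at hlt h3
    rw [← h3] at h1
    have h5 : r + n ≤ d + r := by exact_mod_cast h1
    have h6 : d < n := by exact_mod_cast hlt
    omega
  have h5 : Cardinal.lift.{u} (Cardinal.mk (Fin n)) ≤
      Cardinal.lift.{0} (Cardinal.mk (t \ Set.range w : Set K)) := by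
    rw [Cardinal.mk_fintype, Fintype.card_fin, Cardinal.lift_natCast, Cardinal.lift_id'.{0, u}]
    exact h4
  obtain ⟨μ⟩ := Cardinal.lift_mk_le'.1 h5
  refine ⟨fun j => (μ j : K), ?_⟩
  let e : Fin (r + n) → t := Fin.append (fun j => ⟨w j, hst ⟨j, rfl⟩⟩)
    (fun j => ⟨(μ j : K), (μ j).2.1⟩)
  have he : Function.Injective e := by
    rw [Fin.append_injective_iff]
    refine ⟨fun i j h => hw.injective (congrArg Subtype.val h),
      fun i j h => μ.injective (Subtype.ext (Subtype.mk.inj h)), fun i j h => ?_⟩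
    exact (μ j).2.2 ⟨i, congrArg Subtype.val h⟩
  have h6 : (fun j => ((e j : t) : K)) = Fin.append w fun j => (μ j : K) := by
    funext j
    refine Fin.addCases (fun j => ?_) (fun j => ?_) j
    · simp [e]
    · simp [e]
  rw [← h6]
  exact ht.1.comp e he

variable {I : Type} {J : I → Type} [Fintype I] [∀ i, Fintype (J i)]

omit [Fintype I] [∀ i, Fintype (J i)] in
theorem exists_ne {A : Type u} [Field A] {q : ∀ i, J i → A} (hq : ∀ i, q i ≠ 0) :
    ∃ b : ∀ i, J i, ∀ i, q i (b i) ≠ 0 := by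
  have h : ∀ i, ∃ b, q i b ≠ 0 := fun i => by
    by_contra h
    push Not at h
    exact hq i (funext h)
  choose b hb using h
  exact ⟨b, hb⟩

/-- **(SCAL)** of `QuadDefs_517`. -/
theorem scalP : ScalP.{u} I J := by
  intro F₀ k' _ _ _ _ _ q r hq hr hn
  obtain ⟨w, hw, hwi⟩ := hr
  obtain ⟨w', _, hwi'⟩ := hn
  obtain ⟨μ, hμ⟩ := exists_extend hwi hwi'
  obtain ⟨b, hb⟩ := exists_ne hq
  let e := Fintype.equivFin I
  have hμ0 : ∀ j, μ j ≠ 0 := fun j => by
    have := hμ.ne_zero (Fin.natAdd r j)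
    rwa [Fin.append_right] at this
  let lam : I → k' := fun i => μ (e i) / q i (b i)
  have hlam : ∀ i, lam i ≠ 0 := fun i => div_ne_zero (hμ0 _) (hb i)
  refine ⟨lam, hlam, Fin.append w μ, fun j => ?_, hμ⟩
  refine Fin.addCases (fun j => ?_) (fun j => ?_) j
  · rw [Fin.append_left]
    have hsub : rat q ⊆ IntermediateField.adjoin F₀ (ent fun i j => lam i * q i j) := by
      rintro c ⟨i, a, b', hb', rfl⟩
      have h1 : q i a / q i b' = (lam i * q i a) / (lam i * q i b') :=
        (mul_div_mul_left _ _ (hlam i)).symm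
      rw [h1]
      exact div_mem (IntermediateField.subset_adjoin _ _ ⟨i, a, rfl⟩)
        (IntermediateField.subset_adjoin _ _ ⟨i, b', rfl⟩)
    exact IntermediateField.adjoin_le_iff.2 hsub (hw j)
  · rw [Fin.append_right]
    refine IntermediateField.subset_adjoin _ _ ⟨e.symm j, b _, ?_⟩
    simp only [lam, Equiv.apply_symm_apply]
    exact div_mul_cancel₀ _ (hb _)

end Crest.Agent.R260.Scal_661
end

-- ▼ part R260/Scal2_661
section

/-!
# Row 260, (EXM) (helper661): exact vectors with the same multihomogeneous relations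

The literal leaf `ExmP` of `QuadDefs_517`: two exact vectors (all scalars generic) with the same
multihomogeneous relations have the same relations.
-/

set_option autoImplicit false

namespace Crest.Agent.R260.Scal_661

open Crest.Agent.R270.BM_360 Crest.Agent.R260.QuadDefs_517
open MvPolynomial (weightedHomogeneousComponent)

universe u

variable {I : Type} {J : I → Type} [Fintype I] [∀ i, Fintype (J i)]

open Classical in
/-- the weights -/
noncomputable def wt (J : I → Type) : (Σ i, J i) → (I → ℕ) := fun x => Pi.single x.1 1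

/-- the degree in the block `i` of a monomial -/
def bdeg (m : (Σ i, J i) →₀ ℕ) (i : I) : ℕ := ∑ a, m ⟨i, a⟩

theorem weight_wt (m : (Σ i, J i) →₀ ℕ) : Finsupp.weight (wt J) m = bdeg m := by
  classical
  funext i
  rw [Finsupp.weight_apply, Finsupp.sum_fintype _ _ (by simp), Finset.sum_apply,
    Fintype.sum_sigma, Finset.sum_eq_single i]
  · unfold bdeg wt
    refine Finset.sum_congr rfl fun a _ => ?_
    simp
  · intro j _ hj
    refine Finset.sum_eq_zero fun a _ => ?_
    simp [wt, Pi.single_eq_of_ne hj.symm]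
  · simp

section hom

variable {F : Type u} [Field F]

open Classical in
/-- multihomogenisation -/
noncomputable def hmz (b : ∀ i, J i) (N : ℕ) (p : MvPolynomial (Σ i, J i) F) :
    MvPolynomial (Σ i, J i) F :=
  ∑ m ∈ p.support, MvPolynomial.monomial
    (m + ∑ i, Finsupp.single (⟨i, b i⟩ : Σ i, J i) (N - bdeg m i)) (p.coeff m)

theorem bdeg_le (p : MvPolynomial (Σ i, J i) F) :
    ∃ N : ℕ, ∀ m ∈ p.support, ∀ i, bdeg m i ≤ N := by
  classical
  refine ⟨p.support.sup fun m => Finset.univ.sup fun i => bdeg m i, fun m hm i => ?_⟩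
  exact (Finset.le_sup (f := fun i => bdeg m i) (Finset.mem_univ i)).trans
    (Finset.le_sup (f := fun m => Finset.univ.sup fun i => bdeg m i) hm)

theorem mhm_hmz {b : ∀ i, J i} {N : ℕ} {p : MvPolynomial (Σ i, J i) F}
    (hN : ∀ m ∈ p.support, ∀ i, bdeg m i ≤ N) : MHm (hmz b N p) := by
  classical
  refine ⟨fun _ => N, ?_⟩
  have h0 : (fun x : Σ i, J i => (Pi.single x.1 1 : I → ℕ)) = wt J := by
    funext x
    unfold wt
    congr
  rw [h0]
  unfold hmz
  refine MvPolynomial.IsWeightedHomogeneous.sum _ _ _ fun m hm => ?_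
  refine MvPolynomial.isWeightedHomogeneous_monomial _ _ _ ?_
  rw [weight_wt]
  funext i
  change ∑ a, (m + ∑ j, Finsupp.single (⟨j, b j⟩ : Σ i, J i) (N - bdeg m j)) ⟨i, a⟩ = N
  have h1 : ∀ a, (m + ∑ j, Finsupp.single (⟨j, b j⟩ : Σ i, J i) (N - bdeg m j)) ⟨i, a⟩ =
      m ⟨i, a⟩ + if a = b i then N - bdeg m i else 0 := fun a => by
    rw [Finsupp.add_apply, Finsupp.finsetSum_apply, Finset.sum_eq_single i]
    · congr 1
      rw [Finsupp.single_apply]
      by_cases h : a = b i
      · rw [if_pos h, if_pos (by rw [h])]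
      · rw [if_neg h, if_neg]
        intro h2
        exact h (eq_of_heq (Sigma.mk.inj h2).2).symm
    · intro j _ hj
      rw [Finsupp.single_apply, if_neg]
      intro h2
      exact hj (Sigma.mk.inj h2).1
    · simp
  rw [Finset.sum_congr rfl fun a _ => h1 a, Finset.sum_add_distrib, Finset.sum_ite_eq']
  simp only [Finset.mem_univ, if_true]
  have := hN m hm i
  unfold bdeg at *
  exact Nat.add_sub_cancel' this

/-- value of a monomial at a scaled vector. -/
theorem prod_scale {A : Type u} [Field A] (l : I → A) (v : ∀ i, J i → A) (m : (Σ i, J i) →₀ ℕ) :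
    ∏ x : Σ i, J i, (l x.1 * v x.1 x.2) ^ m x =
      (∏ i, l i ^ bdeg m i) * ∏ x : Σ i, J i, v x.1 x.2 ^ m x := by
  simp only [mul_pow]
  rw [Finset.prod_mul_distrib]
  congr 1
  rw [Fintype.prod_sigma]
  refine Finset.prod_congr rfl fun i _ => ?_
  change ∏ a, l i ^ m ⟨i, a⟩ = l i ^ ∑ a, m ⟨i, a⟩
  rw [Finset.prod_pow_eq_pow_sum]

theorem evv_eq {A : Type u} [Field A] [Algebra F A] (v : ∀ i, J i → A)
    (p : MvPolynomial (Σ i, J i) F) :
    evv v p = ∑ m ∈ p.support, algebraMap F A (p.coeff m) * ∏ x : Σ i, J i, v x.1 x.2 ^ m x := by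
  classical
  unfold evv
  rw [MvPolynomial.aeval_def, MvPolynomial.eval₂_eq']

theorem evv_hmz {A : Type u} [Field A] [Algebra F A] {b : ∀ i, J i} {N : ℕ}
    {p : MvPolynomial (Σ i, J i) F} (hN : ∀ m ∈ p.support, ∀ i, bdeg m i ≤ N) {l : I → A}
    {v : ∀ i, J i → A} (hv : ∀ i, v i (b i) = 1) :
    evv (fun i j => l i * v i j) (hmz b N p) = (∏ i, l i ^ N) * evv v p := by
  classical
  unfold hmz
  have h0 : evv (fun i j => l i * v i j) (∑ m ∈ p.support, MvPolynomial.monomial
      (m + ∑ i, Finsupp.single (⟨i, b i⟩ : Σ i, J i) (N - bdeg m i)) (p.coeff m)) =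
      ∑ m ∈ p.support, evv (fun i j => l i * v i j) (MvPolynomial.monomial
      (m + ∑ i, Finsupp.single (⟨i, b i⟩ : Σ i, J i) (N - bdeg m i)) (p.coeff m)) := by
    unfold evv
    rw [map_sum]
  rw [h0, evv_eq v p, Finset.mul_sum]
  refine Finset.sum_congr rfl fun m hm => ?_
  have h1 : evv (fun i j => l i * v i j) (MvPolynomial.monomial
      (m + ∑ i, Finsupp.single (⟨i, b i⟩ : Σ i, J i) (N - bdeg m i)) (p.coeff m)) =
      algebraMap F A (p.coeff m) * ((∏ x : Σ i, J i, (l x.1 * v x.1 x.2) ^ m x) *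
        ∏ i, (l i * v i (b i)) ^ (N - bdeg m i)) := by
    unfold evv
    rw [MvPolynomial.aeval_monomial, Finsupp.prod_add_index' (by simp) (by intros; rw [pow_add]),
      Finsupp.prod_fintype _ _ (by simp)]
    congr 2
    rw [← Finsupp.prod_finsetSum_index (by simp) (by intros; rw [pow_add])]
    refine Finset.prod_congr rfl fun i _ => ?_
    rw [Finsupp.prod_single_index (by simp)]
  rw [h1, prod_scale]
  have h2 : ∏ i, (l i * v i (b i)) ^ (N - bdeg m i) = ∏ i, l i ^ (N - bdeg m i) :=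
    Finset.prod_congr rfl fun i _ => by rw [hv, mul_one]
  have h3 : (∏ i, l i ^ bdeg m i) * ∏ i, l i ^ (N - bdeg m i) = ∏ i, l i ^ N := by
    rw [← Finset.prod_mul_distrib]
    refine Finset.prod_congr rfl fun i _ => ?_
    rw [← pow_add, Nat.add_sub_cancel' (hN m hm i)]
  rw [h2, ← h3]
  ring

/-- scaling of a multihomogeneous polynomial. -/
theorem evv_scale {A : Type u} [Field A] [Algebra F A] {p : MvPolynomial (Σ i, J i) F} {d : I → ℕ}
    (hp : MvPolynomial.IsWeightedHomogeneous (wt J) p d) (l : I → A) (v : ∀ i, J i → A) :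
    evv (fun i j => l i * v i j) p = (∏ i, l i ^ d i) * evv v p := by
  rw [evv_eq, evv_eq v p, Finset.mul_sum]
  refine Finset.sum_congr rfl fun m hm => ?_
  have h1 := hp (MvPolynomial.mem_support_iff.1 hm)
  rw [weight_wt] at h1
  rw [prod_scale, h1]
  ring

end hom

/-! ### the scalars are generic -/

section scal

variable {F A : Type u} [Field F] [Field A] [Algebra F A]

omit [∀ i, Fintype (J i)] in
theorem indep_scal {q : ∀ i, J i → A} {r : ℕ} {b : ∀ i, J i} (hb : ∀ i, q i (b i) ≠ 0)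
    (h1 : ¬ TrGe F (rat q) (r + 1)) (h2 : TrGe F (ent q) (r + Fintype.card I)) :
    AlgebraicIndependent (IntermediateField.adjoin F (rat q)) fun i => q i (b i) := by
  classical
  set K := IntermediateField.adjoin F (rat q) with hK
  let μ : I → A := fun i => q i (b i)
  let L := IntermediateField.adjoin K (Set.range μ)
  let μ' : I → L := fun i => ⟨μ i, IntermediateField.subset_adjoin K _ ⟨i, rfl⟩⟩
  -- `L` is algebraic over `K[μ']`
  have himg : L.val '' (Set.range μ') = Set.range μ := by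
    rw [← Set.range_comp]
    rfl
  have hmap : (Algebra.adjoin K (Set.range μ')).map L.val = Algebra.adjoin K (Set.range μ) := by
    rw [AlgHom.map_adjoin, himg]
  have halg : Algebra.IsAlgebraic (Algebra.adjoin K (Set.range μ')) L := by
    constructor
    intro x
    obtain ⟨r, hr, s, hs, hx⟩ := IntermediateField.mem_adjoin_iff_div.1 x.2
    rw [← hmap] at hr hs
    obtain ⟨r', hr', rfl⟩ := hr
    obtain ⟨s', hs', rfl⟩ := hs
    have hx' : x = r' * s'⁻¹ := by
      apply Subtype.ext
      rw [hx, div_eq_mul_inv]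
      rfl
    rw [hx']
    exact (isAlgebraic_algebraMap (⟨r', hr'⟩ : Algebra.adjoin K (Set.range μ'))).mul
      (isAlgebraic_algebraMap (⟨s', hs'⟩ : Algebra.adjoin K (Set.range μ'))).inv
  -- transcendence degrees
  have hKr : Algebra.trdeg F K ≤ (r : Cardinal.{u}) := by
    by_contra hlt
    push Not at hlt
    obtain ⟨t, ht⟩ := exists_isTranscendenceBasis F K
    rw [← ht.cardinalMk_eq_trdeg] at hlt
    have h3 : ((r + 1 : ℕ) : Cardinal.{u}) ≤ Cardinal.mk t := by
      by_contra h
      push Not at h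
      obtain ⟨d, hd⟩ := Cardinal.lt_aleph0.1 (h.trans Cardinal.natCast_lt_aleph0)
      rw [hd] at h hlt
      have h5 : r < d := by exact_mod_cast hlt
      have h6 : d < r + 1 := by exact_mod_cast h
      omega
    have h5 : Cardinal.lift.{u} (Cardinal.mk (Fin (r + 1))) ≤
        Cardinal.lift.{0} (Cardinal.mk t) := by
      rw [Cardinal.mk_fin, Cardinal.lift_natCast, Cardinal.lift_id'.{0, u}]
      exact h3
    obtain ⟨e⟩ := Cardinal.lift_mk_le'.1 h5
    refine h1 ⟨fun j => ((e j : K) : A), fun j => (e j : K).2, ?_⟩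
    have h6 : AlgebraicIndependent F fun j => (e j : K) := ht.1.comp e e.injective
    exact h6.map' (f := K.val) Subtype.val_injective
  have hLn : ((r + Fintype.card I : ℕ) : Cardinal.{u}) ≤ Algebra.trdeg F L := by
    obtain ⟨w, hw, hwi⟩ := h2
    have hsub : (IntermediateField.adjoin F (ent q) : Set A) ⊆ (L : Set A) := by
      have h3 : IntermediateField.adjoin F (ent q) ≤ L.restrictScalars F := by
        rw [IntermediateField.adjoin_le_iff]
        rintro c ⟨i, a, rfl⟩
        have h4 : q i a = (q i a / q i (b i)) * μ i := by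
          change q i a = (q i a / q i (b i)) * q i (b i)
          rw [div_mul_cancel₀ _ (hb i)]
        rw [h4]
        have h5 : q i a / q i (b i) ∈ K :=
          IntermediateField.subset_adjoin _ _ ⟨i, a, b i, hb i, rfl⟩
        have h6 : q i a / q i (b i) ∈ L := L.algebraMap_mem ⟨_, h5⟩
        exact mul_mem h6 (μ' i).2
      exact h3
    let w' : Fin (r + Fintype.card I) → L := fun j => ⟨w j, hsub (hw j)⟩
    have hw' : AlgebraicIndependent F w' :=
      AlgebraicIndependent.of_comp (L.restrictScalars F).val hwi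
    have h3 := hw'.lift_cardinalMk_le_trdeg
    rw [Cardinal.mk_fin, Cardinal.lift_natCast, Cardinal.lift_id'] at h3
    exact h3
  have hKL : FaithfulSMul K L :=
    (faithfulSMul_iff_algebraMap_injective K L).2 (algebraMap K L).injective
  have hadd : Algebra.trdeg F K + Algebra.trdeg K L = Algebra.trdeg F L :=
    trdeg_add_eq F K (A := L)
  have hle : ((Fintype.card I : ℕ) : Cardinal.{u}) ≤ Algebra.trdeg K L := by
    by_contra hlt
    push Not at hlt
    obtain ⟨d, hd⟩ := Cardinal.lt_aleph0.1 (hlt.trans (Cardinal.natCast_lt_aleph0))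
    obtain ⟨c, hc⟩ := Cardinal.lt_aleph0.1 (hKr.trans_lt (Cardinal.natCast_lt_aleph0))
    rw [hd] at hlt hadd
    rw [hc] at hadd hKr
    rw [← hadd] at hLn
    have h5 : r + Fintype.card I ≤ c + d := by exact_mod_cast hLn
    have h6 : d < Fintype.card I := by exact_mod_cast hlt
    have h7 : c ≤ r := by exact_mod_cast hKr
    omega
  have hbas : IsTranscendenceBasis K μ' := by
    refine Algebra.IsAlgebraic.isTranscendenceBasis_of_lift_le_trdeg_of_finite K μ' ?_
    rw [Cardinal.mk_fintype, Cardinal.lift_natCast, Cardinal.lift_id']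
    exact hle
  exact hbas.1.map' (f := L.val) Subtype.val_injective

/-- the multihomogeneous components of a relation of an exact vector are relations. -/
theorem evv_comp {q : ∀ i, J i → A} {r : ℕ} (hq : ∀ i, q i ≠ 0)
    (h1 : ¬ TrGe F (rat q) (r + 1)) (h2 : TrGe F (ent q) (r + Fintype.card I))
    {p : MvPolynomial (Σ i, J i) F} (hp : evv q p = 0) (d : I → ℕ) :
    evv q (weightedHomogeneousComponent (wt J) d p) = 0 := by
  classical
  obtain ⟨b, hb⟩ := exists_ne hq
  have hind := indep_scal hb h1 h2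
  set K := IntermediateField.adjoin F (rat q) with hK
  have hfin : (Function.support fun e => weightedHomogeneousComponent (wt J) e p).Finite :=
    MvPolynomial.weightedHomogeneousComponent_finsupp (w := wt J) (φ := p)
  by_cases hd : d ∈ hfin.toFinset
  swap
  · rw [Set.Finite.mem_toFinset, Function.mem_support, not_not] at hd
    rw [hd]
    unfold evv
    rw [map_zero]
  have hsum : p = ∑ e ∈ hfin.toFinset, weightedHomogeneousComponent (wt J) e p := by
    have h3 := MvPolynomial.sum_weightedHomogeneousComponent (wt J) p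
    rw [finsum_eq_sum _ hfin] at h3
    exact h3.symm
  let v : ∀ i, J i → K := fun i j =>
    ⟨q i j / q i (b i), IntermediateField.subset_adjoin _ _ ⟨i, j, b i, hb i, rfl⟩⟩
  have hv : ∀ P : MvPolynomial (Σ i, J i) F,
      evv (fun i j => q i j / q i (b i)) P = algebraMap K A (evv v P) := by
    intro P
    unfold evv
    rw [← IsScalarTower.toAlgHom_apply F K A, ← AlgHom.comp_apply, MvPolynomial.comp_aeval]
    rfl
  have hq' : (fun i j => q i (b i) * (q i j / q i (b i))) = q := by
    funext i j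
    rw [mul_div_cancel₀ _ (hb i)]
  have hsc : ∀ e : I → ℕ, evv q (weightedHomogeneousComponent (wt J) e p) =
      (∏ i, q i (b i) ^ e i) * algebraMap K A (evv v (weightedHomogeneousComponent (wt J) e p)) :=
    fun e => by
    have h3 := evv_scale (MvPolynomial.weightedHomogeneousComponent_isWeightedHomogeneous
      (w := wt J) (n := e) (φ := p)) (fun i => q i (b i)) (fun i j => q i j / q i (b i))
    rw [hq', hv] at h3
    exact h3
  let P : MvPolynomial I K := ∑ e ∈ hfin.toFinset,
    MvPolynomial.monomial (Finsupp.equivFunOnFinite.symm e)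
      (evv v (weightedHomogeneousComponent (wt J) e p))
  have hP : MvPolynomial.aeval (fun i => q i (b i)) P = 0 := by
    rw [← hp]
    conv_rhs => rw [hsum]
    have h3 : evv q (∑ e ∈ hfin.toFinset, weightedHomogeneousComponent (wt J) e p) =
        ∑ e ∈ hfin.toFinset, evv q (weightedHomogeneousComponent (wt J) e p) := by
      unfold evv
      rw [map_sum]
    rw [h3]
    simp only [P, map_sum]
    refine Finset.sum_congr rfl fun e _ => ?_
    rw [hsc, MvPolynomial.aeval_monomial, mul_comm, Finsupp.prod_fintype _ _ (by simp)]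
    rfl
  have hP0 : P = 0 := (algebraicIndependent_iff.1 hind) P hP
  have h4 := congrArg (MvPolynomial.coeff (Finsupp.equivFunOnFinite.symm d)) hP0
  rw [MvPolynomial.coeff_zero] at h4
  simp only [P, MvPolynomial.coeff_sum, MvPolynomial.coeff_monomial, EmbeddingLike.apply_eq_iff_eq]
    at h4
  rw [Finset.sum_ite_eq', if_pos hd] at h4
  rw [hsc, h4, map_zero, mul_zero]

variable {B : Type u} [Field B] [Algebra F B]

/-- dehomogenised vectors have the same relations. -/
theorem evv_dehom {q : ∀ i, J i → A} {q' : ∀ i, J i → B} {b : ∀ i, J i}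
    (hb : ∀ i, q i (b i) ≠ 0) (hb' : ∀ i, q' i (b i) ≠ 0)
    (h : ∀ p : MvPolynomial (Σ i, J i) F, MHm p → (evv q p = 0 ↔ evv q' p = 0))
    (p : MvPolynomial (Σ i, J i) F) :
    evv (fun i j => q i j / q i (b i)) p = 0 ↔ evv (fun i j => q' i j / q' i (b i)) p = 0 := by
  obtain ⟨N, hN⟩ := bdeg_le p
  have e1 := evv_hmz (b := b) hN (l := fun i => q i (b i))
    (v := fun i j => q i j / q i (b i)) fun i => div_self (hb i)
  have e2 := evv_hmz (b := b) hN (l := fun i => q' i (b i))
    (v := fun i j => q' i j / q' i (b i)) fun i => div_self (hb' i)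
  have h1 : (fun i j => q i (b i) * (q i j / q i (b i))) = q := by
    funext i j
    rw [mul_div_cancel₀ _ (hb i)]
  have h2 : (fun i j => q' i (b i) * (q' i j / q' i (b i))) = q' := by
    funext i j
    rw [mul_div_cancel₀ _ (hb' i)]
  rw [h1] at e1
  rw [h2] at e2
  have n1 : (∏ i, q i (b i) ^ N) ≠ 0 :=
    Finset.prod_ne_zero_iff.2 fun i _ => pow_ne_zero _ (hb i)
  have n2 : (∏ i, q' i (b i) ^ N) ≠ 0 :=
    Finset.prod_ne_zero_iff.2 fun i _ => pow_ne_zero _ (hb' i)
  have h3 := h _ (mhm_hmz (b := b) hN)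
  rw [e1, e2, mul_eq_zero_iff_left n1, mul_eq_zero_iff_left n2] at h3
  exact h3

/-- transcendence degree of the ratios. -/
theorem trge_rat {q : ∀ i, J i → A} {q' : ∀ i, J i → B} {b : ∀ i, J i}
    (hb : ∀ i, q i (b i) ≠ 0) (hb' : ∀ i, q' i (b i) ≠ 0)
    (h : ∀ p : MvPolynomial (Σ i, J i) F, evv (fun i j => q i j / q i (b i)) p = 0 →
      evv (fun i j => q' i j / q' i (b i)) p = 0) {m : ℕ} (hm : TrGe F (rat q') m) :
    TrGe F (rat q) m := by
  have h1 : TrGe F (Set.range fun x : Σ i, J i => q' x.1 x.2 / q' x.1 (b x.1)) m := by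
    obtain ⟨w, hw, hwi⟩ := hm
    refine ⟨w, fun j => ?_, hwi⟩
    have hsub : rat q' ⊆ IntermediateField.adjoin F
        (Set.range fun x : Σ i, J i => q' x.1 x.2 / q' x.1 (b x.1)) := by
      rintro c ⟨i, a, b', hb2, rfl⟩
      have h2 : q' i a / q' i b' = (q' i a / q' i (b i)) / (q' i b' / q' i (b i)) :=
        (div_div_div_cancel_right₀ (hb' i) _ _).symm
      rw [h2]
      exact div_mem (IntermediateField.subset_adjoin _ _ ⟨⟨i, a⟩, rfl⟩)
        (IntermediateField.subset_adjoin _ _ ⟨⟨i, b'⟩, rfl⟩)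
    exact IntermediateField.adjoin_le_iff.2 hsub (hw j)
  obtain ⟨x, hx⟩ := Irr_33.exists_sub h1
  refine Irr_33.trge_of_sub (w := fun j => q (x j).1 (x j).2 / q (x j).1 (b (x j).1))
    (fun j => ⟨(x j).1, (x j).2, b (x j).1, hb _, rfl⟩) ?_
  rw [algebraicIndependent_iff] at hx ⊢
  intro P hP
  refine hx P ?_
  have e1 : MvPolynomial.aeval (fun j => q (x j).1 (x j).2 / q (x j).1 (b (x j).1)) P =
      evv (fun i j => q i j / q i (b i)) (MvPolynomial.rename x P) := by
    unfold evv
    rw [MvPolynomial.aeval_rename]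
    rfl
  have e2 : MvPolynomial.aeval (fun j => q' (x j).1 (x j).2 / q' (x j).1 (b (x j).1)) P =
      evv (fun i j => q' i j / q' i (b i)) (MvPolynomial.rename x P) := by
    unfold evv
    rw [MvPolynomial.aeval_rename]
    rfl
  rw [e2]
  rw [e1] at hP
  exact h _ hP

/-- one direction of (EXM). -/
theorem exm_one {q : ∀ i, J i → A} {q' : ∀ i, J i → B} {r : ℕ} (hq : ∀ i, q i ≠ 0)
    (h1 : ¬ TrGe F (rat q) (r + 1)) (h2 : TrGe F (ent q) (r + Fintype.card I))
    (h : ∀ p : MvPolynomial (Σ i, J i) F, MHm p → evv q p = 0 → evv q' p = 0)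
    {p : MvPolynomial (Σ i, J i) F} (hp : evv q p = 0) : evv q' p = 0 := by
  classical
  have hfin : (Function.support fun e => weightedHomogeneousComponent (wt J) e p).Finite :=
    MvPolynomial.weightedHomogeneousComponent_finsupp (w := wt J) (φ := p)
  have hsum : p = ∑ e ∈ hfin.toFinset, weightedHomogeneousComponent (wt J) e p := by
    have h3 := MvPolynomial.sum_weightedHomogeneousComponent (wt J) p
    rw [finsum_eq_sum _ hfin] at h3
    exact h3.symm
  have h3 : evv q' (∑ e ∈ hfin.toFinset, weightedHomogeneousComponent (wt J) e p) =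
      ∑ e ∈ hfin.toFinset, evv q' (weightedHomogeneousComponent (wt J) e p) := by
    unfold evv
    rw [map_sum]
  rw [hsum, h3]
  refine Finset.sum_eq_zero fun e _ => h _ ⟨e, ?_⟩ (evv_comp hq h1 h2 hp e)
  exact MvPolynomial.weightedHomogeneousComponent_isWeightedHomogeneous (w := wt J) (n := e)
    (φ := p)

end scal

/-- **(EXM)** of `QuadDefs_517`. -/
theorem exmP : ExmP.{u} I J := by
  intro F₀ A B _ _ _ _ _ _ q q' r hq hq' h1 h2 h3 h p
  obtain ⟨b, hb⟩ := exists_ne hq
  have hb' : ∀ i, q' i (b i) ≠ 0 := fun i hi => by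
    classical
    have h4 : MHm (MvPolynomial.X (⟨i, b i⟩ : Σ i, J i) : MvPolynomial (Σ i, J i) F₀) :=
      ⟨_, MvPolynomial.isWeightedHomogeneous_X F₀ (fun x : Σ i, J i => (Pi.single x.1 1 : I → ℕ))
        ⟨i, b i⟩⟩
    have h5 := (h _ h4).2 (by unfold evv; rw [MvPolynomial.aeval_X]; exact hi)
    unfold evv at h5
    rw [MvPolynomial.aeval_X] at h5
    exact hb i h5
  have h4 : ¬ TrGe F₀ (rat q') (r + 1) := fun hcon =>
    h1 (trge_rat hb hb' (fun p hp => (evv_dehom hb hb' h p).1 hp) hcon)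
  exact ⟨fun hp => exm_one hq h1 h2 (fun p hm => (h p hm).1) hp,
    fun hp => exm_one hq' h4 h3 (fun p hm => (h p hm).2) hp⟩

end Crest.Agent.R260.Scal_661
end

-- ▼ part R260/Spe_661
section

/-!
# Row 260, (L4) of helper749 (helper661): a specialisation which does not drop the transcendence
degree of the ratios has the same multihomogeneous relations.
-/

set_option autoImplicit false

namespace Crest.Agent.R260.Spe_661

open Crest.Agent.R270.BM_360 Crest.Agent.R260.QuadDefs_517 Crest.Agent.R260.Scal_661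

universe u

variable {I : Type} {J : I → Type} [Fintype I] [∀ i, Fintype (J i)]

section

variable {F A B : Type u} [Field F] [Field A] [Algebra F A] [Field B] [Algebra F B]

/-- one direction of `evv_dehom`. -/
theorem dehom_one {q : ∀ i, J i → A} {q' : ∀ i, J i → B} {b : ∀ i, J i}
    (hb : ∀ i, q i (b i) ≠ 0) (hb' : ∀ i, q' i (b i) ≠ 0)
    (h : ∀ p : MvPolynomial (Σ i, J i) F, MHm p → evv q p = 0 → evv q' p = 0)
    {p : MvPolynomial (Σ i, J i) F} (hp : evv (fun i j => q i j / q i (b i)) p = 0) :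
    evv (fun i j => q' i j / q' i (b i)) p = 0 := by
  obtain ⟨N, hN⟩ := bdeg_le p
  have e1 := evv_hmz (b := b) hN (l := fun i => q i (b i))
    (v := fun i j => q i j / q i (b i)) fun i => div_self (hb i)
  have e2 := evv_hmz (b := b) hN (l := fun i => q' i (b i))
    (v := fun i j => q' i j / q' i (b i)) fun i => div_self (hb' i)
  have h1 : (fun i j => q i (b i) * (q i j / q i (b i))) = q := by
    funext i j
    rw [mul_div_cancel₀ _ (hb i)]
  have h2 : (fun i j => q' i (b i) * (q' i j / q' i (b i))) = q' := by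
    funext i j
    rw [mul_div_cancel₀ _ (hb' i)]
  rw [h1, hp, mul_zero] at e1
  have h3 := h _ (mhm_hmz (b := b) hN) e1
  rw [h2, h3] at e2
  have n2 : (∏ i, q' i (b i) ^ N) ≠ 0 :=
    Finset.prod_ne_zero_iff.2 fun i _ => pow_ne_zero _ (hb' i)
  exact (mul_eq_zero.1 e2.symm).resolve_left n2

/-- scaling of the vector to the chart. -/
theorem evv_chart {q : ∀ i, J i → A} {b : ∀ i, J i} (hb : ∀ i, q i (b i) ≠ 0)
    {p : MvPolynomial (Σ i, J i) F} (hp : MHm p) :
    evv q p = 0 ↔ evv (fun i j => q i j / q i (b i)) p = 0 := by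
  obtain ⟨d, hd⟩ := hp
  have h1 := evv_scale (A := A) (p := p) (d := d) hd (fun i => q i (b i))
    (fun i j => q i j / q i (b i))
  have h2 : (fun i j => q i (b i) * (q i j / q i (b i))) = q := by
    funext i j
    rw [mul_div_cancel₀ _ (hb i)]
  rw [h2] at h1
  rw [h1]
  have n1 : (∏ i, q i (b i) ^ d i) ≠ 0 :=
    Finset.prod_ne_zero_iff.2 fun i _ => pow_ne_zero _ (hb i)
  exact mul_eq_zero_iff_left n1

end

/-- **(L4)** of #7115. -/
theorem spec_eq {F₀ A B : Type u} [Field F₀] [Field A] [Field B] [Algebra F₀ A] [Algebra F₀ B]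
    (q : ∀ i, J i → A) (q' : ∀ i, J i → B) (hq' : ∀ i, q' i ≠ 0) (r : ℕ)
    (h1 : ¬ TrGe F₀ (rat q) (r + 1)) (h2 : TrGe F₀ (rat q') r)
    (h : ∀ p : MvPolynomial (Σ i, J i) F₀, MHm p → evv q p = 0 → evv q' p = 0) :
    ∀ p : MvPolynomial (Σ i, J i) F₀, MHm p → evv q' p = 0 → evv q p = 0 := by
  classical
  intro p hp hp0
  by_contra hne
  obtain ⟨b, hb'⟩ := exists_ne hq'
  have hb : ∀ i, q i (b i) ≠ 0 := fun i hi => by
    have h4 : MHm (MvPolynomial.X (⟨i, b i⟩ : Σ i, J i) : MvPolynomial (Σ i, J i) F₀) :=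
      ⟨_, MvPolynomial.isWeightedHomogeneous_X F₀ (fun x : Σ i, J i => (Pi.single x.1 1 : I → ℕ))
        ⟨i, b i⟩⟩
    have h5 := h _ h4 (by unfold evv; rw [MvPolynomial.aeval_X]; exact hi)
    unfold evv at h5
    rw [MvPolynomial.aeval_X] at h5
    exact hb' i h5
  rw [evv_chart hb hp] at hne
  rw [evv_chart hb' hp] at hp0
  -- the ratios of `q'`: `r` independent ones among the affine coordinates
  have h3 : TrGe F₀ (Set.range fun x : Σ i, J i => q' x.1 x.2 / q' x.1 (b x.1)) r := by
    obtain ⟨w, hw, hwi⟩ := h2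
    refine ⟨w, fun j => ?_, hwi⟩
    have hsub : rat q' ⊆ IntermediateField.adjoin F₀
        (Set.range fun x : Σ i, J i => q' x.1 x.2 / q' x.1 (b x.1)) := by
      rintro c ⟨i, a, b', hb2, rfl⟩
      have h2 : q' i a / q' i b' = (q' i a / q' i (b i)) / (q' i b' / q' i (b i)) :=
        (div_div_div_cancel_right₀ (hb' i) _ _).symm
      rw [h2]
      exact div_mem (IntermediateField.subset_adjoin _ _ ⟨⟨i, a⟩, rfl⟩)
        (IntermediateField.subset_adjoin _ _ ⟨⟨i, b'⟩, rfl⟩)
    exact IntermediateField.adjoin_le_iff.2 hsub (hw j)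
  obtain ⟨x, hx⟩ := Irr_33.exists_sub h3
  -- the coordinate ring of the affine point of `q`
  let f : MvPolynomial (Σ i, J i) F₀ →ₐ[F₀] A :=
    MvPolynomial.aeval fun x : Σ i, J i => q x.1 x.2 / q x.1 (b x.1)
  let g : MvPolynomial (Σ i, J i) F₀ →ₐ[F₀] B :=
    MvPolynomial.aeval fun x : Σ i, J i => q' x.1 x.2 / q' x.1 (b x.1)
  have hfg : ∀ P, f P = 0 → g P = 0 := fun P hP => dehom_one hb hb' h hP
  have hprime : (RingHom.ker f).IsPrime := RingHom.ker_isPrime f
  let φ : (MvPolynomial (Σ i, J i) F₀ ⧸ RingHom.ker f) →ₐ[F₀] B :=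
    Ideal.Quotient.liftₐ (RingHom.ker f) g fun P hP => hfg P hP
  let ψ : (MvPolynomial (Σ i, J i) F₀ ⧸ RingHom.ker f) →ₐ[F₀] A :=
    Ideal.Quotient.liftₐ (RingHom.ker f) f fun P hP => hP
  have hψ : Function.Injective ψ := by
    rw [injective_iff_map_eq_zero]
    intro z hz
    obtain ⟨P, rfl⟩ := Ideal.Quotient.mk_surjective z
    exact Ideal.Quotient.eq_zero_iff_mem.2 hz
  have hφa : ∀ j, φ (Ideal.Quotient.mk _ (MvPolynomial.X (x j))) =
      q' (x j).1 (x j).2 / q' (x j).1 (b (x j).1) := fun j => MvPolynomial.aeval_X _ _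
  have hψa : ∀ j, ψ (Ideal.Quotient.mk _ (MvPolynomial.X (x j))) =
      q (x j).1 (x j).2 / q (x j).1 (b (x j).1) := fun j => MvPolynomial.aeval_X _ _
  have hind : AlgebraicIndependent F₀ fun j => φ (Ideal.Quotient.mk (RingHom.ker f)
      (MvPolynomial.X (x j))) := by
    have : (fun j => φ (Ideal.Quotient.mk (RingHom.ker f) (MvPolynomial.X (x j)))) =
      fun j => q' (x j).1 (x j).2 / q' (x j).1 (b (x j).1) := funext hφa
    rw [this]
    exact hx
  have hp1 : (Ideal.Quotient.mk (RingHom.ker f) p) ≠ 0 := fun hz =>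
    hne (Ideal.Quotient.eq_zero_iff_mem.1 hz)
  have hopt := Irr_33.indep_option φ hind hp1 hp0
  have hopt2 := hopt.map' (f := ψ) hψ
  refine h1 ⟨fun j => ψ (((finSuccEquiv r) j).elim (Ideal.Quotient.mk (RingHom.ker f) p)
    fun j => Ideal.Quotient.mk (RingHom.ker f) (MvPolynomial.X (x j))), fun j => ?_, ?_⟩
  · have hmem : ∀ P : MvPolynomial (Σ i, J i) F₀,
        f P ∈ IntermediateField.adjoin F₀ (rat q) := by
      intro P
      induction P using MvPolynomial.induction_on with
      | C c =>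
        change MvPolynomial.aeval _ (MvPolynomial.C c) ∈ _
        rw [MvPolynomial.aeval_C]
        exact IntermediateField.algebraMap_mem _ _
      | add P Q hP hQ => rw [map_add]; exact add_mem hP hQ
      | mul_X P y hP =>
        rw [map_mul]
        refine mul_mem hP ?_
        change MvPolynomial.aeval _ (MvPolynomial.X y) ∈ _
        rw [MvPolynomial.aeval_X]
        exact IntermediateField.subset_adjoin _ _ ⟨y.1, y.2, b y.1, hb _, rfl⟩
    change ψ (((finSuccEquiv r) j).elim (Ideal.Quotient.mk (RingHom.ker f) p)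
      fun j => Ideal.Quotient.mk (RingHom.ker f) (MvPolynomial.X (x j))) ∈ _
    generalize (finSuccEquiv r) j = o
    cases o with
    | none => exact hmem p
    | some l => exact hmem (MvPolynomial.X (x l))
  · exact hopt2.comp _ (finSuccEquiv r).injective

end Crest.Agent.R260.Spe_661
end

-- ▼ part R260/Glu2_749
section

/-!
Row 260 (S0398), DivP, glue part 2 (helper749): the division theorem `DivP` from the two generic
lines (COUNT), PROPER, the generic reparametrisation of a line and the specialisation lemma.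
-/

set_option autoImplicit false
set_option linter.unusedSectionVars false

namespace Crest.Agent.R260.Cnt_749

open Polynomial IsLocalRing Crest.Agent.R270.BM_360 Crest.Agent.R260.Lin_678
open Crest.Agent.R270.Span_925 (Same)
open Crest.Agent.R270.Sat_422 (lo hi lo_ne_zero hi_ne_zero RedPt)
open Crest.Agent.R270.Link_131 (Arc IsPt Ch low top rev)
open Crest.Agent.R270.Gr_789 (val natDegree_le_cls cop_exists_eval)
open Crest.Agent.R260.Iso_568 (Iso)
open Crest.Agent.R260.QuadDefs_517
open Crest.Agent.R260.Er_703 (evv_same evv_red)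
open Crest.Agent.R260.Spe_661 (spec_eq)

universe u

variable {I : Type} {J : I → Type} [Fintype I] [∀ i, Fintype (J i)]

/-- generic reparametrisation of a line (941's `gen_line`). -/
def GenLine {k : Type u} [Field k] (E : Set (MvPolynomial (Σ i, J i) k)) (β : I → ℕ) : Prop :=
  ∀ (F₀ κ : Type u) [Field F₀] [Algebra k F₀] [Field κ] [IsAlgClosed κ] [Algebra k κ]
    [Algebra F₀ κ] [IsScalarTower k F₀ κ] (G : ∀ i, J i → κ[X]), IsMap E G → cls G = β →
    ∀ n : ℕ, TrGe F₀ (rat (hi G) ∪ rat (lo G)) n →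
    ∃ (kl : Type u) (_ : Field kl) (_ : IsAlgClosed kl) (_ : Algebra k kl) (_ : Algebra F₀ kl)
      (_ : IsScalarTower k F₀ kl) (_ : Algebra κ kl) (_ : IsScalarTower F₀ κ kl)
      (l : ∀ i, J i → kl[X]), IsMap E l ∧ cls l = β ∧
      TrGe F₀ (coeffs l) (n + 1 + Fintype.card I) ∧
      ∀ (t : Option κ) (r : ℕ), TrGe F₀ (rat (val G t)) r →
        ∃ t₀ : kl, Same (up kl (val G t)) (pt l t₀) ∧
          TrGe F₀ (ent (pt l t₀)) (r + Fintype.card I)

/-- relations between the coefficients of a generic conic hold for all conics of the family. -/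
def SpecP {k : Type u} [Field k] (D : CData k I J) (CC : Cls k J) : Prop :=
  ∀ (F₀ k' K : Type u) [Field F₀] [Field k'] [Field K] [IsAlgClosed F₀] [IsAlgClosed k']
    [IsAlgClosed K] [Algebra k F₀] [Algebra k k'] [Algebra k K] [Algebra F₀ k'] [Algebra F₀ K]
    [IsScalarTower k F₀ k'] [IsScalarTower k F₀ K] (H : ∀ i, J i → k'[X]) (f : ∀ i, J i → K[X]),
    Con D CC H → TrGe F₀ (coeffs H) (hc D) → Con D CC f →
    ∀ Q : MvPolynomial ((Σ i, J i) × ℕ) F₀,
      MvPolynomial.aeval (fun y : (Σ i, J i) × ℕ => (H y.1.1 y.1.2).coeff y.2) Q = 0 →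
        MvPolynomial.aeval (fun y : (Σ i, J i) × ℕ => (f y.1.1 y.1.2).coeff y.2) Q = 0

theorem evv_up {F₀ A B : Type u} [Field F₀] [Field A] [Field B] [Algebra F₀ A] [Algebra F₀ B]
    [Algebra A B] [IsScalarTower F₀ A B] (v : ∀ i, J i → A) (p : MvPolynomial (Σ i, J i) F₀) :
    evv (up B v) p = algebraMap A B (evv v p) := by
  unfold evv
  have h : (MvPolynomial.aeval (fun x : Σ i, J i => up B v x.1 x.2) :
      MvPolynomial (Σ i, J i) F₀ →ₐ[F₀] B) =
      (IsScalarTower.toAlgHom F₀ A B).comp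
        (MvPolynomial.aeval (fun x : Σ i, J i => v x.1 x.2)) := by
    refine MvPolynomial.algHom_ext fun x => ?_
    rw [MvPolynomial.aeval_X, AlgHom.comp_apply, MvPolynomial.aeval_X]
    rfl
  rw [h]
  rfl

theorem val_ne {κ : Type u} [Field κ] {G : ∀ i, J i → κ[X]} (hG : ∀ i, Cop (G i))
    (t : Option κ) (i : I) : val G t i ≠ 0 := by
  cases t with
  | none =>
    exact hi_ne_zero hG i
  | some t =>
    intro h
    obtain ⟨x, hx⟩ := cop_exists_eval (hG i) t
    exact hx (congrFun h x)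

/-- **DivP** of 517. -/
theorem divP_aux {k : Type u} [Field k] [IsAlgClosed k] [CharZero k] (D : CData k I J)
    (hm : 0 < D.m) {CC : Cls k J} (hCC : CCInv D CC) (hG2 : Gen2P D CC) (hSP : SpecP D CC)
    (hGL : GenLine D.E D.β) : DivP D CC := by
  intro F₀ F₁ k₁ L₁ _ _ _ _ _ _ _ _ _ _ _ _ _ _ _ _ _ _ _ _ _ _ _ _ _ _ _ _ x₁ H₁ u₁ f₁ a b c
    _ hx0 hxt hH hHt _ _ hf hJ O hO hno k' _ _ _ _ _ H t hHc hHtr hnt
  -- algebra structures on `O`
  let a₁ : k₁ →+* O := (algebraMap k₁ L₁).codRestrict O hO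
  let i1 : Algebra k₁ O := a₁.toAlgebra
  let i2 : Algebra F₁ O := (a₁.comp (algebraMap F₁ k₁)).toAlgebra
  let i3 : Algebra F₀ O := (a₁.comp (algebraMap F₀ k₁)).toAlgebra
  let i4 : Algebra k O := (a₁.comp (algebraMap k k₁)).toAlgebra
  have t1 : IsScalarTower k₁ O L₁ := IsScalarTower.of_algebraMap_eq fun x => rfl
  have t2 : IsScalarTower F₁ O L₁ := IsScalarTower.of_algebraMap_eq fun x =>
    IsScalarTower.algebraMap_apply F₁ k₁ L₁ x
  have t3 : IsScalarTower F₀ O L₁ := IsScalarTower.of_algebraMap_eq fun x =>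
    IsScalarTower.algebraMap_apply F₀ k₁ L₁ x
  have t4 : IsScalarTower k O L₁ := IsScalarTower.of_algebraMap_eq fun x =>
    IsScalarTower.algebraMap_apply k k₁ L₁ x
  have t5 : IsScalarTower k F₀ k₁ := IsScalarTower.of_algebraMap_eq fun x => by
    rw [IsScalarTower.algebraMap_apply k F₁ k₁, IsScalarTower.algebraMap_apply k F₀ F₁,
      ← IsScalarTower.algebraMap_apply F₀ F₁ k₁]
  have t6 : IsScalarTower k F₀ (ResidueField O) := IsScalarTower.of_algebraMap_eq fun x => by
    show residue O (a₁ (algebraMap k k₁ x)) =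
      residue O (a₁ (algebraMap F₀ k₁ (algebraMap k F₀ x)))
    rw [IsScalarTower.algebraMap_apply k F₀ k₁]
  have t7 : IsScalarTower k F₁ (ResidueField O) := IsScalarTower.of_algebraMap_eq fun x => by
    show residue O (a₁ (algebraMap k k₁ x)) =
      residue O (a₁ (algebraMap F₁ k₁ (algebraMap k F₁ x)))
    rw [IsScalarTower.algebraMap_apply k F₁ k₁]
  have t8 : IsScalarTower k k₁ (ResidueField O) := IsScalarTower.of_algebraMap_eq fun x => rfl
  have t9 : IsScalarTower F₀ F₁ (ResidueField O) := IsScalarTower.of_algebraMap_eq fun x => by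
    show residue O (a₁ (algebraMap F₀ k₁ x)) =
      residue O (a₁ (algebraMap F₁ k₁ (algebraMap F₀ F₁ x)))
    rw [IsScalarTower.algebraMap_apply F₀ F₁ k₁]
  have t10 : IsScalarTower F₁ k₁ (ResidueField O) := IsScalarTower.of_algebraMap_eq fun x => rfl
  have hac : IsAlgClosed (ResidueField O) := isAlgClosed_residueField
  -- the two lines
  obtain ⟨p, q, μ, ν, G, G', hS, hG, hG'⟩ := exists_sep D hm hCC hG2 (O := O) hx0 hxt hH hHt hf hJ
    hno
  have hfc : cls (fun i j => C (a i)⁻¹ * f₁ i j) = 2 • D.β := by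
    rw [← hf.cls]
    funext i
    unfold cls vdeg
    exact Finset.sup_congr rfl fun x _ => natDegree_C_mul (inv_ne_zero (hJ.a0 i))
  -- the point of `f₁`
  have hcls : cls H = cls f₁ := hHc.cls.trans hf.cls.symm
  obtain ⟨z, hz⟩ := Crest.Agent.R260.Prop_703.proper_cls (k := F₀) hcls
    (hSP F₀ k' L₁ H f₁ hHc hHtr hf) (some t)
  have hz' : ∀ P : MvPolynomial (Σ i, J i) F₀, MHm P → evv (pt H t) P = 0 →
      evv (val f₁ z) P = 0 := by
    intro P hP h0
    obtain ⟨d, hd⟩ := hP
    have h1 := hz P d hd h0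
    have h2 : (Crest.Agent.R260.Prop_703.val (fun x : Σ i, J i => vdeg (f₁ x.1))
        (fun x => f₁ x.1 x.2) z) = fun x : Σ i, J i => val f₁ z x.1 x.2 := by
      cases z <;> rfl
    rw [h2] at h1
    exact h1
  have hsame : Same (val f₁ z) (val (fun i j => C (a i)⁻¹ * f₁ i j) z) := by
    refine ⟨fun i => (a i)⁻¹, fun i => inv_ne_zero (hJ.a0 i), fun i x => ?_⟩
    cases z with
    | none =>
      show (C (a i)⁻¹ * f₁ i x).coeff (cls (fun i j => C (a i)⁻¹ * f₁ i j) i) =
        (a i)⁻¹ * (f₁ i x).coeff (cls f₁ i)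
      rw [hfc, hf.cls, coeff_C_mul]
    | some z =>
      show (C (a i)⁻¹ * f₁ i x).eval z = (a i)⁻¹ * (f₁ i x).eval z
      rw [eval_mul, eval_C]
  obtain ⟨r, hr, hrl⟩ := hS.red hfc z
  have hI : Iso D.E D.β D.m := Crest.Agent.R260.Iso_568.iso_cdata D
  obtain ⟨i₀⟩ := nonempty_I D
  have hβ := D.β_pos
  -- a line with the reduced point on it
  have key : ∃ (l : ∀ i, J i → (ResidueField O)[X]) (t' : Option (ResidueField O)),
      IsMap D.E l ∧ cls l = D.β ∧ TrGe F₀ (rat (hi l) ∪ rat (lo l)) (3 * D.m + 1) ∧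
      Same r (val l t') := by
    rcases hrl with ⟨t', h⟩ | ⟨t', h⟩
    · exact ⟨G, t', hS.isMapG, hS.clsG, hG, h⟩
    · exact ⟨G', t', hS.isMapH, hS.clsH, hG', h⟩
  obtain ⟨l, t', hlm, hlc, hlt, hlr⟩ := key
  have hcnt := point_count hI D.hom (hβ i₀) hlm hlc hlt t'
  obtain ⟨kl, _, _, _, _, _, _, _, l', hlm', hlc', hlt', hpts⟩ := hGL F₀ (ResidueField O) l hlm hlc
    (3 * D.m + 1) hlt
  obtain ⟨t₀, hst, htr⟩ := hpts t' (2 * D.m) hcnt
  have hfwd : ∀ P : MvPolynomial (Σ i, J i) F₀, MHm P → evv (pt H t) P = 0 →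
      evv (pt l' t₀) P = 0 := by
    intro P hP h0
    have h1 := hz' P hP h0
    have h2 := evv_same hsame hP h1
    have h3 := evv_red hr hP h2
    have h4 := evv_same hlr hP h3
    have h5 : evv (up kl (val l t')) P = 0 := by
      rw [evv_up, h4, map_zero]
    exact evv_same hst hP h5
  have hne : ∀ i, pt l' t₀ i ≠ 0 := by
    refine Crest.Agent.R270.Link_131.same_ne_zero hst fun i h0 => ?_
    refine val_ne hlm.cop t' i ?_
    funext x
    have h1 := congrFun h0 x
    exact (map_eq_zero _).mp h1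
  refine ⟨kl, inferInstance, inferInstance, inferInstance, inferInstance, inferInstance, l', t₀,
    hlm', hlc', ?_, htr, fun P hP => ⟨?_, hfwd P hP⟩⟩
  · have h1 : hl D = 3 * D.m + 1 + 1 + Fintype.card I := rfl
    rw [h1]
    exact hlt'
  · exact spec_eq (pt H t) (pt l' t₀) hne (2 * D.m) hnt (rat_of_ent hne htr) hfwd P hP

end Crest.Agent.R260.Cnt_749
end

-- ▼ part R260/Gln1_941

/-!
Row 260 (S0398), leaf (L2) of COUNT (helper941 for helper749): the generic parametrised line
through the points of a map of class `β`.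
-/

set_option autoImplicit false
set_option linter.unusedSectionVars false

namespace Crest.Agent.R260.Gln_941

open Polynomial Crest.Agent.R270.BM_360
open Crest.Agent.R270.Rees_581 (cl mem_cl coe_cl subset_cl cl_le adjoin_le_cl trGe_iff trGe_of_cl
  trGe_of_algebraic)
open Crest.Agent.R270.Span_925 (Same)
open Crest.Agent.R270.Sat_422 (lo hi lo_ne_zero hi_ne_zero)
open Crest.Agent.R270.Link_131 (rev rev_isMap cls_rev low_rev top low eval_reflect
  natDegree_le_vdeg isMap_map vdeg_map)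
open Crest.Agent.R270.Gr_789 (val natDegree_le_cls cop_exists_eval)
open Crest.Agent.R260.QuadDefs_517 (ent rat up pt)
open Crest.Agent.R260.Cnt_749

universe u

variable {I : Type} {J : I → Type}

section mob

variable {k : Type u} [Field k] [Fintype I] [∀ i, Fintype (J i)]
  {E : Set (MvPolynomial (Σ i, J i) k)} {κ : Type u} [Field κ] [Algebra k κ]

/-- Möbius reparametrisation `F (c (z - t) / (z - s))`. -/
noncomputable def mob (s t c : κ) (F : ∀ i, J i → κ[X]) : ∀ i, J i → κ[X] :=
  rpt (fun _ => 1) 1 (-s) (rev (rpt (fun _ => 1) (c * (s - t)) c F))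

theorem mob_isMap [IsAlgClosed κ] (hE : MHom E) (s t c : κ) {F : ∀ i, J i → κ[X]}
    (hF : IsMap E F) : IsMap E (mob s t c F) :=
  rpt_isMap hE (fun _ => one_ne_zero) _ _
    (rev_isMap hE (rpt_isMap hE (fun _ => one_ne_zero) _ _ hF))

theorem cls_mob (hE : MHom E) {s t c : κ} (hst : s ≠ t) (hc : c ≠ 0) {F : ∀ i, J i → κ[X]}
    (hF : IsMap E F) : cls (mob s t c F) = cls F := by
  have hθ : c * (s - t) ≠ 0 := mul_ne_zero hc (sub_ne_zero.mpr hst)
  unfold mob
  rw [cls_rpt (fun _ => one_ne_zero) one_ne_zero,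
    cls_rev (rpt_isMap hE (c := fun _ => (1 : κ)) (fun _ => one_ne_zero) _ _ hF),
    cls_rpt (fun _ => one_ne_zero) hθ]

theorem mob_eval_s (s t c : κ) (hst : s ≠ t) (hc : c ≠ 0) (F : ∀ i, J i → κ[X]) (i : I)
    (x : J i) : (mob s t c F i x).eval s = (c * (s - t)) ^ cls F i * hi F i x := by
  have hθ : c * (s - t) ≠ 0 := mul_ne_zero hc (sub_ne_zero.mpr hst)
  unfold mob
  rw [rpt_eval, one_mul, one_mul, add_neg_cancel, ← coeff_zero_eq_eval_zero]
  have h1 := congrFun (congrFun (low_rev (rpt (fun _ => (1 : κ)) (c * (s - t)) c F)) i) x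
  have h2 : (rev (rpt (fun _ => (1 : κ)) (c * (s - t)) c F) i x).coeff 0 =
      hi (rpt (fun _ => (1 : κ)) (c * (s - t)) c F) i x := h1
  rw [h2, hi_rpt (fun _ => one_ne_zero) hθ, one_mul, mul_comm]

theorem mob_eval (s t c : κ) (hst : s ≠ t) (hc : c ≠ 0) (F : ∀ i, J i → κ[X]) (i : I)
    (x : J i) {z : κ} (hz : z ≠ s) :
    (mob s t c F i x).eval z = (z - s) ^ cls F i * (F i x).eval (c * (z - t) / (z - s)) := by
  have hθ : c * (s - t) ≠ 0 := mul_ne_zero hc (sub_ne_zero.mpr hst)
  have hzs : z - s ≠ 0 := sub_ne_zero.mpr hz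
  have h0 : vdeg (rpt (fun _ => (1 : κ)) (c * (s - t)) c F i) = cls F i :=
    congrFun (cls_rpt (c := fun _ : I => (1 : κ)) (fun _ => one_ne_zero) hθ c F) i
  unfold mob
  rw [rpt_eval, one_mul, one_mul, ← sub_eq_add_neg]
  unfold rev
  rw [eval_reflect (natDegree_le_vdeg _ _) hzs, h0, rpt_eval, one_mul]
  congr 2
  field_simp
  ring

end mob

section tr

variable {K Ω : Type u} [Field K] [Field Ω] [Algebra K Ω]

theorem not_trGe_pair (s t : Ω) : ¬ TrGe K ({s, t} : Set Ω) 3 := by
  rw [trGe_iff, not_le]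
  have h1 : ({s, t} : Set Ω).encard ≤ 2 := by
    refine (Set.encard_insert_le _ _).trans ?_
    rw [Set.encard_singleton]
    norm_num
  refine lt_of_le_of_lt ((Matroid.eRk_le_encard _ _).trans h1) ?_
  norm_num

theorem eval_mem (S : IntermediateField K Ω) {p : Polynomial Ω} (hp : ∀ j, p.coeff j ∈ S) {z : Ω}
    (hz : z ∈ S) : p.eval z ∈ S := by
  rw [eval_eq_sum_range]
  exact sum_mem fun j _ => mul_mem (hp j) (pow_mem hz j)

end tr

section main

variable {k : Type u} [Field k] [Fintype I] [∀ i, Fintype (J i)]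
  {E : Set (MvPolynomial (Σ i, J i) k)} {F₀ κ κ₁ Ω : Type u} [Field F₀] [Algebra k F₀]
  [Field κ] [IsAlgClosed κ] [Algebra k κ] [Algebra F₀ κ] [IsScalarTower k F₀ κ]
  [Field κ₁] [IsAlgClosed κ₁] [Algebra k κ₁] [Algebra F₀ κ₁] [Algebra κ κ₁]
  [IsScalarTower k κ κ₁] [IsScalarTower F₀ κ κ₁]
  [Field Ω] [IsAlgClosed Ω] [Algebra k Ω] [Algebra F₀ Ω] [Algebra κ Ω] [Algebra κ₁ Ω]
  [IsScalarTower k κ₁ Ω] [IsScalarTower F₀ κ Ω] [IsScalarTower κ κ₁ Ω]

/-- the values of a map over a bigger field -/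
theorem val_up (G : ∀ i, J i → κ[X]) (t : Option κ) :
    up κ₁ (val G t) = val (fun i x => (G i x).map (algebraMap κ κ₁)) (t.map (algebraMap κ κ₁)) := by
  funext i x
  cases t with
  | none =>
    show algebraMap κ κ₁ ((G i x).coeff (cls G i)) =
      ((G i x).map (algebraMap κ κ₁)).coeff (cls (fun i x => (G i x).map (algebraMap κ κ₁)) i)
    have h1 : cls (fun i x => (G i x).map (algebraMap κ κ₁)) i = cls G i := vdeg_map _ _
    rw [h1, coeff_map]
  | some z =>
    show algebraMap κ κ₁ ((G i x).eval z) =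
      ((G i x).map (algebraMap κ κ₁)).eval (algebraMap κ κ₁ z)
    rw [eval_map, eval₂_at_apply]

theorem val_ne {G : ∀ i, J i → κ[X]} (hG : ∀ i, Cop (G i)) (t : Option κ) (i : I) :
    ∃ x, val G t i x ≠ 0 := by
  cases t with
  | none =>
    obtain ⟨x, hx⟩ := Function.ne_iff.mp (hi_ne_zero hG i)
    exact ⟨x, hx⟩
  | some z => exact cop_exists_eval (hG i) z

/-- the values of the Möbius reparametrisation of `G` over a bigger field. -/
theorem mob_val {G : ∀ i, J i → κ[X]} {s t c : κ₁} (hst : s ≠ t) (hc : ∀ z : κ, c ≠ algebraMap κ κ₁ z)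
    (t' : Option κ) : ∃ (t₀ : κ₁) (μ : I → κ₁), (∀ i, μ i ≠ 0) ∧ ∀ i x,
      (mob s t c (fun i x => (G i x).map (algebraMap κ κ₁)) i x).eval t₀ =
        μ i * algebraMap κ κ₁ (val G t' i x) := by
  have hc0 : c ≠ 0 := by
    have := hc 0
    rwa [map_zero] at this
  set G1 : ∀ i, J i → κ₁[X] := fun i x => (G i x).map (algebraMap κ κ₁) with hG1
  cases t' with
  | none =>
    refine ⟨s, fun i => (c * (s - t)) ^ cls G1 i,
      fun i => pow_ne_zero _ (mul_ne_zero hc0 (sub_ne_zero.mpr hst)), fun i x => ?_⟩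
    rw [mob_eval_s s t c hst hc0]
    have h := congrFun (congrFun (val_up (κ₁ := κ₁) G none) i) x
    have h2 : algebraMap κ κ₁ (val G none i x) = hi G1 i x := h
    rw [h2]
  | some z =>
    have hcz : c - algebraMap κ κ₁ z ≠ 0 := sub_ne_zero.mpr (hc z)
    set z' := algebraMap κ κ₁ z with hz'
    have hts : t - s ≠ 0 := sub_ne_zero.mpr (Ne.symm hst)
    have h0 : (c * t - z' * s) / (c - z') - s = c * (t - s) / (c - z') := by
      field_simp
      ring
    have h1 : (c * t - z' * s) / (c - z') - s ≠ 0 := by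
      rw [h0]
      exact div_ne_zero (mul_ne_zero hc0 hts) hcz
    refine ⟨(c * t - z' * s) / (c - z'), fun i => ((c * t - z' * s) / (c - z') - s) ^ cls G1 i,
      fun i => pow_ne_zero _ h1, fun i x => ?_⟩
    rw [mob_eval s t c hst hc0 G1 i x (sub_ne_zero.mp h1)]
    have h2 : c * ((c * t - z' * s) / (c - z') - t) / ((c * t - z' * s) / (c - z') - s) = z' := by
      rw [h0]
      have h3 : (c * t - z' * s) / (c - z') - t = z' * (t - s) / (c - z') := by
        field_simp
        ring
      rw [h3]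
      field_simp
    rw [h2]
    have h := congrFun (congrFun (val_up (κ₁ := κ₁) G (some z)) i) x
    have h4 : algebraMap κ κ₁ (val G (some z) i x) = (G1 i x).eval z' := h
    rw [h4]

/-- the line in a tower of three fields. -/
theorem main_tower {s t c : κ₁} (hind : AlgebraicIndependent κ ![s, t, c]) {lam : I → Ω}
    (hlam : AlgebraicIndependent κ₁ lam) (hE : MHom E) {β : I → ℕ} (i₀ : I) (hβ : ∀ i, 0 < β i)
    {G : ∀ i, J i → κ[X]} (hG : IsMap E G) (hc : cls G = β) {n : ℕ}
    (ht : TrGe F₀ (rat (hi G) ∪ rat (lo G)) n) :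
    ∃ l : ∀ i, J i → Polynomial Ω, IsMap E l ∧ cls l = β ∧ TrGe F₀ (coeffs l) (n + 1 + Fintype.card I) ∧
      ∀ (t : Option κ) (r : ℕ), TrGe F₀ (rat (val G t)) r →
        ∃ t₀ : Ω, Same (up Ω (val G t)) (pt l t₀) ∧
          TrGe F₀ (ent (pt l t₀)) (r + Fintype.card I) := by
  have hst : s ≠ t := by
    intro h
    have := hind.injective (a₁ := 0) (a₂ := 1) h
    exact absurd this (by decide)
  have hct : Transcendental κ c := hind.transcendental 2
  have hcz : ∀ z : κ, c ≠ algebraMap κ κ₁ z := by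
    rintro z rfl
    exact hct (isAlgebraic_algebraMap z)
  have hc0 : c ≠ 0 := by
    have := hcz 0
    rwa [map_zero] at this
  have hlam0 : ∀ i, lam i ≠ 0 := fun i => hlam.ne_zero i
  let φ₁ : κ →ₐ[k] κ₁ := IsScalarTower.toAlgHom k κ κ₁
  let φ₂ : κ₁ →ₐ[k] Ω := IsScalarTower.toAlgHom k κ₁ Ω
  let G1 : ∀ i, J i → κ₁[X] := fun i x => (G i x).map (algebraMap κ κ₁)
  have hG1 : IsMap E G1 := isMap_map φ₁ hG
  have hG1c : cls G1 = β := by
    rw [← hc]
    funext i
    exact vdeg_map _ _
  let M := mob s t c G1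
  have hM : IsMap E M := mob_isMap hE s t c hG1
  have hMc : cls M = β := (cls_mob hE hst hc0 hG1).trans hG1c
  let M2 : ∀ i, J i → Polynomial Ω := fun i x => (M i x).map (algebraMap κ₁ Ω)
  have hM2 : IsMap E M2 := isMap_map φ₂ hM
  have hM2c : cls M2 = β := by
    rw [← hMc]
    funext i
    exact vdeg_map _ _
  let l := rpt lam 1 0 M2
  have hl : IsMap E l := rpt_isMap hE hlam0 _ _ hM2
  have hlc : cls l = β := (cls_rpt hlam0 one_ne_zero _ _).trans hM2c
  -- values
  have hev : ∀ (z : κ₁) i x, pt l (algebraMap κ₁ Ω z) i x =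
      lam i * algebraMap κ₁ Ω ((M i x).eval z) := by
    intro z i x
    show (rpt lam 1 0 M2 i x).eval _ = _
    rw [rpt_eval, one_mul, add_zero]
    show lam i * ((M i x).map (algebraMap κ₁ Ω)).eval (algebraMap κ₁ Ω z) = _
    rw [eval_map, eval₂_at_apply]
  have hco : ∀ (K : Type u) [Field K] [Algebra K Ω] (i : I) (x : J i) (j : ℕ),
      (l i x).coeff j ∈ IntermediateField.adjoin K (coeffs l) := fun K _ _ i x j =>
    IntermediateField.subset_adjoin _ _ ⟨i, x, j, rfl⟩
  have key : ∀ t' : Option κ, ∃ (t₀ : κ₁) (d : I → Ω), (∀ i, d i ≠ 0) ∧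
      (∀ i x, pt l (algebraMap κ₁ Ω t₀) i x = d i * algebraMap κ Ω (val G t' i x)) ∧
      ∀ (S : IntermediateField κ₁ Ω), (∀ i x, pt l (algebraMap κ₁ Ω t₀) i x ∈ S) →
        ∀ i, lam i ∈ S := by
    intro t'
    obtain ⟨t₀, μ, hμ, hv⟩ := mob_val (G := G) hst hcz t'
    have hμ' : ∀ i, algebraMap κ₁ Ω (μ i) ≠ 0 := fun i => by
      rw [Ne, map_eq_zero]
      exact hμ i
    have h1 : ∀ i x, pt l (algebraMap κ₁ Ω t₀) i x =
        lam i * algebraMap κ₁ Ω (μ i) * algebraMap κ Ω (val G t' i x) := by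
      intro i x
      rw [hev, show (M i x).eval t₀ = _ from hv i x, map_mul, mul_assoc,
        ← IsScalarTower.algebraMap_apply κ κ₁ Ω]
    refine ⟨t₀, fun i => lam i * algebraMap κ₁ Ω (μ i), fun i => mul_ne_zero (hlam0 i) (hμ' i),
      h1, fun S hS i => ?_⟩
    obtain ⟨x, hx⟩ := val_ne hG.cop t' i
    have hx' : algebraMap κ Ω (val G t' i x) ≠ 0 := by
      rw [Ne, map_eq_zero]
      exact hx
    have h2 : lam i = pt l (algebraMap κ₁ Ω t₀) i x *
        (algebraMap κ₁ Ω (μ i * algebraMap κ κ₁ (val G t' i x)))⁻¹ := by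
      rw [h1, map_mul, ← IsScalarTower.algebraMap_apply κ κ₁ Ω]
      have := hμ' i
      field_simp
    rw [h2]
    exact mul_mem (hS i x) (inv_mem (S.algebraMap_mem _))
  have hI : ∀ T : Set Ω, (∀ i, lam i ∈ IntermediateField.adjoin κ₁ T) →
      TrGe κ₁ T (Fintype.card I) := by
    intro T hT
    let e : Fin (Fintype.card I) ≃ I := (Fintype.equivFin I).symm
    exact ⟨fun j => lam (e j), fun j => hT _, hlam.comp e e.injective⟩
  refine ⟨l, hl, hlc, ?_, ?_⟩
  · -- the number of parameters of `l`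
    set sΩ := algebraMap κ₁ Ω s with hsΩ
    set tΩ := algebraMap κ₁ Ω t with htΩ
    set cΩ := algebraMap κ₁ Ω c with hcΩ
    have hstΩ : sΩ - tΩ ≠ 0 := by
      rw [hsΩ, htΩ, ← map_sub, Ne, map_eq_zero]
      exact sub_ne_zero.mpr hst
    set S : Set Ω := coeffs l ∪ {sΩ, tΩ} with hS
    have hsS : ∀ (K : Type u) [Field K] [Algebra K Ω], sΩ ∈ IntermediateField.adjoin K S :=
      fun K _ _ => IntermediateField.subset_adjoin _ _ (Or.inr (Or.inl rfl))
    have htS : ∀ (K : Type u) [Field K] [Algebra K Ω], tΩ ∈ IntermediateField.adjoin K S :=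
      fun K _ _ => IntermediateField.subset_adjoin _ _ (Or.inr (Or.inr rfl))
    have hcS : ∀ (K : Type u) [Field K] [Algebra K Ω] (i : I) (x : J i) (j : ℕ),
        (l i x).coeff j ∈ IntermediateField.adjoin K S := fun K _ _ i x j =>
      IntermediateField.subset_adjoin _ _ (Or.inl ⟨i, x, j, rfl⟩)
    have hps : ∀ (K : Type u) [Field K] [Algebra K Ω] (i : I) (x : J i),
        pt l sΩ i x ∈ IntermediateField.adjoin K S := fun K _ _ i x =>
      eval_mem _ (hcS K i x) (hsS K)
    have hpt : ∀ (K : Type u) [Field K] [Algebra K Ω] (i : I) (x : J i),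
        pt l tΩ i x ∈ IntermediateField.adjoin K S := fun K _ _ i x =>
      eval_mem _ (hcS K i x) (htS K)
    -- values at `s` and `t`
    have hvs : ∀ i x, pt l sΩ i x =
        lam i * (cΩ * (sΩ - tΩ)) ^ β i * algebraMap κ Ω (hi G i x) := by
      intro i x
      rw [hsΩ, hev, show M i x = mob s t c G1 i x from rfl, mob_eval_s s t c hst hc0, hG1c]
      have h := congrFun (congrFun (val_up (κ₁ := κ₁) G none) i) x
      have h2 : hi G1 i x = algebraMap κ κ₁ (hi G i x) := h.symm
      rw [h2, map_mul, map_pow, map_mul, map_sub, ← IsScalarTower.algebraMap_apply κ κ₁ Ω,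
        mul_assoc]
    have hvt : ∀ i x, pt l tΩ i x =
        lam i * (tΩ - sΩ) ^ β i * algebraMap κ Ω (lo G i x) := by
      intro i x
      rw [htΩ, hev, show M i x = mob s t c G1 i x from rfl,
        mob_eval s t c hst hc0 _ _ _ (Ne.symm hst), hG1c, sub_self, mul_zero, zero_div]
      have h2 : (G1 i x).eval 0 = algebraMap κ κ₁ (lo G i x) := by
        rw [← coeff_zero_eq_eval_zero]
        exact coeff_map _ _
      rw [h2, map_mul, map_pow, map_sub, ← IsScalarTower.algebraMap_apply κ κ₁ Ω, mul_assoc]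
    -- `lam` and `s, t, c`
    have h1 : TrGe κ₁ (coeffs l) (Fintype.card I) := by
      obtain ⟨t₀, d, -, -, h⟩ := key none
      exact hI _ (h _ fun i x => eval_mem _ (hco κ₁ i x)
        (IntermediateField.algebraMap_mem _ _))
    have h2 : TrGe κ (Set.range ![sΩ, tΩ, cΩ]) 3 := by
      refine ⟨![sΩ, tΩ, cΩ], fun j => IntermediateField.subset_adjoin _ _ ⟨j, rfl⟩, ?_⟩
      have h3 := hind.map' (f := IsScalarTower.toAlgHom κ κ₁ Ω) (algebraMap κ₁ Ω).injective
      convert h3 using 1
      funext j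
      fin_cases j <;> rfl
    have h3 : TrGe κ (Set.range ![sΩ, tΩ, cΩ] ∪ coeffs l) (3 + Fintype.card I) := by
      refine trGe_tower h2 ?_ h1
      rintro _ ⟨j, rfl⟩
      fin_cases j
      · exact ⟨s, rfl⟩
      · exact ⟨t, rfl⟩
      · exact ⟨c, rfl⟩
    have hcc : cΩ ∈ cl κ S := by
      refine pow_mem_cl (hβ i₀) ?_
      obtain ⟨x, hx⟩ := Function.ne_iff.mp (hi_ne_zero hG.cop i₀)
      obtain ⟨y, hy⟩ := Function.ne_iff.mp (lo_ne_zero hG.cop i₀)
      have hx' : algebraMap κ Ω (hi G i₀ x) ≠ 0 := by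
        rw [Ne, map_eq_zero]
        exact hx
      have hy' : algebraMap κ Ω (lo G i₀ y) ≠ 0 := by
        rw [Ne, map_eq_zero]
        exact hy
      have hts : tΩ - sΩ ≠ 0 := by
        rw [← neg_sub]
        exact neg_ne_zero.mpr hstΩ
      have h5 : cΩ ^ β i₀ = pt l sΩ i₀ x * (pt l tΩ i₀ y)⁻¹ * (tΩ - sΩ) ^ β i₀ *
          ((sΩ - tΩ) ^ β i₀)⁻¹ * algebraMap κ Ω (lo G i₀ y) * (algebraMap κ Ω (hi G i₀ x))⁻¹ := by
        rw [hvs, hvt]
        have := hlam0 i₀
        have h6 := pow_ne_zero (β i₀) hstΩ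
        have h7 := pow_ne_zero (β i₀) hts
        rw [mul_pow]
        field_simp
      rw [h5]
      refine adjoin_le_cl S ?_
      have e1 := hps κ i₀ x
      have e2 := hpt κ i₀ y
      have e3 := hsS κ
      have e4 := htS κ
      exact mul_mem (mul_mem (mul_mem (mul_mem (mul_mem e1 (inv_mem e2))
        (pow_mem (sub_mem e4 e3) _)) (inv_mem (pow_mem (sub_mem e3 e4) _)))
        (IntermediateField.algebraMap_mem _ _)) (inv_mem (IntermediateField.algebraMap_mem _ _))
    have h4 : TrGe κ S (3 + Fintype.card I) := by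
      refine trGe_mono h3 (Set.union_subset ?_ (Set.subset_union_left.trans (subset_cl S)))
      rintro _ ⟨j, rfl⟩
      fin_cases j
      · exact subset_cl S (Or.inr (Or.inl rfl))
      · exact subset_cl S (Or.inr (Or.inr rfl))
      · exact hcc
    -- down to `F₀`
    have h5 : TrGe F₀ (algebraMap κ Ω '' (rat (hi G) ∪ rat (lo G))) n :=
      trGe_image (IsScalarTower.toAlgHom F₀ κ Ω) ht
    have h6 : TrGe F₀ (algebraMap κ Ω '' (rat (hi G) ∪ rat (lo G)) ∪ S)
        (n + (3 + Fintype.card I)) :=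
      trGe_tower h5 (by rintro _ ⟨x, -, rfl⟩; exact ⟨x, rfl⟩) h4
    have hAs : algebraMap κ Ω '' rat (hi G) ⊆ (IntermediateField.adjoin F₀ S : Set Ω) := by
      rw [← rat_map]
      have h7 : rat (pt l sΩ) = rat (fun i a => algebraMap κ Ω (hi G i a)) :=
        rat_same_eq ⟨fun i => lam i * (cΩ * (sΩ - tΩ)) ^ β i, fun i => mul_ne_zero (hlam0 i)
          (pow_ne_zero _ (mul_ne_zero (by rw [hcΩ, Ne, map_eq_zero]; exact hc0) hstΩ)),
          fun i x => hvs i x⟩
      rw [← h7]
      exact rat_subset fun i x => hps F₀ i x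
    have hAt : algebraMap κ Ω '' rat (lo G) ⊆ (IntermediateField.adjoin F₀ S : Set Ω) := by
      rw [← rat_map]
      have h7 : rat (pt l tΩ) = rat (fun i a => algebraMap κ Ω (lo G i a)) :=
        rat_same_eq ⟨fun i => lam i * (tΩ - sΩ) ^ β i, fun i => mul_ne_zero (hlam0 i)
          (pow_ne_zero _ (by rw [← neg_sub]; exact neg_ne_zero.mpr hstΩ)),
          fun i x => hvt i x⟩
      rw [← h7]
      exact rat_subset fun i x => hpt F₀ i x
    have h7 : TrGe F₀ (coeffs l ∪ {sΩ, tΩ}) ((n + 1 + Fintype.card I) + 2) := by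
      have h8 : n + (3 + Fintype.card I) = (n + 1 + Fintype.card I) + 2 := by omega
      rw [← h8]
      refine trGe_adj h6 (Set.union_subset ?_ (IntermediateField.subset_adjoin _ _))
      rw [Set.image_union]
      exact Set.union_subset hAs hAt
    exact trGe_split h7 (not_trGe_pair _ _)
  · intro t' r hr
    obtain ⟨t₀, d, hd, hv, h⟩ := key t'
    refine ⟨algebraMap κ₁ Ω t₀, ⟨d, hd, fun i x => hv i x⟩, ?_⟩
    have h1 : TrGe F₀ (algebraMap κ Ω '' rat (val G t')) r :=
      trGe_image (IsScalarTower.toAlgHom F₀ κ Ω) hr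
    have h2 : TrGe κ₁ (ent (pt l (algebraMap κ₁ Ω t₀))) (Fintype.card I) :=
      hI _ (h _ fun i x => IntermediateField.subset_adjoin _ _ ⟨i, x, rfl⟩)
    have h3 : TrGe κ (ent (pt l (algebraMap κ₁ Ω t₀))) (Fintype.card I) := trGe_base h2
    have h4 := trGe_tower h1 (by rintro _ ⟨x, -, rfl⟩; exact ⟨x, rfl⟩) h3
    refine trGe_adj h4 (Set.union_subset ?_ (IntermediateField.subset_adjoin _ _))
    rw [← rat_map]
    have h7 : rat (pt l (algebraMap κ₁ Ω t₀)) = rat (fun i a => algebraMap κ Ω (val G t' i a)) :=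
      rat_same_eq ⟨d, hd, fun i x => hv i x⟩
    rw [← h7]
    exact rat_subset fun i x => IntermediateField.subset_adjoin _ _ ⟨i, x, rfl⟩

end main

/-- **(L2)** the generic parametrised line through the points of a map of class `β`. -/
theorem gen_line {k : Type u} [Field k] [Fintype I] [∀ i, Fintype (J i)]
    {E : Set (MvPolynomial (Σ i, J i) k)} (hE : MHom E) {β : I → ℕ} (i₀ : I)
    (hβ : ∀ i, 0 < β i) {F₀ κ : Type u} [Field F₀] [Algebra k F₀] [Field κ] [IsAlgClosed κ]
    [Algebra k κ] [Algebra F₀ κ] [IsScalarTower k F₀ κ] {G : ∀ i, J i → κ[X]} (hG : IsMap E G)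
    (hc : cls G = β) {n : ℕ} (ht : TrGe F₀ (rat (hi G) ∪ rat (lo G)) n) :
    ∃ (kl : Type u) (_ : Field kl) (_ : IsAlgClosed kl) (_ : Algebra k kl) (_ : Algebra F₀ kl)
      (_ : IsScalarTower k F₀ kl) (_ : Algebra κ kl) (_ : IsScalarTower F₀ κ kl)
      (l : ∀ i, J i → kl[X]), IsMap E l ∧ cls l = β ∧
      TrGe F₀ (coeffs l) (n + 1 + Fintype.card I) ∧
      ∀ (t : Option κ) (r : ℕ), TrGe F₀ (rat (val G t)) r →
        ∃ t₀ : kl, Same (up kl (val G t)) (pt l t₀) ∧
          TrGe F₀ (ent (pt l t₀)) (r + Fintype.card I) := by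
  obtain ⟨κ₁, _, _, _, a, ha⟩ := exists_trans κ (Fin 3)
  obtain ⟨Ω, _, _, _, lam, hlam⟩ := exists_trans κ₁ I
  let _ : Algebra k κ₁ := ((algebraMap κ κ₁).comp (algebraMap k κ)).toAlgebra
  let _ : Algebra F₀ κ₁ := ((algebraMap κ κ₁).comp (algebraMap F₀ κ)).toAlgebra
  let _ : Algebra κ Ω := ((algebraMap κ₁ Ω).comp (algebraMap κ κ₁)).toAlgebra
  let _ : Algebra k Ω := ((algebraMap κ Ω).comp (algebraMap k κ)).toAlgebra
  let _ : Algebra F₀ Ω := ((algebraMap κ Ω).comp (algebraMap F₀ κ)).toAlgebra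
  have : IsScalarTower k κ κ₁ := IsScalarTower.of_algebraMap_eq fun x => rfl
  have : IsScalarTower F₀ κ κ₁ := IsScalarTower.of_algebraMap_eq fun x => rfl
  have : IsScalarTower κ κ₁ Ω := IsScalarTower.of_algebraMap_eq fun x => rfl
  have : IsScalarTower F₀ κ Ω := IsScalarTower.of_algebraMap_eq fun x => rfl
  have : IsScalarTower k κ₁ Ω := IsScalarTower.of_algebraMap_eq fun x => rfl
  have : IsScalarTower k F₀ Ω := IsScalarTower.of_algebraMap_eq fun x => by
    show algebraMap κ Ω (algebraMap k κ x) = algebraMap κ Ω (algebraMap F₀ κ (algebraMap k F₀ x))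
    rw [← IsScalarTower.algebraMap_apply k F₀ κ]
  have ha' : AlgebraicIndependent κ ![a 0, a 1, a 2] := by
    convert ha using 1
    funext j
    fin_cases j <;> rfl
  exact ⟨Ω, inferInstance, inferInstance, inferInstance, inferInstance, inferInstance,
    inferInstance, inferInstance, main_tower ha' hlam hE i₀ hβ hG hc ht⟩

end Crest.Agent.R260.Gln_941
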