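import Crest.Agent.R260.Gp2_169
import Crest.Agent.R260.Fam1_919
import Crest.Agent.R260.FamP_919
import Crest.Agent.R260.Gpt_33
import Crest.Agent.R260.Hmg3_516
import Crest.Agent.R260.Cf2_703
import Crest.Agent.R260.Prop3_703

-- ▼ part R260/Gp4_169
section

/-!
# Row 260, (F6') (helper169): the points of the generic member at constant parameters are generic
-/

set_option autoImplicit false
set_option linter.all false

namespace Crest.Agent.R260.Gp_169

open Module
open Crest.Agent.R270.BM_360 Crest.Agent.R260.Lin_678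
open Crest.Agent.R260.QuadDefs_517 Crest.Agent.R270.TrM_807
open Crest.Agent.R260.Fam_919 Crest.Agent.R260.Mob_919
open Crest.Agent.R260.Hmg3_516 Crest.Agent.R260.Fin5_600

universe u v

variable {I : Type} {J : I → Type} [Fintype I] [∀ i, Fintype (J i)] {k : Type u} [Field k]

/-- if a polynomial vanishes on the torus orbit of `x`, so do its components at `x`. -/
theorem cmp_vanish [Infinite k] (q : MvPolynomial (Σ i, J i) k) (x : (Σ i, J i) → k)
    (h : ∀ l : I → k, MvPolynomial.aeval (sc (Sigma.fst : (Σ i, J i) → I) l x) q = 0)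
    (n : I → ℕ) : MvPolynomial.aeval x (cmp (Sigma.fst : (Σ i, J i) → I) n q) = 0 := by
  classical
  let G : MvPolynomial I k := ∑ n ∈ ds (Sigma.fst : (Σ i, J i) → I) q,
    MvPolynomial.monomial (Finsupp.equivFunOnFinite.symm n)
      (MvPolynomial.aeval x (cmp (Sigma.fst : (Σ i, J i) → I) n q))
  have hG : G = 0 := by
    apply MvPolynomial.funext
    intro l
    rw [map_zero, ← h l, sc_expand, map_sum]
    refine Finset.sum_congr rfl fun n _ => ?_
    rw [MvPolynomial.eval_monomial, mul_comm, Finsupp.prod_fintype]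
    · rfl
    · intro i
      exact pow_zero _
  by_cases hn : n ∈ ds (Sigma.fst : (Σ i, J i) → I) q
  · have h1 : MvPolynomial.coeff (Finsupp.equivFunOnFinite.symm n) G =
        MvPolynomial.aeval x (cmp (Sigma.fst : (Σ i, J i) → I) n q) := by
      simp only [G]
      rw [MvPolynomial.coeff_sum, Finset.sum_eq_single n]
      · rw [MvPolynomial.coeff_monomial, if_pos rfl]
      · intro m _ hm
        rw [MvPolynomial.coeff_monomial, if_neg]
        exact fun h => hm (Finsupp.equivFunOnFinite.symm.injective h)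
      · intro h
        exact absurd hn h
    rw [← h1, hG, MvPolynomial.coeff_zero]
  · rw [cmp_zero_of_notMem _ hn, map_zero]

/-- a multihomogeneous polynomial in the first point is bihomogeneous. -/
theorem bH_inl {q : MvPolynomial (Σ i, J i) k} {n : I → ℕ}
    (hq : MvPolynomial.IsWeightedHomogeneous (bw (Sigma.fst : (Σ i, J i) → I)) q n) :
    BH (MvPolynomial.rename Sum.inl q) := by
  classical
  refine ⟨Sum.elim n 0, ?_⟩
  intro m hm
  have h1 : m ∈ (MvPolynomial.rename Sum.inl q : MvPolynomial ((Σ i, J i) ⊕ (Σ i, J i)) k).support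
    := MvPolynomial.mem_support_iff.2 hm
  rw [MvPolynomial.support_rename_of_injective Sum.inl_injective, Finset.mem_image] at h1
  obtain ⟨e, he, rfl⟩ := h1
  have h2 := hq (MvPolynomial.mem_support_iff.1 he)
  rw [Finsupp.weight_apply, Finsupp.sum_mapDomain_index (by simp) (by intros; simp [add_smul])]
  rw [Finsupp.weight_apply] at h2
  rw [← h2]
  funext j
  rw [Finsupp.sum, Finset.sum_apply, Finsupp.sum]
  rcases j with j | j
  · rw [Sum.elim_inl, Finset.sum_apply]
    refine Finset.sum_congr rfl fun y _ => ?_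
    simp only [Pi.smul_apply, bw, Sum.map_inl, Pi.single_apply]
    congr 1
    by_cases hj : j = y.1
    · subst hj
      simp
    · have : (Sum.inl j : I ⊕ I) ≠ Sum.inl y.1 := fun h => hj (Sum.inl_injective h)
      simp [hj, this]
  · rw [Sum.elim_inr, Pi.zero_apply]
    refine Finset.sum_eq_zero fun y _ => ?_
    simp [Pi.single_apply]

variable [IsAlgClosed k] [CharZero k] {D : CData k I J}
  {P : Ideal (MvPolynomial (Cx J (fun i => 2 * D.β i)) k)}

/-- there is a point of the cone with non-zero blocks. -/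
theorem exists_pt (hF : Fam D P) : ∃ v : ∀ i, J i → k, OnX D.E v ∧ ∀ i, v i ≠ 0 := by
  obtain ⟨F, hF1, hF2, -⟩ := hF.good
  refine ⟨pt F 0, ?_, fun i h0 => ?_⟩
  · intro p hp
    have h1 := hF2.on p hp
    have h2 := MvPolynomial.comp_aeval_apply (fun x : Σ i, J i => F x.1 x.2)
      (Polynomial.aeval (0 : k) : Polynomial k →ₐ[k] k) p
    rw [h1, map_zero] at h2
    have h3 : (fun x : Σ i, J i => pt F 0 x.1 x.2) =
        fun x : Σ i, J i => Polynomial.aeval (0 : k) (F x.1 x.2) := by
      funext x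
      rw [Polynomial.coe_aeval_eq_eval]
      rfl
    rw [h3]
    exact h2.symm
  · have h1 : Ideal.span (Set.range (F i)) ≤ RingHom.ker (Polynomial.evalRingHom (0 : k)) := by
      rw [Ideal.span_le]
      rintro _ ⟨a, rfl⟩
      exact congrFun h0 a
    have h2 : Ideal.span (Set.range (F i)) = ⊤ := hF2.cop i
    rw [h2, top_le_iff] at h1
    exact (RingHom.ker_ne_top (Polynomial.evalRingHom (0 : k))) h1

/-- a polynomial which vanishes at all points `μ F(t)` of the members over `k` lies in the ideal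
of the cone. -/
theorem mem_span_of_vanish (hF : Fam D P) (hE : (Ideal.span D.E).IsPrime)
    (q : MvPolynomial (Σ i, J i) k)
    (h : ∀ F : ∀ i, J i → Polynomial k, InC (fun i => 2 * D.β i) P F → ∀ (μ : I → k) (t : k),
      MvPolynomial.aeval (fun x : Σ i, J i => μ x.1 * (F x.1 x.2).eval t) q = 0) :
    q ∈ Ideal.span D.E := by
  classical
  -- all points of the cone
  have h1 : ∀ v : ∀ i, J i → k, OnX D.E v → (∀ i, v i ≠ 0) →
      MvPolynomial.aeval (fun x : Σ i, J i => v x.1 x.2) q = 0 := by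
    intro v hv hv0
    rw [← sum_cmp (Sigma.fst : (Σ i, J i) → I) q, map_sum]
    refine Finset.sum_eq_zero fun n _ => ?_
    have h2 := hF.pairs _ (bH_inl (cmp_hom (Sigma.fst : (Σ i, J i) → I) n q)) (fun F hFF s t => by
      unfold pval
      rw [MvPolynomial.aeval_rename]
      refine cmp_vanish q (fun x : Σ i, J i => (F x.1 x.2).eval s) (fun l => ?_) n
      exact h F hFF l s) v v hv hv0 hv hv0
    unfold pval at h2
    rw [MvPolynomial.aeval_rename] at h2
    exact h2
  -- Nullstellensatz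
  by_contra hcon
  obtain ⟨v₀, hv₀, hv₀0⟩ := exists_pt hF
  have hc : ∀ i, ∃ a, v₀ i a ≠ 0 := fun i => by
    obtain ⟨a, ha⟩ := Function.ne_iff.1 (hv₀0 i)
    exact ⟨a, ha⟩
  choose c hc using hc
  have hX : ∀ i, (MvPolynomial.X ⟨i, c i⟩ : MvPolynomial (Σ i, J i) k) ∉ Ideal.span D.E := by
    intro i hi
    have h3 : Ideal.span D.E ≤ RingHom.ker (MvPolynomial.aeval (fun x : Σ i, J i => v₀ x.1 x.2) :
        MvPolynomial (Σ i, J i) k →ₐ[k] k).toRingHom := by
      rw [Ideal.span_le]
      intro p hp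
      exact hv₀ p hp
    have h4 := h3 hi
    rw [RingHom.mem_ker] at h4
    change MvPolynomial.aeval _ _ = 0 at h4
    rw [MvPolynomial.aeval_X] at h4
    exact hc i h4
  have hprod : (∏ i, (MvPolynomial.X ⟨i, c i⟩ : MvPolynomial (Σ i, J i) k)) ∉ Ideal.span D.E := by
    intro h3
    obtain ⟨i, -, hi⟩ := (hE.prod_mem_iff).1 h3
    exact hX i hi
  have hq : q * ∏ i, (MvPolynomial.X ⟨i, c i⟩ : MvPolynomial (Σ i, J i) k) ∉ Ideal.span D.E :=
    fun h3 => (hE.mem_or_mem h3).elim hcon hprod
  obtain ⟨x, hx1, hx2⟩ := Crest.Agent.R260.Irr_33.exists_point hE hq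
  rw [map_mul, map_prod] at hx2
  have hx3 := left_ne_zero_of_mul hx2
  have hx4 := right_ne_zero_of_mul hx2
  rw [Finset.prod_ne_zero_iff] at hx4
  apply hx3
  have h5 : ∀ p : MvPolynomial (Σ i, J i) k, MvPolynomial.aeval x p = MvPolynomial.eval x p := by
    intro p
    rw [MvPolynomial.aeval_def, Algebra.algebraMap_self, MvPolynomial.eval₂_id]
  have h6 := h1 (fun i a => x ⟨i, a⟩) (fun p hp => by
    have := hx1 p (Ideal.subset_span hp)
    rw [← h5] at this
    exact this) (fun i h0 => by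
    have := hx4 i (Finset.mem_univ i)
    rw [MvPolynomial.eval_X] at this
    exact this (congrFun h0 (c i)))
  rw [← h5]
  exact h6

/-- value of a polynomial at the point `F(s)` as a polynomial in the coefficients of `F`. -/
noncomputable def Rs {F₀ : Type u} [Field F₀] (N : I → ℕ) (s : F₀) :
    MvPolynomial (Σ i, J i) F₀ →ₐ[F₀] MvPolynomial (Cx J N) F₀ :=
  MvPolynomial.aeval (fun x : Σ i, J i =>
    ∑ n : Fin (N x.1 + 1), MvPolynomial.X ⟨x, n⟩ * MvPolynomial.C (s ^ (n : ℕ)))

theorem aeval_Rs {F₀ : Type u} [Field F₀] {A : Type v} [CommRing A] [Algebra F₀ A] {N : I → ℕ}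
    {F : ∀ i, J i → Polynomial A} (hF : ∀ i x, (F i x).natDegree ≤ N i) (s : F₀)
    (p : MvPolynomial (Σ i, J i) F₀) :
    MvPolynomial.aeval (cfv N F) (Rs N s p) =
      MvPolynomial.aeval (fun x : Σ i, J i => (F x.1 x.2).eval (algebraMap F₀ A s)) p := by
  unfold Rs
  rw [MvPolynomial.comp_aeval_apply]
  congr 2
  funext x
  rw [map_sum]
  simp only [map_mul, MvPolynomial.aeval_X, MvPolynomial.aeval_C, cfv, map_pow]
  rw [Polynomial.eval_eq_sum_range' (Nat.lt_succ_of_le (hF x.1 x.2)), ← Fin.sum_univ_eq_sum_range]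

/-- **the relations of the point `H(s)`** of the generic member, `s` a constant. -/
theorem mem_map_of_pt (hF : Fam D P) (hE : (Ideal.span D.E).IsPrime) {F₀ κ : Type u} [Field F₀]
    [Field κ] [Algebra k F₀] [Algebra k κ] [Algebra F₀ κ] [IsScalarTower k F₀ κ]
    {H : ∀ i, J i → Polynomial κ} (hH : Gen (fun i => 2 * D.β i) P F₀ H) (s : F₀)
    (p : MvPolynomial (Σ i, J i) F₀)
    (hp : MvPolynomial.aeval (fun x : Σ i, J i => pt H (algebraMap F₀ κ s) x.1 x.2) p = 0) :
    p ∈ (Ideal.span D.E).map (MvPolynomial.map (algebraMap k F₀) :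
      MvPolynomial (Σ i, J i) k →+* MvPolynomial (Σ i, J i) F₀) := by
  have h1 : Rs (fun i => 2 * D.β i) s p ∈ P.map (MvPolynomial.map (algebraMap k F₀)) := by
    rw [← hH.iff, aeval_Rs hH.deg]
    exact hp
  refine Crest.Agent.R260.Irr_33.mem_map_of_cf fun φ => ?_
  refine mem_span_of_vanish hF hE _ fun F hFF μ t => ?_
  have h5 : ∀ (x : (Σ i, J i) → k) (p : MvPolynomial (Σ i, J i) k),
      MvPolynomial.aeval x p = MvPolynomial.eval x p := by
    intro x p
    rw [MvPolynomial.aeval_def, Algebra.algebraMap_self, MvPolynomial.eval₂_id]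
  rw [h5, Crest.Agent.R260.Irr_33.eval_cf]
  -- the moved member
  let F' := mobT (fun i => 2 * D.β i) (fun i => algebraMap k F₀ (μ i)) 1 (algebraMap k F₀ t - s) 0 1
    (mapT (algebraMap k F₀) F)
  have hF' : InC (fun i => 2 * D.β i) P F' := by
    refine hF.inv F₀ _ ?_ _ _ _ _ _
    have := InC.mapT (fun i => 2 * D.β i) hFF (Algebra.ofId k F₀)
    exact this
  have h2 : MvPolynomial.aeval (cfv (fun i => 2 * D.β i) F') (Rs (fun i => 2 * D.β i) s p) = 0 :=
    Crest.Agent.R260.Irr_33.eval_of_mem_map h1 hF'.mem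
  rw [aeval_Rs hF'.deg] at h2
  have h3 : (fun x : Σ i, J i => (F' x.1 x.2).eval (algebraMap F₀ F₀ s)) =
      fun x : Σ i, J i => algebraMap k F₀ (μ x.1 * (F x.1 x.2).eval t) := by
    funext x
    simp only [F', mobT, mapT, Algebra.algebraMap_self, RingHom.id_apply]
    rw [Polynomial.eval_mul, Polynomial.eval_C, eval_mob, map_mul]
    congr 1
    rw [show (1 : F₀) * s + (algebraMap k F₀ t - s) = algebraMap k F₀ t by ring,
      show (0 : F₀) * s + 1 = 1 by ring, hev_t_one _ (Polynomial.natDegree_map_le.trans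
        (hFF.deg x.1 x.2))]
    rw [Polynomial.aeval_def, Algebra.algebraMap_self, Polynomial.eval₂_id, Polynomial.eval_map,
      Polynomial.eval₂_at_apply]
  rw [h3] at h2
  have h4 : MvPolynomial.eval (fun x : Σ i, J i => algebraMap k F₀ (μ x.1 * (F x.1 x.2).eval t)) p =
      0 := by
    rw [← h2, MvPolynomial.aeval_def, Algebra.algebraMap_self, MvPolynomial.eval₂_id]
  rw [h4, map_zero]

/-- **(F6')** -/
theorem genTrPt (hF : Fam D P) (hE : (Ideal.span D.E).IsPrime) : GenTrPtP D P := by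
  intro F₀ κ _ _ _ _ _ _ H hH s
  obtain ⟨K, _, _, _, _, _, x, hx1, -, hx3, -⟩ :=
    Crest.Agent.R260.Gpt_33.exists_gen_pt D hE (exists_pt hF) F₀
  have h0 : QuadDefs_517.ent x = Set.range (fun y : Σ i, J i => x y.1 y.2) := by
    ext c
    constructor
    · rintro ⟨i, a, rfl⟩
      exact ⟨⟨i, a⟩, rfl⟩
    · rintro ⟨y, rfl⟩
      exact ⟨y.1, y.2, rfl⟩
  rw [h0] at hx3
  obtain ⟨y, hy⟩ := Crest.Agent.R260.Irr_33.exists_sub hx3
  refine Crest.Agent.R260.Irr_33.trge_of_sub
    (w := fun j => pt H (algebraMap F₀ κ s) (y j).1 (y j).2) (fun j => ⟨_, _, rfl⟩) ?_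
  rw [algebraicIndependent_iff]
  intro q hq
  have h1 : MvPolynomial.aeval (fun x : Σ i, J i => pt H (algebraMap F₀ κ s) x.1 x.2)
      (MvPolynomial.rename y q) = 0 := by
    rw [MvPolynomial.aeval_rename]
    exact hq
  have h2 := mem_map_of_pt hF hE hH s _ h1
  have h3 : MvPolynomial.aeval (fun y : Σ i, J i => x y.1 y.2) (MvPolynomial.rename y q) = 0 := by
    refine Crest.Agent.R260.Irr_33.eval_of_mem_map h2 ?_
    intro p hp
    have h4 : Ideal.span D.E ≤ RingHom.ker (MvPolynomial.aeval (fun y : Σ i, J i => x y.1 y.2) :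
        MvPolynomial (Σ i, J i) k →ₐ[k] K).toRingHom := by
      rw [Ideal.span_le]
      intro p hp
      exact hx1 p hp
    exact h4 hp
  rw [MvPolynomial.aeval_rename] at h3
  exact (algebraicIndependent_iff.1 hy) q h3

end Crest.Agent.R260.Gp_169
end

-- ▼ part R260/Gp5_169

/-!
# Row 260 (helper169): the frame of the generic member; specialisation of a generic conic

`genFrame` : `GenFrame D P` from the sum of the splitting numbers; `conFrameP_fam`, `gen1P_fam`,
`gen2P_fam`; `hspec_of_con` : the hypothesis of `Prop_703.proper_cls`.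
-/

set_option autoImplicit false
set_option linter.all false

namespace Crest.Agent.R260.Gp_169

open Module
open Crest.Agent.R270.BM_360 Crest.Agent.R260.Lin_678
open Crest.Agent.R260.QuadDefs_517 Crest.Agent.R270.TrM_807
open Crest.Agent.R260.Fam_919 Crest.Agent.R260.Cf_703

universe u v

variable {I : Type} {J : I → Type} [Fintype I] [∀ i, Fintype (J i)] {k : Type u} [Field k]

/-- the sum of the splitting numbers of conics (789). -/
def NumConP (D : CData k I J) : Prop :=
  ∀ (κ : Type u) [Field κ] [IsAlgClosed κ] [Algebra k κ] (F : ∀ i, J i → Polynomial κ),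
    IsMap D.E F → cls F = 2 • D.β → NumAt D F 2

section spec

variable {F₀ K K' : Type u} [Field F₀] [Field K] [Field K'] [Algebra k F₀] [Algebra k K]
  [Algebra F₀ K] [IsScalarTower k F₀ K] [Algebra k K'] [Algebra F₀ K'] [IsScalarTower k F₀ K']

/-- polynomials in all coefficients as polynomials in the coefficients of degree `≤ N`. -/
noncomputable def tauC (F₀ : Type u) [Field F₀] (N : I → ℕ) :
    MvPolynomial ((Σ i, J i) × ℕ) F₀ →ₐ[F₀] MvPolynomial (Cx J N) F₀ :=
  MvPolynomial.aeval (fun y : (Σ i, J i) × ℕ =>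
    if h : y.2 < N y.1.1 + 1 then MvPolynomial.X ⟨y.1, ⟨y.2, h⟩⟩ else 0)

theorem aeval_tauC {N : I → ℕ} {F : ∀ i, J i → Polynomial K}
    (hF : ∀ i x, (F i x).natDegree ≤ N i) (Q : MvPolynomial ((Σ i, J i) × ℕ) F₀) :
    MvPolynomial.aeval (cfv N F) (tauC F₀ N Q) =
      MvPolynomial.aeval (fun y : (Σ i, J i) × ℕ => (F y.1.1 y.1.2).coeff y.2) Q := by
  unfold tauC
  rw [MvPolynomial.comp_aeval_apply]
  congr 2
  funext y
  split_ifs with h
  · rw [MvPolynomial.aeval_X]
    rfl
  · rw [map_zero, Polynomial.coeff_eq_zero_of_natDegree_lt]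
    have := hF y.1.1 y.1.2
    omega

/-- **specialisation** of a generic member to every member, in the form of `proper_cls`. -/
theorem hspec_of_gen {N : I → ℕ} {P : Ideal (MvPolynomial (Cx J N) k)}
    {H : ∀ i, J i → Polynomial K} {f : ∀ i, J i → Polynomial K'} (hH : Gen N P F₀ H)
    (hf : InC N P f) (Q : MvPolynomial ((Σ i, J i) × ℕ) F₀)
    (hQ : MvPolynomial.aeval (fun y : (Σ i, J i) × ℕ => (H y.1.1 y.1.2).coeff y.2) Q = 0) :
    MvPolynomial.aeval (fun y : (Σ i, J i) × ℕ => (f y.1.1 y.1.2).coeff y.2) Q = 0 := by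
  rw [← aeval_tauC hH.deg, hH.iff] at hQ
  rw [← aeval_tauC hf.deg]
  exact Crest.Agent.R260.Irr_33.eval_of_mem_map hQ hf.mem


end spec

section fam

variable [IsAlgClosed k] [CharZero k] {D : CData k I J}
  {P : Ideal (MvPolynomial (Cx J (fun i => 2 * D.β i)) k)}

/-- **the frame of the generic member**. -/
theorem genFrame (hF : Fam D P) (hE : (Ideal.span D.E).IsPrime) (hN : NumConP D)
    (hM : GenMapP D P) : GenFrame D P := by
  intro F₀ κ _ _ _ _ _ _ _ _ H t₀ hH
  have hc0 : CharZero F₀ := charZero_of_injective_algebraMap (algebraMap k F₀).injective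
  obtain ⟨h1, h2, -⟩ := hM F₀ κ H hH
  have h3 := frameAt_conic D h1 (hN κ H h1 h2) (0 : F₀) (genTrPt hF hE F₀ κ H hH 0)
  exact ⟨h3.rank.le, h3.values t₀⟩


theorem conFrameP_fam (hF : Fam D P) (hE : (Ideal.span D.E).IsPrime) (hN : NumConP D)
    (hM : GenMapP D P) : ConFrameP D (VC _ P) := conFrameP_of_gen hF (genFrame hF hE hN hM)

theorem gen1P_fam (hF : Fam D P) (hE : (Ideal.span D.E).IsPrime) (hN : NumConP D)
    (hM : GenMapP D P) : Gen1P D (VC _ P) := gen1P (conFrameP_fam hF hE hN hM)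

theorem gen2P_fam (hF : Fam D P) (hE : (Ideal.span D.E).IsPrime) (hN : NumConP D)
    (hM : GenMapP D P) : Gen2P D (VC _ P) := gen2P (conFrameP_fam hF hE hN hM)

/-- **(L5)(i)** the hypothesis of `Prop_703.proper_cls` for a generic conic and any conic. -/
theorem hspec_of_con (hF : Fam D P) (hG : GenFrame D P) {F₀ K K' : Type u} [Field F₀] [Field K]
    [Field K'] [IsAlgClosed F₀] [Algebra k F₀] [Algebra k K] [Algebra F₀ K] [IsScalarTower k F₀ K]
    [Algebra k K'] [Algebra F₀ K'] [IsScalarTower k F₀ K'] {H : ∀ i, J i → Polynomial K}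
    {f : ∀ i, J i → Polynomial K'} (hH : Con D (VC _ P) H) (htr : TrGe F₀ (coeffs H) (hc D))
    (hf : Con D (VC _ P) f) :
    ∀ Q : MvPolynomial ((Σ i, J i) × ℕ) F₀,
      MvPolynomial.aeval (fun y : (Σ i, J i) × ℕ => (H y.1.1 y.1.2).coeff y.2) Q = 0 →
        MvPolynomial.aeval (fun y : (Σ i, J i) × ℕ => (f y.1.1 y.1.2).coeff y.2) Q = 0 :=
  fun Q hQ => hspec_of_gen (gen_of_con hF hG hH htr) hf.cc Q hQ


end fam

end Crest.Agent.R260.Gp_169
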