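import Crest.Agent.R270.BmDefs_360
import Crest.Agent.R273.ChowQ_313
import Crest.Agent.R273.D13_505
import Crest.Agent.R273.HolF_578

-- ▼ part R260/BrDefs_592
section

/-!
# R260 (S0398), AG-BRIDGE (helper592): from compact complex manifolds to the tuple language

`M` compact connected, `A : Atl n M`, `L : LB A` a holomorphic line bundle, some power of which is
`lb Pr`, `Pr : ProjD A`.

* `MHd p d`      : `p` is multihomogeneous of multidegree `d`;
* `MSys A L I`   : embeddings `P i` of `M` by `L ^ β i` (`i : I`) such that every section of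
                   `L ^ (∑ i, β i * d i)` is a multihomogeneous polynomial of multidegree `d` in the
                   homogeneous coordinates (the section ring is the coordinate ring);
* `S.pt c x`     : the coordinates of the point `x` read in the chart `c`;
* `S.E`          : all multihomogeneous relations; `S.hom : MHom S.E`; `S.onX`.
* Statements (proved in the other files `Br*_592`): `ExistsMSys`, `ExistsPt`, `PrimeE`, `ClsProp`.
-/

set_option autoImplicit false
set_option linter.unusedSectionVars false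

open Set Filter Topology Complex
open scoped ContDiff Matrix ComplexConjugate

namespace Crest.Agent.R260.BrDefs_592

open Crest.Agent.R275 Crest.Agent.R275.Geo Crest.Agent.R275.Core144
open Crest.Agent.R273.LamN127 Crest.Agent.R273.KosAb_619 Crest.Agent.R273.SerA_945
open Crest.Agent.R273.SerB_945 Crest.Agent.R273.SerC_945 Crest.Agent.R273.KosGen_313
open Crest.Agent.R273.Defs_333 Crest.Agent.R273.FS_333
open Crest.Agent.R273.TD3_733 Crest.Agent.R273.SerE_945 Crest.Agent.R273.Chow_313
open Crest.Agent.R270.BM_360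

noncomputable section

open Classical in
/-- `p` is multihomogeneous of multidegree `d` -/
def MHd {k : Type*} [CommSemiring k] {I : Type} {J : I → Type} (p : MvPolynomial (Σ i, J i) k)
    (d : I → ℕ) : Prop :=
  MvPolynomial.IsWeightedHomogeneous (fun x : Σ i, J i => (Pi.single x.1 1 : I → ℕ)) p d

variable {n : ℕ} {M : Type} [TopologicalSpace M] {A : Atl n M}

/-- embeddings of `M` by the powers `L ^ β i`, projectively normal in the multihomogeneous sense -/
structure MSys (A : Atl n M) (L : LB A) (I : Type) [Fintype I] where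
  β : I → ℕ
  pos : ∀ i, 1 ≤ β i
  P : I → ProjD A
  hb : ∀ i, lb (P i) = L ^ β i
  gen : ∀ (d : I → ℕ) (t : Fn A), IsHS (L ^ (∑ i, β i * d i)) univ t →
    ∃ p : MvPolynomial (Σ i, Fin ((P i).N + 1)) ℂ, MHd p d ∧ ∀ c, ∀ x ∈ (A.e c).source,
      t c x = MvPolynomial.eval (fun y : Σ i, Fin ((P i).N + 1) => (P y.1).F c x y.2) p

namespace MSys

variable {L : LB A} {I : Type} [Fintype I] (S : MSys A L I)

/-- the index types of the blocks of coordinates -/
abbrev J (i : I) : Type := Fin ((S.P i).N + 1)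

/-- the coordinates of the point `x` in the chart `c` -/
def pt (c : A.ι) (x : M) : ∀ i, S.J i → ℂ := fun i a => (S.P i).F c x a

/-- the value of a polynomial at the point `x` in the chart `c` -/
def ev (c : A.ι) (x : M) (p : MvPolynomial (Σ i, S.J i) ℂ) : ℂ :=
  MvPolynomial.eval (fun y : Σ i, S.J i => S.pt c x y.1 y.2) p

/-- the equations of `M`: all multihomogeneous relations -/
def E : Set (MvPolynomial (Σ i, S.J i) ℂ) :=
  {p | (∃ d, MHd p d) ∧ ∀ c, ∀ x ∈ (A.e c).source, S.ev c x p = 0}

theorem hom : MHom S.E := fun _ hp => hp.1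

/-- the vectors of the chart `c` are non-zero -/
theorem pt_ne {c : A.ι} {x : M} (hx : x ∈ (A.e c).source) (i : I) : S.pt c x i ≠ 0 :=
  (S.P i).ne c x hx

/-- change of chart -/
theorem pt_chg {c c' : A.ι} {x : M} (hx : x ∈ (A.e c).source ∩ (A.e c').source) (i : I) (a : S.J i) :
    S.pt c x i a = L.g c c' x ^ S.β i * S.pt c' x i a := by
  have h1 := congrFun (gij_spec (S.P i) hx) a
  have h2 : gij (S.P i) c c' x = L.g c c' x ^ S.β i := by
    have h3 : (lb (S.P i)).g c c' x = (L ^ S.β i).g c c' x := by rw [S.hb i]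
    rw [pow_g] at h3
    exact h3
  rw [h2] at h1
  exact h1

end MSys

theorem aeval_eq {σ : Type*} (v : σ → ℂ) (p : MvPolynomial σ ℂ) :
    MvPolynomial.aeval v p = MvPolynomial.eval v p := by
  rw [MvPolynomial.aeval_def, Algebra.algebraMap_self]
  rfl

/-- every scaled polynomial -/
theorem eval_scale {k : Type*} [CommSemiring k] {I : Type} [Fintype I] {J : I → Type}
    {p : MvPolynomial (Σ i, J i) k} {d : I → ℕ} (hp : MHd p d) {B : Type*} [CommSemiring B]
    [Algebra k B] (l : I → B) (v : ∀ i, J i → B) :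
    MvPolynomial.aeval (fun y : Σ i, J i => l y.1 * v y.1 y.2) p =
      (∏ i, l i ^ d i) * MvPolynomial.aeval (fun y : Σ i, J i => v y.1 y.2) p := by
  classical
  rw [MvPolynomial.aeval_def, MvPolynomial.aeval_def, MvPolynomial.eval₂_eq, MvPolynomial.eval₂_eq,
    Finset.mul_sum]
  refine Finset.sum_congr rfl fun e he => ?_
  have hc := hp (MvPolynomial.mem_support_iff.1 he)
  have h1 : ∀ i, d i = ∑ y ∈ e.support, if y.1 = i then e y else 0 := by
    intro i
    rw [← hc, Finsupp.weight_apply, Finsupp.sum, Finset.sum_apply]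
    refine Finset.sum_congr rfl fun y _ => ?_
    by_cases hy : y.1 = i
    · subst hy
      simp [Pi.smul_apply, smul_eq_mul]
    · rw [if_neg hy, Pi.smul_apply, Pi.single_eq_of_ne (Ne.symm hy), smul_zero]
  have h2 : ∏ y ∈ e.support, (l y.1 * v y.1 y.2) ^ e y =
      (∏ i, l i ^ d i) * ∏ y ∈ e.support, v y.1 y.2 ^ e y := by
    have h3 : ∏ i, l i ^ d i = ∏ y ∈ e.support, l y.1 ^ e y := by
      have h4 : ∀ i, l i ^ d i = ∏ y ∈ e.support, if y.1 = i then l i ^ e y else 1 := by
        intro i
        rw [h1 i, ← Finset.prod_pow_eq_pow_sum]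
        refine Finset.prod_congr rfl fun y _ => ?_
        split_ifs
        · rfl
        · rw [pow_zero]
      rw [Finset.prod_congr rfl fun i _ => h4 i, Finset.prod_comm]
      refine Finset.prod_congr rfl fun y _ => ?_
      rw [Finset.prod_ite_eq Finset.univ y.1 fun i => l i ^ e y, if_pos (Finset.mem_univ _)]
    rw [h3, ← Finset.prod_mul_distrib]
    exact Finset.prod_congr rfl fun y _ => mul_pow _ _ _
  rw [h2]
  ring

namespace MSys

variable {L : LB A} {I : Type} [Fintype I] (S : MSys A L I)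

/-- the multiples of the points of `M` satisfy the equations -/
theorem onX {c : A.ι} {x : M} (hx : x ∈ (A.e c).source) (l : I → ℂ) :
    OnX S.E (fun i a => l i * S.pt c x i a) := by
  rintro p ⟨⟨d, hd⟩, hp⟩
  rw [eval_scale hd l (S.pt c x), aeval_eq]
  have h2 : MvPolynomial.eval (fun y : Σ i, S.J i => S.pt c x y.1 y.2) p = 0 := hp c x hx
  rw [h2, mul_zero]

end MSys

/-! ### the statements -/

section Statements

variable [T2Space M] [ConnectedSpace M] [CompactSpace M] [Finite A.ι]


/-- the points of the multicone over `ℂ` are the multiples of the points of `M` -/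
def ExistsPt {L : LB A} {I : Type} [Fintype I] (S : MSys A L I) : Prop :=
  ∀ v : ∀ i, S.J i → ℂ, OnX S.E v → (∀ i, v i ≠ 0) →
    ∃ c, ∃ x ∈ (A.e c).source, ∃ l : I → ℂ, (∀ i, l i ≠ 0) ∧ v = fun i a => l i * S.pt c x i a

/-- the ideal of `M` is prime, and it is the set of polynomials vanishing on the multicone -/
def PrimeE {L : LB A} {I : Type} [Fintype I] (S : MSys A L I) : Prop :=
  (Ideal.span S.E).IsPrime ∧ ∀ p, p ∈ Ideal.span S.E ↔
    ∀ c, ∀ x ∈ (A.e c).source, ∀ l : I → ℂ,
      MvPolynomial.eval (fun y : Σ i, S.J i => l y.1 * S.pt c x y.1 y.2) p = 0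

/-- the class of every map over every field is proportional to `β` -/
def ClsProp {L : LB A} {I : Type} [Fintype I] (S : MSys A L I) : Prop :=
  ∀ (κ : Type) [Field κ] [Algebra ℂ κ] (F : ∀ i, S.J i → Polynomial κ), IsMap S.E F →
    ∀ i j, S.β j * cls F i = S.β i * cls F j

end Statements

end

end Crest.Agent.R260.BrDefs_592
end

-- ▼ part R260/Br1_592
section

/-!
# R260 (S0398), AG-BRIDGE, part 1 (helper592): existence of the systems `MSys`

* `exists_mul_all` : `H⁰(L^k) ⊗ H⁰(L^j) → H⁰(L^(k+j))` is onto for all large `k`, `j`;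
* `exists_complete`: a projective embedding by a complete linear system;
* `exists_msys`    : `ExistsMSys A`.
-/

set_option autoImplicit false
set_option linter.unusedSectionVars false

open Set Filter Topology Complex
open scoped ContDiff Matrix ComplexConjugate

namespace Crest.Agent.R260.Br1_592

open Crest.Agent.R275 Crest.Agent.R275.Geo Crest.Agent.R275.Core144
open Crest.Agent.R273.LamN127 Crest.Agent.R273.KosAb_619 Crest.Agent.R273.SerA_945
open Crest.Agent.R273.SerB_945 Crest.Agent.R273.SerC_945 Crest.Agent.R273.KosGen_313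
open Crest.Agent.R273.Defs_333 Crest.Agent.R273.FS_333
open Crest.Agent.R273.TD3_733 Crest.Agent.R273.SerE_945 Crest.Agent.R273.Chow_313
open Crest.Agent.R270.BM_360 Crest.Agent.R260.BrDefs_592

noncomputable section

variable {n : ℕ} {M : Type} [TopologicalSpace M] {A : Atl n M}

/-! ### products of sections -/

/-- products of a section of `L^k` and a section of `L^j` -/
def prodSet (L : LB A) (k j : ℕ) : Set (Fn A) :=
  {u | ∃ s s', IsHS (L ^ k) univ s ∧ IsHS (L ^ j) univ s' ∧ u = s * s'}

/-- the multiplication `H⁰(L^k) ⊗ H⁰(L^j) → H⁰(L^(k+j))` is onto -/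
def Mul (L : LB A) (k j : ℕ) : Prop :=
  ∀ t, IsHS (L ^ (k + j)) univ t → t ∈ Submodule.span ℂ (prodSet L k j)

theorem Mul.comp {L : LB A} {k1 k2 j : ℕ} (h1 : Mul L k1 (k2 + j)) (h2 : Mul L k2 j) :
    Mul L (k1 + k2) j := by
  intro t ht
  have h3 := h1 t (by rwa [← add_assoc])
  refine Submodule.span_induction (p := fun x _ => x ∈ Submodule.span ℂ (prodSet L (k1 + k2) j))
    ?_ (Submodule.zero_mem _) (fun x y _ _ hx hy => Submodule.add_mem _ hx hy)
    (fun c x _ hx => Submodule.smul_mem _ c hx) h3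
  rintro u ⟨s, s', hs, hs', rfl⟩
  have h4 := h2 s' hs'
  refine Submodule.span_induction
    (p := fun x _ => s * x ∈ Submodule.span ℂ (prodSet L (k1 + k2) j)) ?_ ?_ ?_ ?_ h4
  · rintro u ⟨a, b, ha, hb, rfl⟩
    exact Submodule.subset_span ⟨s * a, b, by rw [pow_add]; exact hs.mul ha, hb,
      (mul_assoc _ _ _).symm⟩
  · rw [mul_zero]
    exact Submodule.zero_mem _
  · intro x y _ _ hx hy
    rw [mul_add]
    exact Submodule.add_mem _ hx hy
  · intro c x _ hx
    rw [mul_smul_comm]
    exact Submodule.smul_mem _ c hx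

theorem residue {L O : LB A} {k0 : ℕ} (hk : 1 ≤ k0) (h : O = L ^ k0) {Q : LB A → Prop}
    (H : ∀ L' : LB A, ∃ m0 : ℕ, ∀ m, m0 ≤ m → Q (L' * O ^ m)) :
    ∃ m1 : ℕ, ∀ N, m1 ≤ N → Q (L ^ N) := by
  choose m0 hm0 using fun r : ℕ => H (L ^ r)
  refine ⟨k0 * (∑ r ∈ Finset.range k0, m0 r + 1), fun N hN => ?_⟩
  have h1 : N % k0 < k0 := Nat.mod_lt _ hk
  have h2 : m0 (N % k0) ≤ N / k0 := by
    have h3 : m0 (N % k0) ≤ ∑ r ∈ Finset.range k0, m0 r :=
      Finset.single_le_sum (f := m0) (fun _ _ => Nat.zero_le _) (Finset.mem_range.2 h1)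
    have h4 : k0 * (∑ r ∈ Finset.range k0, m0 r) ≤ N :=
      le_trans (Nat.mul_le_mul_left _ (Nat.le_succ _)) hN
    refine h3.trans ((Nat.le_div_iff_mul_le hk).2 ?_)
    rw [mul_comm]
    exact h4
  have h5 := hm0 (N % k0) (N / k0) h2
  rwa [h, ← pow_mul, ← pow_add, Nat.mod_add_div] at h5

section Main

variable [T2Space M]


variable [ConnectedSpace M] [CompactSpace M] [Finite A.ι]


end Main

/-! ### complete linear systems -/

section Complete

variable (P : ProjD A) {r : ℕ} (b : Fin r → Fn A) (hb : ∀ a, IsHS (lb P) univ (b a))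

/-- the index equivalence -/
def ex (N r : ℕ) : Fin (N + r + 1) ≃ Fin (N + 1) ⊕ Fin r :=
  (finCongr (by omega : N + r + 1 = N + 1 + r)).trans finSumFinEquiv.symm

/-- the enlarged family -/
def big (a : Fin (P.N + r + 1)) : Fn A := Sum.elim (fun k => sec P k) b (ex P.N r a)

include hb

theorem isHS_big (a : Fin (P.N + r + 1)) : IsHS (lb P) univ (big P b a) := by
  unfold big
  rcases ex P.N r a with k | k
  · exact isHS_sec P k
  · exact hb k

omit hb in
theorem big_inl (k : Fin (P.N + 1)) {i : A.ι} {x : M} (hx : x ∈ (A.e i).source) :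
    big P b ((ex P.N r).symm (Sum.inl k)) i x = P.F i x k := by
  unfold big
  rw [Equiv.apply_symm_apply, Sum.elim_inl, sec_eq P hx]

omit hb in
theorem big_inr (k : Fin r) (i : A.ι) (x : M) :
    big P b ((ex P.N r).symm (Sum.inr k)) i x = b k i x := by
  unfold big
  rw [Equiv.apply_symm_apply, Sum.elim_inr]

/-- the enlarged embedding -/
def bigP : ProjD A where
  N := P.N + r
  F i x a := big P b a i x
  hol i a := (isHS_big P b hb a).hol i
  ne i x hx h := by
    refine P.ne i x hx (funext fun k => ?_)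
    have h1 := congrFun h ((ex P.N r).symm (Sum.inl k))
    rwa [big_inl P b k hx] at h1
  tr i j x hx := ⟨(lb P).g i j x, funext fun a => (isHS_big P b hb a).tr i j x hx (mem_univ x)⟩
  inj i j x hx y hy := by
    rintro ⟨c, hc⟩
    refine P.inj i j x hx y hy ⟨c, funext fun k => ?_⟩
    have h1 := congrFun hc ((ex P.N r).symm (Sum.inl k))
    rw [Pi.smul_apply, big_inl P b k hx, big_inl P b k hy] at h1
    exact h1
  imm i z hz v := by
    rintro ⟨c, hc⟩
    refine P.imm i z hz v ⟨c, ?_⟩
    have hd : DifferentiableAt ℂ (fun w => fun a => big P b a i ((A.e i).symm w)) z := by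
      rw [differentiableAt_pi]
      intro a
      have h1 := ((isHS_big P b hb a).hol i).diffAt isOpen_univ ((A.e i).map_target hz) (mem_univ _)
      rwa [(A.e i).right_inv hz] at h1
    let π : (Fin (P.N + r + 1) → ℂ) →L[ℂ] (Fin (P.N + 1) → ℂ) :=
      ContinuousLinearMap.pi fun k => ContinuousLinearMap.proj ((ex P.N r).symm (Sum.inl k))
    have h1 : (fun w => P.F i ((A.e i).symm w)) =ᶠ[𝓝 z]
        fun w => π (fun a => big P b a i ((A.e i).symm w)) := by
      filter_upwards [(A.e i).open_target.mem_nhds hz] with w hw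
      funext k
      exact (big_inl P b k ((A.e i).map_target hw)).symm
    have h2 : fderiv ℂ (fun w => π (fun a => big P b a i ((A.e i).symm w))) z =
        π.comp (fderiv ℂ (fun w => fun a => big P b a i ((A.e i).symm w)) z) :=
      (π.hasFDerivAt.comp z hd.hasFDerivAt).fderiv
    rw [h1.fderiv_eq, h2, ContinuousLinearMap.comp_apply, hc, map_smul]
    congr 1
    funext k
    exact big_inl P b k ((A.e i).map_target hz)

theorem lb_bigP : lb (bigP P b hb) = lb P :=
  lb_eq_of fun i j x hx => funext fun a => (isHS_big P b hb a).tr i j x hx (mem_univ x)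

end Complete

/-- the sections `F_a` span -/
def Complete (P : ProjD A) : Prop := ∀ t : Fn A, IsHS (lb P) univ t → ∃ c : Fin (P.N + 1) → ℂ,
  ∀ i, ∀ x ∈ (A.e i).source, t i x = ∑ a, c a * P.F i x a

theorem exists_complete [T2Space M] [CompactSpace M] [Finite A.ι] (PA : Part A) (P : ProjD A) :
    ∃ P' : ProjD A, lb P' = lb P ∧ Complete P' := by
  have := fd_HS PA (lb P)
  let b := Module.finBasis ℂ (HS (lb P) univ)
  have hb : ∀ a, IsHS (lb P) univ (b a : Fn A) := fun a => (b a).2
  refine ⟨bigP P (fun a => (b a : Fn A)) hb, lb_bigP P _ hb, fun t ht => ?_⟩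
  rw [lb_bigP] at ht
  refine ⟨fun a => Sum.elim (fun _ => 0) (fun k => b.repr ⟨t, ht⟩ k) (ex P.N _ a), fun i x hx => ?_⟩
  have h3 := congrArg Subtype.val (b.sum_repr ⟨t, ht⟩)
  rw [AddSubmonoidClass.coe_finsetSum] at h3
  have h4 := congrFun (congrFun h3 i) x
  rw [Finset.sum_apply, Finset.sum_apply] at h4
  refine (show t i x = _ from h4.symm).trans ?_
  show _ = ∑ a : Fin (P.N + _ + 1), Sum.elim (fun _ => (0 : ℂ)) (fun k => b.repr ⟨t, ht⟩ k)
    (ex P.N _ a) * big P (fun a => (b a : Fn A)) a i x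
  rw [← Equiv.sum_comp (ex P.N _).symm, Fintype.sum_sum_type]
  simp only [Equiv.apply_symm_apply, Sum.elim_inl, Sum.elim_inr, zero_mul, Finset.sum_const_zero,
    zero_add, big_inr]
  rfl

/-! ### representation by polynomials -/

section Rep

variable {I : Type} [Fintype I] (P : I → ProjD A)

/-- `t` is the value of a multihomogeneous polynomial of multidegree `d` -/
def Rep (d : I → ℕ) (t : Fn A) : Prop :=
  ∃ p : MvPolynomial (Σ i, Fin ((P i).N + 1)) ℂ, MHd p d ∧ ∀ c, ∀ x ∈ (A.e c).source,
    t c x = MvPolynomial.eval (fun y : Σ i, Fin ((P i).N + 1) => (P y.1).F c x y.2) p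

variable {P}

theorem Rep.zero (d : I → ℕ) : Rep P d (0 : Fn A) := by
  classical
  exact ⟨0, MvPolynomial.isWeightedHomogeneous_zero _ _ _, fun c x _ => by rw [map_zero]; rfl⟩

theorem Rep.add {d : I → ℕ} {t t' : Fn A} (h : Rep P d t) (h' : Rep P d t') : Rep P d (t + t') := by
  obtain ⟨p, hp, hp'⟩ := h
  obtain ⟨q, hq, hq'⟩ := h'
  exact ⟨p + q, MvPolynomial.IsWeightedHomogeneous.add hp hq, fun c x hx => by
    rw [map_add, ← hp' c x hx, ← hq' c x hx]; rfl⟩

theorem Rep.smul {d : I → ℕ} {t : Fn A} (a : ℂ) (h : Rep P d t) : Rep P d (a • t) := by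
  classical
  obtain ⟨p, hp, hp'⟩ := h
  refine ⟨MvPolynomial.C a * p, ?_, fun c x hx => ?_⟩
  · have := (MvPolynomial.isWeightedHomogeneous_C
      (fun x : Σ i, Fin ((P i).N + 1) => (Pi.single x.1 1 : I → ℕ)) a).mul hp
    rw [zero_add] at this
    unfold MHd
    convert this
  · rw [map_mul, MvPolynomial.eval_C, ← hp' c x hx]; rfl

theorem Rep.mul {d d' : I → ℕ} {t t' : Fn A} (h : Rep P d t) (h' : Rep P d' t') :
    Rep P (d + d') (t * t') := by
  obtain ⟨p, hp, hp'⟩ := h
  obtain ⟨q, hq, hq'⟩ := h'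
  exact ⟨p * q, MvPolynomial.IsWeightedHomogeneous.mul hp hq, fun c x hx => by
    rw [map_mul, ← hp' c x hx, ← hq' c x hx]; rfl⟩

theorem Rep.of_span {d : I → ℕ} {S : Set (Fn A)} (hS : ∀ u ∈ S, Rep P d u) {t : Fn A}
    (ht : t ∈ Submodule.span ℂ S) : Rep P d t :=
  Submodule.span_induction (p := fun x _ => Rep P d x) hS (Rep.zero d)
    (fun _ _ _ _ hx hy => hx.add hy) (fun c _ _ hx => hx.smul c) ht

open Classical in
theorem Rep.of_complete {L : LB A} {i : I} {β : ℕ} (hb : lb (P i) = L ^ β) (hc : Complete (P i))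
    {t : Fn A} (ht : IsHS (L ^ β) univ t) : Rep P (Pi.single i 1) t := by
  rw [← hb] at ht
  obtain ⟨c, hc⟩ := hc t ht
  refine ⟨∑ a, MvPolynomial.C (c a) * MvPolynomial.X ⟨i, a⟩, ?_, fun j x hx => ?_⟩
  · unfold MHd
    refine MvPolynomial.IsWeightedHomogeneous.sum _ _ _ fun a _ => ?_
    have := (MvPolynomial.isWeightedHomogeneous_C
      (fun x : Σ i, Fin ((P i).N + 1) => (Pi.single x.1 1 : I → ℕ)) (c a)).mul
      (MvPolynomial.isWeightedHomogeneous_X ℂ
        (fun x : Σ i, Fin ((P i).N + 1) => (Pi.single x.1 1 : I → ℕ)) ⟨i, a⟩)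
    rw [zero_add] at this
    exact this
  · rw [hc j x hx, map_sum]
    refine Finset.sum_congr rfl fun a _ => ?_
    rw [map_mul, MvPolynomial.eval_C, MvPolynomial.eval_X]

end Rep

/-! ### existence -/

section Exists

variable [T2Space M] [ConnectedSpace M] [CompactSpace M] [Finite A.ι]

theorem rep_all {L : LB A} {K : ℕ} (hK : ∀ k, K ≤ k → ∀ j, K ≤ j → Mul L k j) {I : Type} [Fintype I]
    {P : I → ProjD A} {β : I → ℕ} (hβ : ∀ i, K ≤ β i) (hb : ∀ i, lb (P i) = L ^ β i)
    (hc : ∀ i, Complete (P i)) (D : ℕ) : ∀ d : I → ℕ, ∑ i, d i = D → ∀ t : Fn A,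
      IsHS (L ^ (∑ i, β i * d i)) univ t → Rep P d t := by
  classical
  induction D with
  | zero =>
    intro d hd t ht
    have h0 : d = 0 := funext fun i => by
      have := Finset.sum_eq_zero_iff.1 hd i (Finset.mem_univ i)
      simpa using this
    subst h0
    have h1 : ∑ i, β i * (0 : I → ℕ) i = 0 := Finset.sum_eq_zero fun i _ => by simp
    rw [h1, pow_zero] at ht
    obtain ⟨a, ha⟩ := Crest.Agent.R273.HolF_578.isHS_one_const ht
    refine ⟨MvPolynomial.C a, ?_, fun c x hx => by rw [MvPolynomial.eval_C, ha c x hx]⟩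
    have := MvPolynomial.isWeightedHomogeneous_C
      (fun x : Σ i, Fin ((P i).N + 1) => (Pi.single x.1 1 : I → ℕ)) a
    unfold MHd
    convert this
  | succ D ih =>
    intro d hd t ht
    obtain ⟨i, hi⟩ : ∃ i, 1 ≤ d i := by
      by_contra h
      push Not at h
      have : ∑ i, d i = 0 := Finset.sum_eq_zero fun i _ => by have := h i; omega
      omega
    obtain ⟨d', hd'⟩ : ∃ d' : I → ℕ, d = Pi.single i 1 + d' := by
      refine ⟨fun j => d j - (Pi.single i 1 : I → ℕ) j, funext fun j => ?_⟩
      by_cases hj : j = i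
      · subst hj
        simp only [Pi.add_apply, Pi.single_eq_same]
        omega
      · simp [Pi.add_apply, Pi.single_eq_of_ne hj]
    have hs : ∑ j, β j * d j = β i + ∑ j, β j * d' j := by
      rw [hd']
      simp only [Pi.add_apply, mul_add, Finset.sum_add_distrib]
      congr 1
      rw [Finset.sum_eq_single i (fun j _ hj => by rw [Pi.single_eq_of_ne hj, mul_zero])
        (fun h => absurd (Finset.mem_univ i) h), Pi.single_eq_same, mul_one]
    have hD' : ∑ j, d' j = D := by
      have h1 : ∑ j, d j = 1 + ∑ j, d' j := by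
        rw [hd']
        simp only [Pi.add_apply, Finset.sum_add_distrib]
        congr 1
        rw [Finset.sum_eq_single i (fun j _ hj => Pi.single_eq_of_ne hj _)
          (fun h => absurd (Finset.mem_univ i) h), Pi.single_eq_same]
      omega
    by_cases h0 : d' = 0
    · subst h0
      rw [add_zero] at hd'
      subst hd'
      refine Rep.of_complete (hb i) (hc i) ?_
      have h1 : ∑ j, β j * (0 : I → ℕ) j = 0 := Finset.sum_eq_zero fun i _ => by simp
      rwa [hs, h1, add_zero] at ht
    · obtain ⟨j, hj⟩ : ∃ j, d' j ≠ 0 := Function.ne_iff.1 h0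
      have h1 : K ≤ ∑ j, β j * d' j := by
        have h2 : β j * d' j ≤ ∑ j, β j * d' j :=
          Finset.single_le_sum (f := fun j => β j * d' j) (fun _ _ => Nat.zero_le _)
            (Finset.mem_univ j)
        have h3 : β j ≤ β j * d' j := Nat.le_mul_of_pos_right _ (Nat.pos_of_ne_zero hj)
        exact (hβ j).trans (h3.trans h2)
      rw [hs] at ht
      have h2 := hK (β i) (hβ i) _ h1 t ht
      rw [hd']
      refine Rep.of_span ?_ h2
      rintro u ⟨s, s', hs1, hs2, rfl⟩
      exact (Rep.of_complete (hb i) (hc i) hs1).mul (ih d' hD' s' hs2)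


end Exists

end

end Crest.Agent.R260.Br1_592
end

-- ▼ part R260/Br2_592

/-!
# R260 (S0398), AG-BRIDGE, part 2 (helper592): points

* `exists_pt` : `ExistsPt S` (Chow's theorem in several blocks, by the Segre embedding);
* `pt_inj`    : one block determines the point.
-/

set_option autoImplicit false
set_option linter.unusedSectionVars false

open Set Filter Topology Complex
open scoped ContDiff Matrix ComplexConjugate

namespace Crest.Agent.R260.Br2_592

open Crest.Agent.R275 Crest.Agent.R275.Geo Crest.Agent.R275.Core144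
open Crest.Agent.R273.LamN127 Crest.Agent.R273.KosAb_619 Crest.Agent.R273.SerA_945
open Crest.Agent.R273.SerB_945 Crest.Agent.R273.SerC_945 Crest.Agent.R273.KosGen_313
open Crest.Agent.R273.Defs_333 Crest.Agent.R273.FS_333
open Crest.Agent.R273.TD3_733 Crest.Agent.R273.SerE_945 Crest.Agent.R273.Chow_313
open Crest.Agent.R270.BM_360 Crest.Agent.R260.BrDefs_592 Crest.Agent.R260.Br1_592

noncomputable section

/-! ### substitution -/

/-- substitution of weighted homogeneous polynomials in a homogeneous polynomial -/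
theorem wh_aeval {σ τ : Type*} {W : Type*} [AddCommMonoid W] {k : Type*} [CommSemiring k]
    {p : MvPolynomial σ k} {D : ℕ} (hp : p.IsHomogeneous D) {w : τ → W} {e : W}
    {f : σ → MvPolynomial τ k} (hf : ∀ s, (f s).IsWeightedHomogeneous w e) :
    (MvPolynomial.aeval f p).IsWeightedHomogeneous w (D • e) := by
  classical
  rw [MvPolynomial.aeval_def, MvPolynomial.eval₂_eq]
  refine MvPolynomial.IsWeightedHomogeneous.sum _ _ _ fun m hm => ?_
  have h1 : ∑ i ∈ m.support, m i = D := by
    have h2 := hp (MvPolynomial.mem_support_iff.1 hm)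
    rw [← h2, Finsupp.weight_apply, Finsupp.sum]
    simp
  have h3 : (∏ i ∈ m.support, f i ^ m i).IsWeightedHomogeneous w (D • e) := by
    rw [← h1, Finset.sum_smul]
    refine MvPolynomial.IsWeightedHomogeneous.prod _ _ _ fun i _ => ?_
    exact (hf i).pow (m i)
  have h4 := (MvPolynomial.isWeightedHomogeneous_C w (MvPolynomial.coeff m p)).mul h3
  rw [zero_add] at h4
  exact h4

variable {n : ℕ} {M : Type} [TopologicalSpace M] {A : Atl n M} {L : LB A} {I : Type} [Fintype I]
  (S : MSys A L I)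

theorem vanish_large [T2Space M] [ConnectedSpace M] [CompactSpace M] [Finite A.ι] (PA : Part A)
    (hD : D2 A) {L : LB A} {Pr : ProjD A} {k0 : ℕ} (hk0 : 1 ≤ k0) (h : lb Pr = L ^ k0) :
    ∃ m1 : ℕ, ∀ N, m1 ≤ N → ∀ q, 1 ≤ q → Solv (L ^ N) q :=
  residue (Q := fun N => ∀ q, 1 ≤ q → Solv N q) hk0 h fun L' => by
    obtain ⟨m0, hm0⟩ := solv_large PA hD (fs_pos Pr) L'
    exact ⟨m0, fun m hm q hq => hm0 m hm q hq⟩

/-! ### the Segre family -/

open Classical in
/-- the products of the coordinates -/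
def Sg (a : ∀ i, S.J i) : Fn A := fun c x =>
  if x ∈ (A.e c).source then ∏ i, S.pt c x i (a i) else 0

theorem Sg_apply (a : ∀ i, S.J i) {c : A.ι} {x : M} (hx : x ∈ (A.e c).source) :
    Sg S a c x = ∏ i, S.pt c x i (a i) := if_pos hx

theorem isHS_Sg (a : ∀ i, S.J i) : IsHS (L ^ (∑ i, S.β i)) univ (Sg S a) where
  hol c := (HolAt.prod (Finset.univ) (F := fun i x => S.pt c x i (a i)) fun i _ =>
    (S.P i).hol c (a i)).congr fun x hx _ => (Sg_apply S a hx).symm
  off c x hx := if_neg hx
  tr c c' x hx _ := by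
    rw [Sg_apply S a hx.1, Sg_apply S a hx.2, pow_g, ← Finset.prod_pow_eq_pow_sum,
      ← Finset.prod_mul_distrib]
    exact Finset.prod_congr rfl fun i _ => S.pt_chg hx i (a i)


/-- **Chow's theorem in several blocks** -/
theorem exists_pt [T2Space M] [ConnectedSpace M] [CompactSpace M] [Finite A.ι] (PA : Part A)
    (hD : D2 A) : ExistsPt S := by
  classical
  intro v hv hv0
  by_cases hI : Nonempty I
  swap
  · obtain ⟨x⟩ := (inferInstance : Nonempty M)
    obtain ⟨c, hc⟩ := A.cover x
    exact ⟨c, x, hc, fun _ => 1, fun i => absurd ⟨i⟩ hI, funext fun i => absurd ⟨i⟩ hI⟩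
  obtain ⟨i0⟩ := hI
  obtain ⟨m1, hm1⟩ := vanish_large PA hD (S.pos i0) (S.hb i0)
  have hpos : 1 ≤ ∑ i, S.β i :=
    (S.pos i0).trans (Finset.single_le_sum (f := S.β) (fun _ _ => Nat.zero_le _) (Finset.mem_univ i0))
  choose a0 ha0 using fun i => Function.ne_iff.1 (hv0 i)
  simp only [Pi.zero_apply] at ha0
  set V : (∀ i, S.J i) → ℂ := fun a => ∏ i, v i (a i) with hV
  have hVa0 : V a0 ≠ 0 := Finset.prod_ne_zero_iff.2 fun i _ => ha0 i
  obtain ⟨c, x, hx, cst, hcst, hVc⟩ := chow_vec' (O := L ^ (∑ i, S.β i)) (F := Sg S)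
    (fun a => isHS_Sg S a)
    (fun c x hx => by
      choose a ha using fun i => Function.ne_iff.1 (S.pt_ne hx i)
      refine ⟨a, ?_⟩
      rw [Sg_apply S a hx]
      exact Finset.prod_ne_zero_iff.2 fun i _ => ha i)
    (fun k => fd_pow PA _ k) (m0 := m1)
    (fun m hm q hq => by
      rw [← pow_mul]
      exact hm1 _ (hm.trans (Nat.le_mul_of_pos_left _ hpos)) q hq)
    V (fun h => hVa0 (congrFun h a0))
    (fun D p hp hz => by
      set f : (∀ i, S.J i) → MvPolynomial (Σ i, S.J i) ℂ := fun a => ∏ i, MvPolynomial.X ⟨i, a i⟩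
        with hf
      have hfw : ∀ a, MHd (f a) (fun _ => 1) := by
        intro a
        unfold MHd
        have h1 : (fun _ : I => 1) = ∑ i : I, (Pi.single i 1 : I → ℕ) := by
          funext j
          rw [Finset.sum_apply, Finset.sum_eq_single j (fun i _ hi => Pi.single_eq_of_ne (Ne.symm hi) _)
            (fun h => absurd (Finset.mem_univ j) h), Pi.single_eq_same]
        rw [h1]
        refine MvPolynomial.IsWeightedHomogeneous.prod _ _ _ fun i _ => ?_
        have h2 := MvPolynomial.isWeightedHomogeneous_X ℂ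
          (fun x : Σ i, S.J i => (Pi.single x.1 1 : I → ℕ)) ⟨i, a i⟩
        convert h2
      have h1 : MHd (MvPolynomial.aeval f p) (D • fun _ => 1) := wh_aeval hp hfw
      have h2 : ∀ u : ∀ i, S.J i → ℂ, MvPolynomial.aeval (fun y : Σ i, S.J i => u y.1 y.2)
          (MvPolynomial.aeval f p) = MvPolynomial.eval (fun a => ∏ i, u i (a i)) p := by
        intro u
        rw [← aeval_eq]
        have h3 := MvPolynomial.comp_aeval_apply (R := ℂ)
          (φ := MvPolynomial.aeval (R := ℂ) (fun y : Σ i, S.J i => u y.1 y.2)) (f := f) (p := p)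
        rw [h3]
        congr 2
        funext a
        rw [hf, map_prod]
        exact Finset.prod_congr rfl fun i _ => by rw [MvPolynomial.aeval_X]
      have h3 : MvPolynomial.aeval f p ∈ S.E := by
        refine ⟨⟨_, h1⟩, fun c x hx => ?_⟩
        have h4 := h2 (S.pt c x)
        rw [aeval_eq] at h4
        show MvPolynomial.eval (fun y : Σ i, S.J i => S.pt c x y.1 y.2) _ = 0
        rw [h4, ← hz c x hx]
        congr 2
        funext a
        exact (Sg_apply S a hx).symm
      have h5 := hv _ h3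
      rw [h2 v] at h5
      exact h5)
  have hG : ∀ a, V a = cst * ∏ i, S.pt c x i (a i) := by
    intro a
    rw [hVc, Pi.smul_apply, smul_eq_mul, Sg_apply S a hx]
  have hF0 : ∀ i, S.pt c x i (a0 i) ≠ 0 := by
    intro i h
    refine hVa0 ?_
    rw [hG, Finset.prod_eq_zero (Finset.mem_univ i) h, mul_zero]
  refine ⟨c, x, hx, fun i => v i (a0 i) / S.pt c x i (a0 i), fun i => div_ne_zero (ha0 i) (hF0 i), ?_⟩
  funext i a
  have h1 := hG (Function.update a0 i a)
  have h2 := hG a0
  simp only [hV] at h1 h2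
  rw [← Finset.mul_prod_erase _ _ (Finset.mem_univ i), ← Finset.mul_prod_erase _ _ (Finset.mem_univ i),
    Function.update_self] at h1
  rw [← Finset.mul_prod_erase _ _ (Finset.mem_univ i),
    ← Finset.mul_prod_erase (Finset.univ) (fun i => S.pt c x i (a0 i)) (Finset.mem_univ i)] at h2
  have h3 : ∏ j ∈ Finset.univ.erase i, v j (Function.update a0 i a j) =
      ∏ j ∈ Finset.univ.erase i, v j (a0 j) := by
    refine Finset.prod_congr rfl fun j hj => ?_
    rw [Function.update_of_ne (Finset.ne_of_mem_erase hj)]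
  have h4 : ∏ j ∈ Finset.univ.erase i, S.pt c x j (Function.update a0 i a j) =
      ∏ j ∈ Finset.univ.erase i, S.pt c x j (a0 j) := by
    refine Finset.prod_congr rfl fun j hj => ?_
    rw [Function.update_of_ne (Finset.ne_of_mem_erase hj)]
  rw [h3, h4] at h1
  have h5 : ∏ j ∈ Finset.univ.erase i, v j (a0 j) ≠ 0 :=
    Finset.prod_ne_zero_iff.2 fun j _ => ha0 j
  have h6 : ∏ j ∈ Finset.univ.erase i, S.pt c x j (a0 j) ≠ 0 :=
    Finset.prod_ne_zero_iff.2 fun j _ => hF0 j
  have h7 := hF0 i
  rw [div_mul_eq_mul_div, eq_div_iff h7]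
  refine mul_right_cancel₀ h5 ?_
  refine mul_right_cancel₀ h6 ?_
  linear_combination S.pt c x i (a0 i) * (∏ j ∈ Finset.univ.erase i, S.pt c x j (a0 j)) * h1 -
    (∏ j ∈ Finset.univ.erase i, S.pt c x j (a0 j)) * S.pt c x i a * h2

end

end Crest.Agent.R260.Br2_592
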