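import Crest.Agent.R273.ChowM_313
import Crest.Agent.R270.BmDefs_360

set_option autoImplicit false
set_option linter.unusedSectionVars false

/-!
# Row 260 (S0398), GAGA-TH: frozen definitions (helper323)

`M` compact complex manifold with the atlas `A : Atl n M` (R275), `L : LB A` a holomorphic line
bundle (R275/Core144).

* `LSys L I`  : for `i : I` a finite family `F i a` (`a : J i`) of sections of `L ^ β i`, without
                common zeros, immersive, injective, and such that every section of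
                `L ^ (∑ d i * β i)`, `d ≠ 0`, is a multihomogeneous polynomial of multidegree `d`
                in the `F i a` (`ng`). Exists for `β` large (`exists_lsys`, Ga2_323).
* `LSys.vec`  : the tuple `F i a c x` (chart `c`, point `x`).
* `LSys.E`    : all multihomogeneous relations.
* `OneForm`   : holomorphic one-forms with values in `L`.
* `Contact`   : `dθ` is nondegenerate on `ker θ`, `θ ≠ 0`.
* `Alg`       : the algebraic form of a one-form: multihomogeneous `G c`, `p c y`, with
                `G c * θ = ∑ y, p c y * dF y`, and the Euler relations.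
-/

open Set Filter Topology Complex MvPolynomial
open scoped ContDiff Matrix

namespace Crest.Agent.R260.Ga_323

open Crest.Agent.R275 Crest.Agent.R275.Geo Crest.Agent.R275.Core144
open Crest.Agent.R273.SerA_945 Crest.Agent.R273.Defs_333
open Crest.Agent.R270.BM_360

noncomputable section

variable {n : ℕ} {M : Type} [TopologicalSpace M] {A : Atl n M}

/-- the weights of the multigrading -/
abbrev mw {I : Type} [DecidableEq I] (J : I → Type) : (Σ i, J i) → (I → ℕ) :=
  fun x => Pi.single x.1 1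

/-- multihomogeneous of multidegree `d` -/
def MH {I : Type} [DecidableEq I] {J : I → Type} {k : Type*} [CommSemiring k]
    (p : MvPolynomial (Σ i, J i) k) (d : I → ℕ) : Prop :=
  IsWeightedHomogeneous (mw J) p d

/-- generating systems of sections of powers of `L` -/
structure LSys (L : LB A) (I : Type) [Fintype I] [DecidableEq I] where
  β : I → ℕ
  pos : ∀ i, 0 < β i
  J : I → Type
  [fJ : ∀ i, Fintype (J i)]
  [dJ : ∀ i, DecidableEq (J i)]
  F : ∀ i, J i → Fn A
  hs : ∀ i a, IsHS (L ^ β i) univ (F i a)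
  ne : ∀ i c, ∀ x ∈ (A.e c).source, ∃ a, F i a c x ≠ 0
  inj : ∀ i c c', ∀ x ∈ (A.e c).source, ∀ y ∈ (A.e c').source, ∀ l : ℂ,
    (∀ a, F i a c x = l * F i a c' y) → x = y
  imm : ∀ i c, ∀ x ∈ (A.e c).source, ∀ (u : Cn n) (l : ℂ),
    (∀ a, fderiv ℂ (fun z => F i a c ((A.e c).symm z)) (A.e c x) u = l * F i a c x) → u = 0
  ng : ∀ d : I → ℕ, d ≠ 0 → ∀ s : Fn A, IsHS (L ^ (∑ i, d i * β i)) univ s →
    ∃ p : MvPolynomial (Σ i, J i) ℂ, MH p d ∧ ∀ c, ∀ x ∈ (A.e c).source,
      s c x = eval (fun y => F y.1 y.2 c x) p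

attribute [instance] LSys.fJ LSys.dJ

namespace LSys

variable {L : LB A} {I : Type} [Fintype I] [DecidableEq I] (S : LSys L I)


/-- `∂ F y / ∂ u` in the chart `c` at `x` -/
def dvec (c : A.ι) (x : M) (u : Cn n) : ∀ i, S.J i → ℂ := fun i a =>
  fderiv ℂ (fun z => S.F i a c ((A.e c).symm z)) (A.e c x) u

/-- all multihomogeneous relations -/
def E : Set (MvPolynomial (Σ i, S.J i) ℂ) :=
  {p | (∃ d, MH p d) ∧ ∀ c, ∀ x ∈ (A.e c).source, eval (fun y => S.F y.1 y.2 c x) p = 0}

end LSys

/-- holomorphic one-form with values in `L`: `th c x b` is the coefficient of `dz_b` in the chart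
`c`, with respect to the frame of `L` of the chart `c` -/
structure OneForm (L : LB A) where
  th : A.ι → M → Fin n → ℂ
  hol : ∀ c b, HolAt A c univ (fun x => th c x b)
  tr : ∀ c c', ∀ x ∈ (A.e c).source ∩ (A.e c').source, ∀ a,
    th c x a = L.g c c' x * ∑ b, A.J c c' x b a * th c' x b

namespace OneForm

variable {L : LB A} (θ : OneForm L)

/-- `θ (u)` in the chart `c` -/
def app (c : A.ι) (x : M) (u : Cn n) : ℂ := ∑ a, θ.th c x a * u a

/-- `dθ (u, u')` in the chart `c` -/
def dapp (c : A.ι) (x : M) (u u' : Cn n) : ℂ :=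
  ∑ b, (fderiv ℂ (fun z => θ.th c ((A.e c).symm z) b) (A.e c x) u * u' b -
    fderiv ℂ (fun z => θ.th c ((A.e c).symm z) b) (A.e c x) u' * u b)

end OneForm

/-- contact form -/
structure Contact {L : LB A} (θ : OneForm L) : Prop where
  ne : ∀ c, ∀ x ∈ (A.e c).source, ∃ u, θ.app c x u ≠ 0
  nd : ∀ c, ∀ x ∈ (A.e c).source, ∀ u, θ.app c x u = 0 →
    (∀ u', θ.app c x u' = 0 → θ.dapp c x u u' = 0) → u = 0


/-- the algebraic form of a one-form with values in `L`; `w` is the weight (`∑ w i * β i = 1`). -/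
structure Alg {L : LB A} {I : Type} [Fintype I] [DecidableEq I] (S : LSys L I) (θ : OneForm L)
    (w : I → ℤ) where
  C : Type
  [fC : Fintype C]
  /-- multidegree of the `G c` -/
  g : I → ℕ
  /-- multidegree of `p c y` is `e y.1` -/
  e : I → I → ℕ
  /-- `e i = g + w - δ_i` -/
  he : ∀ i j, (e i j : ℤ) = g j + w j - (if j = i then 1 else 0)
  G : C → MvPolynomial (Σ i, S.J i) ℂ
  p : C → (Σ i, S.J i) → MvPolynomial (Σ i, S.J i) ℂ
  hG : ∀ c, MH (G c) g
  hp : ∀ c y, MH (p c y) (e y.1)
  /-- `G c * θ = ∑ y, p c y * dF y` on `M` -/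
  eq : ∀ c ch, ∀ x ∈ (A.e ch).source, ∀ u : Cn n,
    eval (fun y => S.F y.1 y.2 ch x) (G c) * θ.app ch x u =
      ∑ y : Σ i, S.J i, eval (fun y => S.F y.1 y.2 ch x) (p c y) * S.dvec ch x u y.1 y.2
  /-- `θ` kills the Euler vectors (identity of polynomials) -/
  euler : ∀ c i ch, ∀ x ∈ (A.e ch).source,
    ∑ a, eval (fun y => S.F y.1 y.2 ch x) (p c ⟨i, a⟩) * S.F i a ch x = 0
  /-- the `G c` have no common zero on `M` -/
  bpf : ∀ ch, ∀ x ∈ (A.e ch).source, ∃ c, eval (fun y => S.F y.1 y.2 ch x) (G c) ≠ 0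

attribute [instance] Alg.fC

end

end Crest.Agent.R260.Ga_323
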