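import Crest.Agent.R260.Br2_592
import Mathlib.Algebra.MvPolynomial.Funext
import Crest.Agent.R260.LinDefs_678
import Crest.Agent.R260.GaDefs_323

-- ▼ part R260/Br3_592
section

/-!
# R260 (S0398), AG-BRIDGE, part 3 (helper592): the ideal of `M` is prime

* `comp p d`      : the component of multidegree `d`;
* `mem_span_iff_comp` : `p ∈ span E` iff all components vanish on `M`;
* `prime_E`       : `PrimeE S`.
-/

set_option autoImplicit false
set_option linter.unusedSectionVars false

open Set Filter Topology Complex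
open scoped ContDiff Matrix ComplexConjugate

namespace Crest.Agent.R260.Br3_592

open Crest.Agent.R275 Crest.Agent.R275.Geo Crest.Agent.R275.Core144
open Crest.Agent.R273.LamN127 Crest.Agent.R273.KosAb_619 Crest.Agent.R273.SerA_945
open Crest.Agent.R273.SerB_945 Crest.Agent.R273.SerC_945 Crest.Agent.R273.KosGen_313
open Crest.Agent.R273.Defs_333 Crest.Agent.R273.FS_333
open Crest.Agent.R273.TD3_733 Crest.Agent.R273.SerE_945 Crest.Agent.R273.Chow_313
open Crest.Agent.R270.BM_360 Crest.Agent.R260.BrDefs_592 Crest.Agent.R260.Br1_592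
open Crest.Agent.R260.Br2_592

noncomputable section

/-! ### components -/

section Comp

variable {k : Type*} [CommSemiring k] {I : Type} {J : I → Type}

open Classical in
/-- the component of multidegree `d` -/
def comp (p : MvPolynomial (Σ i, J i) k) (d : I → ℕ) : MvPolynomial (Σ i, J i) k :=
  MvPolynomial.weightedHomogeneousComponent (fun x : Σ i, J i => (Pi.single x.1 1 : I → ℕ)) d p

theorem comp_MHd (p : MvPolynomial (Σ i, J i) k) (d : I → ℕ) : MHd (comp p d) d := by
  unfold MHd comp
  exact MvPolynomial.weightedHomogeneousComponent_isWeightedHomogeneous _ _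

theorem sum_comp (p : MvPolynomial (Σ i, J i) k) :
    ∃ s : Finset (I → ℕ), p = ∑ d ∈ s, comp p d := by
  classical
  have h1 := MvPolynomial.sum_weightedHomogeneousComponent
    (fun x : Σ i, J i => (Pi.single x.1 1 : I → ℕ)) p
  have h2 := MvPolynomial.weightedHomogeneousComponent_finsupp
    (w := fun x : Σ i, J i => (Pi.single x.1 1 : I → ℕ)) p
  rw [finsum_eq_sum _ h2] at h1
  exact ⟨_, h1.symm⟩

open Classical in
theorem MHd_monomial (m : (Σ i, J i) →₀ ℕ) (a : k) : MHd (MvPolynomial.monomial m a)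
    (Finsupp.weight (fun x : Σ i, J i => (Pi.single x.1 1 : I → ℕ)) m) :=
  MvPolynomial.isWeightedHomogeneous_monomial _ _ _ rfl

theorem prod_X_pow [Fintype I] (e : I → ℕ) :
    (∏ i, (MvPolynomial.X i : MvPolynomial I k) ^ e i) =
      MvPolynomial.monomial (Finsupp.equivFunOnFinite.symm e) 1 := by
  rw [MvPolynomial.monomial_eq, Finsupp.prod_fintype _ _ fun i => pow_zero _, map_one, one_mul]
  rfl

/-- the coefficients of `p (l · v)` as a polynomial in `l` -/
theorem coeff_scale {k : Type*} [CommRing k] [Fintype I] (v : ∀ i, J i → k)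
    (p : MvPolynomial (Σ i, J i) k) (d : I → ℕ) :
    MvPolynomial.coeff (Finsupp.equivFunOnFinite.symm d)
      (MvPolynomial.aeval (fun y : Σ i, J i => (MvPolynomial.X y.1 : MvPolynomial I k) *
        MvPolynomial.C (v y.1 y.2)) p) =
      MvPolynomial.eval (fun y : Σ i, J i => v y.1 y.2) (comp p d) := by
  classical
  induction p using MvPolynomial.induction_on' with
  | add p q hp hq =>
    rw [map_add, MvPolynomial.coeff_add, hp, hq]
    unfold comp
    rw [map_add, map_add]
  | monomial m a =>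
    have h1 := eval_scale (MHd_monomial (J := J) m a) (B := MvPolynomial I k)
      (fun i => (MvPolynomial.X i : MvPolynomial I k)) (fun i a => MvPolynomial.C (v i a))
    rw [h1, prod_X_pow]
    have h2 : MvPolynomial.aeval (fun y : Σ i, J i => (MvPolynomial.C (v y.1 y.2) : MvPolynomial I k))
        (MvPolynomial.monomial m a) =
        MvPolynomial.C (MvPolynomial.eval (fun y : Σ i, J i => v y.1 y.2)
          (MvPolynomial.monomial m a)) := by
      rw [MvPolynomial.aeval_monomial, MvPolynomial.eval_monomial, map_mul]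
      congr 1
      rw [Finsupp.prod, Finsupp.prod, map_prod]
      exact Finset.prod_congr rfl fun y _ => by rw [map_pow]
    rw [h2, mul_comm, MvPolynomial.coeff_C_mul, MvPolynomial.coeff_monomial]
    unfold comp
    by_cases hd : Finsupp.weight (fun x : Σ i, J i => (Pi.single x.1 1 : I → ℕ)) m = d
    · subst hd
      rw [if_pos rfl, mul_one, (MHd_monomial m a).weightedHomogeneousComponent_same]
    · rw [if_neg (fun h => hd (by
          have := congrArg Finsupp.equivFunOnFinite h
          simpa using this)), mul_zero,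
        (MHd_monomial m a).weightedHomogeneousComponent_ne _ (Ne.symm hd), map_zero]

end Comp

variable {n : ℕ} {M : Type} [TopologicalSpace M] {A : Atl n M} {L : LB A} {I : Type} [Fintype I]
  (S : MSys A L I)

/-- multiplication of the blocks by scalars -/
def scl (c : A.ι) (x : M) (l : I → ℂ) : (Σ i, S.J i) → ℂ := fun y => l y.1 * S.pt c x y.1 y.2

/-- the polynomial in `l` -/
def Ph (c : A.ι) (x : M) : MvPolynomial (Σ i, S.J i) ℂ →ₐ[ℂ] MvPolynomial I ℂ :=
  MvPolynomial.aeval fun y : Σ i, S.J i => (MvPolynomial.X y.1 : MvPolynomial I ℂ) *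
    MvPolynomial.C (S.pt c x y.1 y.2)

theorem eval_Ph (c : A.ι) (x : M) (l : I → ℂ) (p : MvPolynomial (Σ i, S.J i) ℂ) :
    MvPolynomial.eval l (Ph S c x p) = MvPolynomial.eval (scl S c x l) p := by
  rw [← aeval_eq, ← aeval_eq]
  unfold Ph
  rw [MvPolynomial.comp_aeval_apply]
  congr 2
  funext y
  rw [map_mul, MvPolynomial.aeval_X, scl, ← MvPolynomial.algebraMap_eq, AlgHom.commutes]
  rfl

theorem Ph_zero_iff {c : A.ι} {x : M} {p : MvPolynomial (Σ i, S.J i) ℂ} :
    Ph S c x p = 0 ↔ ∀ d, S.ev c x (comp p d) = 0 := by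
  constructor
  · intro h d
    have h1 := coeff_scale (S.pt c x) p d
    unfold Ph at h
    rw [h, MvPolynomial.coeff_zero] at h1
    exact h1.symm
  · intro h
    ext m
    have h1 := coeff_scale (S.pt c x) p (Finsupp.equivFunOnFinite m)
    rw [Equiv.symm_apply_apply] at h1
    rw [MvPolynomial.coeff_zero]
    exact h1.trans (h _)

theorem comp_mem {p : MvPolynomial (Σ i, S.J i) ℂ}
    (h : ∀ c, ∀ x ∈ (A.e c).source, ∀ d, S.ev c x (comp p d) = 0) : p ∈ Ideal.span S.E := by
  obtain ⟨s, hs⟩ := sum_comp p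
  rw [hs]
  exact Ideal.sum_mem _ fun d _ => Ideal.subset_span ⟨⟨d, comp_MHd p d⟩, fun c x hx => h c x hx d⟩

theorem span_vanish {p : MvPolynomial (Σ i, S.J i) ℂ} (hp : p ∈ Ideal.span S.E) {c : A.ι} {x : M}
    (hx : x ∈ (A.e c).source) (l : I → ℂ) : MvPolynomial.eval (scl S c x l) p = 0 := by
  have h1 : Ideal.span S.E ≤ RingHom.ker (MvPolynomial.eval (scl S c x l)) := by
    rw [Ideal.span_le]
    intro q hq
    have h2 := S.onX hx l q hq
    rw [aeval_eq] at h2
    exact h2
  exact h1 hp

/-- **membership in the ideal** -/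
theorem mem_span_iff (p : MvPolynomial (Σ i, S.J i) ℂ) : p ∈ Ideal.span S.E ↔
    ∀ c, ∀ x ∈ (A.e c).source, ∀ l : I → ℂ, MvPolynomial.eval (scl S c x l) p = 0 := by
  refine ⟨fun h c x hx l => span_vanish S h hx l, fun h => comp_mem S fun c x hx => ?_⟩
  rw [← Ph_zero_iff]
  refine MvPolynomial.funext fun l => ?_
  rw [eval_Ph, h c x hx l, map_zero]

theorem mem_span_iff_comp (p : MvPolynomial (Σ i, S.J i) ℂ) : p ∈ Ideal.span S.E ↔
    ∀ c, ∀ x ∈ (A.e c).source, ∀ d, S.ev c x (comp p d) = 0 := by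
  refine ⟨fun h c x hx => ?_, comp_mem S⟩
  rw [← Ph_zero_iff]
  refine MvPolynomial.funext fun l => ?_
  rw [eval_Ph, (mem_span_iff S p).1 h c x hx l, map_zero]

theorem mem_span_iff_Ph (p : MvPolynomial (Σ i, S.J i) ℂ) : p ∈ Ideal.span S.E ↔
    ∀ c, ∀ x ∈ (A.e c).source, Ph S c x p = 0 := by
  rw [mem_span_iff_comp]
  simp only [Ph_zero_iff]


/-! ### the sections given by polynomials -/

open Classical in
/-- the section of `L ^ (∑ i, β i * d i)` given by a polynomial -/
def sct (p : MvPolynomial (Σ i, S.J i) ℂ) : Fn A := fun c x =>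
  if x ∈ (A.e c).source then S.ev c x p else 0

theorem sct_apply (p : MvPolynomial (Σ i, S.J i) ℂ) {c : A.ι} {x : M} (hx : x ∈ (A.e c).source) :
    sct S p c x = S.ev c x p := if_pos hx

theorem holAt_ev (p : MvPolynomial (Σ i, S.J i) ℂ) (c : A.ι) :
    HolAt A c univ fun x => S.ev c x p := by
  unfold MSys.ev
  induction p using MvPolynomial.induction_on with
  | C a =>
    refine (holAt_const a).congr fun x _ _ => ?_
    rw [MvPolynomial.eval_C]
  | add p q hp hq =>
    refine (hp.add hq).congr fun x _ _ => ?_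
    rw [map_add]
  | mul_X p y hp =>
    refine (hp.mul ((S.P y.1).hol c y.2)).congr fun x _ _ => ?_
    rw [map_mul, MvPolynomial.eval_X]
    rfl

theorem ev_chg {p : MvPolynomial (Σ i, S.J i) ℂ} {d : I → ℕ} (hd : MHd p d) {c c' : A.ι} {x : M}
    (hx : x ∈ (A.e c).source ∩ (A.e c').source) :
    S.ev c x p = L.g c c' x ^ (∑ i, S.β i * d i) * S.ev c' x p := by
  have h1 := eval_scale hd (fun i => L.g c c' x ^ S.β i) (S.pt c' x)
  rw [aeval_eq, aeval_eq] at h1
  have h2 : (fun y : Σ i, S.J i => L.g c c' x ^ S.β y.1 * S.pt c' x y.1 y.2) =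
      fun y : Σ i, S.J i => S.pt c x y.1 y.2 := by
    funext y
    exact (S.pt_chg hx y.1 y.2).symm
  rw [h2] at h1
  unfold MSys.ev
  rw [h1]
  congr 1
  rw [← Finset.prod_pow_eq_pow_sum]
  exact Finset.prod_congr rfl fun i _ => by rw [pow_mul]

theorem isHS_sct {p : MvPolynomial (Σ i, S.J i) ℂ} {d : I → ℕ} (hd : MHd p d) :
    IsHS (L ^ (∑ i, S.β i * d i)) univ (sct S p) where
  hol c := (holAt_ev S p c).congr fun x hx _ => (sct_apply S p hx).symm
  off c x hx := if_neg hx
  tr c c' x hx _ := by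
    rw [sct_apply S p hx.1, sct_apply S p hx.2, pow_g, ev_chg S hd hx]

/-! ### prime -/

/-- **the ideal of `M` is prime** -/
theorem prime_span [ConnectedSpace M] : (Ideal.span S.E).IsPrime := by
  refine ⟨fun h => ?_, fun {p q} hpq => ?_⟩
  · obtain ⟨x⟩ := (inferInstance : Nonempty M)
    obtain ⟨c, hc⟩ := A.cover x
    have h1 := (mem_span_iff S 1).1 (by rw [h]; trivial) c x hc (fun _ => 1)
    rw [map_one] at h1
    exact one_ne_zero h1
  · by_contra hne
    push Not at hne
    obtain ⟨hp, hq⟩ := hne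
    rw [mem_span_iff_comp] at hp hq
    push Not at hp hq
    obtain ⟨c1, x1, hx1, d1, h1⟩ := hp
    obtain ⟨c2, x2, hx2, d2, h2⟩ := hq
    have h3 : ∀ c, ∀ x ∈ (A.e c).source, sct S (comp p d1) c x * sct S (comp q d2) c x = 0 := by
      intro c x hx
      rw [sct_apply S _ hx, sct_apply S _ hx]
      have h4 := (mem_span_iff_Ph S (p * q)).1 hpq c x hx
      rw [map_mul, mul_eq_zero] at h4
      rcases h4 with h4 | h4
      · rw [(Ph_zero_iff S).1 h4 d1, zero_mul]
      · rw [(Ph_zero_iff S).1 h4 d2, mul_zero]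
    have h5 := eq_zero_of_mul (isHS_sct S (comp_MHd p d1)) (isHS_sct S (comp_MHd q d2))
      ⟨c2, x2, by rw [sct_apply S _ hx2]; exact h2⟩ h3 c1 x1
    rw [sct_apply S _ hx1] at h5
    exact h1 h5

theorem prime_E [T2Space M] [ConnectedSpace M] [CompactSpace M] [Finite A.ι] : PrimeE S :=
  ⟨prime_span S, fun p => mem_span_iff S p⟩

end

end Crest.Agent.R260.Br3_592
end

-- ▼ part R260/Br4_592
section

/-!
# R260 (S0398), AG-BRIDGE, part 4 (helper592): the classes of maps from the projective line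

* `exists_conv`      : a polynomial of another multidegree representing the same section;
* `natDegree_aeval_le`;
* `cls_prop`         : `ClsProp S`;
* `cls_eq`           : `cls F = e • β` if `∑ w i * β i = 1`;
* `exists_conv_pair` : no common zeros of the converted family, over every domain.
-/

set_option autoImplicit false
set_option linter.unusedSectionVars false

open Set Filter Topology Complex
open scoped ContDiff Matrix ComplexConjugate

namespace Crest.Agent.R260.Br4_592

open Crest.Agent.R275 Crest.Agent.R275.Geo Crest.Agent.R275.Core144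
open Crest.Agent.R273.SerA_945
open Crest.Agent.R270.BM_360 Crest.Agent.R260.BrDefs_592 Crest.Agent.R260.Br1_592
open Crest.Agent.R260.Br2_592 Crest.Agent.R260.Br3_592

noncomputable section

/-! ### degrees -/

section Deg

variable {k κ : Type*} [CommSemiring k] [Field κ] [Algebra k κ] {I : Type} [Fintype I]
  {J : I → Type} [∀ i, Fintype (J i)]

open Polynomial in
theorem natDegree_aeval_le {p : MvPolynomial (Σ i, J i) k} {d : I → ℕ} (hp : MHd p d)
    (F : ∀ i, J i → κ[X]) :
    (MvPolynomial.aeval (fun y : Σ i, J i => F y.1 y.2) p).natDegree ≤ ∑ i, d i * cls F i := by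
  classical
  rw [MvPolynomial.aeval_def, MvPolynomial.eval₂_eq]
  refine Polynomial.natDegree_sum_le_of_forall_le _ _ fun m hm => ?_
  have hc := hp (MvPolynomial.mem_support_iff.1 hm)
  have h1 : ∀ i, d i = ∑ y ∈ m.support, if y.1 = i then m y else 0 := by
    intro i
    rw [← hc, Finsupp.weight_apply, Finsupp.sum, Finset.sum_apply]
    refine Finset.sum_congr rfl fun y _ => ?_
    by_cases hy : y.1 = i
    · subst hy
      simp [Pi.smul_apply, smul_eq_mul]
    · rw [if_neg hy, Pi.smul_apply, Pi.single_eq_of_ne (Ne.symm hy), smul_zero]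
  have h2 : ∑ i, d i * cls F i = ∑ y ∈ m.support, m y * cls F y.1 := by
    have h3 : ∀ i, d i * cls F i = ∑ y ∈ m.support, if y.1 = i then m y * cls F i else 0 := by
      intro i
      rw [h1 i, Finset.sum_mul]
      refine Finset.sum_congr rfl fun y _ => ?_
      split_ifs
      · rfl
      · rw [zero_mul]
    rw [Finset.sum_congr rfl fun i _ => h3 i, Finset.sum_comm]
    refine Finset.sum_congr rfl fun y _ => ?_
    rw [Finset.sum_ite_eq Finset.univ y.1 fun i => m y * cls F i, if_pos (Finset.mem_univ _)]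
  rw [h2]
  refine (Polynomial.natDegree_mul_le).trans ?_
  have h4 : ((algebraMap k κ[X]) (MvPolynomial.coeff m p)).natDegree = 0 := by
    rw [IsScalarTower.algebraMap_apply k κ κ[X]]
    exact Polynomial.natDegree_C _
  rw [h4, zero_add]
  refine (Polynomial.natDegree_prod_le _ _).trans (Finset.sum_le_sum fun y _ => ?_)
  refine (Polynomial.natDegree_pow_le).trans (Nat.mul_le_mul_left _ ?_)
  exact Finset.le_sup (f := fun a => (F y.1 a).natDegree) (Finset.mem_univ y.2)

end Deg

variable {n : ℕ} {M : Type} [TopologicalSpace M] {A : Atl n M} {L : LB A} {I : Type} [Fintype I]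
  (S : MSys A L I)

/-- a polynomial of another multidegree representing the same section -/
theorem exists_conv {p : MvPolynomial (Σ i, S.J i) ℂ} {d d' : I → ℕ} (hp : MHd p d)
    (h : ∑ i, S.β i * d i = ∑ i, S.β i * d' i) :
    ∃ q : MvPolynomial (Σ i, S.J i) ℂ, MHd q d' ∧ ∀ c, ∀ x ∈ (A.e c).source,
      S.ev c x q = S.ev c x p := by
  have h1 := isHS_sct S hp
  rw [h] at h1
  obtain ⟨q, hq, h2⟩ := S.gen d' _ h1
  refine ⟨q, hq, fun c x hx => ?_⟩
  have h3 := h2 c x hx
  rw [sct_apply S p hx] at h3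
  exact h3.symm

/-- equal values on `M` imply equal values on all points of the multicone -/
theorem aeval_eq_of_ev {p q : MvPolynomial (Σ i, S.J i) ℂ} {d : I → ℕ} (hp : MHd p d) (hq : MHd q d)
    (h : ∀ c, ∀ x ∈ (A.e c).source, S.ev c x p = S.ev c x q) {B : Type*} [CommRing B] [Algebra ℂ B]
    {v : ∀ i, S.J i → B} (hv : OnX S.E v) :
    MvPolynomial.aeval (fun y : Σ i, S.J i => v y.1 y.2) p =
      MvPolynomial.aeval (fun y : Σ i, S.J i => v y.1 y.2) q := by
  have h1 : p - q ∈ S.E := by
    refine ⟨⟨d, ?_⟩, fun c x hx => ?_⟩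
    · unfold MHd at *
      exact Submodule.sub_mem (MvPolynomial.weightedHomogeneousSubmodule ℂ _ d) hp hq
    · have h2 := h c x hx
      unfold MSys.ev at *
      rw [map_sub, h2, sub_self]
  have h3 := hv _ h1
  rw [map_sub, sub_eq_zero] at h3
  exact h3

open Classical in
theorem MHd_X_pow {k : Type*} [CommSemiring k] {I : Type} {J : I → Type} (i : I) (a : J i) (e : ℕ) :
    MHd (MvPolynomial.X ⟨i, a⟩ ^ e : MvPolynomial (Σ i, J i) k) (Pi.single i e) := by
  have h1 := (MvPolynomial.isWeightedHomogeneous_X k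
    (fun x : Σ i, J i => (Pi.single x.1 1 : I → ℕ)) ⟨i, a⟩).pow e
  have h2 : e • (Pi.single i 1 : I → ℕ) = Pi.single i e := by
    rw [← Pi.single_smul, smul_eq_mul, mul_one]
  unfold MHd
  rw [← h2]
  exact h1

open Classical in
theorem sum_single (β : I → ℕ) (i : I) (e : ℕ) :
    ∑ j, β j * (Pi.single i e : I → ℕ) j = β i * e := by
  rw [Finset.sum_eq_single i (fun j _ hj => by rw [Pi.single_eq_of_ne hj, mul_zero])
    (fun h => absurd (Finset.mem_univ i) h), Pi.single_eq_same]

/-- the power `F_{i,b} ^ β_j` as a form of degree `β_i` in the block `j` -/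
theorem exists_q (i j : I) : ∃ q : S.J i → MvPolynomial (Σ i, S.J i) ℂ,
    (open Classical in ∀ b, MHd (q b) (Pi.single j (S.β i))) ∧
    ∀ b c, ∀ x ∈ (A.e c).source, S.ev c x (q b) = S.ev c x (MvPolynomial.X ⟨i, b⟩ ^ S.β j) := by
  classical
  have h1 : ∀ b, ∃ q : MvPolynomial (Σ i, S.J i) ℂ, MHd q (Pi.single j (S.β i)) ∧
      ∀ c, ∀ x ∈ (A.e c).source, S.ev c x q = S.ev c x (MvPolynomial.X ⟨i, b⟩ ^ S.β j) := by
    intro b
    refine exists_conv S (MHd_X_pow i b (S.β j)) ?_
    rw [sum_single, sum_single, mul_comm]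
  choose q hq1 hq2 using h1
  exact ⟨q, fun b => hq1 b, fun b => hq2 b⟩

open Polynomial in
/-- one inequality -/
theorem cls_le {κ : Type} [Field κ] [Algebra ℂ κ] {F : ∀ i, S.J i → κ[X]} (hF : IsMap S.E F)
    (i j : I) : S.β j * cls F i ≤ S.β i * cls F j := by
  classical
  obtain ⟨q, hq1, hq2⟩ := exists_q S i j
  obtain ⟨q', hq1', hq2'⟩ := exists_q S j i
  set Q : S.J i → κ[X] := fun b => MvPolynomial.aeval (fun y : Σ i, S.J i => F y.1 y.2) (q b)
    with hQ
  set Q' : S.J j → κ[X] := fun b => MvPolynomial.aeval (fun y : Σ i, S.J i => F y.1 y.2) (q' b)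
    with hQ'
  -- proportionality
  have h1 : ∀ b c, F i b ^ S.β j * Q c = F i c ^ S.β j * Q b := by
    intro b c
    have h2 := aeval_eq_of_ev S (MvPolynomial.IsWeightedHomogeneous.mul (MHd_X_pow i b (S.β j))
      (hq1 c)) (MvPolynomial.IsWeightedHomogeneous.mul (MHd_X_pow i c (S.β j)) (hq1 b))
      (fun e x hx => by
        have h3 := hq2 b e x hx
        have h4 := hq2 c e x hx
        unfold MSys.ev at *
        rw [map_mul, map_mul, h3, h4, mul_comm]) hF.on
    rw [map_mul, map_mul, map_pow, map_pow, MvPolynomial.aeval_X, MvPolynomial.aeval_X] at h2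
    exact h2
  -- the products
  have h5 : ∀ b c, Q b * Q' c = F i b ^ S.β j * F j c ^ S.β i := by
    intro b c
    have hd : (Pi.single j (S.β i) + Pi.single i (S.β j) : I → ℕ) =
        Pi.single i (S.β j) + Pi.single j (S.β i) := add_comm _ _
    have h6 := MvPolynomial.IsWeightedHomogeneous.mul (hq1 b) (hq1' c)
    rw [hd] at h6
    have h2 := aeval_eq_of_ev S h6
      (MvPolynomial.IsWeightedHomogeneous.mul (MHd_X_pow i b (S.β j)) (MHd_X_pow j c (S.β i)))
      (fun e x hx => by
        have h3 := hq2 b e x hx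
        have h4 := hq2' c e x hx
        unfold MSys.ev at *
        rw [map_mul, map_mul, h3, h4]) hF.on
    rw [map_mul, map_mul, map_pow, map_pow, MvPolynomial.aeval_X, MvPolynomial.aeval_X] at h2
    exact h2
  -- coprime powers
  have hcop : Ideal.span (Set.range fun b => F i b ^ S.β j) = ⊤ := by
    have h6 := Ideal.span_pow_eq_top _ (hF.cop i) (S.β j)
    rw [← Set.range_comp] at h6
    exact h6
  have hne : ∀ l : I, ∃ b, F l b ≠ 0 := by
    intro l
    by_contra h
    push Not at h
    have h6 : Ideal.span (Set.range (F l)) = ⊤ := hF.cop l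
    have h7 : Set.range (F l) ⊆ {0} := by
      rintro _ ⟨b, rfl⟩
      exact h b
    have h8 : (⊤ : Ideal κ[X]) ≤ Ideal.span {0} := h6 ▸ Ideal.span_mono h7
    rw [Ideal.span_singleton_zero] at h8
    exact top_ne_bot (le_bot_iff.1 h8)
  obtain ⟨u, hu⟩ : ∃ u : S.J i → κ[X], ∑ b, u b * F i b ^ S.β j = 1 := by
    have h6 : (1 : κ[X]) ∈ Ideal.span (Set.range fun b => F i b ^ S.β j) := by
      rw [hcop]; trivial
    rw [Ideal.mem_span_range_iff_exists_fun] at h6
    obtain ⟨u, hu⟩ := h6
    exact ⟨u, hu⟩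
  set g : κ[X] := ∑ b, u b * Q b with hg
  have hQg : ∀ c, Q c = F i c ^ S.β j * g := by
    intro c
    calc Q c = (∑ b, u b * F i b ^ S.β j) * Q c := by rw [hu, one_mul]
      _ = ∑ b, u b * (F i b ^ S.β j * Q c) := by
        rw [Finset.sum_mul]; exact Finset.sum_congr rfl fun b _ => by ring
      _ = ∑ b, u b * (F i c ^ S.β j * Q b) := by
        exact Finset.sum_congr rfl fun b _ => by rw [h1 b c]
      _ = F i c ^ S.β j * g := by
        rw [hg, Finset.mul_sum]; exact Finset.sum_congr rfl fun b _ => by ring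
  have hg0 : g ≠ 0 := by
    intro h0
    obtain ⟨b, hb⟩ := hne i
    obtain ⟨c, hc⟩ := hne j
    have h6 := h5 b c
    rw [hQg b, h0, mul_zero, zero_mul] at h6
    exact mul_ne_zero (pow_ne_zero _ hb) (pow_ne_zero _ hc) h6.symm
  -- degrees
  obtain ⟨b, hb⟩ : ∃ b, (F i b).natDegree = cls F i := by
    have hne' : (Finset.univ : Finset (S.J i)).Nonempty := by
      obtain ⟨b, -⟩ := hne i
      exact ⟨b, Finset.mem_univ b⟩
    obtain ⟨b, -, hb⟩ := Finset.exists_mem_eq_sup _ hne' fun a => (F i a).natDegree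
    exact ⟨b, hb.symm⟩
  by_cases hFb : F i b = 0
  · have : cls F i = 0 := by rw [← hb, hFb, Polynomial.natDegree_zero]
    rw [this, mul_zero]
    exact Nat.zero_le _
  have h7 : (Q b).natDegree = S.β j * cls F i + g.natDegree := by
    rw [hQg b, Polynomial.natDegree_mul (pow_ne_zero _ hFb) hg0, Polynomial.natDegree_pow, hb]
  have h8 : (Q b).natDegree ≤ S.β i * cls F j := by
    refine (natDegree_aeval_le (hq1 b) F).trans ?_
    rw [Finset.sum_eq_single j (fun l _ hl => by rw [Pi.single_eq_of_ne hl, zero_mul])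
      (fun h => absurd (Finset.mem_univ j) h), Pi.single_eq_same]
  omega

theorem cls_prop : ClsProp S := fun _ _ _ _ hF i j =>
  le_antisymm (cls_le S hF i j) (cls_le S hF j i)

/-- every map has an `L`-degree -/
theorem cls_eq {w : I → ℤ} (hw : ∑ i, w i * (S.β i : ℤ) = 1) {κ : Type} [Field κ] [Algebra ℂ κ]
    {F : ∀ i, S.J i → Polynomial κ} (hF : IsMap S.E F) : ∃ e : ℕ, cls F = e • S.β := by
  have h1 : ∀ j, (cls F j : ℤ) = (∑ i, w i * (cls F i : ℤ)) * S.β j := by
    intro j
    calc (cls F j : ℤ) = (∑ i, w i * (S.β i : ℤ)) * cls F j := by rw [hw, one_mul]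
      _ = (∑ i, w i * (cls F i : ℤ)) * S.β j := by
        rw [Finset.sum_mul, Finset.sum_mul]
        refine Finset.sum_congr rfl fun i _ => ?_
        have h2 : (S.β j : ℤ) * cls F i = S.β i * cls F j := by exact_mod_cast cls_prop S κ F hF i j
        linear_combination - w i * h2
  have h0 : Nonempty I := by
    by_contra h
    rw [not_nonempty_iff] at h
    rw [Finset.univ_eq_empty, Finset.sum_empty] at hw
    exact zero_ne_one hw
  obtain ⟨i0⟩ := h0
  have h2 : 0 ≤ ∑ i, w i * (cls F i : ℤ) := by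
    by_contra hneg
    push Not at hneg
    have h3 := h1 i0
    have h4 : (0 : ℤ) < S.β i0 := by exact_mod_cast S.pos i0
    have h5 : (∑ i, w i * (cls F i : ℤ)) * S.β i0 < 0 := mul_neg_of_neg_of_pos hneg h4
    have h6 : (0 : ℤ) ≤ cls F i0 := by positivity
    omega
  refine ⟨(∑ i, w i * (cls F i : ℤ)).toNat, funext fun j => ?_⟩
  have h3 := h1 j
  rw [← Int.toNat_of_nonneg h2] at h3
  rw [Pi.smul_apply, smul_eq_mul]
  exact_mod_cast h3

end

end Crest.Agent.R260.Br4_592
end

-- ▼ part R260/BrIf_592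

/-!
# R260 (S0398), step 3 of the chain (BRIDGE): the interface file (helper592)

INPUT  (steps 1, 2): `M` compact connected T2, `A : Atl (2 * m + 1) M` finite with a partition of
unity, `L : LB A` with a positive Hermitian metric, some `Pr : ProjD A`, a contact form `θ` with
values in `L`.
OUTPUT (steps 4, 6): for all large `k` the embedding `S : MSys A L (Fin 2)` by `L^k`, `L^(k+1)`
and the common data `D : CData ℂ (Fin 2) S.J` (LinDefs_678) over the equations `S.E`, with
`β = (k, k+1)`, `w = (-1, 1)`; `Link` = the analytic meaning of `D.th`; `ExistsPt`, `PrimeE`.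

* `dpt`    : derivative of the coordinates in a chart;
* `Link`   : `θ_v(t)` at `v = l • pt`, `t = l • dpt u + a • pt` is `∏ l_i ^ w_i * θ(u)`;
* `TanPt`  : the tangent vectors of the multicone at `l • pt` are the `l • dpt u + a • pt`;
* `Bridge` : the statement of step 3.
-/

set_option autoImplicit false
set_option linter.unusedSectionVars false

open Set Filter Topology Complex
open scoped ContDiff Matrix ComplexConjugate

namespace Crest.Agent.R260.BrIf_592

open Crest.Agent.R275 Crest.Agent.R275.Geo Crest.Agent.R275.Core144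
open Crest.Agent.R273.Defs_333 Crest.Agent.R273.SerA_945 Crest.Agent.R273.SerE_945
open Crest.Agent.R273.TD3_733
open Crest.Agent.R270.BM_360 Crest.Agent.R260.BrDefs_592
open Crest.Agent.R260.Lin_678
open Crest.Agent.R260.Ga_323 (OneForm Contact)

noncomputable section

variable {n : ℕ} {M : Type} [TopologicalSpace M] {A : Atl n M} {L : LB A} {I : Type} [Fintype I]

/-- derivative of the coordinates of the chart `c` at the point `x` in the direction `u` -/
def dpt (S : MSys A L I) (c : A.ι) (x : M) (u : Cn n) : ∀ i, S.J i → ℂ := fun i a =>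
  fderiv ℂ (fun z => S.pt c ((A.e c).symm z) i a) (A.e c x) u

/-- the tangent vectors of the multicone at the points `l • pt` over `ℂ` -/
def TanPt (S : MSys A L I) : Prop :=
  ∀ c, ∀ x ∈ (A.e c).source, ∀ l : I → ℂ, (∀ i, l i ≠ 0) → ∀ t : ∀ i, S.J i → ℂ,
    Tan S.E (fun i b => l i * S.pt c x i b) t ↔ ∃ (u : Cn n) (a : I → ℂ),
      t = fun i b => l i * dpt S c x u i b + a i * S.pt c x i b

/-- the analytic meaning of the algebraic contact form -/
def Link (S : MSys A L I) (θ : OneForm L) {E : Set (MvPolynomial (Σ i, S.J i) ℂ)} {w : I → ℤ}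
    (th : CForm E w) : Prop :=
  ∀ ch, ∀ x ∈ (A.e ch).source, ∀ (c : ∀ i, S.J i) (l : I → ℂ), (∀ i, l i ≠ 0) →
    ∀ (u : Cn n) (a : I → ℂ),
      form (th.p c) (fun i b => l i * S.pt ch x i b)
        (fun i b => l i * dpt S ch x u i b + a i * S.pt ch x i b) =
      den c (fun i b => l i * S.pt ch x i b) ^ th.N * (∏ i, l i ^ w i) * θ.app ch x u

/-- the output of step 3 for the system `S` -/
structure Out (S : MSys A L I) (θ : OneForm L) (m : ℕ) (w : I → ℤ) where
  D : CData ℂ I S.J
  hE : D.E = S.E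
  hβ : D.β = S.β
  hw : D.w = w
  hm : D.m = m
  link : Link S θ D.th
  tanPt : TanPt S
  pt : ExistsPt S
  prime : PrimeE S

/-- **BRIDGE**, one system -/
def BridgeS : Prop :=
  ∀ (m : ℕ) (M : Type) [TopologicalSpace M] [T2Space M] [ConnectedSpace M] [CompactSpace M]
    (A : Atl (2 * m + 1) M) [Finite A.ι], Nonempty (Part A) → D2 A → ∀ (L : LB A) (I : Type)
    [Fintype I] (S : MSys A L I) (w : I → ℤ), ∑ i, w i * (S.β i : ℤ) = 1 →
    ∀ θ : OneForm L, Contact θ → Nonempty (Out S θ m w)

/-- **BRIDGE** -/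
def Bridge : Prop :=
  ∀ (m : ℕ) (M : Type) [TopologicalSpace M] [T2Space M] [ConnectedSpace M] [CompactSpace M]
    (A : Atl (2 * m + 1) M) [Finite A.ι], Nonempty (Part A) → ∀ (L : LB A) (h : HM L), h.Pos →
    ProjD A → ∀ θ : OneForm L, Contact θ →
    ∃ K : ℕ, ∀ k, K ≤ k → ∃ S : MSys A L (Fin 2), S.β = ![k, k + 1] ∧
      Nonempty (Out S θ m ![-1, 1])

end

end Crest.Agent.R260.BrIf_592
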