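import Mathlib

-- ▼ part R260/Rank_406
section

/-!
H2 of 323 #5919: rank transfer from the `k`-points (k algebraically closed) of a family of
polynomial equations to the points over every field (Nullstellensatz on minors).
-/

namespace Crest.Agent.R260.Rk_406

open MvPolynomial Module

noncomputable section

/-! ### Nullstellensatz -/

theorem nsatz {k : Type*} [Field k] [IsAlgClosed k] {σ : Type*} [Finite σ]
    {E : Set (MvPolynomial σ k)} {p : MvPolynomial σ k}
    (h : ∀ v : σ → k, (∀ q ∈ E, eval v q = 0) → eval v p = 0)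
    {A : Type*} [CommRing A] [IsReduced A] [Algebra k A] (v : σ → A)
    (hv : ∀ q ∈ E, aeval v q = 0) : aeval v p = 0 := by
  have hp : p ∈ (Ideal.span E).radical := by
    rw [← vanishingIdeal_zeroLocus_eq_radical (K := k)]
    rw [mem_vanishingIdeal_iff]
    intro x hx
    rw [mem_zeroLocus_iff] at hx
    have := h x (fun q hq => by simpa [coe_aeval_eq_eval] using hx q (Ideal.subset_span hq))
    simpa [coe_aeval_eq_eval] using this
  obtain ⟨n, hn⟩ := hp
  have h1 : Ideal.span E ≤ RingHom.ker (aeval v : MvPolynomial σ k →ₐ[k] A) :=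
    Ideal.span_le.2 hv
  have h2 : aeval v (p ^ n) = 0 := h1 hn
  rw [map_pow] at h2
  exact IsReduced.eq_zero _ ⟨n, h2⟩

/-! ### linear algebra of a possibly infinite family of rows -/

section lin

variable {F : Type*} [Field F] {A b : Type*} [Fintype b]

/-- the kernel of a family of rows -/
def Ker (N : A → b → F) : Submodule F (b → F) where
  carrier := {t | ∀ a, ∑ y, N a y * t y = 0}
  add_mem' := by
    intro s t hs ht a
    have : ∑ y, N a y * (s + t) y = ∑ y, N a y * s y + ∑ y, N a y * t y := by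
      rw [← Finset.sum_add_distrib]
      exact Finset.sum_congr rfl fun y _ => by simp [mul_add]
    rw [this, hs a, ht a, add_zero]
  zero_mem' := by intro a; simp
  smul_mem' := by
    intro c t ht a
    have : ∑ y, N a y * (c • t) y = c * ∑ y, N a y * t y := by
      rw [Finset.mul_sum]
      exact Finset.sum_congr rfl fun y _ => by simp; ring
    rw [this, ht a, mul_zero]

theorem mem_Ker {N : A → b → F} {t : b → F} : t ∈ Ker N ↔ ∀ a, ∑ y, N a y * t y = 0 := Iff.rfl

/-- the span of the rows -/
def Row (N : A → b → F) : Submodule F (b → F) := Submodule.span F (Set.range N)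

theorem row_add_ker (N : A → b → F) :
    finrank F (Row N) + finrank F (Ker N) = Fintype.card b := by
  classical
  set e := dotProductEquiv F b
  have h1 : Ker N = ((Row N).map (e : (b → F) →ₗ[F] Module.Dual F (b → F))).dualCoannihilator := by
    ext t
    rw [Submodule.mem_dualCoannihilator, mem_Ker]
    constructor
    · intro h φ hφ
      obtain ⟨w, hw, rfl⟩ := Submodule.mem_map.1 hφ
      induction hw using Submodule.span_induction with
      | mem x hx =>
        obtain ⟨a, rfl⟩ := hx
        simpa [e, dotProduct] using h a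
      | zero => simp
      | add x y _ _ hx hy =>
        have hx' := hx (Submodule.mem_map.2 ⟨x, by assumption, rfl⟩)
        have hy' := hy (Submodule.mem_map.2 ⟨y, by assumption, rfl⟩)
        simp only [LinearEquiv.coe_coe, map_add, LinearMap.add_apply] at hx' hy' ⊢
        rw [hx', hy', add_zero]
      | smul c x _ hx =>
        have hx' := hx (Submodule.mem_map.2 ⟨x, by assumption, rfl⟩)
        simp only [LinearEquiv.coe_coe, map_smul, LinearMap.smul_apply] at hx' ⊢
        rw [hx', smul_zero]
    · intro h a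
      have := h (e (N a)) (Submodule.mem_map.2 ⟨N a, Submodule.subset_span ⟨a, rfl⟩, rfl⟩)
      simpa [e, dotProduct] using this
  rw [h1]
  have h2 : finrank F ((Row N).map (e : (b → F) →ₗ[F] Module.Dual F (b → F)))
      = finrank F (Row N) := LinearEquiv.finrank_map_eq e _
  rw [← h2, Subspace.finrank_add_finrank_dualCoannihilator_eq, finrank_fintype_fun_eq_card]

/-- rank ≥ r iff some r × r minor is non-zero -/
theorem le_row_iff (N : A → b → F) (r : ℕ) :
    r ≤ finrank F (Row N) ↔ ∃ (f : Fin r → A) (g : Fin r → b),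
      (Matrix.of fun i j => N (f i) (g j)).det ≠ 0 := by
  classical
  constructor
  · intro h
    obtain ⟨κ, a, ha, hsp, hli⟩ := exists_linearIndependent' F N
    have hfin : Finite κ := hli.finite
    have := Fintype.ofFinite κ
    have hc : Fintype.card κ = finrank F (Row N) := by
      rw [Row, ← hsp]
      exact (finrank_span_eq_card hli).symm
    have hr : r ≤ Fintype.card κ := hc ▸ h
    obtain ⟨u⟩ : Nonempty (Fin r ↪ κ) :=
      Function.Embedding.nonempty_of_card_le (by simpa using hr)
    set f : Fin r → A := a ∘ u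
    have hlf : LinearIndependent F (fun i => N (f i)) := by
      have := hli.comp u u.injective
      exact this
    -- the r × b matrix
    set P : Matrix (Fin r) b F := Matrix.of fun i y => N (f i) y
    have hP : P.rank = r := by
      have h3 : LinearIndependent F P.row := hlf
      simpa using h3.rank_matrix
    have hP2 : finrank F (Submodule.span F (Set.range P.col)) = r := by
      rw [← Matrix.rank_eq_finrank_span_cols, hP]
    obtain ⟨κ', a', ha', hsp', hli'⟩ := exists_linearIndependent' F P.col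
    have hfin' : Finite κ' := hli'.finite
    have := Fintype.ofFinite κ'
    have hc' : Fintype.card κ' = r := by
      rw [← hP2, ← hsp']
      exact (finrank_span_eq_card hli').symm
    obtain ⟨u'⟩ : Nonempty (Fin r ≃ κ') := ⟨(Fintype.equivFinOfCardEq hc').symm⟩
    refine ⟨f, a' ∘ u', ?_⟩
    have h4 : LinearIndependent F (Matrix.of fun i j => N (f i) ((a' ∘ u') j)).col := by
      have := hli'.comp u' u'.injective
      exact this
    have h5 := Matrix.linearIndependent_cols_iff_isUnit.1 h4
    rw [Matrix.isUnit_iff_isUnit_det] at h5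
    exact h5.ne_zero
  · rintro ⟨f, g, hd⟩
    have h5 : IsUnit (Matrix.of fun i j => N (f i) (g j)) := by
      rw [Matrix.isUnit_iff_isUnit_det]; exact isUnit_iff_ne_zero.2 hd
    have h4 := Matrix.linearIndependent_rows_iff_isUnit.2 h5
    have h6 : LinearIndependent F (fun i => N (f i)) := by
      let π : (b → F) →ₗ[F] (Fin r → F) := LinearMap.funLeft F F g
      have : LinearIndependent F (π ∘ (fun i => N (f i))) := h4
      exact LinearIndependent.of_comp π this
    have h7 : finrank F (Submodule.span F (Set.range fun i => N (f i))) = r := by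
      simpa using finrank_span_eq_card h6
    rw [← h7]
    apply Submodule.finrank_mono
    rw [Submodule.span_le]
    rintro _ ⟨i, rfl⟩
    exact Submodule.subset_span ⟨f i, rfl⟩

/-- `Ker` in the exact complementary dimension -/
theorem ker_eq_iff (N : A → b → F) (s : ℕ) :
    finrank F (Ker N) = s ↔ finrank F (Row N) + s = Fintype.card b := by
  have := row_add_ker N
  omega

/-- a vector annihilated by the kernel is in the row space -/
theorem mem_row_iff (N : A → b → F) (w : b → F) :
    w ∈ Row N ↔ ∀ t ∈ Ker N, ∑ y, w y * t y = 0 := by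
  classical
  constructor
  · intro hw t ht
    induction hw using Submodule.span_induction with
    | mem x hx =>
      obtain ⟨a, rfl⟩ := hx
      exact ht a
    | zero => simp
    | add x y _ _ hx hy =>
      have : ∑ z, (x + y) z * t z = ∑ z, x z * t z + ∑ z, y z * t z := by
        rw [← Finset.sum_add_distrib]
        exact Finset.sum_congr rfl fun y _ => by simp [add_mul]
      rw [this, hx, hy, add_zero]
    | smul c x _ hx =>
      have : ∑ z, (c • x) z * t z = c * ∑ z, x z * t z := by
        rw [Finset.mul_sum]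
        exact Finset.sum_congr rfl fun y _ => by simp; ring
      rw [this, hx, mul_zero]
  · intro h
    -- the family N together with w has the same kernel, hence the same row rank
    let N' : Option A → b → F := fun o => o.elim w N
    have hk : Ker N' = Ker N := by
      ext t
      constructor
      · intro ht a
        exact ht (some a)
      · intro ht o
        cases o with
        | none => exact h t ht
        | some a => exact ht a
    have h1 := row_add_ker N
    have h2 := row_add_ker N'
    rw [hk] at h2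
    have h3 : Row N ≤ Row N' := by
      rw [Row, Submodule.span_le]
      rintro _ ⟨a, rfl⟩
      exact Submodule.subset_span ⟨some a, rfl⟩
    have h4 : Row N = Row N' := Submodule.eq_of_le_of_finrank_eq h3 (by omega)
    rw [h4]
    exact Submodule.subset_span ⟨none, rfl⟩

/-- the rank of the transposed family -/
theorem row_transpose [Fintype A] (N : A → b → F) :
    finrank F (Row (fun (y : b) (a : A) => N a y)) = finrank F (Row N) := by
  have h1 : finrank F (Row N) = (Matrix.of N).rank := by
    rw [Matrix.rank_eq_finrank_span_row]; rfl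
  have h2 : finrank F (Row (fun (y : b) (a : A) => N a y)) = (Matrix.of N).transpose.rank := by
    rw [Matrix.rank_eq_finrank_span_row]; rfl
  rw [h1, h2, Matrix.rank_transpose]

end lin

/-! ### transfer -/

section transfer

variable {k : Type*} [Field k] [IsAlgClosed k] {σ : Type*} [Finite σ]

/-- `v` is on `E` -/
def On {k : Type*} [Field k] {σ : Type*} (E : Set (MvPolynomial σ k)) {A : Type*} [CommRing A]
    [Algebra k A] (v : σ → A) : Prop := ∀ p ∈ E, aeval v p = 0

/-- (T1) -/
theorem t1 {E : Set (MvPolynomial σ k)} {B : MvPolynomial σ k} {C : Type*}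
    (G : C → MvPolynomial σ k)
    (h : ∀ v : σ → k, On E v → aeval v B ≠ 0 → ∃ c, aeval v (G c) ≠ 0)
    {κ : Type*} [Field κ] [Algebra k κ] (v : σ → κ) (hv : On E v) (hB : aeval v B ≠ 0) :
    ∃ c, aeval v (G c) ≠ 0 := by
  by_contra hcon
  push Not at hcon
  apply hB
  refine nsatz (E := E ∪ Set.range G) ?_ v ?_
  · intro x hx
    by_contra hBx
    obtain ⟨c, hc⟩ := h x (fun p hp => by simpa [coe_aeval_eq_eval] using hx p (Or.inl hp))
      (by simpa [coe_aeval_eq_eval] using hBx)
    exact hc (by simpa [coe_aeval_eq_eval] using hx (G c) (Or.inr ⟨c, rfl⟩))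
  · rintro q (hq | ⟨c, rfl⟩)
    · exact hv q hq
    · exact hcon c

/-- vanishing on `E` off `B = 0`, over every reduced algebra -/
theorem t0 {E : Set (MvPolynomial σ k)} {B Q : MvPolynomial σ k}
    (h : ∀ v : σ → k, On E v → aeval v B ≠ 0 → aeval v Q = 0)
    {A : Type*} [CommRing A] [IsReduced A] [Algebra k A] (v : σ → A) (hv : On E v)
    (hB : IsUnit (aeval v B)) : aeval v Q = 0 := by
  have : aeval v (B * Q) = 0 := by
    refine nsatz (E := E) ?_ v hv
    intro x hx
    rw [map_mul]
    by_cases hBx : eval x B = 0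
    · rw [hBx, zero_mul]
    · have := h x (fun p hp => by simpa [coe_aeval_eq_eval] using hx p hp)
        (by simpa [coe_aeval_eq_eval] using hBx)
      have h2 : eval x Q = 0 := by simpa [coe_aeval_eq_eval] using this
      rw [h2, mul_zero]
  rw [map_mul] at this
  exact (hB.mul_right_eq_zero).1 this

variable {A b : Type*} [Fintype b]

/-- evaluation of a family of rows of polynomials -/
def ev {k : Type*} [Field k] {σ : Type*} {A b : Type*} (M : A → b → MvPolynomial σ k)
    {κ : Type*} [Field κ] [Algebra k κ] (v : σ → κ) : A → b → κ := fun a y => aeval v (M a y)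

theorem det_ev {k : Type*} [Field k] {σ : Type*} {A b : Type*} (M : A → b → MvPolynomial σ k)
    {κ : Type*} [Field κ] [Algebra k κ] (v : σ → κ) {r : ℕ} (f : Fin r → A) (g : Fin r → b) :
    (Matrix.of fun i j => ev M v (f i) (g j)).det =
      aeval v (Matrix.of fun i j => M (f i) (g j)).det := by
  rw [AlgHom.map_det]
  rfl

variable {E : Set (MvPolynomial σ k)} {B : MvPolynomial σ k} (M : A → b → MvPolynomial σ k)

/-- lower semicontinuity direction -/
theorem row_ge {r : ℕ}
    (h : ∀ v : σ → k, On E v → aeval v B ≠ 0 → r ≤ finrank k (Row (ev M v)))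
    {κ : Type*} [Field κ] [Algebra k κ] (v : σ → κ) (hv : On E v) (hB : aeval v B ≠ 0) :
    r ≤ finrank κ (Row (ev M v)) := by
  obtain ⟨⟨f, g⟩, hfg⟩ := t1 (C := (Fin r → A) × (Fin r → b))
    (fun c => (Matrix.of fun i j => M (c.1 i) (c.2 j)).det) (by
      intro x hx hBx
      obtain ⟨f, g, hfg⟩ := (le_row_iff _ r).1 (h x hx hBx)
      rw [det_ev] at hfg
      exact ⟨(f, g), hfg⟩) v hv hB
  refine (le_row_iff _ r).2 ⟨f, g, ?_⟩
  rw [det_ev]
  exact hfg

theorem row_le {r : ℕ}
    (h : ∀ v : σ → k, On E v → aeval v B ≠ 0 → finrank k (Row (ev M v)) ≤ r)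
    {κ : Type*} [Field κ] [Algebra k κ] (v : σ → κ) (hv : On E v) (hB : aeval v B ≠ 0) :
    finrank κ (Row (ev M v)) ≤ r := by
  by_contra hcon
  push Not at hcon
  obtain ⟨f, g, hfg⟩ := (le_row_iff _ (r + 1)).1 hcon
  apply hfg
  rw [det_ev]
  refine t0 (E := E) (B := B) ?_ v hv (isUnit_iff_ne_zero.2 hB)
  intro x hx hBx
  by_contra hD
  rw [← det_ev] at hD
  have := (le_row_iff _ (r + 1)).2 ⟨f, g, hD⟩
  have := h x hx hBx
  omega

theorem row_eq {r : ℕ}
    (h : ∀ v : σ → k, On E v → aeval v B ≠ 0 → finrank k (Row (ev M v)) = r)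
    {κ : Type*} [Field κ] [Algebra k κ] (v : σ → κ) (hv : On E v) (hB : aeval v B ≠ 0) :
    finrank κ (Row (ev M v)) = r :=
  le_antisymm (row_le M (fun x hx hBx => (h x hx hBx).le) v hv hB)
    (row_ge M (fun x hx hBx => (h x hx hBx).ge) v hv hB)

theorem ker_eq {s : ℕ}
    (h : ∀ v : σ → k, On E v → aeval v B ≠ 0 → finrank k (Ker (ev M v)) = s)
    {κ : Type*} [Field κ] [Algebra k κ] (v : σ → κ) (hv : On E v) (hB : aeval v B ≠ 0) :
    finrank κ (Ker (ev M v)) = s := by
  by_cases hs : s ≤ Fintype.card b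
  · rw [ker_eq_iff]
    have := row_eq (r := Fintype.card b - s) M (fun x hx hBx => by
      have := (ker_eq_iff _ s).1 (h x hx hBx)
      omega) v hv hB
    omega
  · -- no `k`-point
    exfalso
    apply hB
    refine nsatz (E := E) ?_ v hv
    intro x hx
    by_contra hBx
    have h1 := (ker_eq_iff _ s).1 (h x (fun p hp => by simpa [coe_aeval_eq_eval] using hx p hp)
      (by simpa [coe_aeval_eq_eval] using hBx))
    omega



end transfer

end

end Crest.Agent.R260.Rk_406
end

-- ▼ part R260/Rank2_406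
section

/-!
H2 of 323 #5919, second part: (T3), (T4), tangent spaces of a family of equations.
-/

namespace Crest.Agent.R260.Rk_406

open MvPolynomial Module

noncomputable section

/-! ### linear algebra -/

section lin

variable {F : Type*} [Field F] {A b : Type*} [Fintype b]

/-- the radical of the form `Ω` on `Ker N` -/
def Rad (N : A → b → F) (Ω : b → b → F) : Submodule F (b → F) where
  carrier := {t | t ∈ Ker N ∧ ∀ t' ∈ Ker N, ∑ x, ∑ y, t x * Ω x y * t' y = 0}
  add_mem' := by
    rintro s t ⟨hs, hs'⟩ ⟨ht, ht'⟩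
    refine ⟨add_mem hs ht, fun u hu => ?_⟩
    have : ∑ x, ∑ y, (s + t) x * Ω x y * u y =
        ∑ x, ∑ y, s x * Ω x y * u y + ∑ x, ∑ y, t x * Ω x y * u y := by
      simp only [← Finset.sum_add_distrib]
      exact Finset.sum_congr rfl fun x _ => Finset.sum_congr rfl fun y _ => by
        simp only [Pi.add_apply]; ring
    rw [this, hs' u hu, ht' u hu, add_zero]
  zero_mem' := ⟨zero_mem _, fun u _ => by simp⟩
  smul_mem' := by
    rintro c t ⟨ht, ht'⟩
    refine ⟨Submodule.smul_mem _ c ht, fun u hu => ?_⟩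
    have : ∑ x, ∑ y, (c • t) x * Ω x y * u y = c * ∑ x, ∑ y, t x * Ω x y * u y := by
      simp only [Finset.mul_sum]
      exact Finset.sum_congr rfl fun x _ => Finset.sum_congr rfl fun y _ => by
        simp only [Pi.smul_apply, smul_eq_mul]; ring
    rw [this, ht' u hu, mul_zero]

theorem mem_Rad {N : A → b → F} {Ω : b → b → F} {t : b → F} :
    t ∈ Rad N Ω ↔ t ∈ Ker N ∧ ∀ t' ∈ Ker N, ∑ x, ∑ y, t x * Ω x y * t' y = 0 := Iff.rfl

theorem Rad_congr {A' : Type*} {N : A → b → F} {N' : A' → b → F} (Ω : b → b → F)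
    (h : Ker N = Ker N') : Rad N Ω = Rad N' Ω := by
  ext t
  rw [mem_Rad, mem_Rad, h]

/-- the bordered family of rows -/
def Bd {R : Type*} [Zero R] (N : A → b → R) (Ω : b → b → R) : A ⊕ b → b ⊕ A → R
  | .inl a, .inl y => N a y
  | .inl _, .inr _ => 0
  | .inr y, .inl x => Ω x y
  | .inr y, .inr a => N a y

variable [Fintype A]

theorem mem_Ker_Bd {N : A → b → F} {Ω : b → b → F} {w : b ⊕ A → F} :
    w ∈ Ker (Bd N Ω) ↔ (fun y => w (.inl y)) ∈ Ker N ∧
      ∀ y, ∑ x, Ω x y * w (.inl x) + ∑ a, N a y * w (.inr a) = 0 := by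
  rw [mem_Ker]
  constructor
  · intro h
    refine ⟨fun a => ?_, fun y => ?_⟩
    · have := h (.inl a)
      rw [Fintype.sum_sum_type] at this
      simpa [Bd] using this
    · have := h (.inr y)
      rw [Fintype.sum_sum_type] at this
      simpa [Bd] using this
  · rintro ⟨h1, h2⟩ (a | y)
    · rw [Fintype.sum_sum_type]
      simpa [Bd] using h1 a
    · rw [Fintype.sum_sum_type]
      simpa [Bd] using h2 y

theorem finrank_Ker_Bd (N : A → b → F) (Ω : b → b → F) :
    finrank F (Ker (Bd N Ω)) + finrank F (Row N) = finrank F (Rad N Ω) + Fintype.card A := by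
  -- projection
  let π : (b ⊕ A → F) →ₗ[F] (b → F) := LinearMap.funLeft F F Sum.inl
  let π' : Ker (Bd N Ω) →ₗ[F] (b → F) := π.domRestrict (Ker (Bd N Ω))
  have hr : LinearMap.range π' = Rad N Ω := by
    ext t
    constructor
    · rintro ⟨⟨w, hw⟩, rfl⟩
      obtain ⟨h1, h2⟩ := mem_Ker_Bd.1 hw
      refine ⟨h1, fun t' ht' => ?_⟩
      have h3 : ∑ x, ∑ y, w (.inl x) * Ω x y * t' y = 0 := by
        rw [Finset.sum_comm]
        have : ∀ y, ∑ x, w (.inl x) * Ω x y * t' y = - ∑ a, (N a y * t' y) * w (.inr a) := by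
          intro y
          have h4 := h2 y
          have h5 : ∑ x, w (.inl x) * Ω x y * t' y = (∑ x, Ω x y * w (.inl x)) * t' y := by
            rw [Finset.sum_mul]
            exact Finset.sum_congr rfl fun x _ => by ring
          have h6 : ∑ a, (N a y * t' y) * w (.inr a) = (∑ a, N a y * w (.inr a)) * t' y := by
            rw [Finset.sum_mul]
            exact Finset.sum_congr rfl fun x _ => by ring
          rw [h5, h6, eq_neg_of_add_eq_zero_left h4]
          ring
        rw [Finset.sum_congr rfl fun y _ => this y, Finset.sum_neg_distrib, Finset.sum_comm,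
          neg_eq_zero]
        refine Finset.sum_eq_zero fun a _ => ?_
        rw [← Finset.sum_mul, ht' a, zero_mul]
      exact h3
    · rintro ⟨h1, h2⟩
      have h3 : (fun y => ∑ x, t x * Ω x y) ∈ Row N := by
        rw [mem_row_iff]
        intro t' ht'
        have := h2 t' ht'
        rw [Finset.sum_comm] at this
        rw [← this]
        exact Finset.sum_congr rfl fun y _ => by rw [Finset.sum_mul]
      obtain ⟨c, hc⟩ := (Submodule.mem_span_range_iff_exists_fun F).1 h3
      have hw : Sum.elim t (fun a => - c a) ∈ Ker (Bd N Ω) := by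
        rw [mem_Ker_Bd]
        refine ⟨h1, fun y => ?_⟩
        have h4 := congrFun hc y
        simp only [Finset.sum_apply, Pi.smul_apply, smul_eq_mul] at h4
        simp only [Sum.elim_inl, Sum.elim_inr, mul_neg, Finset.sum_neg_distrib]
        have h5 : ∑ a, N a y * c a = ∑ a, c a * N a y :=
          Finset.sum_congr rfl fun a _ => mul_comm _ _
        have h6 : ∑ x, Ω x y * t x = ∑ x, t x * Ω x y :=
          Finset.sum_congr rfl fun a _ => mul_comm _ _
        rw [h5, h6, h4]
        ring
      exact ⟨⟨_, hw⟩, by ext y; rfl⟩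
  -- the kernel
  let j0 : Ker (fun (y : b) (a : A) => N a y) →ₗ[F] (b ⊕ A → F) :=
    { toFun := fun c => Sum.elim 0 c.1
      map_add' := by
        intro c d
        ext (x | x) <;> simp
      map_smul' := by
        intro c d
        ext (x | x) <;> simp }
  let j : Ker (fun (y : b) (a : A) => N a y) →ₗ[F] Ker (Bd N Ω) :=
    j0.codRestrict _ (by
      rintro ⟨c, hc⟩
      rw [mem_Ker_Bd]
      refine ⟨?_, fun y => ?_⟩
      · have : (fun y => j0 ⟨c, hc⟩ (Sum.inl y)) = 0 := by ext y; rfl
        rw [this]; exact zero_mem _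
      · have h1 : ∑ x, Ω x y * j0 ⟨c, hc⟩ (Sum.inl x) = 0 :=
          Finset.sum_eq_zero fun x _ => by
            have : j0 ⟨c, hc⟩ (Sum.inl x) = 0 := rfl
            rw [this, mul_zero]
        rw [h1, zero_add]
        exact hc y)
  have hj : Function.Injective j := by
    intro c d h
    have h1 : j0 c = j0 d := congrArg Subtype.val h
    ext a
    exact congrFun h1 (Sum.inr a)
  have hk : LinearMap.range j = LinearMap.ker π' := by
    ext ⟨w, hw⟩
    rw [LinearMap.mem_ker]
    constructor
    · rintro ⟨c, hc⟩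
      have h1 : j0 c = w := congrArg Subtype.val hc
      ext y
      change w (Sum.inl y) = 0
      rw [← h1]
      rfl
    · intro h
      have h0 : ∀ y, w (Sum.inl y) = 0 := fun y => congrFun h y
      have h2 := (mem_Ker_Bd.1 hw).2
      refine ⟨⟨fun a => w (Sum.inr a), fun y => ?_⟩, ?_⟩
      · have := h2 y
        rw [Finset.sum_eq_zero (fun x _ => by rw [h0 x, mul_zero]), zero_add] at this
        exact this
      · apply Subtype.ext
        ext (y | a)
        · exact (h0 y).symm
        · rfl
  have e1 := LinearMap.finrank_range_add_finrank_ker π'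
  rw [hr, ← hk, LinearMap.finrank_range_of_inj hj] at e1
  have e2 := row_add_ker (fun (y : b) (a : A) => N a y)
  rw [row_transpose] at e2
  omega

end lin

/-! ### reduction to finitely many rows -/

theorem exists_finite_rows {R : Type*} [CommRing R] [IsNoetherianRing R] {A b : Type*} [Finite b]
    (M : A → b → R) : ∃ (n : ℕ) (f : Fin n → A), ∀ a, ∃ c : Fin n → R,
      ∀ y, M a y = ∑ i, c i * M (f i) y := by
  have h1 : (Submodule.span R (Set.range M)).FG := IsNoetherian.noetherian _
  obtain ⟨s, hs, hsp⟩ := (Submodule.fg_span_iff_fg_span_finset_subset _).1 h1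
  choose g hg using fun x : s => hs x.2
  refine ⟨s.card, fun i => g (s.equivFin.symm i), fun a => ?_⟩
  have h2 : M a ∈ Submodule.span R (Set.range fun i : Fin s.card => M (g (s.equivFin.symm i))) := by
    have h3 : (Set.range fun i : Fin s.card => M (g (s.equivFin.symm i))) = (s : Set (b → R)) := by
      ext x
      constructor
      · rintro ⟨i, rfl⟩
        simp only [hg]
        exact (s.equivFin.symm i).2
      · intro hx
        refine ⟨s.equivFin ⟨x, hx⟩, ?_⟩
        simp only [Equiv.symm_apply_apply, hg]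
    rw [h3, ← hsp]
    exact Submodule.subset_span ⟨a, rfl⟩
  obtain ⟨c, hc⟩ := (Submodule.mem_span_range_iff_exists_fun R).1 h2
  refine ⟨c, fun y => ?_⟩
  rw [← hc]
  simp

section transfer

variable {k : Type*} [Field k] {σ : Type*} {A b : Type*} [Fintype b]

theorem Ker_sub (M : A → b → MvPolynomial σ k) {n : ℕ} {f : Fin n → A}
    (hf : ∀ a, ∃ c : Fin n → MvPolynomial σ k, ∀ y, M a y = ∑ i, c i * M (f i) y)
    {κ : Type*} [Field κ] [Algebra k κ] (v : σ → κ) :
    Ker (ev (fun i => M (f i)) v) = Ker (ev M v) := by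
  ext t
  constructor
  · intro ht a
    obtain ⟨c, hc⟩ := hf a
    have : ∑ y, ev M v a y * t y = ∑ i, aeval v (c i) * ∑ y, ev (fun i => M (f i)) v i y * t y := by
      simp only [ev, Finset.mul_sum]
      rw [Finset.sum_comm]
      refine Finset.sum_congr rfl fun y _ => ?_
      rw [hc y, map_sum, Finset.sum_mul]
      exact Finset.sum_congr rfl fun i _ => by rw [map_mul]; ring
    rw [this]
    exact Finset.sum_eq_zero fun i _ => by rw [ht i, mul_zero]
  · intro ht i
    exact ht (f i)

omit [Fintype b] in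
theorem ev_Bd (M : A → b → MvPolynomial σ k) (Ω : b → b → MvPolynomial σ k)
    {κ : Type*} [Field κ] [Algebra k κ] (v : σ → κ) :
    ev (Bd M Ω) v = Bd (ev M v) (ev Ω v) := by
  funext x y
  rcases x with a | y' <;> rcases y with y | a' <;> simp [ev, Bd]

variable [IsAlgClosed k] [Finite σ] {E : Set (MvPolynomial σ k)} {B : MvPolynomial σ k}
  (M : A → b → MvPolynomial σ k)

/-- (T4) -/
theorem rad_eq (Ω : b → b → MvPolynomial σ k) {N s : ℕ}
    (hN : ∀ v : σ → k, On E v → aeval v B ≠ 0 → finrank k (Ker (ev M v)) = N)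
    (h : ∀ v : σ → k, On E v → aeval v B ≠ 0 → finrank k (Rad (ev M v) (ev Ω v)) = s)
    {κ : Type*} [Field κ] [Algebra k κ] (v : σ → κ) (hv : On E v) (hB : aeval v B ≠ 0) :
    finrank κ (Rad (ev M v) (ev Ω v)) = s := by
  obtain ⟨n, f, hf⟩ := exists_finite_rows M
  set M0 : Fin n → b → MvPolynomial σ k := fun i => M (f i)
  have hk : ∀ x : σ → k, Ker (ev M0 x) = Ker (ev M x) := fun x => Ker_sub M hf x
  have hκ : Ker (ev M0 v) = Ker (ev M v) := Ker_sub M hf v
  have h1 : finrank κ (Ker (ev M v)) = N := ker_eq M hN v hv hB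
  have h2 := row_add_ker (ev M0 v)
  have h3 := finrank_Ker_Bd (ev M0 v) (ev Ω v)
  have h4 : finrank κ (Ker (ev (Bd M0 Ω) v)) = s + n - (Fintype.card b - N) := by
    refine ker_eq (E := E) (B := B) _ ?_ v hv hB
    intro x hx hBx
    rw [ev_Bd]
    have h5 := row_add_ker (ev M0 x)
    have h6 := finrank_Ker_Bd (ev M0 x) (ev Ω x)
    rw [Rad_congr _ (hk x), h x hx hBx, Fintype.card_fin] at h6
    rw [hk x, hN x hx hBx] at h5
    omega
  rw [ev_Bd] at h4
  rw [Rad_congr _ hκ, Fintype.card_fin] at h3
  rw [hκ, h1] at h2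
  -- the row rank is at most n
  have h7 : finrank κ (Row (ev M0 v)) ≤ n := by
    have h8 := finrank_range_le_card (R := κ) (ev M0 v)
    rw [Fintype.card_fin] at h8
    exact h8
  omega

/-- (T3), general linear version -/
theorem t3 {Q : MvPolynomial (σ ⊕ b) k}
    (h : ∀ (v : σ → k) (t : b → k), On E v → t ∈ Ker (ev M v) → aeval v B ≠ 0 →
      aeval (Sum.elim v t) Q = 0)
    {S : Type*} [CommRing S] [IsReduced S] [Algebra k S] (v : σ → S) (t : b → S) (hv : On E v)
    (ht : ∀ a, ∑ y, aeval v (M a y) * t y = 0)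
    (hB : IsUnit (aeval v B)) : aeval (Sum.elim v t) Q = 0 := by
  set E' : Set (MvPolynomial (σ ⊕ b) k) := (rename Sum.inl) '' E ∪
    Set.range (fun a => ∑ y, rename Sum.inl (M a y) * X (Sum.inr y)) with hE'
  refine t0 (E := E') (B := rename Sum.inl B) ?_ (Sum.elim v t) ?_ ?_
  · intro w hw hBw
    rw [aeval_rename] at hBw
    have h1 : On E (w ∘ Sum.inl) := by
      intro p hp
      have := hw (rename Sum.inl p) (Or.inl ⟨p, hp, rfl⟩)
      rwa [aeval_rename] at this
    have h2 : (w ∘ Sum.inr) ∈ Ker (ev M (w ∘ Sum.inl)) := by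
      intro a
      have := hw _ (Or.inr ⟨a, rfl⟩)
      simp only [map_sum, map_mul, aeval_rename, aeval_X] at this
      exact this
    have := h _ _ h1 h2 hBw
    rwa [Sum.elim_comp_inl_inr] at this
  · rintro q (⟨p, hp, rfl⟩ | ⟨a, rfl⟩)
    · rw [aeval_rename]
      exact hv p hp
    · simp only [map_sum, map_mul, aeval_rename, aeval_X, Sum.elim_inr]
      exact ht a
  · rw [aeval_rename]
    exact hB

/-- polynomial vectors which lie in the radical at all `k`-points lie in the radical everywhere -/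
theorem rad_mem (Ω : b → b → MvPolynomial σ k) (e : b → MvPolynomial σ k)
    (h : ∀ v : σ → k, On E v → aeval v B ≠ 0 → (fun y => aeval v (e y)) ∈ Rad (ev M v) (ev Ω v))
    {κ : Type*} [Field κ] [Algebra k κ] (v : σ → κ) (hv : On E v) (hB : aeval v B ≠ 0) :
    (fun y => aeval v (e y)) ∈ Rad (ev M v) (ev Ω v) := by
  refine ⟨fun a => ?_, fun t ht => ?_⟩
  · have := t0 (E := E) (B := B) (Q := ∑ y, M a y * e y) (by
      intro x hx hBx
      simp only [map_sum, map_mul]
      exact (h x hx hBx).1 a) v hv (isUnit_iff_ne_zero.2 hB)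
    simp only [map_sum, map_mul] at this
    exact this
  · have := t3 (E := E) (B := B) M
      (Q := ∑ x, ∑ y, rename Sum.inl (e x) * rename Sum.inl (Ω x y) * X (Sum.inr y)) (by
        intro x u hx hu hBx
        simp only [map_sum, map_mul, aeval_rename, aeval_X, Sum.elim_inr, Sum.elim_comp_inl]
        exact (h x hx hBx).2 u hu) v t hv ht (isUnit_iff_ne_zero.2 hB)
    simp only [map_sum, map_mul, aeval_rename, aeval_X, Sum.elim_inr, Sum.elim_comp_inl] at this
    exact this

/-- the radical is spanned by polynomial vectors -/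
theorem rad_eq_span (Ω : b → b → MvPolynomial σ k) {ι : Type*} (e : ι → b → MvPolynomial σ k)
    {N s : ℕ}
    (hN : ∀ v : σ → k, On E v → aeval v B ≠ 0 → finrank k (Ker (ev M v)) = N)
    (h : ∀ v : σ → k, On E v → aeval v B ≠ 0 →
      Rad (ev M v) (ev Ω v) = Submodule.span k (Set.range (ev e v)))
    (hs : ∀ v : σ → k, On E v → aeval v B ≠ 0 →
      finrank k (Submodule.span k (Set.range (ev e v))) = s)
    {κ : Type*} [Field κ] [Algebra k κ] (v : σ → κ) (hv : On E v) (hB : aeval v B ≠ 0) :
    Rad (ev M v) (ev Ω v) = Submodule.span κ (Set.range (ev e v)) := by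
  symm
  apply Submodule.eq_of_le_of_finrank_eq
  · rw [Submodule.span_le]
    rintro _ ⟨i, rfl⟩
    refine rad_mem (E := E) (B := B) M Ω (e i) ?_ v hv hB
    intro x hx hBx
    rw [h x hx hBx]
    exact Submodule.subset_span ⟨i, rfl⟩
  · have h1 : finrank κ (Rad (ev M v) (ev Ω v)) = s :=
      rad_eq M Ω hN (fun x hx hBx => by rw [h x hx hBx, hs x hx hBx]) v hv hB
    have h2 : finrank κ (Row (ev e v)) = s := row_eq e hs v hv hB
    rw [h1]
    exact h2

end transfer

end

end Crest.Agent.R260.Rk_406
private theorem rz_2660355e08 : type_of% @_root_.Crest.Agent.R260.Rk_406.Bd.eq_1 := @_root_.Crest.Agent.R260.Rk_406.Bd.eq_1 -- L51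
end

-- ▼ part R260/Rank3_406

/-!
H2 of 323 #5919, third part: tangent vectors of a family of equations, flat form and curried
form (`TanC` is definitionally 323's `TanAt`, `OnC` is definitionally 360's `OnX`).
-/

namespace Crest.Agent.R260.Rk_406

open MvPolynomial Module

noncomputable section

/-! ### flat form -/

section flat

variable {k : Type*} [Field k] {σ : Type*} [Fintype σ]

/-- the Jacobian of the family `E` -/
def Jm (E : Set (MvPolynomial σ k)) : E → σ → MvPolynomial σ k := fun p x => pderiv x p.1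

/-- tangent vectors of `E` at `v` -/
def Tan (E : Set (MvPolynomial σ k)) {S : Type*} [CommRing S] [Algebra k S] (v t : σ → S) : Prop :=
  ∀ p ∈ E, ∑ x, aeval v (pderiv x p) * t x = 0

theorem mem_Ker_Jm {E : Set (MvPolynomial σ k)} {κ : Type*} [Field κ] [Algebra k κ]
    {v t : σ → κ} : t ∈ Ker (ev (Jm E) v) ↔ Tan E v t :=
  ⟨fun h p hp => h ⟨p, hp⟩, fun h p => h p.1 p.2⟩

variable [IsAlgClosed k] {E : Set (MvPolynomial σ k)} {B : MvPolynomial σ k}

/-- (T2) -/
theorem t2 {N : ℕ}
    (h : ∀ v : σ → k, On E v → aeval v B ≠ 0 → finrank k (Ker (ev (Jm E) v)) = N)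
    {κ : Type*} [Field κ] [Algebra k κ] (v : σ → κ) (hv : On E v) (hB : aeval v B ≠ 0) :
    finrank κ (Ker (ev (Jm E) v)) = N := ker_eq _ h v hv hB

/-- (T3) for tangent vectors -/
theorem t3_tan {Q : MvPolynomial (σ ⊕ σ) k}
    (h : ∀ v t : σ → k, On E v → Tan E v t → aeval v B ≠ 0 → aeval (Sum.elim v t) Q = 0)
    {S : Type*} [CommRing S] [IsReduced S] [Algebra k S] (v t : σ → S) (hv : On E v)
    (ht : Tan E v t) (hB : IsUnit (aeval v B)) : aeval (Sum.elim v t) Q = 0 :=
  t3 (E := E) (B := B) (Jm E) (fun x u hx hu hBx => h x u hx (mem_Ker_Jm.1 hu) hBx) v t hv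
    (fun a => ht a.1 a.2) hB


end flat

/-! ### curried form -/

section curried

variable {I : Type*} {J : I → Type*} [Fintype I] [∀ i, Fintype (J i)]

/-- uncurrying -/
def unc {S : Type*} (v : ∀ i, J i → S) : (Σ i, J i) → S := fun x => v x.1 x.2

/-- currying -/
def cur {S : Type*} (v : (Σ i, J i) → S) : ∀ i, J i → S := fun i a => v ⟨i, a⟩

omit [Fintype I] [∀ i, Fintype (J i)] in
@[simp] theorem unc_cur {S : Type*} (v : (Σ i, J i) → S) : unc (cur v) = v := rfl

omit [Fintype I] [∀ i, Fintype (J i)] in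
@[simp] theorem cur_unc {S : Type*} (v : ∀ i, J i → S) : cur (unc v) = v := rfl

variable {k : Type*} [Field k]

/-- definitionally 360's `OnX` -/
def OnC (E : Set (MvPolynomial (Σ i, J i) k)) {S : Type*} [CommRing S] [Algebra k S]
    (v : ∀ i, J i → S) : Prop := ∀ p ∈ E, aeval (fun x : Σ i, J i => v x.1 x.2) p = 0

/-- definitionally 323's `TanAt` -/
def TanC (E : Set (MvPolynomial (Σ i, J i) k)) {S : Type*} [CommRing S] [Algebra k S]
    (v t : ∀ i, J i → S) : Prop :=
  ∀ p ∈ E, ∑ x : Σ i, J i, aeval (fun y : Σ i, J i => v y.1 y.2) (pderiv x p) * t x.1 x.2 = 0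

/-- the space of tangent vectors -/
def TanK (E : Set (MvPolynomial (Σ i, J i) k)) {κ : Type*} [Field κ] [Algebra k κ]
    (v : ∀ i, J i → κ) : Submodule κ (∀ i, J i → κ) :=
  (Ker (ev (Jm E) (unc v))).map
    (LinearEquiv.piCurry κ (fun (i : I) (_ : J i) => κ) :
      ((Σ i, J i) → κ) →ₗ[κ] (∀ i, J i → κ))

theorem mem_TanK {E : Set (MvPolynomial (Σ i, J i) k)} {κ : Type*} [Field κ] [Algebra k κ]
    {v t : ∀ i, J i → κ} : t ∈ TanK E v ↔ TanC E v t := by
  rw [TanK, Submodule.mem_map]
  constructor
  · rintro ⟨w, hw, rfl⟩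
    exact mem_Ker_Jm.1 hw
  · intro h
    exact ⟨unc t, mem_Ker_Jm.2 h, rfl⟩

theorem finrank_TanK (E : Set (MvPolynomial (Σ i, J i) k)) {κ : Type*} [Field κ] [Algebra k κ]
    (v : ∀ i, J i → κ) : finrank κ (TanK E v) = finrank κ (Ker (ev (Jm E) (unc v))) :=
  LinearEquiv.finrank_map_eq (LinearEquiv.piCurry κ (fun (i : I) (_ : J i) => κ)) _

/-- the radical of the form `Ω` on the tangent space -/
def RadK (E : Set (MvPolynomial (Σ i, J i) k)) (Ω : (Σ i, J i) → (Σ i, J i) → MvPolynomial (Σ i, J i) k)
    {κ : Type*} [Field κ] [Algebra k κ]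
    (v : ∀ i, J i → κ) : Submodule κ (∀ i, J i → κ) :=
  (Rad (ev (Jm E) (unc v)) (ev Ω (unc v))).map
    (LinearEquiv.piCurry κ (fun (i : I) (_ : J i) => κ) :
      ((Σ i, J i) → κ) →ₗ[κ] (∀ i, J i → κ))


theorem finrank_RadK (E : Set (MvPolynomial (Σ i, J i) k))
    (Ω : (Σ i, J i) → (Σ i, J i) → MvPolynomial (Σ i, J i) k)
    {κ : Type*} [Field κ] [Algebra k κ] (v : ∀ i, J i → κ) :
    finrank κ (RadK E Ω v) = finrank κ (Rad (ev (Jm E) (unc v)) (ev Ω (unc v))) :=
  LinearEquiv.finrank_map_eq (LinearEquiv.piCurry κ (fun (i : I) (_ : J i) => κ)) _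

variable [IsAlgClosed k] {E : Set (MvPolynomial (Σ i, J i) k)} {B : MvPolynomial (Σ i, J i) k}

/-- (T0), curried -/
theorem c0 {Q : MvPolynomial (Σ i, J i) k}
    (h : ∀ v : ∀ i, J i → k, OnC E v → aeval (unc v) B ≠ 0 → aeval (unc v) Q = 0)
    {S : Type*} [CommRing S] [IsReduced S] [Algebra k S] (v : ∀ i, J i → S) (hv : OnC E v)
    (hB : IsUnit (aeval (unc v) B)) : aeval (unc v) Q = 0 :=
  t0 (E := E) (B := B) (fun x hx hBx => h (cur x) hx hBx) (unc v) hv hB

/-- (T1), curried -/
theorem c1 {C : Type*} (G : C → MvPolynomial (Σ i, J i) k)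
    (h : ∀ v : ∀ i, J i → k, OnC E v → aeval (unc v) B ≠ 0 → ∃ c, aeval (unc v) (G c) ≠ 0)
    {κ : Type*} [Field κ] [Algebra k κ] (v : ∀ i, J i → κ) (hv : OnC E v)
    (hB : aeval (unc v) B ≠ 0) : ∃ c, aeval (unc v) (G c) ≠ 0 :=
  t1 (E := E) (B := B) G (fun x hx hBx => h (cur x) hx hBx) (unc v) hv hB


/-- (T2), curried -/
theorem c2 {N : ℕ}
    (h : ∀ v : ∀ i, J i → k, OnC E v → aeval (unc v) B ≠ 0 → finrank k (TanK E v) = N)
    {κ : Type*} [Field κ] [Algebra k κ] (v : ∀ i, J i → κ) (hv : OnC E v)
    (hB : aeval (unc v) B ≠ 0) : finrank κ (TanK E v) = N := by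
  rw [finrank_TanK]
  refine t2 (E := E) (B := B) ?_ (unc v) hv hB
  intro x hx hBx
  rw [← h (cur x) hx hBx, finrank_TanK]
  rfl


/-- (T3), curried -/
theorem c3 {Q : MvPolynomial ((Σ i, J i) ⊕ (Σ i, J i)) k}
    (h : ∀ v t : ∀ i, J i → k, OnC E v → TanC E v t → aeval (unc v) B ≠ 0 →
      aeval (Sum.elim (unc v) (unc t)) Q = 0)
    {S : Type*} [CommRing S] [IsReduced S] [Algebra k S] (v t : ∀ i, J i → S) (hv : OnC E v)
    (ht : TanC E v t) (hB : IsUnit (aeval (unc v) B)) :
    aeval (Sum.elim (unc v) (unc t)) Q = 0 :=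
  t3_tan (E := E) (B := B) (fun x u hx hu hBx => h (cur x) (cur u) hx hu hBx) (unc v) (unc t)
    hv ht hB


/-- (T4), curried -/
theorem c4 (Ω : (Σ i, J i) → (Σ i, J i) → MvPolynomial (Σ i, J i) k) {N s : ℕ}
    (hN : ∀ v : ∀ i, J i → k, OnC E v → aeval (unc v) B ≠ 0 → finrank k (TanK E v) = N)
    (h : ∀ v : ∀ i, J i → k, OnC E v → aeval (unc v) B ≠ 0 → finrank k (RadK E Ω v) = s)
    {κ : Type*} [Field κ] [Algebra k κ] (v : ∀ i, J i → κ) (hv : OnC E v)
    (hB : aeval (unc v) B ≠ 0) : finrank κ (RadK E Ω v) = s := by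
  rw [finrank_RadK]
  refine rad_eq (E := E) (B := B) (Jm E) Ω (N := N) ?_ ?_ (unc v) hv hB
  · intro x hx hBx
    rw [← hN (cur x) hx hBx, finrank_TanK]
    rfl
  · intro x hx hBx
    rw [← h (cur x) hx hBx, finrank_RadK]
    rfl

/-- (T5), curried: if the radical is spanned by the polynomial vectors `e j` at all `k`-points and
its dimension is `s`, the same holds over every field -/
theorem c5 (Ω : (Σ i, J i) → (Σ i, J i) → MvPolynomial (Σ i, J i) k) {ι : Type*}
    (e : ι → (Σ i, J i) → MvPolynomial (Σ i, J i) k) {N s : ℕ}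
    (hN : ∀ v : ∀ i, J i → k, OnC E v → aeval (unc v) B ≠ 0 → finrank k (TanK E v) = N)
    (h : ∀ v : ∀ i, J i → k, OnC E v → aeval (unc v) B ≠ 0 →
      RadK E Ω v = Submodule.span k (Set.range fun j => cur fun x => aeval (unc v) (e j x)))
    (hs : ∀ v : ∀ i, J i → k, OnC E v → aeval (unc v) B ≠ 0 → finrank k
      (Submodule.span k (Set.range fun j => cur (J := J) fun x => aeval (unc v) (e j x))) = s)
    {κ : Type*} [Field κ] [Algebra k κ] (v : ∀ i, J i → κ) (hv : OnC E v)
    (hB : aeval (unc v) B ≠ 0) :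
    RadK E Ω v = Submodule.span κ (Set.range fun j => cur fun x => aeval (unc v) (e j x)) := by
  have key : ∀ {κ' : Type _} [Field κ'] [Algebra k κ'] (w : ∀ i, J i → κ'),
      Submodule.span κ' (Set.range fun j => cur (J := J) fun x => aeval (unc w) (e j x)) =
      (Submodule.span κ' (Set.range (ev e (unc w)))).map
        (LinearEquiv.piCurry κ' (fun (i : I) (_ : J i) => κ') :
          ((Σ i, J i) → κ') →ₗ[κ'] (∀ i, J i → κ')) := by
    intro κ' _ _ w
    rw [Submodule.map_span, ← Set.range_comp]
    rfl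
  have key' : ∀ (w : ∀ i, J i → k),
      Submodule.span k (Set.range fun j => cur (J := J) fun x => aeval (unc w) (e j x)) =
      (Submodule.span k (Set.range (ev e (unc w)))).map
        (LinearEquiv.piCurry k (fun (i : I) (_ : J i) => k) :
          ((Σ i, J i) → k) →ₗ[k] (∀ i, J i → k)) := by
    intro w
    rw [Submodule.map_span, ← Set.range_comp]
    rfl
  rw [key, RadK]
  congr 1
  refine rad_eq_span (E := E) (B := B) (Jm E) Ω e (N := N) (s := s) ?_ ?_ ?_ (unc v) hv hB
  · intro x hx hBx
    rw [← hN (cur x) hx hBx, finrank_TanK]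
    rfl
  · intro x hx hBx
    have h1 := h (cur x) hx hBx
    rw [key', RadK] at h1
    exact Submodule.map_injective_of_injective
      (LinearEquiv.piCurry k (fun (i : I) (_ : J i) => k)).injective h1
  · intro x hx hBx
    rw [← hs (cur x) hx hBx, key', LinearEquiv.finrank_map_eq]
    rfl

end curried

end

end Crest.Agent.R260.Rk_406
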