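import Crest.Agent.R260.MainH_803
import Crest.Agent.R260.NN6_900
import Crest.Agent.R260.Had_12_Mg
import Crest.Agent.R260.Br2_592
import Crest.Agent.R260.LinDefs_678
import Crest.Agent.R260.GaDefs_323
import Crest.Agent.R260.BrIf_592
import Crest.Agent.R260.Rank3_406
import Crest.Agent.R260.Zt3_313
import Crest.Agent.R273.D13_505
import Crest.Agent.R260.Ga6a_186

-- ▼ part R260/MainN_803
section

/-!
# Row 260 (S0398), MAIN (helper803): `NNP` (900)
-/

set_option autoImplicit false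

namespace Crest.Agent.R260.MainC_803

theorem nnp : NNP := by
  intro m _
  refine NN6_900.nnat (2 * m + 1) _ ?_
  rw [Module.finrank_prod, finrank_euclideanSpace_fin, Complex.finrank_real_complex]
  ring

end Crest.Agent.R260.MainC_803
end

-- ▼ part R260/Ga3_323
section

set_option autoImplicit false
set_option linter.unusedSectionVars false

/-!
# Row 260 (S0398), GAGA-TH, part 3 (helper323): tangent spaces of the multicone

* `had2`    : second order division by functions with injective differential;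
* `Dv v t p`: the derivative of the polynomial `p` at `v` in the direction `t`;
* `dpt`     : the derivative of the coordinates; `ev_fderiv`;
* `sv S p`  : multihomogeneous polynomials as sections of powers of `L`.
-/

open Set Filter Topology Complex
open scoped ContDiff Matrix ComplexConjugate

namespace Crest.Agent.R260.Ga_323

open Crest.Agent.R275 Crest.Agent.R275.Geo Crest.Agent.R275.Core144 Crest.Agent.R275.Dg199
open Crest.Agent.R273.LamN127 Crest.Agent.R273.SerA_945
open Crest.Agent.R273.SerB_945 Crest.Agent.R273.SerC_945 Crest.Agent.R273.KosGen_313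
open Crest.Agent.R273.Defs_333 Crest.Agent.R273.FS_333
open Crest.Agent.R273.TD3_733 Crest.Agent.R273.SerE_945 Crest.Agent.R273.Chow_313
open Crest.Agent.R270.BM_360 Crest.Agent.R260.BrDefs_592 Crest.Agent.R260.Br1_592
open Crest.Agent.R260.Br2_592 Crest.Agent.R260.Had_12

noncomputable section

/-! ### second order division -/

section Had

variable {E : Type*} [NormedAddCommGroup E] [NormedSpace ℂ E] [FiniteDimensional ℂ E]
  {ι : Type*} [Fintype ι]


end Had

/-! ### the derivation at a point -/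

section Der

variable {σ : Type*} [Fintype σ] {k R : Type*} [CommRing k] [CommRing R] [Algebra k R]

/-- the derivative of `p` at `v` in the direction `t` -/
def Dv (v t : σ → R) (p : MvPolynomial σ k) : R :=
  ∑ y, MvPolynomial.aeval v (MvPolynomial.pderiv y p) * t y

variable (v t : σ → R)


theorem Dv_sub (p q : MvPolynomial σ k) : Dv v t (p - q) = Dv v t p - Dv v t q := by
  unfold Dv
  simp only [map_sub, sub_mul, Finset.sum_sub_distrib]

theorem Dv_sum {α : Type*} (s : Finset α) (p : α → MvPolynomial σ k) :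
    Dv v t (∑ a ∈ s, p a) = ∑ a ∈ s, Dv v t (p a) := by
  unfold Dv
  rw [Finset.sum_comm]
  exact Finset.sum_congr rfl fun y _ => by rw [map_sum, map_sum, Finset.sum_mul]

theorem Dv_mul (p q : MvPolynomial σ k) : Dv v t (p * q) =
    Dv v t p * MvPolynomial.aeval v q + MvPolynomial.aeval v p * Dv v t q := by
  unfold Dv
  rw [Finset.sum_mul, Finset.mul_sum, ← Finset.sum_add_distrib]
  refine Finset.sum_congr rfl fun y _ => ?_
  rw [Derivation.leibniz, map_add, smul_eq_mul, smul_eq_mul, map_mul, map_mul]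
  ring

theorem Dv_C (c : k) : Dv v t (MvPolynomial.C c : MvPolynomial σ k) = 0 := by
  unfold Dv
  exact Finset.sum_eq_zero fun y _ => by rw [MvPolynomial.pderiv_C, map_zero, zero_mul]

theorem Dv_X (y : σ) : Dv v t (MvPolynomial.X y : MvPolynomial σ k) = t y := by
  classical
  unfold Dv
  rw [Finset.sum_eq_single y]
  · rw [MvPolynomial.pderiv_X_self, map_one, one_mul]
  · intro z _ hz
    rw [MvPolynomial.pderiv_X_of_ne hz.symm, map_zero, zero_mul]
  · intro h
    exact absurd (Finset.mem_univ y) h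

theorem Dv_C_mul (c : k) (p : MvPolynomial σ k) :
    Dv v t (MvPolynomial.C c * p) = algebraMap k R c * Dv v t p := by
  rw [Dv_mul, Dv_C, zero_mul, zero_add, MvPolynomial.aeval_C]

end Der

/-! ### multihomogeneous polynomials as sections -/

section Sec

variable {n : ℕ} {M : Type} [TopologicalSpace M] {A : Atl n M} {L : LB A} {I : Type} [Fintype I]
  (S : MSys A L I)

/-- the derivative of the coordinates in the direction `u` -/
def dpt (c : A.ι) (x : M) (u : Cn n) : ∀ i, S.J i → ℂ := fun i a =>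
  fderiv ℂ (fun z => (S.P i).F c ((A.e c).symm z) a) (A.e c x) u

theorem pt_diff (c : A.ι) {x : M} (hx : x ∈ (A.e c).source) (i : I) (a : S.J i) :
    DifferentiableAt ℂ (fun z => S.pt c ((A.e c).symm z) i a) (A.e c x) :=
  ((S.P i).hol c a).diffAt isOpen_univ hx (mem_univ x)

/-- chain rule -/
theorem hasFDerivAt_eval {E : Type*} [NormedAddCommGroup E] [NormedSpace ℂ E] {σ : Type*}
    [Fintype σ] {f : σ → E → ℂ} {z0 : E} (hf : ∀ y, DifferentiableAt ℂ (f y) z0)
    (p : MvPolynomial σ ℂ) :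
    HasFDerivAt (fun z => MvPolynomial.eval (fun y => f y z) p)
      (∑ y, MvPolynomial.eval (fun y => f y z0) (MvPolynomial.pderiv y p) • fderiv ℂ (f y) z0)
      z0 := by
  classical
  induction p using MvPolynomial.induction_on with
  | C a =>
    have h0 : (∑ y, MvPolynomial.eval (fun y => f y z0) (MvPolynomial.pderiv y
        (MvPolynomial.C a : MvPolynomial σ ℂ)) • fderiv ℂ (f y) z0) = 0 :=
      Finset.sum_eq_zero fun y _ => by
        rw [MvPolynomial.pderiv_C, map_zero]
        ext u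
        simp
    have h1 : (fun z => MvPolynomial.eval (fun y => f y z) (MvPolynomial.C a)) = fun _ => a := by
      funext z
      exact MvPolynomial.eval_C a
    rw [h0, h1]
    exact hasFDerivAt_const a z0
  | add p q hp hq =>
    have h0 : (∑ y, MvPolynomial.eval (fun y => f y z0) (MvPolynomial.pderiv y (p + q)) •
        fderiv ℂ (f y) z0) =
        (∑ y, MvPolynomial.eval (fun y => f y z0) (MvPolynomial.pderiv y p) • fderiv ℂ (f y) z0) +
        ∑ y, MvPolynomial.eval (fun y => f y z0) (MvPolynomial.pderiv y q) • fderiv ℂ (f y) z0 := by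
      rw [← Finset.sum_add_distrib]
      exact Finset.sum_congr rfl fun y _ => by
        rw [map_add, map_add]
        ext u
        simp [add_mul]
    have h1 : (fun z => MvPolynomial.eval (fun y => f y z) (p + q)) = fun z =>
        MvPolynomial.eval (fun y => f y z) p + MvPolynomial.eval (fun y => f y z) q := by
      funext z
      rw [map_add]
    rw [h0, h1]
    exact hp.fun_add hq
  | mul_X p y hp =>
    have h1 := hp.fun_mul (hf y).hasFDerivAt
    have h2 : (fun z => MvPolynomial.eval (fun y => f y z) (p * MvPolynomial.X y)) = fun z =>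
        MvPolynomial.eval (fun y => f y z) p * f y z := by
      funext z
      rw [map_mul, MvPolynomial.eval_X]
    rw [h2]
    refine h1.congr_fderiv ?_
    have h3 : ∀ y', MvPolynomial.eval (fun y => f y z0) (MvPolynomial.pderiv y'
        (p * MvPolynomial.X y)) • fderiv ℂ (f y') z0 =
        (if y' = y then MvPolynomial.eval (fun y => f y z0) p • fderiv ℂ (f y) z0 else 0) +
          f y z0 • MvPolynomial.eval (fun y => f y z0) (MvPolynomial.pderiv y' p) •
            fderiv ℂ (f y') z0 := by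
      intro y'
      rw [Derivation.leibniz, map_add, smul_eq_mul, smul_eq_mul, map_mul, map_mul,
        MvPolynomial.eval_X]
      by_cases hy : y' = y
      · subst hy
        rw [MvPolynomial.pderiv_X_self, map_one, mul_one, if_pos rfl]
        ext u
        simp [add_mul, mul_assoc]
      · rw [MvPolynomial.pderiv_X_of_ne (Ne.symm hy), map_zero, mul_zero, if_neg hy]
        ext u
        simp [add_mul, mul_assoc]
    rw [Finset.sum_congr rfl fun y' _ => h3 y', Finset.sum_add_distrib,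
      Finset.sum_ite_eq' Finset.univ, if_pos (Finset.mem_univ _), Finset.smul_sum]

theorem ev_fderiv (c : A.ι) {x : M} (hx : x ∈ (A.e c).source) (p : MvPolynomial (Σ i, S.J i) ℂ)
    (u : Cn n) :
    fderiv ℂ (fun z => S.ev c ((A.e c).symm z) p) (A.e c x) u =
      Dv (fun y : Σ i, S.J i => S.pt c x y.1 y.2) (fun y : Σ i, S.J i => dpt S c x u y.1 y.2) p := by
  have h := hasFDerivAt_eval (f := fun (y : Σ i, S.J i) z => S.pt c ((A.e c).symm z) y.1 y.2)
    (fun y => pt_diff S c hx y.1 y.2) p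
  have h2 : fderiv ℂ (fun z => S.ev c ((A.e c).symm z) p) (A.e c x) = _ := h.fderiv
  rw [h2, _root_.sum_apply]
  unfold Dv
  refine Finset.sum_congr rfl fun y _ => ?_
  rw [_root_.smul_apply, smul_eq_mul, aeval_eq, (A.e c).left_inv hx]
  rfl

open Classical in
/-- the section of `L ^ (∑ i, β i * d i)` given by a multihomogeneous polynomial -/
def sv (p : MvPolynomial (Σ i, S.J i) ℂ) : Fn A := fun c x =>
  if x ∈ (A.e c).source then S.ev c x p else 0

theorem sv_eq (p : MvPolynomial (Σ i, S.J i) ℂ) {c : A.ι} {x : M} (hx : x ∈ (A.e c).source) :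
    sv S p c x = S.ev c x p := if_pos hx

theorem ev_chg {p : MvPolynomial (Σ i, S.J i) ℂ} {d : I → ℕ} (hp : MHd p d) {c c' : A.ι} {x : M}
    (hx : x ∈ (A.e c).source ∩ (A.e c').source) :
    S.ev c x p = L.g c c' x ^ (∑ i, S.β i * d i) * S.ev c' x p := by
  have h1 := eval_scale hp (fun i => L.g c c' x ^ S.β i) (S.pt c' x)
  rw [aeval_eq, aeval_eq] at h1
  have h2 : S.ev c x p = MvPolynomial.eval
      (fun y : Σ i, S.J i => L.g c c' x ^ S.β y.1 * S.pt c' x y.1 y.2) p := by
    unfold MSys.ev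
    congr 2
    funext y
    exact S.pt_chg hx y.1 y.2
  rw [h2, h1]
  congr 1
  rw [← Finset.prod_pow_eq_pow_sum]
  exact Finset.prod_congr rfl fun i _ => by rw [pow_mul]

theorem isHS_sv {p : MvPolynomial (Σ i, S.J i) ℂ} {d : I → ℕ} (hp : MHd p d) :
    IsHS (L ^ (∑ i, S.β i * d i)) univ (sv S p) := by
  refine ⟨fun c => ?_, fun c x hx => if_neg hx, fun c c' x hx _ => ?_⟩
  · have h1 : HolAt A c univ (fun x => S.ev c x p) := by
      intro z hz
      have hx := (A.e c).map_target hz.1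
      have h := hasFDerivAt_eval (f := fun (y : Σ i, S.J i) z => S.pt c ((A.e c).symm z) y.1 y.2)
        (fun y => pt_diff S c hx y.1 y.2) p
      rw [(A.e c).right_inv hz.1] at h
      exact h.differentiableAt.differentiableWithinAt
    exact h1.congr fun x hx _ => (sv_eq S p hx).symm
  · rw [sv_eq S p hx.1, sv_eq S p hx.2, ev_chg S hp hx, pow_g]

end Sec

/-! ### division of a section vanishing to second order -/

section Div2

variable {n : ℕ} {M : Type} [TopologicalSpace M] {A : Atl n M} {L : LB A} {I : Type} [Fintype I]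
  (S : MSys A L I)

/-- the linear forms in the block `i1` vanishing at a vector `a` with `a a0 ≠ 0` -/
def Lf (i1 : I) (a : S.J i1 → ℂ) (a0 k : S.J i1) : MvPolynomial (Σ i, S.J i) ℂ :=
  MvPolynomial.C (a a0) * MvPolynomial.X ⟨i1, k⟩ - MvPolynomial.C (a k) * MvPolynomial.X ⟨i1, a0⟩

open Classical in
theorem Lf_MHd (i1 : I) (a : S.J i1 → ℂ) (a0 k : S.J i1) :
    MHd (Lf S i1 a a0 k) (Pi.single i1 1) := by
  have h1 : ∀ (b : ℂ) (k : S.J i1), MHd (MvPolynomial.C b * MvPolynomial.X (⟨i1, k⟩ : Σ i, S.J i))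
      (Pi.single i1 1) := by
    intro b k
    have h2 := (MvPolynomial.isWeightedHomogeneous_C
      (fun x : Σ i, S.J i => (Pi.single x.1 1 : I → ℕ)) b).mul
      (MvPolynomial.isWeightedHomogeneous_X ℂ
        (fun x : Σ i, S.J i => (Pi.single x.1 1 : I → ℕ)) ⟨i1, k⟩)
    rw [zero_add] at h2
    exact h2
  exact (h1 _ _).sub (h1 _ _)

theorem Lf_aeval {R : Type*} [CommRing R] [Algebra ℂ R] (i1 : I) (a : S.J i1 → ℂ) (a0 k : S.J i1)
    (v : (Σ i, S.J i) → R) : MvPolynomial.aeval v (Lf S i1 a a0 k) =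
      algebraMap ℂ R (a a0) * v ⟨i1, k⟩ - algebraMap ℂ R (a k) * v ⟨i1, a0⟩ := by
  unfold Lf
  rw [map_sub, map_mul, map_mul, MvPolynomial.aeval_C, MvPolynomial.aeval_C, MvPolynomial.aeval_X,
    MvPolynomial.aeval_X]

end Div2

end

end Crest.Agent.R260.Ga_323
end

-- ▼ part R260/Ga4_323
section

set_option autoImplicit false
set_option linter.unusedSectionVars false

/-!
# Row 260 (S0398), GAGA-TH, part 4 (helper323): one-forms with values in `L` are algebraic

* `fdc`      : derivatives of functions in the charts, change of charts;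
* `isHS_dets`: determinants of `n + 1` jets (or of `0 ⊕ θ`) are sections of `KB A * …`;
* `alg_div`  : for `m` large and every section `s` of `L ^ (m + β)` one has
               `s θ = ∑ t k dF k`, `∑ t k F k = 0`, with sections `t k` of `L ^ (m + 1)`.
-/

open Set Filter Topology Complex
open scoped ContDiff Matrix ComplexConjugate

namespace Crest.Agent.R260.Ga_323

open Crest.Agent.R275 Crest.Agent.R275.Geo Crest.Agent.R275.Core144 Crest.Agent.R275.Dg199
open Crest.Agent.R273.LamN127 Crest.Agent.R273.SerA_945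
open Crest.Agent.R273.SerB_945 Crest.Agent.R273.SerC_945 Crest.Agent.R273.KosGen_313
open Crest.Agent.R273.Defs_333 Crest.Agent.R273.FS_333
open Crest.Agent.R273.TD3_733 Crest.Agent.R273.SerE_945 Crest.Agent.R273.Chow_313
open Crest.Agent.R270.BM_360 Crest.Agent.R260.BrDefs_592 Crest.Agent.R260.Br1_592
open Crest.Agent.R260.Br2_592

noncomputable section

/-! ### derivatives in the charts -/

section Fd

variable {n : ℕ} {M : Type} [TopologicalSpace M] {A : Atl n M}

/-- the derivative of `f` in the chart `c` in the direction `u` -/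
def fdc (A : Atl n M) (c : A.ι) (f : M → ℂ) (u : Cn n) (x : M) : ℂ :=
  fderiv ℂ (fun z => f ((A.e c).symm z)) (A.e c x) u

theorem holAt_fdc {c : A.ι} {U : Set M} (hU : IsOpen U) {f : M → ℂ} (hf : HolAt A c U f)
    (u : Cn n) : HolAt A c U (fdc A c f u) := by
  have ho := isOpen_ti (A := A) (i := c) hU
  have h1 : DifferentiableOn ℂ (fderiv ℂ (fun z => f ((A.e c).symm z)))
      ((A.e c).target ∩ (A.e c).symm ⁻¹' U) :=
    ((Crest.Agent.R266.SCV.analyticOnNhd_of_differentiableOn ho hf).fderiv).differentiableOn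
  have h2 := h1.clm_apply (differentiableOn_const u)
  refine DifferentiableOn.congr h2 fun z hz => ?_
  simp only [fdc, (A.e c).right_inv hz.1]

theorem nhds_ti {c : A.ι} {U : Set M} (hU : IsOpen U) {x : M} (hx : x ∈ (A.e c).source)
    (hxU : x ∈ U) : (A.e c).target ∩ (A.e c).symm ⁻¹' U ∈ 𝓝 (A.e c x) :=
  (isOpen_ti hU).mem_nhds ⟨(A.e c).map_source hx, by
    rw [mem_preimage, (A.e c).left_inv hx]; exact hxU⟩

theorem fdc_congr {c : A.ι} {U : Set M} (hU : IsOpen U) {f f' : M → ℂ} {x : M}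
    (hx : x ∈ (A.e c).source) (hxU : x ∈ U) (h : ∀ y ∈ (A.e c).source, y ∈ U → f y = f' y)
    (u : Cn n) : fdc A c f u x = fdc A c f' u x := by
  unfold fdc
  have h1 : (fun z => f ((A.e c).symm z)) =ᶠ[𝓝 (A.e c x)] fun z => f' ((A.e c).symm z) := by
    filter_upwards [nhds_ti hU hx hxU] with z hz
    exact h _ ((A.e c).map_target hz.1) hz.2
  rw [h1.fderiv_eq]

theorem fdc_mul {c : A.ι} {U : Set M} (hU : IsOpen U) {f g : M → ℂ} (hf : HolAt A c U f)
    (hg : HolAt A c U g) {x : M} (hx : x ∈ (A.e c).source) (hxU : x ∈ U) (u : Cn n) :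
    fdc A c (fun y => g y * f y) u x = fdc A c g u x * f x + g x * fdc A c f u x := by
  unfold fdc
  have h1 := (hg.diffAt hU hx hxU).hasFDerivAt.fun_mul (hf.diffAt hU hx hxU).hasFDerivAt
  rw [h1.fderiv]
  simp only [(A.e c).left_inv hx]
  simp
  ring

theorem cn_sum (u : Cn n) : u = ∑ a, u a • (EuclideanSpace.single a (1 : ℂ) : Cn n) := by
  ext d
  simp [Finset.sum_apply, Pi.single_apply]

theorem fdc_sum (c : A.ι) (f : M → ℂ) (u : Cn n) (x : M) :
    fdc A c f u x = ∑ a, u a * fdc A c f (EuclideanSpace.single a 1) x := by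
  unfold fdc
  conv_lhs => rw [cn_sum u]
  rw [map_sum]
  exact Finset.sum_congr rfl fun a _ => by rw [map_smul, smul_eq_mul]

theorem fdc_chg {c c' : A.ι} {U : Set M} (hU : IsOpen U) {f : M → ℂ} (hf : HolAt A c' U f)
    {x : M} (hx : x ∈ (A.e c).source ∩ (A.e c').source) (hxU : x ∈ U) (b : Fin n) :
    fdc A c f (EuclideanSpace.single b 1) x =
      ∑ a, A.J c c' x a b * fdc A c' f (EuclideanSpace.single a 1) x := by
  have h0 : DifferentiableAt ℂ (fun z => A.e c' ((A.e c).symm z)) (A.e c x) :=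
    (A.holo c c').differentiableAt ((isOpen_ov (A := A) c c').mem_nhds (mem_ov hx))
  have h1 : DifferentiableAt ℂ (fun z => f ((A.e c').symm z)) (A.e c' x) := hf.diffAt hU hx.2 hxU
  have hval : A.e c' ((A.e c).symm (A.e c x)) = A.e c' x := by rw [(A.e c).left_inv hx.1]
  have h2 : (fun z => f ((A.e c).symm z)) =ᶠ[𝓝 (A.e c x)]
      (fun w => f ((A.e c').symm w)) ∘ fun z => A.e c' ((A.e c).symm z) := by
    filter_upwards [(isOpen_ov (A := A) c c').mem_nhds (mem_ov hx)] with z hz
    simp [(A.e c').left_inv hz.2]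
  have h3 : fderiv ℂ (fun z => f ((A.e c).symm z)) (A.e c x) =
      (fderiv ℂ (fun w => f ((A.e c').symm w)) (A.e c' x)).comp
        (fderiv ℂ (fun z => A.e c' ((A.e c).symm z)) (A.e c x)) := by
    rw [h2.fderiv_eq, fderiv_comp _ (by rw [hval]; exact h1) h0, hval]
  have h4 : fdc A c f (EuclideanSpace.single b 1) x = fdc A c' f
      (fderiv ℂ (fun z => A.e c' ((A.e c).symm z)) (A.e c x) (EuclideanSpace.single b 1)) x := by
    unfold fdc
    rw [h3]
    rfl
  rw [h4, fdc_sum]
  rfl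

end Fd

/-! ### jets -/

section Jet

variable {n : ℕ} {M : Type} [TopologicalSpace M] {A : Atl n M}

/-- the 1-jet of a section -/
def jt (s : Fn A) (c : A.ι) (x : M) : Unit ⊕ Fin n → ℂ :=
  Sum.elim (fun _ => s c x) fun b => fdc A c (s c) (EuclideanSpace.single b 1) x

/-- a one-form as a jet -/
def ft {L : LB A} (θ : OneForm L) (c : A.ι) (x : M) : Unit ⊕ Fin n → ℂ :=
  Sum.elim (fun _ => 0) fun b => θ.th c x b

/-- change of charts for jets, up to the factor `L'.g` -/
def Tm (L' : LB A) (c c' : A.ι) (x : M) : Matrix (Unit ⊕ Fin n) (Unit ⊕ Fin n) ℂ :=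
  Matrix.fromBlocks 1 0 (Matrix.of fun b _ => fdc A c (L'.g c c') (EuclideanSpace.single b 1) x /
    L'.g c c' x) (Jm A c c' x)ᵀ

theorem det_Tm (L' : LB A) {c c' : A.ι} {x : M} (hx : x ∈ (A.e c).source ∩ (A.e c').source) :
    (Tm L' c c' x).det = (KB A).g c c' x := by
  rw [Tm, Matrix.det_fromBlocks_zero₁₂, Matrix.det_one, one_mul, Matrix.det_transpose, KB_g hx]

theorem jt_tr {L' : LB A} {s : Fn A} (hs : IsHS L' univ s) {c c' : A.ι} {x : M}
    (hx : x ∈ (A.e c).source ∩ (A.e c').source) :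
    jt s c x = L'.g c c' x • (Tm L' c c' x *ᵥ jt s c' x) := by
  funext r
  rw [Pi.smul_apply, smul_eq_mul]
  rcases r with r | b
  · show s c x = _
    rw [hs.tr c c' x hx (mem_univ x)]
    simp [Tm, jt, Matrix.mulVec, dotProduct, Fintype.sum_sum_type]
  · show fdc A c (s c) (EuclideanSpace.single b 1) x = _
    have hc' : HolAt A c (A.e c').source (s c') := by
      have h1 := (hs.hol c').chg isOpen_univ c
      rwa [univ_inter] at h1
    have h1 : fdc A c (s c) (EuclideanSpace.single b 1) x =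
        fdc A c (fun y => L'.g c c' y * s c' y) (EuclideanSpace.single b 1) x :=
      fdc_congr (A.e c').open_source hx.1 hx.2
        (fun y hy hy' => hs.tr c c' y ⟨hy, hy'⟩ (mem_univ y)) _
    rw [h1, fdc_mul (A.e c').open_source hc' (L'.hol c c') hx.1 hx.2,
      fdc_chg isOpen_univ (hs.hol c') hx (mem_univ x)]
    have h0 := L'.ne_zero c c' x
    simp only [Tm, jt, Matrix.mulVec, dotProduct, Fintype.sum_sum_type, Matrix.fromBlocks_apply₂₁,
      Matrix.fromBlocks_apply₂₂, Matrix.of_apply, Sum.elim_inl, Sum.elim_inr,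
      Matrix.transpose_apply, Jm_apply, Finset.univ_unique, Finset.sum_singleton]
    rw [mul_add]
    congr 1
    field_simp

theorem ft_tr (L' : LB A) {L : LB A} (θ : OneForm L) {c c' : A.ι} {x : M}
    (hx : x ∈ (A.e c).source ∩ (A.e c').source) :
    ft θ c x = L.g c c' x • (Tm L' c c' x *ᵥ ft θ c' x) := by
  funext r
  rw [Pi.smul_apply, smul_eq_mul]
  rcases r with r | b
  · simp [Tm, ft, Matrix.mulVec, dotProduct, Fintype.sum_sum_type]
  · simp only [Tm, ft, Matrix.mulVec, dotProduct, Fintype.sum_sum_type, Matrix.fromBlocks_apply₂₁,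
      Matrix.fromBlocks_apply₂₂, Matrix.of_apply, Sum.elim_inl, Sum.elim_inr,
      Matrix.transpose_apply, Jm_apply, Finset.univ_unique, Finset.sum_singleton, mul_zero,
      zero_add]
    exact θ.tr c c' x hx b

theorem holAt_jt {L' : LB A} {s : Fn A} (hs : IsHS L' univ s) (c : A.ι) (r : Unit ⊕ Fin n) :
    HolAt A c univ (fun x => jt s c x r) := by
  rcases r with r | b
  · exact hs.hol c
  · exact holAt_fdc isOpen_univ (hs.hol c) _

theorem holAt_ft {L : LB A} (θ : OneForm L) (c : A.ι) (r : Unit ⊕ Fin n) :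
    HolAt A c univ (fun x => ft θ c x r) := by
  rcases r with r | b
  · exact holAt_const 0
  · exact θ.hol c b

open Classical in
/-- determinants of jets -/
def dets (col : (Unit ⊕ Fin n) → A.ι → M → (Unit ⊕ Fin n) → ℂ) : Fn A := fun c x =>
  if x ∈ (A.e c).source then (Matrix.of fun r l => col l c x r).det else 0

theorem prodLB_g {ρ : Type} (s : Finset ρ) (N : ρ → LB A) (i j : A.ι) (x : M) :
    (∏ b ∈ s, N b).g i j x = ∏ b ∈ s, (N b).g i j x := by
  classical
  induction s using Finset.induction_on with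
  | empty => simp
  | insert a s ha ih => rw [Finset.prod_insert ha, Finset.prod_insert ha, LB.mul_g, ih]

theorem isHS_dets (L' : LB A) (Lc : (Unit ⊕ Fin n) → LB A)
    (col : (Unit ⊕ Fin n) → A.ι → M → (Unit ⊕ Fin n) → ℂ)
    (hol : ∀ l c r, HolAt A c univ fun x => col l c x r)
    (tr : ∀ l c c' x, x ∈ (A.e c).source ∩ (A.e c').source →
      col l c x = (Lc l).g c c' x • (Tm L' c c' x *ᵥ col l c' x)) :
    IsHS (KB A * ∏ l, Lc l) univ (dets col) := by
  refine ⟨fun c => ?_, fun c x hx => if_neg hx, fun c c' x hx _ => ?_⟩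
  · have h1 : HolAt A c univ fun x => (Matrix.of fun r l => col l c x r).det := by
      simp only [Matrix.det_apply']
      exact HolAt.sum _ fun s _ => (HolAt.prod _ fun b _ => hol _ _ _).const_mul _
    exact h1.congr fun x hx _ => (if_pos hx).symm
  · have h1 : dets col c x = (Matrix.of fun r l => col l c x r).det := if_pos hx.1
    have h2 : dets col c' x = (Matrix.of fun r l => col l c' x r).det := if_pos hx.2
    have h3 : (Matrix.of fun r l => col l c x r) = Tm L' c c' x *
        (Matrix.of fun r l => col l c' x r) * Matrix.diagonal fun l => (Lc l).g c c' x := by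
      ext r l
      rw [Matrix.mul_diagonal, Matrix.of_apply, tr l c c' x hx, Pi.smul_apply, smul_eq_mul,
        mul_comm, Matrix.mul_apply]
      rfl
    rw [h1, h2, h3, Matrix.det_mul, Matrix.det_mul, Matrix.det_diagonal, det_Tm L' hx, LB.mul_g,
      prodLB_g]
    ring

end Jet

/-! ### Cramer's rule -/

section Cramer

variable {n : ℕ} {M : Type} [TopologicalSpace M] {A : Atl n M} {L : LB A} {I : Type} [Fintype I]
  (S : MSys A L I) (θ : OneForm L) (i1 : I)

/-- Wronskian determinants -/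
def Wd (a : Unit ⊕ Fin n → S.J i1) : Fn A := dets fun l => jt (sec (S.P i1) (a l))

open Classical in
/-- the numerators of Cramer's rule -/
def Nd (a : Unit ⊕ Fin n → S.J i1) (l0 : Unit ⊕ Fin n) : Fn A :=
  dets fun l => if l = l0 then ft θ else jt (sec (S.P i1) (a l))

theorem isHS_Wd (a : Unit ⊕ Fin n → S.J i1) :
    IsHS (KB A * L ^ (S.β i1 * (n + 1))) univ (Wd S i1 a) := by
  have h1 := isHS_dets (L ^ S.β i1) (fun _ => L ^ S.β i1) (fun l => jt (sec (S.P i1) (a l)))
    (fun l c r => holAt_jt (isHS_sec (S.P i1) (a l)) c r) (fun l c c' x hx => by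
      have h2 := isHS_sec (S.P i1) (a l)
      rw [S.hb] at h2
      exact jt_tr h2 hx)
  have h2 : ∏ _l : Unit ⊕ Fin n, L ^ S.β i1 = L ^ (S.β i1 * (n + 1)) := by
    rw [Finset.prod_const, Finset.card_univ, Fintype.card_sum, Fintype.card_unit, Fintype.card_fin,
      ← pow_mul, add_comm 1 n]
  rw [h2] at h1
  exact h1

open Classical in
theorem isHS_Nd (a : Unit ⊕ Fin n → S.J i1) (l0 : Unit ⊕ Fin n) :
    IsHS (KB A * L ^ (S.β i1 * n + 1)) univ (Nd S θ i1 a l0) := by
  have h1 := isHS_dets (L ^ S.β i1) (fun l => if l = l0 then L else L ^ S.β i1)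
    (fun l => if l = l0 then ft θ else jt (sec (S.P i1) (a l)))
    (fun l c r => by
      split_ifs
      · exact holAt_ft θ c r
      · exact holAt_jt (isHS_sec (S.P i1) (a l)) c r) (fun l c c' x hx => by
      split_ifs
      · exact ft_tr _ θ hx
      · have h2 := isHS_sec (S.P i1) (a l)
        rw [S.hb] at h2
        exact jt_tr h2 hx)
  have h2 : ∏ l : Unit ⊕ Fin n, (if l = l0 then L else L ^ S.β i1) = L ^ (S.β i1 * n + 1) := by
    rw [← Finset.mul_prod_erase Finset.univ _ (Finset.mem_univ l0), if_pos rfl,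
      Finset.prod_congr rfl (g := fun _ => L ^ S.β i1) fun l hl => if_neg (Finset.ne_of_mem_erase hl),
      Finset.prod_const, Finset.card_erase_of_mem (Finset.mem_univ _), Finset.card_univ,
      Fintype.card_sum, Fintype.card_unit, Fintype.card_fin, ← pow_mul, ← pow_succ',
      Nat.add_sub_cancel_left]
  rw [h2] at h1
  exact h1

theorem cramer_eq (a : Unit ⊕ Fin n → S.J i1) {c : A.ι} {x : M} (hx : x ∈ (A.e c).source)
    (r : Unit ⊕ Fin n) :
    ∑ l, jt (sec (S.P i1) (a l)) c x r * Nd S θ i1 a l c x = Wd S i1 a c x * ft θ c x r := by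
  classical
  have h1 : Wd S i1 a c x = (Matrix.of fun r l => jt (sec (S.P i1) (a l)) c x r).det := if_pos hx
  have h2 : ∀ l, Nd S θ i1 a l c x =
      Matrix.cramer (Matrix.of fun r l => jt (sec (S.P i1) (a l)) c x r) (ft θ c x) l := by
    intro l
    rw [Matrix.cramer_apply]
    refine (if_pos hx).trans ?_
    congr 1
    ext r l'
    rw [Matrix.of_apply, Matrix.updateCol_apply]
    by_cases h : l' = l
    · subst h
      simp
    · simp [h]
  have h3 := congrFun (Matrix.mulVec_cramer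
    (Matrix.of fun r l => jt (sec (S.P i1) (a l)) c x r) (ft θ c x)) r
  rw [Pi.smul_apply, smul_eq_mul] at h3
  rw [h1, ← h3]
  simp only [Matrix.mulVec, dotProduct, Matrix.of_apply]
  exact Finset.sum_congr rfl fun l _ => by rw [h2 l]

theorem fdc_sec {c : A.ι} {x : M} (hx : x ∈ (A.e c).source) (k : S.J i1) (u : Cn n) :
    fdc A c (sec (S.P i1) k c) u x = dpt S c x u i1 k :=
  fdc_congr isOpen_univ hx (mem_univ x) (fun _ hy _ => sec_eq (S.P i1) hy k) u

/-- Cramer's rule, the Euler relation -/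
theorem cramer_euler (a : Unit ⊕ Fin n → S.J i1) {c : A.ι} {x : M} (hx : x ∈ (A.e c).source) :
    ∑ l, Nd S θ i1 a l c x * S.pt c x i1 (a l) = 0 := by
  have h1 := cramer_eq S θ i1 a hx (Sum.inl ())
  have h2 : Wd S i1 a c x * ft θ c x (Sum.inl ()) = 0 := mul_zero _
  rw [h2] at h1
  rw [← h1]
  refine Finset.sum_congr rfl fun l _ => ?_
  have h3 : jt (sec (S.P i1) (a l)) c x (Sum.inl ()) = S.pt c x i1 (a l) := sec_eq (S.P i1) hx (a l)
  rw [h3, mul_comm]

/-- Cramer's rule, the one-form -/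
theorem cramer_form (a : Unit ⊕ Fin n → S.J i1) {c : A.ι} {x : M} (hx : x ∈ (A.e c).source)
    (u : Cn n) :
    Wd S i1 a c x * θ.app c x u = ∑ l, Nd S θ i1 a l c x * dpt S c x u i1 (a l) := by
  unfold OneForm.app
  rw [Finset.mul_sum]
  have h1 : ∀ b : Fin n, Wd S i1 a c x * (θ.th c x b * u b) =
      ∑ l, u b * fdc A c (sec (S.P i1) (a l) c) (EuclideanSpace.single b 1) x *
        Nd S θ i1 a l c x := by
    intro b
    have h2 := cramer_eq S θ i1 a hx (Sum.inr b)
    have h3 : ft θ c x (Sum.inr b) = θ.th c x b := rfl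
    rw [h3] at h2
    rw [← mul_assoc, ← h2, Finset.sum_mul]
    refine Finset.sum_congr rfl fun l _ => ?_
    have h4 : jt (sec (S.P i1) (a l)) c x (Sum.inr b) =
      fdc A c (sec (S.P i1) (a l) c) (EuclideanSpace.single b 1) x := rfl
    rw [h4]
    ring
  rw [Finset.sum_congr rfl fun b _ => h1 b, Finset.sum_comm]
  refine Finset.sum_congr rfl fun l _ => ?_
  rw [← fdc_sec S i1 hx (a l) u, fdc_sum c _ u x, ← Finset.sum_mul, mul_comm]

/-- the Wronskians have no common zero -/
theorem exists_Wd {c : A.ι} {x : M} (hx : x ∈ (A.e c).source) : ∃ a, Wd S i1 a c x ≠ 0 := by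
  classical
  -- the jets of the coordinates span
  set v : S.J i1 → (Unit ⊕ Fin n → ℂ) := fun k => jt (sec (S.P i1) k) c x with hv
  have hspan : Submodule.span ℂ (Set.range v) = ⊤ := by
    by_contra hne
    obtain ⟨f, hf0, hf⟩ := Submodule.exists_le_ker_of_lt_top _ (lt_top_iff_ne_top.2 hne)
    have hfk : ∀ k, f (v k) = 0 := fun k => hf (Submodule.subset_span ⟨k, rfl⟩)
    have hfe : ∀ w : Unit ⊕ Fin n → ℂ, f w = ∑ r, w r * f (Pi.single r 1) := by
      intro w
      conv_lhs => rw [← Finset.univ_sum_single w]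
      rw [map_sum]
      refine Finset.sum_congr rfl fun r _ => ?_
      have h1 : (Pi.single r (w r) : Unit ⊕ Fin n → ℂ) = w r • Pi.single r (1 : ℂ) := by
        rw [← Pi.single_smul, smul_eq_mul, mul_one]
      rw [h1, map_smul, smul_eq_mul]
    set u : Cn n := WithLp.toLp 2 (fun b => f (Pi.single (Sum.inr b) 1)) with hu
    set f0 : ℂ := f (Pi.single (Sum.inl ()) 1) with hf0'
    have h1 : ∀ k, dpt S c x u i1 k = -f0 * S.pt c x i1 k := by
      intro k
      have h2 := hfk k
      rw [hfe, Fintype.sum_sum_type] at h2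
      simp only [Finset.univ_unique, Finset.sum_singleton] at h2
      have h3 : v k (Sum.inl default) = S.pt c x i1 k := sec_eq (S.P i1) hx k
      have h4 : ∑ b, v k (Sum.inr b) * f (Pi.single (Sum.inr b) 1) = dpt S c x u i1 k := by
        rw [← fdc_sec S i1 hx k u, fdc_sum c _ u x]
        refine Finset.sum_congr rfl fun b _ => ?_
        rw [mul_comm]
        rfl
      rw [h3, h4] at h2
      linear_combination h2
    have hu0 : u = 0 := by
      refine (S.P i1).imm c (A.e c x) ((A.e c).map_source hx) u ⟨-f0, funext fun k => ?_⟩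
      rw [(A.e c).left_inv hx]
      have h5 : fderiv ℂ (fun w => (S.P i1).F c ((A.e c).symm w)) (A.e c x) u k =
          dpt S c x u i1 k := by
        have hd : DifferentiableAt ℂ (fun w => (S.P i1).F c ((A.e c).symm w)) (A.e c x) :=
          differentiableAt_pi.2 fun a => pt_diff S c hx i1 a
        have h6 := fderiv_pi fun a => pt_diff S c hx i1 a
        have h7 : (fun w => (S.P i1).F c ((A.e c).symm w)) =
          fun w a => S.pt c ((A.e c).symm w) i1 a := rfl
        rw [h7, h6]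
        rfl
      rw [h5, h1 k]
      rfl
    obtain ⟨k, hk⟩ := Function.ne_iff.1 (S.pt_ne hx i1)
    have hf00 : f0 = 0 := by
      have h6 := h1 k
      rw [hu0] at h6
      have h7 : dpt S c x 0 i1 k = 0 := by
        unfold dpt
        exact map_zero _
      rw [h7] at h6
      have h8 := mul_eq_zero.1 h6.symm
      exact neg_eq_zero.1 (h8.resolve_right hk)
    refine hf0 (LinearMap.ext fun w => ?_)
    rw [hfe, Fintype.sum_sum_type]
    simp only [Finset.univ_unique, Finset.sum_singleton]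
    have h9 : f (Pi.single (Sum.inl default) 1) = 0 := hf00
    have h10 : ∀ b, f (Pi.single (Sum.inr b) 1) = 0 := by
      intro b
      have := congrArg (fun w : Cn n => w b) hu0
      exact this
    rw [h9, mul_zero, zero_add]
    refine Finset.sum_eq_zero fun b _ => ?_
    rw [h10 b, mul_zero]
  -- a basis
  obtain ⟨f, hf, -, hli⟩ := Submodule.exists_fun_fin_finrank_span_eq ℂ (Set.range v)
  have hcard : Module.finrank ℂ (Submodule.span ℂ (Set.range v)) =
      Fintype.card (Unit ⊕ Fin n) := by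
    rw [hspan, finrank_top, Module.finrank_pi]
  let e : Unit ⊕ Fin n ≃ Fin (Module.finrank ℂ (Submodule.span ℂ (Set.range v))) :=
    (Fintype.equivFin _).trans (finCongr hcard.symm)
  choose a ha using fun l => hf (e l)
  refine ⟨a, ?_⟩
  have h1 : Wd S i1 a c x = (Matrix.of fun r l => v (a l) r).det := if_pos hx
  rw [h1]
  have h2 : LinearIndependent ℂ fun l => v (a l) := by
    have h3 := hli.comp e e.injective
    have h4 : (fun l => v (a l)) = f ∘ e := funext fun l => ha l
    rw [h4]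
    exact h3
  have h5 : LinearIndependent ℂ (Matrix.of fun r l => v (a l) r).col := h2
  have h6 := Matrix.linearIndependent_cols_iff_isUnit.1 h5
  exact ((Matrix.isUnit_iff_isUnit_det _).1 h6).ne_zero

end Cramer

/-! ### division -/

section Div

variable {n : ℕ} {M : Type} [TopologicalSpace M] {A : Atl n M} {L : LB A} {I : Type} [Fintype I]
  (S : MSys A L I) (θ : OneForm L) (i1 : I)
  [T2Space M] [ConnectedSpace M] [CompactSpace M] [Finite A.ι]

/-- **one-forms with values in `L` are algebraic**, in terms of sections -/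
theorem alg_div (PA : Part A) (hD : D2 A) : ∃ m0 : ℕ, ∀ m, m0 ≤ m → ∀ s : Fn A,
    IsHS (L ^ (m + S.β i1)) univ s →
    ∃ t : S.J i1 → Fn A, (∀ k, IsHS (L ^ (m + 1)) univ (t k)) ∧
      (∀ c, ∀ x ∈ (A.e c).source, ∑ k, t k c x * S.pt c x i1 k = 0) ∧
      ∀ c, ∀ x ∈ (A.e c).source, ∀ u, s c x * θ.app c x u =
        ∑ k, t k c x * dpt S c x u i1 k := by
  classical
  obtain ⟨m1, hV⟩ := vanish_large PA hD (S.pos i1) (S.hb i1)
  obtain ⟨m2, hG⟩ := ggen_proj PA hD (S.P i1) (KB A)⁻¹
  obtain ⟨r0, v, hv, hvne⟩ := hG m2 le_rfl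
  have hlb : (KB A)⁻¹ * lb (S.P i1) ^ m2 = (KB A)⁻¹ * L ^ (S.β i1 * m2) := by
    rw [S.hb, ← pow_mul]
  rw [hlb] at hv
  -- the sections without common zeros
  set e0 : ℕ := S.β i1 * m2 + S.β i1 * (n + 1) with he0
  let κ := Fin r0 × (Unit ⊕ Fin n → S.J i1)
  let ε : κ ≃ Fin (Fintype.card κ) := Fintype.equivFin κ
  let ℓ : κ → Fn A := fun p => v p.1 * Wd S i1 p.2
  have hℓ : ∀ p, IsHS (L ^ e0) univ (ℓ p) := by
    intro p
    have h1 := (hv p.1).mul (isHS_Wd S i1 p.2)
    have h2 : (KB A)⁻¹ * L ^ (S.β i1 * m2) * (KB A * L ^ (S.β i1 * (n + 1))) = L ^ e0 := by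
      rw [mul_mul_mul_comm, inv_mul_cancel, one_mul, ← pow_add]
    rw [h2] at h1
    exact h1
  have hℓne : ∀ c, ∀ x ∈ (A.e c).source, ∃ p, ℓ p c x ≠ 0 := by
    intro c x hx
    obtain ⟨j, hj⟩ := hvne c x hx
    obtain ⟨a, ha⟩ := exists_Wd S i1 hx
    exact ⟨(j, a), mul_ne_zero hj ha⟩
  refine ⟨m1 + (n + 1) * e0, fun m hm s hs => ?_⟩
  have hN : ∀ p : ℕ, (L ^ (m + S.β i1) * (L ^ e0)⁻¹ ^ (p + 1)) * L ^ e0 =
      L ^ (m + S.β i1) * (L ^ e0)⁻¹ ^ p := by
    intro p
    rw [pow_succ (L ^ e0)⁻¹, ← mul_assoc, inv_mul_cancel_right]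
  have hNq : ∀ q : ℕ, q * e0 ≤ m + S.β i1 →
      L ^ (m + S.β i1) * (L ^ e0)⁻¹ ^ q = L ^ (m + S.β i1 - q * e0) := by
    intro q hq
    have e1 : L ^ (m + S.β i1) = L ^ (m + S.β i1 - q * e0) * (L ^ e0) ^ q := by
      rw [← pow_mul, ← pow_add, mul_comm e0 q, Nat.sub_add_cancel hq]
    rw [e1, mul_assoc, inv_pow, mul_inv_cancel, mul_one]
  have hle : e0 ≤ (n + 1) * e0 := Nat.le_mul_of_pos_left _ (Nat.succ_pos n)
  obtain ⟨w, hw, hsw⟩ := kosgen (L ^ e0) (fun p => L ^ (m + S.β i1) * (L ^ e0)⁻¹ ^ p) hN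
    (fun j => ℓ (ε.symm j)) (fun j => hℓ _)
    (fun c x hx => by
      obtain ⟨p, hp⟩ := hℓne c x hx
      exact ⟨ε p, by rw [Equiv.symm_apply_apply]; exact hp⟩)
    (fun q hq hqn => by
      show Solv (L ^ (m + S.β i1) * (L ^ e0)⁻¹ ^ (q + 1)) q
      have h1 : (q + 1) * e0 ≤ (n + 1) * e0 := Nat.mul_le_mul_right _ (by omega)
      rw [hNq (q + 1) (by omega)]
      exact hV _ (by omega) q hq)
    (s := s) (by
      show IsHS (L ^ (m + S.β i1) * (L ^ e0)⁻¹ ^ 0) univ s
      rw [pow_zero, mul_one]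
      exact hs)
  have hw' : ∀ j, IsHS (L ^ (m + S.β i1 - e0)) univ (w j) := by
    intro j
    have h1 : IsHS (L ^ (m + S.β i1) * (L ^ e0)⁻¹ ^ 1) univ (w j) := hw j
    rw [hNq 1 (by omega), one_mul] at h1
    exact h1
  -- the sum over all the indices
  have hs2 : ∀ c x, s c x = ∑ p : κ, v p.1 c x * Wd S i1 p.2 c x * w (ε p) c x := by
    intro c x
    have h1 : s c x = ∑ j, ℓ (ε.symm j) c x * w j c x := by
      conv_lhs => rw [hsw]
      rw [Finset.sum_apply, Finset.sum_apply]
      rfl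
    rw [h1]
    refine (Fintype.sum_equiv ε _ _ fun p => ?_).symm
    rw [Equiv.symm_apply_apply]
    rfl
  let t : S.J i1 → Fn A := fun k => ∑ p : κ, ∑ l : Unit ⊕ Fin n,
    if p.2 l = k then v p.1 * Nd S θ i1 p.2 l * w (ε p) else 0
  have ht : ∀ k c x, t k c x = ∑ p : κ, ∑ l : Unit ⊕ Fin n,
      if p.2 l = k then v p.1 c x * Nd S θ i1 p.2 l c x * w (ε p) c x else 0 := by
    intro k c x
    show (∑ p : κ, ∑ l : Unit ⊕ Fin n,
      if p.2 l = k then v p.1 * Nd S θ i1 p.2 l * w (ε p) else 0 : Fn A) c x = _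
    rw [Finset.sum_apply, Finset.sum_apply]
    refine Finset.sum_congr rfl fun p _ => ?_
    rw [Finset.sum_apply, Finset.sum_apply]
    refine Finset.sum_congr rfl fun l _ => ?_
    split_ifs <;> rfl
  have hsum : ∀ (g : S.J i1 → ℂ) (c : A.ι) (x : M), ∑ k, t k c x * g k =
      ∑ p : κ, v p.1 c x * (∑ l, Nd S θ i1 p.2 l c x * g (p.2 l)) * w (ε p) c x := by
    intro g c x
    have h1 : ∀ k, t k c x * g k = ∑ p : κ, ∑ l : Unit ⊕ Fin n,
        if k = p.2 l then v p.1 c x * Nd S θ i1 p.2 l c x * w (ε p) c x * g (p.2 l) else 0 := by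
      intro k
      rw [ht, Finset.sum_mul]
      refine Finset.sum_congr rfl fun p _ => ?_
      rw [Finset.sum_mul]
      refine Finset.sum_congr rfl fun l _ => ?_
      by_cases h : k = p.2 l
      · rw [if_pos h, if_pos h.symm, h]
      · rw [if_neg h, if_neg (Ne.symm h), zero_mul]
    rw [Finset.sum_congr rfl fun k _ => h1 k, Finset.sum_comm]
    refine Finset.sum_congr rfl fun p _ => ?_
    rw [Finset.sum_comm, Finset.mul_sum, Finset.sum_mul]
    refine Finset.sum_congr rfl fun l _ => ?_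
    rw [Finset.sum_ite_eq' Finset.univ, if_pos (Finset.mem_univ _)]
    ring
  refine ⟨t, fun k => ?_, fun c x hx => ?_, fun c x hx u => ?_⟩
  · have h0 : ∀ (p : κ) (l : Unit ⊕ Fin n),
        IsHS (L ^ (m + 1)) univ (v p.1 * Nd S θ i1 p.2 l * w (ε p)) := by
      intro p l
      have h1 := ((hv p.1).mul (isHS_Nd S θ i1 p.2 l)).mul (hw' (ε p))
      have h2 : (KB A)⁻¹ * L ^ (S.β i1 * m2) * (KB A * L ^ (S.β i1 * n + 1)) *
          L ^ (m + S.β i1 - e0) = L ^ (m + 1) := by
        rw [mul_mul_mul_comm, inv_mul_cancel, one_mul, ← pow_add, ← pow_add]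
        congr 1
        have h3 : e0 = S.β i1 * m2 + S.β i1 * n + S.β i1 := by rw [he0]; ring
        omega
      rw [h2] at h1
      exact h1
    have h3 : t k ∈ HS (L ^ (m + 1)) univ := by
      refine Submodule.sum_mem _ fun p _ => Submodule.sum_mem _ fun l _ => ?_
      split_ifs
      · exact h0 p l
      · exact Submodule.zero_mem _
    exact h3
  · rw [hsum]
    refine Finset.sum_eq_zero fun p _ => ?_
    rw [cramer_euler S θ i1 p.2 hx, mul_zero, zero_mul]
  · rw [hsum, hs2, Finset.sum_mul]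
    refine Finset.sum_congr rfl fun p _ => ?_
    rw [← cramer_form S θ i1 p.2 hx u]
    ring

theorem mhd_support {k : Type*} [CommSemiring k] {I : Type} {J : I → Type} [∀ i, Fintype (J i)]
    {p : MvPolynomial (Σ i, J i) k} {d : I → ℕ} (hp : MHd p d) {e : (Σ i, J i) →₀ ℕ}
    (he : e ∈ p.support) (i : I) : ∑ a, e ⟨i, a⟩ = d i := by
  classical
  have hc := hp (MvPolynomial.mem_support_iff.1 he)
  have h1 : d i = ∑ y ∈ e.support, if y.1 = i then e y else 0 := by
    rw [← hc, Finsupp.weight_apply, Finsupp.sum, Finset.sum_apply]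
    refine Finset.sum_congr rfl fun y _ => ?_
    by_cases hy : y.1 = i
    · subst hy
      simp [Pi.smul_apply, smul_eq_mul]
    · rw [if_neg hy, Pi.smul_apply, Pi.single_eq_of_ne (Ne.symm hy), smul_zero]
  rw [h1, ← Finset.sum_filter]
  symm
  have h2 : ∑ a, e ⟨i, a⟩ = ∑ y ∈ Finset.univ.map
      ⟨fun a : J i => (⟨i, a⟩ : Σ i, J i), sigma_mk_injective⟩, e y := by
    rw [Finset.sum_map]
    rfl
  rw [h2]
  refine Finset.sum_subset ?_ ?_
  · intro y hy
    rw [Finset.mem_filter] at hy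
    obtain ⟨j, a⟩ := y
    obtain rfl : j = i := hy.2
    exact Finset.mem_map.2 ⟨a, Finset.mem_univ _, rfl⟩
  · intro y hy hny
    obtain ⟨a, -, rfl⟩ := Finset.mem_map.1 hy
    by_contra h0
    exact hny (Finset.mem_filter.2 ⟨Finsupp.mem_support_iff.2 h0, rfl⟩)

/-- **one-forms with values in `L` are algebraic**, in terms of polynomials -/
theorem alg_poly (PA : Part A) (hD : D2 A) (w : I → ℤ) (hw : ∑ i, w i * (S.β i : ℤ) = 1) :
    ∃ K : ℕ, (∀ i, 1 ≤ (K : ℤ) + w i) ∧ ∀ d : I → ℕ, (∀ i, K ≤ d i) → ∀ Q, MHd Q d →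
      ∃ q : (Σ i, S.J i) → MvPolynomial (Σ i, S.J i) ℂ,
        (∀ y, ∀ e : I → ℕ, (∀ i, (e i : ℤ) = d i + w i -
          (open Classical in if y.1 = i then 1 else 0)) → MHd (q y) e) ∧
        (∀ y, ∀ m ∈ (q y).support, ∀ i, ((∑ a, m ⟨i, a⟩ : ℕ) : ℤ) +
          (open Classical in if y.1 = i then 1 else 0) = d i + w i) ∧
        (∀ c, ∀ x ∈ (A.e c).source, ∀ u, S.ev c x Q * θ.app c x u =
          ∑ y, S.ev c x (q y) * dpt S c x u y.1 y.2) ∧
        ∀ c, ∀ x ∈ (A.e c).source, ∀ i, ∑ a, S.ev c x (q ⟨i, a⟩) * S.pt c x i a = 0 := by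
  classical
  have hI : Nonempty I := by
    by_contra h
    rw [not_nonempty_iff] at h
    rw [Finset.univ_eq_empty, Finset.sum_empty] at hw
    exact zero_ne_one hw
  obtain ⟨i1⟩ := hI
  obtain ⟨m0, hm0⟩ := alg_div S θ i1 PA hD
  obtain ⟨B, hB⟩ : ∃ B : ℕ, ∀ i, -(B : ℤ) ≤ w i := by
    refine ⟨∑ i, (w i).natAbs, fun i => ?_⟩
    have h1 : (w i).natAbs ≤ ∑ i, (w i).natAbs :=
      Finset.single_le_sum (f := fun i => (w i).natAbs) (fun _ _ => Nat.zero_le _)
        (Finset.mem_univ i)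
    omega
  refine ⟨m0 + B + 2, fun i => by have := hB i; push_cast; omega, fun d hd Q hQ => ?_⟩
  -- the multidegree of the coefficients
  have hnn : ∀ i, 0 ≤ (d i : ℤ) + w i - (if i1 = i then 1 else 0) := by
    intro i
    have h1 := hd i
    have h2 := hB i
    split_ifs <;> omega
  let e : I → ℕ := fun i => ((d i : ℤ) + w i - (if i1 = i then 1 else 0)).toNat
  have he : ∀ i, (e i : ℤ) = d i + w i - (if i1 = i then 1 else 0) := fun i =>
    Int.toNat_of_nonneg (hnn i)
  set D := ∑ i, S.β i * d i with hD'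
  have hDge : S.β i1 * d i1 ≤ D :=
    Finset.single_le_sum (f := fun i => S.β i * d i) (fun _ _ => Nat.zero_le _)
      (Finset.mem_univ i1)
  have hD1 : m0 + S.β i1 ≤ D := by
    have h1 : S.β i1 * (m0 + 1) ≤ S.β i1 * d i1 :=
      Nat.mul_le_mul_left _ (by have := hd i1; omega)
    have h2 : m0 ≤ S.β i1 * m0 := Nat.le_mul_of_pos_left _ (S.pos i1)
    have h3 : S.β i1 * (m0 + 1) = S.β i1 * m0 + S.β i1 := by ring
    omega
  obtain ⟨m, hm⟩ : ∃ m, D = m + S.β i1 := ⟨D - S.β i1, by omega⟩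
  have hesum : ∑ i, S.β i * e i = m + 1 := by
    have h1 : ((∑ i, S.β i * e i : ℕ) : ℤ) = (m : ℤ) + 1 := by
      push_cast
      have h2 : ∀ i, (S.β i : ℤ) * (e i : ℤ) = S.β i * d i + w i * S.β i -
          (if i1 = i then (S.β i : ℤ) else 0) := by
        intro i
        rw [he i]
        split_ifs <;> ring
      rw [Finset.sum_congr rfl fun i _ => h2 i, Finset.sum_sub_distrib, Finset.sum_add_distrib, hw,
        Finset.sum_ite_eq Finset.univ, if_pos (Finset.mem_univ _)]
      have h3 : (∑ i, (S.β i : ℤ) * (d i : ℤ)) = (D : ℤ) := by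
        rw [hD']
        push_cast
        rfl
      rw [h3, hm]
      push_cast
      ring
    exact_mod_cast h1
  have hs : IsHS (L ^ (m + S.β i1)) univ (sv S Q) := by
    rw [← hm]
    exact isHS_sv S hQ
  obtain ⟨t, ht, hte, htf⟩ := hm0 m (by omega) (sv S Q) hs
  have hq : ∀ k, ∃ p : MvPolynomial (Σ i, S.J i) ℂ, MHd p e ∧ ∀ c, ∀ x ∈ (A.e c).source,
      t k c x = S.ev c x p := by
    intro k
    have h1 := ht k
    rw [← hesum] at h1
    exact S.gen e (t k) h1
  choose qa hqa hqe using hq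
  let q : (Σ i, S.J i) → MvPolynomial (Σ i, S.J i) ℂ := fun y =>
    if h : y.1 = i1 then qa (h ▸ y.2) else 0
  have hq1 : ∀ k : S.J i1, q ⟨i1, k⟩ = qa k := by
    intro k
    exact dif_pos rfl
  have hq0 : ∀ y : Σ i, S.J i, y.1 ≠ i1 → q y = 0 := fun y hy => dif_neg hy
  have hsum : ∀ (c : A.ι) (x : M) (g : ∀ i, S.J i → ℂ), x ∈ (A.e c).source →
      ∑ y, S.ev c x (q y) * g y.1 y.2 = ∑ k, t k c x * g i1 k := by
    intro c x g hx
    rw [Fintype.sum_sigma, Finset.sum_eq_single i1]
    · refine Finset.sum_congr rfl fun k _ => ?_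
      rw [hq1, hqe k c x hx]
    · intro i _ hi
      refine Finset.sum_eq_zero fun k _ => ?_
      rw [hq0 ⟨i, k⟩ hi]
      show MvPolynomial.eval _ 0 * _ = 0
      rw [map_zero, zero_mul]
    · intro h
      exact absurd (Finset.mem_univ _) h
  refine ⟨q, fun y e' he' => ?_, fun y m hmy i => ?_, fun c x hx u => ?_, fun c x hx i => ?_⟩
  · obtain ⟨i, k⟩ := y
    by_cases hi : i = i1
    · subst hi
      rw [hq1]
      have h1 : e' = e := by
        funext j
        have h2 := he' j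
        have h3 := he j
        have h4 : (e' j : ℤ) = e j := by rw [h2, h3]
        exact_mod_cast h4
      rw [h1]
      exact hqa k
    · rw [hq0 ⟨i, k⟩ hi]
      exact MvPolynomial.isWeightedHomogeneous_zero _ _ _
  · obtain ⟨j, k⟩ := y
    by_cases hj : j = i1
    · subst hj
      rw [hq1] at hmy
      rw [mhd_support (hqa k) hmy i, he i]
      ring
    · rw [hq0 ⟨j, k⟩ hj] at hmy
      simp at hmy
  · rw [hsum c x (dpt S c x u) hx, ← htf c x hx u, sv_eq S Q hx]
  · by_cases hi : i = i1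
    · subst hi
      rw [← hte c x hx]
      refine Finset.sum_congr rfl fun k _ => ?_
      rw [hq1, hqe k c x hx]
    · refine Finset.sum_eq_zero fun k _ => ?_
      rw [hq0 ⟨i, k⟩ hi]
      show MvPolynomial.eval _ 0 * _ = 0
      rw [map_zero, zero_mul]

end Div

end

end Crest.Agent.R260.Ga_323
end

-- ▼ part R260/Ga5_323
section

set_option autoImplicit false
set_option linter.unusedSectionVars false

/-!
# Row 260 (S0398), GAGA-TH, part 5 (helper323): the algebraic contact form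

* `PF S θ w` : the polynomials representing `θ` in the charts of the multicone;
* `PF.link`, `PF.euler`, `PF.agree`, `PF.toCForm`.
-/

open Set Filter Topology Complex
open scoped ContDiff Matrix ComplexConjugate

namespace Crest.Agent.R260.Ga_323

open Crest.Agent.R275 Crest.Agent.R275.Geo Crest.Agent.R275.Core144
open Crest.Agent.R273.SerE_945 Crest.Agent.R273.TD3_733
open Crest.Agent.R273.Defs_333 Crest.Agent.R273.SerA_945
open Crest.Agent.R270.BM_360 Crest.Agent.R260.BrDefs_592 Crest.Agent.R260.Br1_592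
open Crest.Agent.R260.Br2_592 Crest.Agent.R260.Lin_678

noncomputable section

/-! ### powers of the denominator -/

section DenP

variable {k : Type*} [CommSemiring k] {I : Type} {J : I → Type} [Fintype I]

/-- the power of the denominator as a polynomial -/
def denP (k : Type*) [CommSemiring k] {I : Type} {J : I → Type} [Fintype I] (c : ∀ i, J i)
    (N : ℕ) : MvPolynomial (Σ i, J i) k := ∏ i, MvPolynomial.X ⟨i, c i⟩ ^ N

theorem denP_MHd (c : ∀ i, J i) (N : ℕ) : MHd (denP k c N) (fun _ => N) := by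
  classical
  have h1 : MHd (denP k c N) (∑ i : I, N • (Pi.single i 1 : I → ℕ)) := by
    refine MvPolynomial.IsWeightedHomogeneous.prod _ _ _ fun i _ => ?_
    have h2 := (MvPolynomial.isWeightedHomogeneous_X k
      (fun x : Σ i, J i => (Pi.single x.1 1 : I → ℕ)) ⟨i, c i⟩).pow N
    convert h2
  have h2 : (∑ i : I, N • (Pi.single i 1 : I → ℕ)) = fun _ => N := by
    funext j
    rw [Finset.sum_apply, Finset.sum_eq_single j]
    · simp
    · intro i _ hi
      simp [Pi.single_eq_of_ne hi.symm]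
    · intro h
      exact absurd (Finset.mem_univ j) h
  rw [h2] at h1
  exact h1

theorem denP_aeval {k : Type*} [CommSemiring k] {B : Type*} [CommRing B] [Algebra k B]
    (c : ∀ i, J i) (N : ℕ) (v : ∀ i, J i → B) :
    MvPolynomial.aeval (fun y : Σ i, J i => v y.1 y.2) (denP k c N) = den c v ^ N := by
  unfold denP den
  rw [map_prod, ← Finset.prod_pow]
  exact Finset.prod_congr rfl fun i _ => by rw [map_pow, MvPolynomial.aeval_X]

end DenP

variable {n : ℕ} {M : Type} [TopologicalSpace M] {A : Atl n M} {L : LB A} {I : Type} [Fintype I]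

open Classical in
/-- the polynomials representing `θ` -/
structure PF (S : MSys A L I) (θ : OneForm L) (w : I → ℤ) where
  N : ℕ
  pos : 1 ≤ N
  nn : ∀ i, 1 ≤ (N : ℤ) + w i
  p : (∀ i, S.J i) → (Σ i, S.J i) → MvPolynomial (Σ i, S.J i) ℂ
  mh : ∀ c y, ∀ e : I → ℕ, (∀ i, (e i : ℤ) = N + w i - (if y.1 = i then 1 else 0)) →
    MHd (p c y) e
  hom : ∀ c y, ∀ m ∈ (p c y).support, ∀ i, ((∑ a, m ⟨i, a⟩ : ℕ) : ℤ) +
    (if y.1 = i then 1 else 0) = N + w i
  eq : ∀ c ch, ∀ x ∈ (A.e ch).source, ∀ u, S.ev ch x (denP ℂ c N) * θ.app ch x u =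
    ∑ y, S.ev ch x (p c y) * dpt S ch x u y.1 y.2
  eu : ∀ c ch, ∀ x ∈ (A.e ch).source, ∀ i, ∑ a, S.ev ch x (p c ⟨i, a⟩) * S.pt ch x i a = 0

theorem exists_pf [T2Space M] [ConnectedSpace M] [CompactSpace M] [Finite A.ι] (PA : Part A)
    (hD : D2 A) (S : MSys A L I) (θ : OneForm L) (w : I → ℤ)
    (hw : ∑ i, w i * (S.β i : ℤ) = 1) : Nonempty (PF S θ w) := by
  obtain ⟨K, hK1, hK⟩ := alg_poly S θ PA hD w hw
  choose p hp1 hp2 hp3 hp4 using fun c : ∀ i, S.J i =>
    hK (fun _ => K + 1) (fun _ => Nat.le_succ K) (denP ℂ c (K + 1)) (denP_MHd c (K + 1))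
  exact ⟨{
    N := K + 1
    pos := Nat.le_add_left 1 K
    nn := fun i => by have := hK1 i; push_cast; omega
    p := p
    mh := fun c y e he => hp1 c y e he
    hom := fun c y m hm i => hp2 c y m hm i
    eq := fun c ch x hx u => hp3 c ch x hx u
    eu := fun c ch x hx i => hp4 c ch x hx i }⟩

namespace PF

variable {S : MSys A L I} {θ : OneForm L} {w : I → ℤ} (F : PF S θ w)

open Classical in
/-- the multidegree of the coefficients -/
def dg (y : I) : I → ℕ := fun i => ((F.N : ℤ) + w i - (if y = i then 1 else 0)).toNat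

open Classical in
theorem dg_eq (y i : I) : (F.dg y i : ℤ) = F.N + w i - (if y = i then 1 else 0) := by
  refine Int.toNat_of_nonneg ?_
  have := F.nn i
  split_ifs <;> omega

theorem mhd (c : ∀ i, S.J i) (y : Σ i, S.J i) : MHd (F.p c y) (F.dg y.1) :=
  F.mh c y _ fun i => F.dg_eq y.1 i

/-- the total degree `N + w` -/
def tg : I → ℕ := fun i => ((F.N : ℤ) + w i).toNat

theorem tg_eq (i : I) : (F.tg i : ℤ) = F.N + w i := by
  refine Int.toNat_of_nonneg ?_
  have := F.nn i
  omega

open Classical in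
theorem dg_tg (y : I) : F.dg y + Pi.single y 1 = F.tg := by
  funext i
  have h1 := F.dg_eq y i
  have h2 := F.tg_eq i
  rw [Pi.add_apply]
  by_cases h : y = i
  · subst h
    rw [Pi.single_eq_same]
    rw [if_pos rfl] at h1
    omega
  · rw [Pi.single_eq_of_ne (Ne.symm h)]
    rw [if_neg h] at h1
    omega

theorem prod_dg {κ : Type*} [Field κ] (l : I → κ) (y : I) :
    (∏ i, l i ^ F.dg y i) * l y = ∏ i, l i ^ F.tg i := by
  classical
  rw [← F.dg_tg y]
  have h1 : ∀ i, l i ^ (F.dg y + Pi.single y 1 : I → ℕ) i =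
      l i ^ F.dg y i * (if i = y then l y else 1) := by
    intro i
    rw [Pi.add_apply, pow_add]
    by_cases h : i = y
    · subst h
      rw [Pi.single_eq_same, pow_one, if_pos rfl]
    · rw [Pi.single_eq_of_ne h, pow_zero, if_neg h]
  rw [Finset.prod_congr rfl fun i _ => h1 i, Finset.prod_mul_distrib,
    Finset.prod_ite_eq' Finset.univ, if_pos (Finset.mem_univ _)]

theorem prod_tg {κ : Type*} [Field κ] {l : I → κ} (hl : ∀ i, l i ≠ 0) :
    ∏ i, l i ^ F.tg i = (∏ i, l i) ^ F.N * ∏ i, l i ^ w i := by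
  rw [← Finset.prod_pow, ← Finset.prod_mul_distrib]
  refine Finset.prod_congr rfl fun i _ => ?_
  rw [← zpow_natCast, F.tg_eq i, zpow_add₀ (hl i), zpow_natCast]

/-- the sum of the Euler terms in a block, as a polynomial -/
def eup (c : ∀ i, S.J i) (i : I) : MvPolynomial (Σ i, S.J i) ℂ :=
  ∑ a, F.p c ⟨i, a⟩ * MvPolynomial.X ⟨i, a⟩

theorem eup_mem (c : ∀ i, S.J i) (i : I) : F.eup c i ∈ S.E := by
  classical
  refine ⟨⟨F.tg, ?_⟩, fun ch x hx => ?_⟩
  · refine MvPolynomial.IsWeightedHomogeneous.sum _ _ _ fun a _ => ?_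
    rw [← F.dg_tg i]
    refine MvPolynomial.IsWeightedHomogeneous.mul (F.mhd c ⟨i, a⟩) ?_
    have h2 := (MvPolynomial.isWeightedHomogeneous_X ℂ
      (fun x : Σ i, S.J i => (Pi.single x.1 1 : I → ℕ)) ⟨i, a⟩)
    convert h2
  · rw [← F.eu c ch x hx i]
    unfold MSys.ev eup
    rw [map_sum]
    exact Finset.sum_congr rfl fun a _ => by rw [map_mul, MvPolynomial.eval_X]

/-- `θ` kills the Euler fields -/
theorem euler {B : Type*} [CommRing B] [Algebra ℂ B] {v : ∀ i, S.J i → B} (hv : OnX S.E v)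
    (c : ∀ i, S.J i) (i : I) :
    ∑ a, MvPolynomial.aeval (fun y : Σ i, S.J i => v y.1 y.2) (F.p c ⟨i, a⟩) * v i a = 0 := by
  have h1 := hv _ (F.eup_mem c i)
  rw [eup, map_sum] at h1
  rw [← h1]
  exact Finset.sum_congr rfl fun a _ => by rw [map_mul, MvPolynomial.aeval_X]

/-- the analytic meaning of `p` -/
theorem link {ch : A.ι} {x : M} (hx : x ∈ (A.e ch).source) (c : ∀ i, S.J i) {l : I → ℂ}
    (hl : ∀ i, l i ≠ 0) (u : Cn n) (a : I → ℂ) :
    form (F.p c) (fun i b => l i * S.pt ch x i b)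
        (fun i b => l i * dpt S ch x u i b + a i * S.pt ch x i b) =
      den c (fun i b => l i * S.pt ch x i b) ^ F.N * (∏ i, l i ^ w i) * θ.app ch x u := by
  have h1 : ∀ y : Σ i, S.J i, MvPolynomial.aeval (fun y : Σ i, S.J i => l y.1 * S.pt ch x y.1 y.2)
      (F.p c y) = (∏ i, l i ^ F.dg y.1 i) * S.ev ch x (F.p c y) := by
    intro y
    rw [eval_scale (F.mhd c y) l (S.pt ch x), aeval_eq]
    rfl
  have hden : den c (fun i b => l i * S.pt ch x i b) ^ F.N =
      (∏ i, l i) ^ F.N * S.ev ch x (denP ℂ c F.N) := by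
    have h2 : S.ev ch x (denP ℂ c F.N) = den c (S.pt ch x) ^ F.N := by
      unfold MSys.ev
      rw [← aeval_eq]
      exact denP_aeval c F.N (S.pt ch x)
    rw [h2, ← mul_pow]
    congr 1
    unfold den
    rw [← Finset.prod_mul_distrib]
  unfold form
  have h3 : ∀ y : Σ i, S.J i,
      MvPolynomial.aeval (fun y : Σ i, S.J i => l y.1 * S.pt ch x y.1 y.2) (F.p c y) *
        (l y.1 * dpt S ch x u y.1 y.2 + a y.1 * S.pt ch x y.1 y.2) =
      (∏ i, l i ^ F.tg i) * (S.ev ch x (F.p c y) * dpt S ch x u y.1 y.2) +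
        (∏ i, l i ^ F.dg y.1 i) * a y.1 * (S.ev ch x (F.p c y) * S.pt ch x y.1 y.2) := by
    intro y
    rw [h1 y, ← F.prod_dg l y.1]
    ring
  rw [Finset.sum_congr rfl fun y _ => h3 y, Finset.sum_add_distrib, ← Finset.mul_sum,
    ← F.eq c ch x hx u, Fintype.sum_sigma (fun y : Σ i, S.J i => (∏ i, l i ^ F.dg y.1 i) * a y.1 *
      (S.ev ch x (F.p c y) * S.pt ch x y.1 y.2))]
  have h4 : ∀ i, ∑ b, (∏ i', l i' ^ F.dg i i') * a i *
      (S.ev ch x (F.p c ⟨i, b⟩) * S.pt ch x i b) = 0 := by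
    intro i
    rw [← Finset.mul_sum, F.eu c ch x hx i, mul_zero]
  rw [Finset.sum_congr rfl fun i _ => h4 i, Finset.sum_const_zero, add_zero, hden, F.prod_tg hl]
  ring

/-- comparison of two charts, as a polynomial in the point and the tangent vector -/
def cmp (c c' : ∀ i, S.J i) : MvPolynomial ((Σ i, S.J i) ⊕ (Σ i, S.J i)) ℂ :=
  MvPolynomial.rename Sum.inl (denP ℂ c F.N) *
      (∑ y, MvPolynomial.rename Sum.inl (F.p c' y) * MvPolynomial.X (Sum.inr y)) -
    MvPolynomial.rename Sum.inl (denP ℂ c' F.N) *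
      ∑ y, MvPolynomial.rename Sum.inl (F.p c y) * MvPolynomial.X (Sum.inr y)

theorem cmp_aeval (c c' : ∀ i, S.J i) {B : Type*} [CommRing B] [Algebra ℂ B]
    (v t : ∀ i, S.J i → B) : MvPolynomial.aeval (Sum.elim (fun y : Σ i, S.J i => v y.1 y.2)
      (fun y : Σ i, S.J i => t y.1 y.2)) (F.cmp c c') =
      den c v ^ F.N * form (F.p c') v t - den c' v ^ F.N * form (F.p c) v t := by
  unfold cmp form
  simp only [map_sub, map_mul, map_sum, MvPolynomial.aeval_rename, MvPolynomial.aeval_X,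
    Sum.elim_comp_inl, Sum.elim_inr, denP_aeval]

variable (hP : ExistsPt S) (hT : BrIf_592.TanPt S)

include hP hT

theorem cmp_zero {v t : ∀ i, S.J i → ℂ} (hv : OnX S.E v) (ht : Tan S.E v t)
    (hv0 : ∀ i, v i ≠ 0) (c c' : ∀ i, S.J i) :
    MvPolynomial.aeval (Sum.elim (fun y : Σ i, S.J i => v y.1 y.2)
      (fun y : Σ i, S.J i => t y.1 y.2)) (F.cmp c c') = 0 := by
  refine (F.cmp_aeval c c' v t).trans ?_
  obtain ⟨ch, y, hy, l, hl, rfl⟩ := hP v hv hv0
  obtain ⟨u, b, rfl⟩ := (hT ch y hy l hl t).1 ht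
  have e1 := F.link hy c hl u b
  have e2 := F.link hy c' hl u b
  have e3 : BrIf_592.dpt S ch y u = dpt S ch y u := rfl
  rw [e3, e1, e2]
  ring

/-- the charts agree, over fields -/
theorem agree_field {κ : Type} [Field κ] [Algebra ℂ κ] {v t : ∀ i, S.J i → κ}
    (hv : OnX S.E v) (ht : Tan S.E v t) (hv0 : ∀ i, v i ≠ 0) (c c' : ∀ i, S.J i) :
    den c v ^ F.N * form (F.p c') v t = den c' v ^ F.N * form (F.p c) v t := by
  have h1 : ∀ i, ∃ a, v i a ≠ 0 := fun i => Function.ne_iff.1 (hv0 i)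
  choose a ha using h1
  have h0 : ∀ x s : ∀ i, S.J i → ℂ, Rk_406.OnC S.E x → Rk_406.TanC S.E x s →
      MvPolynomial.aeval (Rk_406.unc x) (denP ℂ a 1) ≠ 0 →
      MvPolynomial.aeval (Sum.elim (Rk_406.unc x) (Rk_406.unc s)) (F.cmp c c') = 0 := by
    intro x s hx hs hB
    refine F.cmp_zero hP hT hx hs (fun i hi => hB ?_) c c'
    refine (denP_aeval a 1 x).trans ?_
    rw [pow_one]
    exact Finset.prod_eq_zero (Finset.mem_univ i) (congrFun hi (a i))
  have h2 := Rk_406.c3 (E := S.E) (B := denP ℂ a 1) (Q := F.cmp c c') h0 v t hv ht (by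
    rw [isUnit_iff_ne_zero]
    have h5 : MvPolynomial.aeval (Rk_406.unc v) (denP ℂ a 1) = den a v ^ 1 := denP_aeval a 1 v
    rw [h5, pow_one]
    exact Finset.prod_ne_zero_iff.2 fun i _ => ha i)
  have h3 := (F.cmp_aeval c c' v t).symm.trans h2
  exact sub_eq_zero.1 h3

/-- the charts agree, over reduced algebras -/
theorem agree {B : Type} [CommRing B] [IsReduced B] [Algebra ℂ B] {v t : ∀ i, S.J i → B}
    (hv : OnX S.E v) (ht : Tan S.E v t) (c c' : ∀ i, S.J i) :
    den c v ^ F.N * form (F.p c') v t = den c' v ^ F.N * form (F.p c) v t := by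
  rw [← sub_eq_zero]
  refine IsReduced.eq_zero _ ?_
  rw [nilpotent_iff_mem_prime]
  intro P hP'
  let κ := FractionRing (B ⧸ P)
  let f : B →ₐ[ℂ] κ := (IsScalarTower.toAlgHom ℂ (B ⧸ P) κ).comp (Ideal.Quotient.mkₐ ℂ P)
  have hf : ∀ b, f b = 0 ↔ b ∈ P := by
    intro b
    have h1 : f b = algebraMap (B ⧸ P) κ (Ideal.Quotient.mk P b) := rfl
    rw [h1, map_eq_zero_iff _ (IsFractionRing.injective (B ⧸ P) κ), Ideal.Quotient.eq_zero_iff_mem]
  have hae : ∀ q : MvPolynomial (Σ i, S.J i) ℂ,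
      MvPolynomial.aeval (fun y : Σ i, S.J i => f (v y.1 y.2)) q =
      f (MvPolynomial.aeval (fun y : Σ i, S.J i => v y.1 y.2) q) := by
    intro q
    exact (MvPolynomial.comp_aeval_apply (fun y : Σ i, S.J i => v y.1 y.2) f q).symm
  have hv' : OnX S.E (fun i a => f (v i a)) := by
    intro p hp
    have h1 := hv p hp
    rw [hae, h1, map_zero]
  have ht' : Tan S.E (fun i a => f (v i a)) (fun i a => f (t i a)) := by
    intro p hp
    have h1 := ht p hp
    have h2 : ∀ x : Σ i, S.J i, MvPolynomial.aeval (fun y : Σ i, S.J i => f (v y.1 y.2))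
        (MvPolynomial.pderiv x p) * f (t x.1 x.2) = f (MvPolynomial.aeval
          (fun y : Σ i, S.J i => v y.1 y.2) (MvPolynomial.pderiv x p) * t x.1 x.2) := by
      intro x
      rw [hae, map_mul]
    rw [Finset.sum_congr rfl fun x _ => h2 x, ← map_sum, h1, map_zero]
  have hden : ∀ c : ∀ i, S.J i, den c (fun i a => f (v i a)) = f (den c v) := by
    intro c
    unfold den
    rw [map_prod]
  have hform : ∀ c : ∀ i, S.J i, form (F.p c) (fun i a => f (v i a)) (fun i a => f (t i a)) =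
      f (form (F.p c) v t) := by
    intro c
    unfold form
    rw [map_sum]
    refine Finset.sum_congr rfl fun y _ => ?_
    rw [map_mul, hae]
  rw [← hf, map_sub, map_mul, map_mul, map_pow, map_pow, ← hden, ← hden, ← hform, ← hform,
    sub_eq_zero]
  by_cases h0 : den c (fun i a => f (v i a)) = 0 ∧ den c' (fun i a => f (v i a)) = 0
  · have hN : F.N ≠ 0 := by have := F.pos; omega
    rw [h0.1, h0.2, zero_pow hN, zero_mul, zero_mul]
  · refine F.agree_field hP hT hv' ht' (fun i hi => h0 ?_) c c'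
    constructor
    · refine Finset.prod_eq_zero (Finset.mem_univ i) ?_
      exact congrFun hi (c i)
    · refine Finset.prod_eq_zero (Finset.mem_univ i) ?_
      exact congrFun hi (c' i)

/-- the algebraic contact form -/
def toCForm : CForm S.E w where
  N := F.N
  p := F.p
  hom := fun c x m hm i => F.hom c x m hm i
  agree := fun _ _ _ _ _ _ hv ht c c' => F.agree hP hT hv ht c c'
  euler := fun _ _ _ _ _ hv c i => F.euler hv c i

end PF

end

end Crest.Agent.R260.Ga_323
end

-- ▼ part R260/Zt4_313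
section

/-!
# R260 (S0398), leaf P2 (helper313): the tangent spaces of the multicone

`S : MSys A L I` (592), `x ∈ M`, `l i ≠ 0`:
* `tan_of`   : `l_i dpt u + al_i pt` are tangent vectors of the multicone at `l · pt`;
* `tan_iff`  : there are no other ones;
* `dpt_inj`, `tan_rank` : the dimension is `n + card I`.
-/

set_option autoImplicit false
set_option linter.unusedSectionVars false

open Set Filter Topology Complex
open scoped ContDiff Matrix ComplexConjugate

namespace Crest.Agent.R260.Zt4_313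

open Crest.Agent.R275 Crest.Agent.R275.Geo Crest.Agent.R275.Core144 Crest.Agent.R275.Dg199
open Crest.Agent.R273.LamN127 Crest.Agent.R273.SerA_945
open Crest.Agent.R273.SerB_945 Crest.Agent.R273.SerC_945 Crest.Agent.R273.KosGen_313
open Crest.Agent.R273.Defs_333 Crest.Agent.R273.FS_333
open Crest.Agent.R273.TD3_733 Crest.Agent.R273.SerE_945 Crest.Agent.R273.Chow_313
open Crest.Agent.R270.BM_360 Crest.Agent.R260.BrDefs_592 Crest.Agent.R260.Br1_592
open Crest.Agent.R260.Br2_592 Crest.Agent.R260.Ga_323 Crest.Agent.R260.Zt_313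
open Crest.Agent.R260.Lin_678

noncomputable section

variable {n : ℕ} {M : Type} [TopologicalSpace M] {A : Atl n M} {L : LB A} {I : Type} [Fintype I]
  (S : MSys A L I)

theorem tan_def (v t : ∀ i, S.J i → ℂ) : Tan S.E v t ↔
    ∀ p ∈ S.E, Dv (fun y : Σ i, S.J i => v y.1 y.2) (fun y : Σ i, S.J i => t y.1 y.2) p = 0 :=
  Iff.rfl

/-- the directions of the manifold and the Euler directions are tangent -/
theorem tan_of {c : A.ι} {x : M} (hx : x ∈ (A.e c).source) (l : I → ℂ) (u : Cn n) (al : I → ℂ) :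
    Tan S.E (fun i a => l i * S.pt c x i a)
      (fun i a => l i * dpt S c x u i a + al i * S.pt c x i a) := by
  rw [tan_def]
  intro p hp
  obtain ⟨⟨d, hd⟩, hp0⟩ := hp
  let f : (Σ i, S.J i) → (Cn n × ℂ) → ℂ := fun y q =>
    (l y.1 + q.2 * al y.1) * S.pt c ((A.e c).symm q.1) y.1 y.2
  have hf : ∀ y, HasFDerivAt (f y)
      ((l y.1 + (0 : ℂ) * al y.1) • ((fderiv ℂ (fun z => S.pt c ((A.e c).symm z) y.1 y.2)
          (A.e c x)).comp (ContinuousLinearMap.fst ℂ (Cn n) ℂ)) +
        S.pt c ((A.e c).symm (A.e c x)) y.1 y.2 • (al y.1 • ContinuousLinearMap.snd ℂ (Cn n) ℂ))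
      (A.e c x, (0 : ℂ)) := by
    intro y
    have h1 : HasFDerivAt (fun q : Cn n × ℂ => l y.1 + q.2 * al y.1)
        (al y.1 • ContinuousLinearMap.snd ℂ (Cn n) ℂ) (A.e c x, (0 : ℂ)) :=
      ((hasFDerivAt_snd (𝕜 := ℂ) (p := (A.e c x, (0 : ℂ)))).mul_const (al y.1)).const_add _
    have h2 : HasFDerivAt (fun q : Cn n × ℂ => S.pt c ((A.e c).symm q.1) y.1 y.2)
        ((fderiv ℂ (fun z => S.pt c ((A.e c).symm z) y.1 y.2) (A.e c x)).comp
          (ContinuousLinearMap.fst ℂ (Cn n) ℂ)) (A.e c x, (0 : ℂ)) :=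
      HasFDerivAt.comp (g := fun z => S.pt c ((A.e c).symm z) y.1 y.2)
        (f := fun q : Cn n × ℂ => q.1) (A.e c x, (0 : ℂ))
        (pt_diff S c hx y.1 y.2).hasFDerivAt hasFDerivAt_fst
    exact h1.fun_mul h2
  have h := hasFDerivAt_eval (f := f) (fun y => (hf y).differentiableAt) p
  have hz : (fun q => MvPolynomial.eval (fun y => f y q) p) =ᶠ[𝓝 (A.e c x, (0 : ℂ))]
      fun _ => 0 := by
    have h1 : ∀ᶠ q : Cn n × ℂ in 𝓝 (A.e c x, (0 : ℂ)), q.1 ∈ (A.e c).target :=
      continuous_fst.continuousAt.eventually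
        ((A.e c).open_target.mem_nhds ((A.e c).map_source hx))
    filter_upwards [h1] with q hq
    have h2 := eval_scale hd (fun i => l i + q.2 * al i) (S.pt c ((A.e c).symm q.1))
    rw [aeval_eq, aeval_eq] at h2
    have h3 : MvPolynomial.eval
        (fun y : Σ i, S.J i => S.pt c ((A.e c).symm q.1) y.1 y.2) p = 0 :=
      hp0 c _ ((A.e c).map_target hq)
    show MvPolynomial.eval (fun y : Σ i, S.J i =>
      (l y.1 + q.2 * al y.1) * S.pt c ((A.e c).symm q.1) y.1 y.2) p = 0
    rw [h2, h3, mul_zero]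
  have h4 := h.fderiv
  rw [hz.fderiv_eq] at h4
  have h5 := congrArg (fun T : (Cn n × ℂ) →L[ℂ] ℂ => T (u, 1)) h4
  simp only [fderiv_const_apply, zero_apply, sum_apply, smul_apply, smul_eq_mul] at h5
  rw [Dv]
  refine Eq.trans (Finset.sum_congr rfl fun y _ => ?_) h5.symm
  have h6 : fderiv ℂ (f y) (A.e c x, (0 : ℂ)) (u, 1) =
      l y.1 * dpt S c x u y.1 y.2 + al y.1 * S.pt c x y.1 y.2 := by
    rw [(hf y).fderiv]
    simp only [add_apply, smul_apply, ContinuousLinearMap.comp_apply,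
      ContinuousLinearMap.coe_fst', ContinuousLinearMap.coe_snd', smul_eq_mul, mul_one, zero_mul,
      add_zero]
    rw [(A.e c).left_inv hx]
    have h7 : dpt S c x u y.1 y.2 = fderiv ℂ (fun z => S.pt c ((A.e c).symm z) y.1 y.2)
      (A.e c x) u := rfl
    rw [h7]
    ring
  rw [h6, aeval_eq]
  have h8 : (fun y => f y (A.e c x, (0 : ℂ))) =
      fun y : Σ i, S.J i => l y.1 * S.pt c x y.1 y.2 := by
    funext y
    show (l y.1 + 0 * al y.1) * S.pt c ((A.e c).symm (A.e c x)) y.1 y.2 = _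
    rw [(A.e c).left_inv hx]
    ring
  rw [h8]

/-! ### the test polynomial -/

section Test

open Classical in
/-- the test polynomial -/
def P0 (κ : I → ℂ) (f : (Σ i, S.J i) → ℂ) (a0 : ∀ i, S.J i) : MvPolynomial (Σ i, S.J i) ℂ :=
  ∑ i, MvPolynomial.C (κ i) * ((∑ a, MvPolynomial.C (f ⟨i, a⟩) * MvPolynomial.X ⟨i, a⟩) *
    ∏ j ∈ Finset.univ.erase i, MvPolynomial.X ⟨j, a0 j⟩)

variable (κ : I → ℂ) (f : (Σ i, S.J i) → ℂ) (a0 : ∀ i, S.J i)

theorem P0_MHd : MHd (P0 S κ f a0) (fun _ => 1) := by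
  classical
  have hc : ∀ b : ℂ, MHd (MvPolynomial.C b : MvPolynomial (Σ i, S.J i) ℂ) 0 := fun b =>
    MvPolynomial.isWeightedHomogeneous_C (fun x : Σ i, S.J i => (Pi.single x.1 1 : I → ℕ)) b
  have hX : ∀ y : Σ i, S.J i, MHd (MvPolynomial.X y : MvPolynomial (Σ i, S.J i) ℂ)
      (Pi.single y.1 1) := fun y => by
    have := MvPolynomial.isWeightedHomogeneous_X ℂ
      (fun x : Σ i, S.J i => (Pi.single x.1 1 : I → ℕ)) y
    unfold MHd
    convert this
  have hm : ∀ {p q : MvPolynomial (Σ i, S.J i) ℂ} {d d' : I → ℕ}, MHd p d → MHd q d' →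
      MHd (p * q) (d + d') := fun h h' => MvPolynomial.IsWeightedHomogeneous.mul h h'
  unfold P0
  refine Submodule.sum_mem (MvPolynomial.weightedHomogeneousSubmodule ℂ
    (fun x : Σ i, S.J i => (Pi.single x.1 1 : I → ℕ)) (fun _ => 1)) fun i _ => ?_
  have h1 : MHd (∑ a, MvPolynomial.C (f ⟨i, a⟩) * MvPolynomial.X ⟨i, a⟩ :
      MvPolynomial (Σ i, S.J i) ℂ) (Pi.single i 1) := by
    refine Submodule.sum_mem (MvPolynomial.weightedHomogeneousSubmodule ℂ
      (fun x : Σ i, S.J i => (Pi.single x.1 1 : I → ℕ)) (Pi.single i 1)) fun a _ => ?_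
    have := hm (hc (f ⟨i, a⟩)) (hX ⟨i, a⟩)
    rw [zero_add] at this
    unfold MHd at this
    rw [MvPolynomial.mem_weightedHomogeneousSubmodule]
    convert this
  have h2 : MHd (∏ j ∈ Finset.univ.erase i, MvPolynomial.X ⟨j, a0 j⟩ :
      MvPolynomial (Σ i, S.J i) ℂ) (∑ j ∈ Finset.univ.erase i, Pi.single j 1) := by
    have := MvPolynomial.IsWeightedHomogeneous.prod (R := ℂ)
      (w := fun x : Σ i, S.J i => (Pi.single x.1 1 : I → ℕ)) (Finset.univ.erase i)
      (fun j => (MvPolynomial.X ⟨j, a0 j⟩ : MvPolynomial (Σ i, S.J i) ℂ))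
      (fun j => Pi.single j 1) (fun j _ => MvPolynomial.isWeightedHomogeneous_X ℂ _ _)
    unfold MHd
    convert this
  have h3 := hm (hc (κ i)) (hm h1 h2)
  have h4 : (0 : I → ℕ) + (Pi.single i 1 + ∑ j ∈ Finset.univ.erase i, Pi.single j 1) =
      fun _ => 1 := by
    rw [zero_add, Finset.add_sum_erase Finset.univ (fun j => (Pi.single j 1 : I → ℕ))
      (Finset.mem_univ i)]
    funext k
    simp [Finset.sum_apply, Pi.single_apply]
  rw [h4] at h3
  unfold MHd at h3
  rw [MvPolynomial.mem_weightedHomogeneousSubmodule]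
  convert h3

theorem aeval_P0 {v : (Σ i, S.J i) → ℂ} (hv : ∀ i, ∑ a, f ⟨i, a⟩ * v ⟨i, a⟩ = 0) :
    MvPolynomial.aeval v (P0 S κ f a0) = 0 := by
  classical
  unfold P0
  rw [map_sum]
  refine Finset.sum_eq_zero fun i _ => ?_
  have h1 : MvPolynomial.aeval v (∑ a, MvPolynomial.C (f ⟨i, a⟩) * MvPolynomial.X ⟨i, a⟩ :
      MvPolynomial (Σ i, S.J i) ℂ) = 0 := by
    rw [map_sum, ← hv i]
    refine Finset.sum_congr rfl fun a _ => ?_
    rw [map_mul, MvPolynomial.aeval_C, MvPolynomial.aeval_X]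
    rfl
  rw [map_mul, map_mul, h1, zero_mul, mul_zero]

open Classical in
theorem Dv_P0 {v : (Σ i, S.J i) → ℂ} (hv : ∀ i, ∑ a, f ⟨i, a⟩ * v ⟨i, a⟩ = 0)
    (t : (Σ i, S.J i) → ℂ) : Dv v t (P0 S κ f a0) =
      ∑ i, κ i * ((∑ a, f ⟨i, a⟩ * t ⟨i, a⟩) * ∏ j ∈ Finset.univ.erase i, v ⟨j, a0 j⟩) := by
  unfold P0
  rw [Dv_sum]
  refine Finset.sum_congr rfl fun i _ => ?_
  have h1 : MvPolynomial.aeval v (∑ a, MvPolynomial.C (f ⟨i, a⟩) * MvPolynomial.X ⟨i, a⟩ :
      MvPolynomial (Σ i, S.J i) ℂ) = 0 := by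
    rw [map_sum, ← hv i]
    refine Finset.sum_congr rfl fun a _ => ?_
    rw [map_mul, MvPolynomial.aeval_C, MvPolynomial.aeval_X]
    rfl
  have h2 : Dv v t (∑ a, MvPolynomial.C (f ⟨i, a⟩) * MvPolynomial.X ⟨i, a⟩ :
      MvPolynomial (Σ i, S.J i) ℂ) = ∑ a, f ⟨i, a⟩ * t ⟨i, a⟩ := by
    rw [Dv_sum]
    refine Finset.sum_congr rfl fun a _ => ?_
    rw [Dv_C_mul, Dv_X]
    rfl
  have h3 : MvPolynomial.aeval v (∏ j ∈ Finset.univ.erase i, MvPolynomial.X ⟨j, a0 j⟩ :
      MvPolynomial (Σ i, S.J i) ℂ) = ∏ j ∈ Finset.univ.erase i, v ⟨j, a0 j⟩ := by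
    rw [map_prod]
    exact Finset.prod_congr rfl fun j _ => MvPolynomial.aeval_X _ _
  rw [Dv_C_mul, Dv_mul, h1, h2, h3, zero_mul, add_zero]
  rfl

end Test

/-! ### the tangent spaces -/

theorem lb_mul_pow (i1 : I) (m : ℕ) (d : I → ℕ) (hd : d i1 = m) (hd1 : ∀ i, i ≠ i1 → d i = 1) :
    L ^ (∑ i, S.β i * d i) =
      L ^ (∑ i ∈ (open Classical in Finset.univ.erase i1), S.β i) * lb (S.P i1) ^ m := by
  classical
  have h1 : ∑ i, S.β i * d i = (∑ i ∈ Finset.univ.erase i1, S.β i) + S.β i1 * m := by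
    rw [← Finset.sum_erase_add Finset.univ _ (Finset.mem_univ i1), hd]
    congr 1
    exact Finset.sum_congr rfl fun i hi => by rw [hd1 i (Finset.ne_of_mem_erase hi), mul_one]
  rw [h1, pow_add, pow_mul, ← S.hb i1]

/-- no other tangent vectors -/
theorem of_tan [T2Space M] [ConnectedSpace M] [CompactSpace M] [Finite A.ι] [Nonempty I]
    (PA : Part A) (hD : D2 A) {c : A.ι} {x : M} (hx : x ∈ (A.e c).source) (l : I → ℂ)
    (hl : ∀ i, l i ≠ 0) {t : ∀ i, S.J i → ℂ} (ht : Tan S.E (fun i a => l i * S.pt c x i a) t) :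
    ∃ (u : Cn n) (al : I → ℂ),
      t = fun i a => l i * dpt S c x u i a + al i * S.pt c x i a := by
  classical
  -- the linear map
  let Λ : (Cn n × (I → ℂ)) →ₗ[ℂ] ((Σ i, S.J i) → ℂ) :=
    { toFun := fun q y => l y.1 * dpt S c x q.1 y.1 y.2 + q.2 y.1 * S.pt c x y.1 y.2
      map_add' := fun q q' => by
        funext y
        have h1 : dpt S c x (q + q').1 y.1 y.2 = dpt S c x q.1 y.1 y.2 + dpt S c x q'.1 y.1 y.2 :=
          map_add _ _ _
        simp only [Pi.add_apply, h1, Prod.snd_add]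
        ring
      map_smul' := fun b q => by
        funext y
        have h1 : dpt S c x (b • q).1 y.1 y.2 = b * dpt S c x q.1 y.1 y.2 :=
          map_smul _ _ _
        simp only [Pi.smul_apply, h1, Prod.smul_snd, smul_eq_mul, RingHom.id_apply]
        ring }
  have hΛ : ∀ q y, Λ q y = l y.1 * dpt S c x q.1 y.1 y.2 + q.2 y.1 * S.pt c x y.1 y.2 :=
    fun _ _ => rfl
  let t' : (Σ i, S.J i) → ℂ := fun y => t y.1 y.2
  by_cases hmem : t' ∈ LinearMap.range Λ
  · obtain ⟨q, hq⟩ := hmem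
    refine ⟨q.1, q.2, ?_⟩
    funext i a
    exact (congrFun hq ⟨i, a⟩).symm
  exfalso
  obtain ⟨φ, hφt, hφ⟩ := Submodule.exists_le_ker_of_notMem hmem
  let f : (Σ i, S.J i) → ℂ := fun y => φ (fun j => if y = j then 1 else 0)
  have hφf : ∀ w : (Σ i, S.J i) → ℂ, φ w = ∑ i, ∑ a, f ⟨i, a⟩ * w ⟨i, a⟩ := by
    intro w
    rw [LinearMap.pi_apply_eq_sum_univ φ w, Fintype.sum_sigma]
    refine Finset.sum_congr rfl fun i _ => Finset.sum_congr rfl fun a _ => ?_
    rw [smul_eq_mul, mul_comm]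
  have hker : ∀ q, φ (Λ q) = 0 := fun q => hφ ⟨q, rfl⟩
  -- the functional kills the Euler directions
  have hE : ∀ i, ∑ a, f ⟨i, a⟩ * S.pt c x i a = 0 := by
    intro i
    have h1 := hker (0, Pi.single i 1)
    rw [hφf] at h1
    rw [Finset.sum_eq_single i] at h1
    · rw [← h1]
      refine Finset.sum_congr rfl fun a _ => ?_
      rw [hΛ]
      have h2 : dpt S c x (0 : Cn n) i a = 0 := map_zero _
      simp [h2]
    · intro j _ hj
      refine Finset.sum_eq_zero fun a _ => ?_
      rw [hΛ]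
      have h2 : dpt S c x (0 : Cn n) j a = 0 := map_zero _
      simp [h2, hj]
    · intro h
      exact absurd (Finset.mem_univ i) h
  have hU : ∀ u : Cn n, ∑ i, l i * ∑ a, f ⟨i, a⟩ * dpt S c x u i a = 0 := by
    intro u
    have h1 := hker (u, 0)
    rw [hφf] at h1
    rw [← h1]
    refine Finset.sum_congr rfl fun i _ => ?_
    rw [Finset.mul_sum]
    refine Finset.sum_congr rfl fun a _ => ?_
    rw [hΛ]
    simp only [Pi.zero_apply, zero_mul, add_zero]
    ring
  -- coordinates which do not vanish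
  have hne : ∀ i, ∃ a, S.pt c x i a ≠ 0 := fun i => by
    by_contra h
    push Not at h
    exact S.pt_ne hx i (funext h)
  choose a0 ha0 using hne
  obtain ⟨i1⟩ := ‹Nonempty I›
  let κ : I → ℂ := fun i => (∏ j ∈ Finset.univ.erase i, l j * S.pt c x j (a0 j))⁻¹
  let Q := P0 S κ f a0
  have hQ : Q = P0 S κ f a0 := rfl
  -- vanishing of cohomology
  obtain ⟨m0, hV⟩ := solv_large PA hD (fs_pos (S.P i1))
    (L ^ (∑ i ∈ Finset.univ.erase i1, S.β i))
  let m := m0 + n
  let Pm : MvPolynomial (Σ i, S.J i) ℂ := MvPolynomial.X ⟨i1, a0 i1⟩ ^ m * Q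
  let d : I → ℕ := fun i => if i = i1 then m + 1 else 1
  let d' : I → ℕ := fun i => if i = i1 then m else 1
  have hX : ∀ y : Σ i, S.J i, MHd (MvPolynomial.X y : MvPolynomial (Σ i, S.J i) ℂ)
      (Pi.single y.1 1) := fun y => by
    have := MvPolynomial.isWeightedHomogeneous_X ℂ
      (fun x : Σ i, S.J i => (Pi.single x.1 1 : I → ℕ)) y
    unfold MHd
    convert this
  have hm : ∀ {p q : MvPolynomial (Σ i, S.J i) ℂ} {d d' : I → ℕ}, MHd p d → MHd q d' →
      MHd (p * q) (d + d') := fun h h' => MvPolynomial.IsWeightedHomogeneous.mul h h'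
  have hXm : ∀ k : ℕ, MHd ((MvPolynomial.X ⟨i1, a0 i1⟩ : MvPolynomial (Σ i, S.J i) ℂ) ^ k)
      (k • Pi.single i1 1) := by
    intro k
    have := MvPolynomial.IsWeightedHomogeneous.pow (hX ⟨i1, a0 i1⟩) k
    unfold MHd
    convert this
  have hPm : MHd Pm d := by
    have h1 := hm (hXm m) (P0_MHd S κ f a0)
    have h2 : (m • Pi.single i1 1 + fun _ => 1 : I → ℕ) = d := by
      funext i
      by_cases hi : i = i1
      · subst hi
        simp [d]
      · simp [d, hi]
    rw [h2] at h1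
    exact h1
  -- the section and its second order vanishing
  have hs := isHS_sv S hPm
  rw [lb_mul_pow S i1 (m + 1) d (by simp [d]) (fun i hi => by simp [d, hi])] at hs
  have hv0 : ∀ i, ∑ a, f ⟨i, a⟩ * (fun y : Σ i, S.J i => S.pt c x y.1 y.2) ⟨i, a⟩ = 0 := hE
  have hs0 : sv S Pm c x = 0 := by
    rw [sv_eq S Pm hx]
    have h1 : MvPolynomial.aeval (fun y : Σ i, S.J i => S.pt c x y.1 y.2) Pm = 0 := by
      rw [map_mul, aeval_P0 S κ f a0 hv0, mul_zero]
    rw [aeval_eq] at h1
    exact h1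
  have hs1 : fderiv ℂ (fun w => sv S Pm c ((A.e c).symm w)) (A.e c x) = 0 := by
    ext1 u
    have h1 : (fun w => sv S Pm c ((A.e c).symm w)) =ᶠ[𝓝 (A.e c x)]
        fun w => S.ev c ((A.e c).symm w) Pm := by
      filter_upwards [(A.e c).open_target.mem_nhds ((A.e c).map_source hx)] with w hw
      exact sv_eq S Pm ((A.e c).map_target hw)
    rw [h1.fderiv_eq, ev_fderiv S c hx Pm u, Dv_mul, aeval_P0 S κ f a0 hv0, mul_zero, zero_add,
      Dv_P0 S κ f a0 hv0]
    have h2 : ∀ i, κ i * ((∑ a, f ⟨i, a⟩ * dpt S c x u i a) *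
        ∏ j ∈ Finset.univ.erase i, S.pt c x j (a0 j)) =
        (∏ j, l j)⁻¹ * (l i * ∑ a, f ⟨i, a⟩ * dpt S c x u i a) := by
      intro i
      have h3 : (∏ j ∈ Finset.univ.erase i, S.pt c x j (a0 j)) ≠ 0 :=
        Finset.prod_ne_zero_iff.2 fun j _ => ha0 j
      have h4 : (∏ j ∈ Finset.univ.erase i, l j) ≠ 0 :=
        Finset.prod_ne_zero_iff.2 fun j _ => hl j
      have h5 : (∏ j, l j) = l i * ∏ j ∈ Finset.univ.erase i, l j :=
        (Finset.mul_prod_erase Finset.univ l (Finset.mem_univ i)).symm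
      have h6 : κ i = ((∏ j ∈ Finset.univ.erase i, l j) *
          ∏ j ∈ Finset.univ.erase i, S.pt c x j (a0 j))⁻¹ := by
        rw [← Finset.prod_mul_distrib]
      rw [h6, h5]
      have h7 := hl i
      field_simp
    have h8 : (∑ i, κ i * ((∑ a, f ⟨i, a⟩ * dpt S c x u i a) *
        ∏ j ∈ Finset.univ.erase i, S.pt c x j (a0 j))) = 0 := by
      rw [Finset.sum_congr rfl fun i _ => h2 i, ← Finset.mul_sum, hU u, mul_zero]
    refine Eq.trans (congrArg _ h8) ?_
    simp
  -- division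
  obtain ⟨w, hw, hsw, hw0⟩ := div_at (ofProj (S.P i1))
    (fun y z h => (rel_sec_iff (S.P i1)).1 h)
    (L ^ (∑ i ∈ Finset.univ.erase i1, S.β i)) (le_refl (m0 + n)) hV hx (k0 := a0 i1)
    (by
      have h1 : sec (S.P i1) (a0 i1) c x = (S.P i1).F c x (a0 i1) := sec_eq (S.P i1) hx _
      show sec (S.P i1) (a0 i1) c x ≠ 0
      rw [h1]
      exact ha0 i1) hs hs0
  have hW : ∀ k, ∃ p : MvPolynomial (Σ i, S.J i) ℂ, MHd p d' ∧ ∀ c, ∀ x ∈ (A.e c).source,
      w k c x = S.ev c x p := by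
    intro k
    have h1 := hw k
    have h2 := lb_mul_pow S i1 m d' (by simp [d']) (fun i hi => by simp [d', hi])
    rw [← h2] at h1
    exact S.gen d' (w k) h1
  choose W hWd hWe using hW
  -- the relation
  let a : S.J i1 → ℂ := fun k => (ofProj (S.P i1)).F k c x
  have ha : ∀ k, a k = S.pt c x i1 k := fun k => sec_eq (S.P i1) hx k
  let Z : MvPolynomial (Σ i, S.J i) ℂ := Pm - ∑ k, Lf S i1 a (a0 i1) k * W k
  have hZE : Z ∈ S.E := by
    refine ⟨⟨d, ?_⟩, fun c' x' hx' => ?_⟩
    · have h1 : ∀ k, MHd (Lf S i1 a (a0 i1) k * W k) d := by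
        intro k
        have h2 := hm (Lf_MHd S i1 a (a0 i1) k) (hWd k)
        have h3 : (Pi.single i1 1 + d' : I → ℕ) = d := by
          funext i
          by_cases hi : i = i1
          · subst hi
            simp [d, d', add_comm]
          · simp [d, d', hi]
        rw [← h3]
        unfold MHd at h2 ⊢
        convert h2
      exact (MvPolynomial.weightedHomogeneousSubmodule ℂ _ _).sub_mem hPm
        (Submodule.sum_mem _ fun k _ => h1 k)
    · have h1 : sv S Pm c' x' = ∑ k, ((ofProj (S.P i1)).lform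
          (fun k => (ofProj (S.P i1)).F k c x) (a0 i1) k * w k) c' x' := by
        conv_lhs => rw [hsw]
        rw [Finset.sum_apply, Finset.sum_apply]
      rw [sv_eq S Pm hx'] at h1
      unfold MSys.ev at h1 ⊢
      show MvPolynomial.eval _ (Pm - ∑ k, Lf S i1 a (a0 i1) k * W k) = 0
      rw [map_sub, map_sum, h1, sub_eq_zero]
      refine Finset.sum_congr rfl fun k _ => ?_
      rw [map_mul, Pi.mul_apply, Pi.mul_apply, hWe k c' x' hx', FD.lform_apply]
      congr 1
      have h2 := Lf_aeval S i1 a (a0 i1) k (fun y : Σ i, S.J i => S.pt c' x' y.1 y.2)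
      rw [aeval_eq] at h2
      rw [h2]
      have h3 : ∀ k, (ofProj (S.P i1)).F k c' x' = S.pt c' x' i1 k := fun k =>
        sec_eq (S.P i1) hx' k
      rw [h3, h3]
      rfl
  have hT := (tan_def S _ _).1 ht Z hZE
  -- evaluation at the scaled point
  have hv1 : ∀ i, ∑ a, f ⟨i, a⟩ * (fun y : Σ i, S.J i => l y.1 * S.pt c x y.1 y.2) ⟨i, a⟩ = 0 := by
    intro i
    have h1 : ∑ a, f ⟨i, a⟩ * (l i * S.pt c x i a) = l i * ∑ a, f ⟨i, a⟩ * S.pt c x i a := by
      rw [Finset.mul_sum]
      exact Finset.sum_congr rfl fun a _ => by ring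
    rw [hE i, mul_zero] at h1
    exact h1
  have hLf0 : ∀ k, MvPolynomial.aeval (fun y : Σ i, S.J i => l y.1 * S.pt c x y.1 y.2)
      (Lf S i1 a (a0 i1) k) = 0 := by
    intro k
    rw [Lf_aeval, ha, ha, Algebra.algebraMap_self]
    simp only [RingHom.id_apply]
    ring
  have hW0 : ∀ k, MvPolynomial.aeval (fun y : Σ i, S.J i => l y.1 * S.pt c x y.1 y.2)
      (W k) = 0 := by
    intro k
    have h1 := eval_scale (hWd k) l (S.pt c x)
    rw [h1, aeval_eq]
    have h2 : MvPolynomial.eval (fun y : Σ i, S.J i => S.pt c x y.1 y.2) (W k) = 0 := by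
      have h3 := hWe k c x hx
      rw [hw0 hs1 k] at h3
      exact h3.symm
    rw [h2, mul_zero]
  rw [Dv_sub, Dv_sum] at hT
  have hT2 : (∑ k, Dv (fun y : Σ i, S.J i => l y.1 * S.pt c x y.1 y.2)
      (fun y : Σ i, S.J i => t y.1 y.2) (Lf S i1 a (a0 i1) k * W k)) = 0 :=
    Finset.sum_eq_zero fun k _ => by rw [Dv_mul, hLf0 k, hW0 k, mul_zero, zero_mul, add_zero]
  rw [hT2, sub_zero, Dv_mul, aeval_P0 S κ f a0 hv1, mul_zero, zero_add, map_pow,
    MvPolynomial.aeval_X, Dv_P0 S κ f a0 hv1] at hT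
  have h9 : ∀ i, κ i * ((∑ a, f ⟨i, a⟩ * t i a) *
      ∏ j ∈ Finset.univ.erase i, (l j * S.pt c x j (a0 j))) = ∑ a, f ⟨i, a⟩ * t i a := by
    intro i
    have h3 : (∏ j ∈ Finset.univ.erase i, (l j * S.pt c x j (a0 j))) ≠ 0 :=
      Finset.prod_ne_zero_iff.2 fun j _ => mul_ne_zero (hl j) (ha0 j)
    show (∏ j ∈ Finset.univ.erase i, l j * S.pt c x j (a0 j))⁻¹ * _ = _
    field_simp
  have h10 : (∑ i, κ i * ((∑ a, f ⟨i, a⟩ * t i a) *
      ∏ j ∈ Finset.univ.erase i, (l j * S.pt c x j (a0 j)))) = φ t' := by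
    rw [hφf, Finset.sum_congr rfl fun i _ => h9 i]
  have h11 : (l i1 * S.pt c x i1 (a0 i1)) ^ m * φ t' = 0 := by
    rw [← h10]
    exact hT
  exact hφt ((mul_eq_zero.1 h11).resolve_left (pow_ne_zero _ (mul_ne_zero (hl i1) (ha0 i1))))

/-- **the tangent vectors of the multicone** -/
theorem tan_iff [T2Space M] [ConnectedSpace M] [CompactSpace M] [Finite A.ι] [Nonempty I]
    (PA : Part A) (hD : D2 A) {c : A.ι} {x : M} (hx : x ∈ (A.e c).source) (l : I → ℂ)
    (hl : ∀ i, l i ≠ 0) (t : ∀ i, S.J i → ℂ) :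
    Tan S.E (fun i a => l i * S.pt c x i a) t ↔ ∃ (u : Cn n) (al : I → ℂ),
      t = fun i a => l i * dpt S c x u i a + al i * S.pt c x i a := by
  constructor
  · exact of_tan S PA hD hx l hl
  · rintro ⟨u, al, rfl⟩
    exact tan_of S hx l u al

/-- one block is enough -/
theorem dpt_inj_block {c : A.ι} {x : M} (hx : x ∈ (A.e c).source) {u : Cn n} (i : I)
    (h : ∃ b : ℂ, ∀ a, dpt S c x u i a = b * S.pt c x i a) : u = 0 := by
  obtain ⟨b, hb⟩ := h
  refine (S.P i).imm c (A.e c x) ((A.e c).map_source hx) u ⟨b, funext fun a => ?_⟩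
  have h3 := fderiv_pi (h := fun k => pt_diff S c hx i k)
  have h4 : fderiv ℂ (fun w => (S.P i).F c ((A.e c).symm w)) (A.e c x) u a =
      dpt S c x u i a := by
    rw [show (fun w => fun k => S.pt c ((A.e c).symm w) i k) =
      fun w => (S.P i).F c ((A.e c).symm w) from rfl] at h3
    rw [h3]
    rfl
  rw [h4, hb a, (A.e c).left_inv hx]
  rfl

theorem dpt_inj [Nonempty I] {c : A.ι} {x : M} (hx : x ∈ (A.e c).source) {u : Cn n}
    (h : ∃ al : I → ℂ, ∀ i a, dpt S c x u i a = al i * S.pt c x i a) : u = 0 := by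
  obtain ⟨al, hal⟩ := h
  obtain ⟨i⟩ := ‹Nonempty I›
  exact dpt_inj_block S hx i ⟨al i, hal i⟩

/-- the linear parametrisation of the tangent space -/
def tanMap (c : A.ι) (x : M) (l : I → ℂ) : (Cn n × (I → ℂ)) →ₗ[ℂ] (∀ i, S.J i → ℂ) where
  toFun q := fun i a => l i * dpt S c x q.1 i a + q.2 i * S.pt c x i a
  map_add' q q' := by
    funext i a
    have h1 : dpt S c x (q + q').1 i a = dpt S c x q.1 i a + dpt S c x q'.1 i a := map_add _ _ _
    simp only [Pi.add_apply, h1, Prod.snd_add]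
    ring
  map_smul' b q := by
    funext i a
    have h1 : dpt S c x (b • q).1 i a = b * dpt S c x q.1 i a := map_smul _ _ _
    simp only [Pi.smul_apply, h1, Prod.smul_snd, smul_eq_mul, RingHom.id_apply]
    ring

theorem tanMap_injective [Nonempty I] {c : A.ι} {x : M} (hx : x ∈ (A.e c).source) {l : I → ℂ}
    (hl : ∀ i, l i ≠ 0) : Function.Injective (tanMap S c x l) := by
  rw [← LinearMap.ker_eq_bot, LinearMap.ker_eq_bot']
  intro q hq
  have h1 : ∀ i a, l i * dpt S c x q.1 i a + q.2 i * S.pt c x i a = 0 := fun i a =>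
    congrFun (congrFun hq i) a
  have h2 : q.1 = 0 := dpt_inj S hx ⟨fun i => - q.2 i / l i, fun i a => by
    have h3 := h1 i a
    have h4 := hl i
    rw [div_mul_eq_mul_div, eq_div_iff h4]
    linear_combination h3⟩
  have h3 : q.2 = 0 := by
    funext i
    obtain ⟨a, ha⟩ := Function.ne_iff.1 (S.pt_ne hx i)
    have h4 := h1 i a
    have h5 : dpt S c x q.1 i a = 0 := by
      rw [h2]
      exact map_zero _
    rw [h5, mul_zero, zero_add] at h4
    exact (mul_eq_zero.1 h4).resolve_right ha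
  exact Prod.ext h2 h3

/-- **the dimension of the tangent spaces of the multicone** -/
theorem tan_rank [T2Space M] [ConnectedSpace M] [CompactSpace M] [Finite A.ι] [Nonempty I]
    (PA : Part A) (hD : D2 A) {c : A.ι} {x : M} (hx : x ∈ (A.e c).source) (l : I → ℂ)
    (hl : ∀ i, l i ≠ 0) :
    Module.finrank ℂ (TanSp S.E (fun i a => l i * S.pt c x i a)) = n + Fintype.card I := by
  have h1 : TanSp S.E (fun i a => l i * S.pt c x i a) = LinearMap.range (tanMap S c x l) := by
    ext t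
    constructor
    · intro ht
      obtain ⟨u, al, h⟩ := (tan_iff S PA hD hx l hl t).1 ht
      exact ⟨(u, al), h.symm⟩
    · rintro ⟨q, rfl⟩
      exact tan_of S hx l q.1 q.2
  rw [h1, LinearMap.finrank_range_of_inj (tanMap_injective S hx hl), Module.finrank_prod,
    finrank_euclideanSpace_fin, Module.finrank_fintype_fun_eq_card]

end

end Crest.Agent.R260.Zt4_313
end

-- ▼ part R260/Ga2_323
section

set_option autoImplicit false
set_option linter.unusedSectionVars false

/-!
# Row 260 (S0398), GAGA-TH, part 2 (helper323): generating systems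

* `exists_lsys` : `L` positive, `A` projective (some `ProjD A`) ⟹ for all large exponents there
  is a generating system `LSys L I`.
* `LSys.solv`   : vanishing.
-/

open Set Filter Topology Complex MvPolynomial
open scoped ContDiff Matrix ComplexConjugate

namespace Crest.Agent.R260.Ga_323

open Crest.Agent.R275 Crest.Agent.R275.Geo Crest.Agent.R275.Core144 Crest.Agent.R275.Dg199
open Crest.Agent.R273.SerA_945 Crest.Agent.R273.Defs_333 Crest.Agent.R273.SerB_945
open Crest.Agent.R273.SerC_945 Crest.Agent.R273.SerE_945 Crest.Agent.R273.KosGen_313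
open Crest.Agent.R273.FS_333 Crest.Agent.R273.TD3_733 Crest.Agent.R273.Kah_333
open Crest.Agent.R270.BM_360

noncomputable section

variable {n : ℕ} {M : Type} [TopologicalSpace M] {A : Atl n M}

/-- sections of `L ^ e` -/
abbrev VV (L : LB A) (e : ℕ) : Submodule ℂ (Fn A) := HS (L ^ e) univ

theorem VV_mul (L : LB A) (e f : ℕ) : VV L e * VV L f ≤ VV L (e + f) := by
  rw [Submodule.mul_le]
  intro u hu w hw
  show IsHS (L ^ (e + f)) univ (u * w)
  rw [pow_add]
  exact IsHS.mul hu hw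

/-- `L ^ m` twisted by a negative power of `O(1)` is globally generated for `m` large -/
theorem ggen_twist [T2Space M] [CompactSpace M] (P : ProjD A) (L : LB A) {m : ℕ} (c : ℕ)
    (hV : ∀ p, p ≤ n + c → ∀ q, 1 ≤ q → Solv (L ^ m * (lb P)⁻¹ ^ p) q) :
    GGen (L ^ m * (lb P)⁻¹ ^ c) := by
  refine gg_fin_of fun x0 => ?_
  obtain ⟨ℓ, h1, h2, h3⟩ := (ofProj P).exists_forms x0
  have h4 : ∀ y, Rel (ofProj P).F x0 y ↔ x0 = y := fun y => rel_sec_iff P
  obtain ⟨s, hs, hs0⟩ := exists_at (lb P) (fun p => L ^ m * (lb P)⁻¹ ^ (c + p))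
    (fun p => by
      show L ^ m * (lb P)⁻¹ ^ (c + (p + 1)) * lb P = _
      rw [← add_assoc, pow_succ, ← mul_assoc, inv_mul_cancel_right])
    ℓ h1 x0 (fun j i => h2 j i x0 ((h4 x0).2 rfl))
    (fun i x hx hne => h3 i x hx fun h => hne ((h4 x).1 h).symm)
    (fun q hq hqn => hV _ (by omega) q hq)
  exact ⟨s, hs, hs0⟩

section Main

variable [T2Space M] [CompactSpace M] [Finite A.ι]

theorem exists_bounds (PA : Part A) (P : ProjD A) {L : LB A} (hL : HM L) (hp : hL.Pos) :
    ∃ m1 : ℕ, 0 < m1 ∧ (∀ m, m1 ≤ m → ∀ p, p ≤ n + 1 → ∀ q, 1 ≤ q →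
      Solv (L ^ m * (lb P)⁻¹ ^ p) q) := by
  have hD : D2 A := Crest.Agent.R273.D13_505.d2 PA (kah (fs P) (fs_pos P))
  choose f hf using fun p : ℕ => solv_large PA hD hp ((lb P)⁻¹ ^ p)
  refine ⟨(Finset.range (n + 2)).sup f + 1, by omega, fun m hm p hpn q hq => ?_⟩
  rw [mul_comm]
  refine hf p m ?_ q hq
  have : f p ≤ (Finset.range (n + 2)).sup f := Finset.le_sup (Finset.mem_range.2 (by omega))
  omega

theorem vv_step {L : LB A} {m1 : ℕ} (hV : ∀ m, m1 ≤ m → ∀ q, 1 ≤ q → Solv (L ^ m) q) {g f : ℕ}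
    (hg : GGen (L ^ g)) (hf : m1 + g * n ≤ f) : VV L (g + f) ≤ VV L g * VV L f := by
  obtain ⟨r, F, hF, hne⟩ := hg
  intro s hs
  have hN : ∀ p : ℕ, (L ^ (g + f) * (L ^ g)⁻¹ ^ (p + 1)) * L ^ g = L ^ (g + f) * (L ^ g)⁻¹ ^ p := by
    intro p
    rw [pow_succ, ← mul_assoc, inv_mul_cancel_right]
  have hNq : ∀ q : ℕ, g * q ≤ g + f → L ^ (g + f) * (L ^ g)⁻¹ ^ q = L ^ (g + f - g * q) := by
    intro q hq
    have e1 : L ^ (g + f) = L ^ (g + f - g * q) * (L ^ g) ^ q := by
      rw [← pow_mul, ← pow_add, Nat.sub_add_cancel hq]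
    rw [e1, mul_assoc, inv_pow, mul_inv_cancel, mul_one]
  have h1 : IsHS ((fun p : ℕ => L ^ (g + f) * (L ^ g)⁻¹ ^ p) 0) univ s := by
    show IsHS (L ^ (g + f) * (L ^ g)⁻¹ ^ 0) univ _
    rw [hNq 0 (by omega)]
    simpa using hs
  obtain ⟨w, hw, hs'⟩ := kosgen (L ^ g) (fun p => L ^ (g + f) * (L ^ g)⁻¹ ^ p) hN F hF hne
    (fun q hq hqn => by
      have h2 : g * (q + 1) ≤ g + f := by
        have : g * q ≤ g * n := Nat.mul_le_mul_left g hqn
        rw [mul_add, mul_one]
        omega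
      show Solv (L ^ (g + f) * (L ^ g)⁻¹ ^ (q + 1)) q
      rw [hNq (q + 1) h2]
      refine hV _ ?_ q hq
      have : g * q ≤ g * n := Nat.mul_le_mul_left g hqn
      rw [mul_add, mul_one]
      omega) h1
  rw [hs']
  refine Submodule.sum_mem _ fun k _ => Submodule.mul_mem_mul (hF k) ?_
  have h2 := hw k
  rw [hNq 1 (by omega)] at h2
  have e : g + f - g * 1 = f := by omega
  rw [e] at h2
  exact h2

/-- for `e`, `f` large, `V e * V f = V (e + f)` -/
theorem vv_gen (PA : Part A) (P : ProjD A) {L : LB A} (hL : HM L) (hp : hL.Pos) :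
    ∃ K : ℕ, 0 < K ∧ (∀ e f, K ≤ e → K ≤ f → VV L (e + f) ≤ VV L e * VV L f) ∧
      (∀ m, K ≤ m → ∃ P' : ProjD A, lb P' = L ^ m) ∧
      (∀ m, K ≤ m → ∀ q, 1 ≤ q → Solv (L ^ m) q) := by
  obtain ⟨m1, hm1, hV⟩ := exists_bounds PA P hL hp
  have hV0 : ∀ m, m1 ≤ m → ∀ q, 1 ≤ q → Solv (L ^ m) q := by
    intro m hm q hq
    have := hV m hm 0 (by omega) q hq
    rwa [pow_zero, mul_one] at this
  have hG : ∀ m, m1 ≤ m → GGen (L ^ m) := by
    intro m hm
    have := ggen_twist P L 0 fun p hp' q hq => hV m hm p (by omega) q hq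
    rwa [pow_zero, mul_one] at this
  have hP : ∀ m, m1 ≤ m → ∃ P' : ProjD A, lb P' = L ^ m := by
    intro m hm
    obtain ⟨P', h⟩ := projMul P (ggen_twist P L 1 fun p hp' q hq => hV m hm p (by omega) q hq)
    refine ⟨P', ?_⟩
    rw [h, pow_one, inv_mul_cancel_right]
  let F0 := m1 + 2 * m1 * n
  have hQ : ∀ e, m1 ≤ e → ∀ f, F0 ≤ f → VV L (e + f) ≤ VV L e * VV L f := by
    intro e
    induction e using Nat.strong_induction_on with
    | _ e ih =>
      intro he f hf
      by_cases h2 : e ≤ 2 * m1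
      · refine vv_step hV0 (hG e he) (le_trans ?_ hf)
        show m1 + e * n ≤ m1 + 2 * m1 * n
        have := Nat.mul_le_mul_right n h2
        omega
      · have e1 : e + f = m1 + ((e - m1) + f) := by omega
        have e2 : m1 + (e - m1) = e := by omega
        have h3 : VV L (m1 + ((e - m1) + f)) ≤ VV L m1 * VV L ((e - m1) + f) := by
          refine vv_step hV0 (hG m1 le_rfl) (le_trans ?_ (le_trans hf (by omega)))
          show m1 + m1 * n ≤ m1 + 2 * m1 * n
          nlinarith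
        have h4 := ih (e - m1) (by omega) (by omega) f hf
        rw [e1]
        refine h3.trans ((mul_le_mul_right h4 _).trans ?_)
        rw [← mul_assoc]
        refine mul_le_mul_left ?_ _
        have h5 := VV_mul L m1 (e - m1)
        rwa [e2] at h5
  refine ⟨F0 + 1, by omega, fun e f he hf => hQ e ?_ f (by omega), fun m hm => hP m ?_,
    fun m hm => hV0 m ?_⟩
  · have : m1 ≤ F0 := Nat.le_add_right _ _
    omega
  · have : m1 ≤ F0 := Nat.le_add_right _ _
    omega
  · have : m1 ≤ F0 := Nat.le_add_right _ _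
    omega

/-! ### polynomials in the sections -/

section Poly

variable {L : LB A} {I : Type} [Fintype I] [DecidableEq I] {J : I → Type} [∀ i, Fintype (J i)]
  (F : ∀ i, J i → Fn A)

/-- the functions which are multihomogeneous polynomials of multidegree `d` -/
def WW (d : I → ℕ) : Submodule ℂ (Fn A) where
  carrier := {s | ∃ p : MvPolynomial (Σ i, J i) ℂ, MH p d ∧ ∀ c, ∀ x ∈ (A.e c).source,
      s c x = eval (fun y => F y.1 y.2 c x) p}
  add_mem' := by
    rintro s t ⟨p, hp, h1⟩ ⟨q, hq, h2⟩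
    refine ⟨p + q, hp.add hq, fun c x hx => ?_⟩
    rw [map_add, ← h1 c x hx, ← h2 c x hx]
    rfl
  zero_mem' := ⟨0, isWeightedHomogeneous_zero _ _ _, fun c x hx => by rw [map_zero]; rfl⟩
  smul_mem' := by
    rintro a s ⟨p, hp, h1⟩
    refine ⟨C a * p, ?_, fun c x hx => ?_⟩
    · have := (isWeightedHomogeneous_C (mw J) a).mul hp
      rwa [zero_add] at this
    · rw [map_mul, eval_C, ← h1 c x hx]
      rfl



end Poly


end Main

end

end Crest.Agent.R260.Ga_323
end

-- ▼ part R260/Br5_592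
section

/-!
# R260 (S0398), AG-BRIDGE, part 5 (helper592)

* `exists_msys_pos` : systems `MSys A L I` from a positive `L` and any `ProjD A`;
* `bridge_of`       : `BridgeS → Bridge`.
-/

set_option autoImplicit false
set_option linter.unusedSectionVars false

open Set Filter Topology Complex
open scoped ContDiff Matrix ComplexConjugate

namespace Crest.Agent.R260.Br5_592

open Crest.Agent.R275 Crest.Agent.R275.Geo Crest.Agent.R275.Core144
open Crest.Agent.R273.Defs_333 Crest.Agent.R273.FS_333 Crest.Agent.R273.SerA_945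
open Crest.Agent.R273.SerE_945 Crest.Agent.R273.TD3_733
open Crest.Agent.R270.BM_360 Crest.Agent.R260.BrDefs_592 Crest.Agent.R260.Br1_592
open Crest.Agent.R260.BrIf_592
open Crest.Agent.R260.Ga_323 (VV vv_gen OneForm Contact)

noncomputable section

variable {n : ℕ} {M : Type} [TopologicalSpace M] {A : Atl n M}

theorem mul_of_vv {L : LB A} {k j : ℕ} (h : VV L (k + j) ≤ VV L k * VV L j) : Mul L k j := by
  intro t ht
  have h1 : t ∈ VV L k * VV L j := h ht
  refine Submodule.mul_induction_on h1 (fun s hs s' hs' => ?_) fun x y hx hy =>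
    Submodule.add_mem _ hx hy
  exact Submodule.subset_span ⟨s, s', hs, hs', rfl⟩

variable [T2Space M] [ConnectedSpace M] [CompactSpace M] [Finite A.ι]

/-- the Hodge theorem for a projective manifold -/
theorem d2_proj (PA : Part A) (P : ProjD A) : D2 A :=
  Crest.Agent.R273.D13_505.d2 PA (fsKah P)

theorem exists_msys_pos (PA : Part A) (P : ProjD A) {L : LB A} (hL : HM L) (hp : hL.Pos)
    (I : Type) [Fintype I] :
    ∃ K : ℕ, ∀ β : I → ℕ, (∀ i, K ≤ β i) → ∃ S : MSys A L I, S.β = β := by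
  obtain ⟨K, hK0, hK, hP, -⟩ := vv_gen PA P hL hp
  refine ⟨K, fun β hβ => ?_⟩
  have h1 : ∀ i, ∃ P' : ProjD A, lb P' = L ^ β i ∧ Complete P' := by
    intro i
    obtain ⟨P', hP'⟩ := hP (β i) (hβ i)
    obtain ⟨P'', h1, h2⟩ := exists_complete PA P'
    exact ⟨P'', h1.trans hP', h2⟩
  choose P' hP' hc using h1
  have hM : ∀ k, K ≤ k → ∀ j, K ≤ j → Mul L k j := fun k hk j hj => mul_of_vv (hK k j hk hj)
  exact ⟨⟨β, fun i => by have := hβ i; omega, P', hP', fun d t ht =>
    rep_all hM hβ hP' hc _ d rfl t ht⟩, rfl⟩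

end

/-- **`BridgeS` implies `Bridge`** -/
theorem bridge_of (H : BridgeS) : Bridge := by
  intro m M _ _ _ _ A _ hPA L h hp Pr θ hθ
  obtain ⟨PA⟩ := hPA
  obtain ⟨K, hK⟩ := exists_msys_pos PA Pr h hp (Fin 2)
  refine ⟨K, fun k hk => ?_⟩
  obtain ⟨S, hS⟩ := hK ![k, k + 1] (fun i => by
    fin_cases i
    · exact hk
    · exact hk.trans (Nat.le_succ k))
  refine ⟨S, hS, H m M A ⟨PA⟩ (d2_proj PA Pr) L (Fin 2) S ![-1, 1] ?_ θ hθ⟩
  rw [hS, Fin.sum_univ_two]
  simp

end Crest.Agent.R260.Br5_592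
end

-- ▼ part R260/Ga6_323

set_option autoImplicit false
set_option linter.unusedSectionVars false

/-!
# Row 260 (S0398), GAGA-TH, part 6 (helper323): the contact data in tuple language

* `PF.dform_eul` : `dP(E_a, t) = (∑ a_i (N + w_i)) P(t)`;
* `PF.dform_dpt` : `dP(l • dpt u, l • dpt u') = g * dθ(u, u')` if `θ(u) = θ(u') = 0`;
* `exists_cdata`, `bridgeS : BridgeS`, `bridge : Bridge`.
-/

open Set Filter Topology Complex
open scoped ContDiff Matrix ComplexConjugate

namespace Crest.Agent.R260.Ga_323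

open Crest.Agent.R275 Crest.Agent.R275.Geo Crest.Agent.R275.Core144
open Crest.Agent.R273.SerE_945 Crest.Agent.R273.TD3_733
open Crest.Agent.R273.Defs_333 Crest.Agent.R273.SerA_945
open Crest.Agent.R270.BM_360 Crest.Agent.R260.BrDefs_592 Crest.Agent.R260.Br1_592
open Crest.Agent.R260.Br2_592 Crest.Agent.R260.Lin_678

noncomputable section

/-! ### Euler's relation -/

section Eul

variable {k : Type*} [CommRing k] {I : Type} {J : I → Type} [∀ i, Fintype (J i)]

theorem mhd_euler {p : MvPolynomial (Σ i, J i) k} {d : I → ℕ} (hp : MHd p d) (i : I)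
    {B : Type*} [CommRing B] [Algebra k B] (v : (Σ i, J i) → B) :
    ∑ a, MvPolynomial.aeval v (MvPolynomial.pderiv ⟨i, a⟩ p) * v ⟨i, a⟩ =
      (d i : B) * MvPolynomial.aeval v p := by
  have h0 : ∑ a, MvPolynomial.X ⟨i, a⟩ * MvPolynomial.pderiv ⟨i, a⟩ p =
      ((d i : ℕ) : MvPolynomial (Σ i, J i) k) * p := by
    conv_lhs => rw [p.as_sum]
    conv_rhs => rw [p.as_sum]
    simp only [map_sum, Finset.mul_sum]
    rw [Finset.sum_comm]
    refine Finset.sum_congr rfl fun m hm => ?_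
    have h1 : ∀ a : J i, MvPolynomial.X ⟨i, a⟩ * MvPolynomial.pderiv ⟨i, a⟩
        (MvPolynomial.monomial m (p.coeff m)) =
        (m ⟨i, a⟩) • MvPolynomial.monomial m (p.coeff m) := fun a =>
      MvPolynomial.X_mul_pderiv_monomial
    rw [Finset.sum_congr rfl fun a _ => h1 a, ← Finset.sum_smul, nsmul_eq_mul,
      ← mhd_support hp hm i]
  have h2 := congrArg (MvPolynomial.aeval v) h0
  rw [map_sum, map_mul, map_natCast] at h2
  rw [← h2]
  exact Finset.sum_congr rfl fun a _ => by rw [map_mul, MvPolynomial.aeval_X, mul_comm]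

theorem dform_add {k : Type*} [Field k] [Fintype I] (p : (Σ i, J i) → MvPolynomial (Σ i, J i) k)
    {B : Type*} [CommRing B] [Algebra k B] (v s s' t : ∀ i, J i → B) :
    dform p v (fun i a => s i a + s' i a) t = dform p v s t + dform p v s' t := by
  unfold dform
  rw [← Finset.sum_add_distrib]
  refine Finset.sum_congr rfl fun x _ => ?_
  rw [← Finset.sum_add_distrib]
  exact Finset.sum_congr rfl fun y _ => by ring

end Eul

variable {n : ℕ} {M : Type} [TopologicalSpace M] {A : Atl n M} {L : LB A} {I : Type} [Fintype I]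

namespace PF

variable {S : MSys A L I} {θ : OneForm L} {w : I → ℤ} (F : PF S θ w)

/-- contraction of `dP` with the Euler fields -/
theorem dform_eul {B : Type*} [CommRing B] [Algebra ℂ B] {v t : ∀ i, S.J i → B}
    (ht : Tan S.E v t) (c : ∀ i, S.J i) (a : I → B) :
    dform (F.p c) v (fun i b => a i * v i b) t =
      (∑ i, a i * (F.tg i : B)) * form (F.p c) v t := by
  classical
  set vv : (Σ i, S.J i) → B := fun y => v y.1 y.2 with hvv
  -- first part
  have e1 : ∀ x : Σ i, S.J i, ∑ y : Σ i, S.J i,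
      MvPolynomial.aeval vv (MvPolynomial.pderiv y (F.p c x)) * (a y.1 * v y.1 y.2) =
      (∑ i, a i * (F.dg x.1 i : B)) * MvPolynomial.aeval vv (F.p c x) := by
    intro x
    rw [Fintype.sum_sigma, Finset.sum_mul]
    refine Finset.sum_congr rfl fun i _ => ?_
    have h1 := mhd_euler (F.mhd c x) i vv
    calc ∑ b, MvPolynomial.aeval vv (MvPolynomial.pderiv ⟨i, b⟩ (F.p c x)) * (a i * v i b)
        = a i * ∑ b, MvPolynomial.aeval vv (MvPolynomial.pderiv ⟨i, b⟩ (F.p c x)) * v i b := by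
          rw [Finset.mul_sum]
          exact Finset.sum_congr rfl fun b _ => by ring
      _ = a i * (F.dg x.1 i : B) * MvPolynomial.aeval vv (F.p c x) := by
          rw [mul_assoc]
          congr 1
  -- second part
  have e2 : ∀ i, ∑ b, ∑ y : Σ i, S.J i,
      MvPolynomial.aeval vv (MvPolynomial.pderiv y (F.p c ⟨i, b⟩)) * (t y.1 y.2 * v i b) =
      - ∑ b, MvPolynomial.aeval vv (F.p c ⟨i, b⟩) * t i b := by
    intro i
    have h1 : ∑ y : Σ i, S.J i, MvPolynomial.aeval vv (MvPolynomial.pderiv y (F.eup c i)) *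
        t y.1 y.2 = 0 := ht _ (F.eup_mem c i)
    have h2 : ∀ y : Σ i, S.J i, MvPolynomial.aeval vv (MvPolynomial.pderiv y (F.eup c i)) *
        t y.1 y.2 = ∑ b, (MvPolynomial.aeval vv (MvPolynomial.pderiv y (F.p c ⟨i, b⟩)) *
          (t y.1 y.2 * v i b) + if y = ⟨i, b⟩ then
            MvPolynomial.aeval vv (F.p c ⟨i, b⟩) * t i b else 0) := by
      intro y
      unfold eup
      rw [map_sum, map_sum, Finset.sum_mul]
      refine Finset.sum_congr rfl fun b _ => ?_
      rw [Derivation.leibniz, map_add, smul_eq_mul, smul_eq_mul, map_mul, map_mul,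
        MvPolynomial.aeval_X]
      by_cases hy : y = ⟨i, b⟩
      · subst hy
        rw [MvPolynomial.pderiv_X_self, map_one, if_pos rfl]
        ring
      · rw [MvPolynomial.pderiv_X_of_ne (Ne.symm hy), map_zero, if_neg hy]
        ring
    rw [Finset.sum_congr rfl fun y _ => h2 y, Finset.sum_comm] at h1
    simp only [Finset.sum_add_distrib, Finset.sum_ite_eq', Finset.mem_univ, if_true] at h1
    exact eq_neg_of_add_eq_zero_left h1
  -- conclusion
  unfold dform
  have e3 : ∀ x : Σ i, S.J i, ∑ y : Σ i, S.J i,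
      MvPolynomial.aeval vv (MvPolynomial.pderiv y (F.p c x)) *
        (a y.1 * v y.1 y.2 * t x.1 x.2 - t y.1 y.2 * (a x.1 * v x.1 x.2)) =
      (∑ i, a i * (F.dg x.1 i : B)) * MvPolynomial.aeval vv (F.p c x) * t x.1 x.2 -
        a x.1 * ∑ y : Σ i, S.J i, MvPolynomial.aeval vv (MvPolynomial.pderiv y (F.p c x)) *
          (t y.1 y.2 * v x.1 x.2) := by
    intro x
    rw [← e1 x, Finset.sum_mul, Finset.mul_sum, ← Finset.sum_sub_distrib]
    exact Finset.sum_congr rfl fun y _ => by ring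
  have e4 : ∑ x : Σ i, S.J i, a x.1 * ∑ y : Σ i, S.J i,
      MvPolynomial.aeval vv (MvPolynomial.pderiv y (F.p c x)) * (t y.1 y.2 * v x.1 x.2) =
      - ∑ x : Σ i, S.J i, a x.1 * (MvPolynomial.aeval vv (F.p c x) * t x.1 x.2) := by
    rw [Fintype.sum_sigma, Fintype.sum_sigma, ← Finset.sum_neg_distrib]
    refine Finset.sum_congr rfl fun i _ => ?_
    refine (Finset.mul_sum Finset.univ (fun b => ∑ y : Σ i, S.J i, MvPolynomial.aeval vv
      (MvPolynomial.pderiv y (F.p c ⟨i, b⟩)) * (t y.1 y.2 * v i b)) (a i)).symm.trans ?_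
    refine (congrArg (fun z => a i * z) (e2 i)).trans ?_
    show a i * (-∑ b, MvPolynomial.aeval vv (F.p c ⟨i, b⟩) * t i b) = _
    rw [mul_neg, Finset.mul_sum]
  have e5 : ∀ y : I, ∑ i, a i * (F.tg i : B) = (∑ i, a i * (F.dg y i : B)) + a y := by
    intro y
    have h1 : ∀ i, a i * (F.tg i : B) = a i * (F.dg y i : B) + if i = y then a y else 0 := by
      intro i
      rw [← F.dg_tg y, Pi.add_apply, Nat.cast_add]
      by_cases h : i = y
      · subst h
        rw [Pi.single_eq_same, if_pos rfl]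
        push_cast
        ring
      · rw [Pi.single_eq_of_ne h, if_neg h]
        push_cast
        ring
    rw [Finset.sum_congr rfl fun i _ => h1 i, Finset.sum_add_distrib, Finset.sum_ite_eq',
      if_pos (Finset.mem_univ _)]
  rw [Finset.sum_congr rfl fun x _ => e3 x, Finset.sum_sub_distrib, e4, sub_neg_eq_add,
    ← Finset.sum_add_distrib]
  unfold form
  rw [Finset.mul_sum]
  refine Finset.sum_congr rfl fun x _ => ?_
  rw [e5 x.1]
  ring

/-- the exterior derivative in the directions of the manifold -/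
theorem dform_dpt {ch : A.ι} {x : M} (hx : x ∈ (A.e ch).source) (c : ∀ i, S.J i) {l : I → ℂ}
    (hl : ∀ i, l i ≠ 0) {u u' : Cn n} (hu : θ.app ch x u = 0) (hu' : θ.app ch x u' = 0) :
    dform (F.p c) (fun i b => l i * S.pt ch x i b) (fun i b => l i * dpt S ch x u i b)
        (fun i b => l i * dpt S ch x u' i b) =
      den c (fun i b => l i * S.pt ch x i b) ^ F.N * (∏ i, l i ^ w i) * θ.dapp ch x u u' := by
  classical
  set z0 := A.e ch x with hz0
  have hz0t : z0 ∈ (A.e ch).target := (A.e ch).map_source hx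
  have hsx : (A.e ch).symm z0 = x := (A.e ch).left_inv hx
  let f : (Σ i, S.J i) → Cn n → ℂ := fun y z => l y.1 * S.pt ch ((A.e ch).symm z) y.1 y.2
  have hfa : ∀ y, AnalyticAt ℂ (f y) z0 := by
    intro y
    have h1 : DifferentiableOn ℂ (f y) (A.e ch).target := by
      intro z hz
      have h2 := pt_diff S ch ((A.e ch).map_target hz) y.1 y.2
      rw [(A.e ch).right_inv hz] at h2
      exact (h2.const_mul _).differentiableWithinAt
    exact Crest.Agent.R266.SCV.analyticOnNhd_of_differentiableOn (A.e ch).open_target h1 z0 hz0t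
  have hfd : ∀ y, ∀ z ∈ (A.e ch).target, ∀ v, fderiv ℂ (f y) z v =
      l y.1 * dpt S ch ((A.e ch).symm z) v y.1 y.2 := by
    intro y z hz v
    have h2 := pt_diff S ch ((A.e ch).map_target hz) y.1 y.2
    rw [(A.e ch).right_inv hz] at h2
    have h3 : fderiv ℂ (f y) z = l y.1 • fderiv ℂ
        (fun z => S.pt ch ((A.e ch).symm z) y.1 y.2) z := (h2.hasFDerivAt.const_mul _).fderiv
    rw [h3]
    unfold dpt
    rw [(A.e ch).right_inv hz]
    rfl
  let g : Cn n → ℂ := fun z => den c (fun i b => l i * S.pt ch ((A.e ch).symm z) i b) ^ F.N *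
    (∏ i, l i ^ w i)
  have hgd : DifferentiableAt ℂ g z0 := by
    have h2 : DifferentiableAt ℂ (fun z => ∏ i, l i * S.pt ch ((A.e ch).symm z) i (c i)) z0 :=
      (Finset.analyticAt_fun_prod Finset.univ fun i _ => hfa ⟨i, c i⟩).differentiableAt
    exact (h2.pow _).mul_const _
  have hthd : ∀ b, DifferentiableAt ℂ (fun z => θ.th ch ((A.e ch).symm z) b) z0 := fun b =>
    (θ.hol ch b).diffAt isOpen_univ hx (mem_univ x)
  -- the pulled back form near `z0`
  have hG : ∀ v : Cn n, (fun z => ∑ y, MvPolynomial.eval (fun y => f y z) (F.p c y) *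
      fderiv ℂ (f y) z v) =ᶠ[𝓝 z0]
      fun z => g z * ∑ b, θ.th ch ((A.e ch).symm z) b * v b := by
    intro v
    filter_upwards [(A.e ch).open_target.mem_nhds hz0t] with z hz
    have h1 := F.link ((A.e ch).map_target hz) c hl v (fun _ => 0)
    have h2 : ∀ y : Σ i, S.J i, MvPolynomial.eval (fun y => f y z) (F.p c y) *
        fderiv ℂ (f y) z v = MvPolynomial.aeval
          (fun y : Σ i, S.J i => l y.1 * S.pt ch ((A.e ch).symm z) y.1 y.2) (F.p c y) *
          (l y.1 * dpt S ch ((A.e ch).symm z) v y.1 y.2 +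
            0 * S.pt ch ((A.e ch).symm z) y.1 y.2) := by
      intro y
      rw [hfd y z hz v, aeval_eq]
      ring
    rw [Finset.sum_congr rfl fun y _ => h2 y]
    exact h1
  -- derivative of the left side
  have hL : ∀ v v' : Cn n, fderiv ℂ (fun z => ∑ y, MvPolynomial.eval (fun y => f y z) (F.p c y) *
      fderiv ℂ (f y) z v) z0 v' =
      (∑ y, (∑ y', MvPolynomial.eval (fun y => f y z0) (MvPolynomial.pderiv y' (F.p c y)) *
        fderiv ℂ (f y') z0 v') * fderiv ℂ (f y) z0 v) +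
      ∑ y, MvPolynomial.eval (fun y => f y z0) (F.p c y) * (fderiv ℂ (fderiv ℂ (f y)) z0 v') v := by
    intro v v'
    have h1 : ∀ y, HasFDerivAt (fun z => MvPolynomial.eval (fun y => f y z) (F.p c y)) _ z0 :=
      fun y => hasFDerivAt_eval (f := f) (fun y => (hfa y).differentiableAt) (F.p c y)
    have h2 : ∀ y, HasFDerivAt (fun z => fderiv ℂ (f y) z v)
        ((ContinuousLinearMap.apply ℂ ℂ v).comp (fderiv ℂ (fderiv ℂ (f y)) z0)) z0 := by
      intro y
      exact (ContinuousLinearMap.apply ℂ ℂ v).hasFDerivAt.comp z0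
        (hfa y).fderiv.differentiableAt.hasFDerivAt
    have h3 := HasFDerivAt.fun_sum (u := Finset.univ) fun y _ => (h1 y).fun_mul (h2 y)
    rw [h3.fderiv, ← Finset.sum_add_distrib]
    simp only [FunLike.coe_sum, Finset.sum_apply, FunLike.coe_add, Pi.add_apply, FunLike.coe_smul,
      Pi.smul_apply, smul_eq_mul, ContinuousLinearMap.comp_apply, ContinuousLinearMap.apply_apply]
    refine Finset.sum_congr rfl fun y _ => ?_
    ring
  -- derivative of the right side
  have hR : ∀ v v' : Cn n, θ.app ch x v = 0 →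
      fderiv ℂ (fun z => g z * ∑ b, θ.th ch ((A.e ch).symm z) b * v b) z0 v' =
      g z0 * ∑ b, fderiv ℂ (fun z => θ.th ch ((A.e ch).symm z) b) z0 v' * v b := by
    intro v v' hv
    have h1 : ∀ b, HasFDerivAt (fun z => θ.th ch ((A.e ch).symm z) b * v b) _ z0 := fun b =>
      (hthd b).hasFDerivAt.mul_const (v b)
    have h2 := hgd.hasFDerivAt.fun_mul (HasFDerivAt.fun_sum (u := Finset.univ) fun b _ => h1 b)
    rw [h2.fderiv]
    have h3 : ∑ b, θ.th ch ((A.e ch).symm z0) b * v b = 0 := by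
      rw [hsx]
      exact hv
    simp only [FunLike.coe_sum, Finset.sum_apply, FunLike.coe_add, Pi.add_apply, FunLike.coe_smul,
      Pi.smul_apply, smul_eq_mul, h3, zero_mul, add_zero]
    congr 1
    exact Finset.sum_congr rfl fun b _ => mul_comm _ _
  have hS : ∀ (y : Σ i, S.J i) (v v' : Cn n), (fderiv ℂ (fderiv ℂ (f y)) z0 v') v =
      (fderiv ℂ (fderiv ℂ (f y)) z0 v) v' := by
    intro y v v'
    have h1 : ContDiffAt ℂ ω (f y) z0 := (hfa y).contDiffAt
    exact (h1.isSymmSndFDerivAt (by simp)) v' v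
  have key : ∀ v v' : Cn n, θ.app ch x v = 0 →
      (∑ y, (∑ y', MvPolynomial.eval (fun y => f y z0) (MvPolynomial.pderiv y' (F.p c y)) *
        fderiv ℂ (f y') z0 v') * fderiv ℂ (f y) z0 v) +
      ∑ y, MvPolynomial.eval (fun y => f y z0) (F.p c y) * (fderiv ℂ (fderiv ℂ (f y)) z0 v') v =
      g z0 * ∑ b, fderiv ℂ (fun z => θ.th ch ((A.e ch).symm z) b) z0 v' * v b := by
    intro v v' hv
    rw [← hL v v', (hG v).fderiv_eq, hR v v' hv]
  have k1 := key u' u hu'
  have k2 := key u u' hu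
  have k3 : ∑ y, MvPolynomial.eval (fun y => f y z0) (F.p c y) *
      (fderiv ℂ (fderiv ℂ (f y)) z0 u) u' =
      ∑ y, MvPolynomial.eval (fun y => f y z0) (F.p c y) *
      (fderiv ℂ (fderiv ℂ (f y)) z0 u') u :=
    Finset.sum_congr rfl fun y _ => by rw [hS y u u']
  have hgz : g z0 = den c (fun i b => l i * S.pt ch x i b) ^ F.N * (∏ i, l i ^ w i) := by
    show den c (fun i b => l i * S.pt ch ((A.e ch).symm z0) i b) ^ F.N * _ = _
    rw [hsx]
  have hfz : (fun y => f y z0) = fun y : Σ i, S.J i => l y.1 * S.pt ch x y.1 y.2 := by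
    funext y
    show l y.1 * S.pt ch ((A.e ch).symm z0) y.1 y.2 = _
    rw [hsx]
  have hfdz : ∀ (y : Σ i, S.J i) (v : Cn n), fderiv ℂ (f y) z0 v =
      l y.1 * dpt S ch x v y.1 y.2 := by
    intro y v
    rw [hfd y z0 hz0t v, hsx]
  have k4 : θ.dapp ch x u u' = (∑ b, fderiv ℂ (fun z => θ.th ch ((A.e ch).symm z) b) z0 u * u' b) -
      ∑ b, fderiv ℂ (fun z => θ.th ch ((A.e ch).symm z) b) z0 u' * u b := by
    unfold OneForm.dapp
    rw [Finset.sum_sub_distrib]
  rw [k4, ← hgz, mul_sub, ← k1, ← k2, k3]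
  unfold dform
  rw [hfz]
  simp only [hfdz]
  rw [add_sub_add_right_eq_sub, ← Finset.sum_sub_distrib]
  refine Finset.sum_congr rfl fun y _ => ?_
  rw [Finset.sum_mul, Finset.sum_mul, ← Finset.sum_sub_distrib]
  refine Finset.sum_congr rfl fun y' _ => ?_
  rw [aeval_eq]
  ring

end PF

/-! ### the common data -/

section Main

variable (S : MSys A L I) (θ : OneForm L) (w : I → ℤ) [T2Space M] [ConnectedSpace M]
  [CompactSpace M] [Finite A.ι]

/-- the facts at the points over `ℂ` -/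
theorem cpoint [Nonempty I] (PA : Part A) (hD : D2 A) {w : I → ℤ} {θ : OneForm L} (F : PF S θ w)
    (hθ : Contact θ) (c : ∀ i, S.J i) {v : ∀ i, S.J i → ℂ} (hv : OnX S.E v)
    (hc : ∀ i, v i (c i) ≠ 0) :
    Module.finrank ℂ (TanSp S.E v) = n + Fintype.card I ∧
    (∃ t, Tan S.E v t ∧ form (F.p c) v t ≠ 0) ∧
    (∀ a : I → ℂ, Tan S.E v (fun i j => a i * v i j) ∧
      form (F.p c) v (fun i j => a i * v i j) = 0 ∧
      ∀ t', Tan S.E v t' → form (F.p c) v t' = 0 →
        dform (F.p c) v (fun i j => a i * v i j) t' = 0) ∧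
    ∀ t, Tan S.E v t → form (F.p c) v t = 0 →
      (∀ t', Tan S.E v t' → form (F.p c) v t' = 0 → dform (F.p c) v t t' = 0) →
      ∃ a : I → ℂ, ∀ i j, t i j = a i * v i j := by
  have hv0 : ∀ i, v i ≠ 0 := fun i h => hc i (congrFun h (c i))
  obtain ⟨ch, x, hx, l, hl, rfl⟩ := exists_pt S PA hD v hv hv0
  have hden : den c (fun i b => l i * S.pt ch x i b) ^ F.N * (∏ i, l i ^ w i) ≠ 0 := by
    refine mul_ne_zero (pow_ne_zero _ (Finset.prod_ne_zero_iff.2 fun i _ => hc i))
      (Finset.prod_ne_zero_iff.2 fun i _ => zpow_ne_zero _ (hl i))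
  have hform : ∀ (u : Cn n) (a : I → ℂ), form (F.p c) (fun i b => l i * S.pt ch x i b)
      (fun i b => l i * dpt S ch x u i b + a i * S.pt ch x i b) = 0 ↔ θ.app ch x u = 0 := by
    intro u a
    rw [F.link hx c hl u a, mul_eq_zero]
    exact ⟨fun h => h.resolve_left hden, Or.inr⟩
  refine ⟨Zt4_313.tan_rank S PA hD hx l hl, ?_, fun a => ⟨?_, ?_, ?_⟩, ?_⟩
  · obtain ⟨u, hu⟩ := hθ.ne ch x hx
    exact ⟨_, Zt4_313.tan_of S hx l u (fun _ => 0), fun h => hu ((hform u _).1 h)⟩
  · have h1 := Zt4_313.tan_of S hx l 0 (fun i => a i * l i)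
    have h2 : (fun i b => l i * dpt S ch x 0 i b + a i * l i * S.pt ch x i b) =
        fun i j => a i * (l i * S.pt ch x i j) := by
      funext i b
      have h3 : dpt S ch x 0 i b = 0 := map_zero _
      rw [h3]
      ring
    rw [h2] at h1
    exact h1
  · unfold form
    rw [Fintype.sum_sigma]
    refine Finset.sum_eq_zero fun i _ => ?_
    have h1 := F.euler hv c i
    have h2 := congrArg (fun z => a i * z) h1
    simp only [mul_zero, Finset.mul_sum] at h2
    rw [← h2]
    exact Finset.sum_congr rfl fun b _ => by ring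
  · intro t' ht' hf'
    rw [F.dform_eul ht' c a, hf', mul_zero]
  · intro t ht hft hrad
    obtain ⟨u, al, rfl⟩ := (Zt4_313.tan_iff S PA hD hx l hl t).1 ht
    have hu : θ.app ch x u = 0 := (hform u al).1 hft
    have hu0 : u = 0 := by
      refine hθ.nd ch x hx u hu fun u' hu' => ?_
      have e0 : (fun i b => l i * dpt S ch x u' i b + (0 : ℂ) * S.pt ch x i b) =
          fun i b => l i * dpt S ch x u' i b := by
        funext i b
        ring
      have h1 := Zt4_313.tan_of S hx l u' (fun _ => 0)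
      have h2 := (hform u' (fun _ => 0)).2 hu'
      rw [e0] at h1 h2
      have h3 := hrad _ h1 h2
      have e1 : (fun i b => l i * dpt S ch x u i b + al i * S.pt ch x i b) =
          fun i b => l i * dpt S ch x u i b + al i / l i * (l i * S.pt ch x i b) := by
        funext i b
        have := hl i
        field_simp
      rw [e1, dform_add, F.dform_eul h1 c, h2, mul_zero, add_zero, F.dform_dpt hx c hl hu hu',
        mul_eq_zero] at h3
      exact h3.resolve_left hden
    refine ⟨fun i => al i / l i, fun i j => ?_⟩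
    have h3 : dpt S ch x u i j = 0 := by
      rw [hu0]
      exact map_zero _
    have := hl i
    show l i * dpt S ch x u i j + al i * S.pt ch x i j = al i / l i * (l i * S.pt ch x i j)
    rw [h3]
    field_simp
    ring

end Main

section Bridge

variable {m : ℕ} {A : Atl (2 * m + 1) M} {L : LB A} [T2Space M] [ConnectedSpace M]
  [CompactSpace M] [Finite A.ι]

theorem tanPt [Nonempty I] (PA : Part A) (hD : D2 A) (S : MSys A L I) : BrIf_592.TanPt S :=
  fun _ _ hx l hl t => Zt4_313.tan_iff S PA hD hx l hl t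

/-- **the common data of a contact manifold** -/
def cdata (PA : Part A) (hD : D2 A) (S : MSys A L I) {w : I → ℤ}
    (hw : ∑ i, w i * (S.β i : ℤ) = 1) {θ : OneForm L} (hθ : Contact θ) [Nonempty I]
    (F : PF S θ w) : CData ℂ I S.J where
  E := S.E
  hom := S.hom
  β := S.β
  β_pos := S.pos
  w := w
  wβ := hw
  cls_eq := fun κ _ _ F hF => Br4_592.cls_eq S hw hF
  m := m
  tan_dim := fun κ _ _ v hv hv0 => by
    have h1 : ∀ i, ∃ a, v i a ≠ 0 := fun i => Function.ne_iff.1 (hv0 i)
    choose c hc using h1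
    have hI : 1 ≤ Fintype.card I := Fintype.card_pos
    have h2 := (Ga6a_186.transfer_nd (E := S.E) c (F.p c) (d := 2 * m + Fintype.card I)
      (fun v hv hc => by
        rw [(cpoint S PA hD F hθ c hv hc).1]
        omega)
      (fun v hv hc => (cpoint S PA hD F hθ c hv hc).2.1)
      (fun v hv hc => (cpoint S PA hD F hθ c hv hc).2.2.1)
      (fun v hv hc => (cpoint S PA hD F hθ c hv hc).2.2.2) v hv hc).1
    rw [h2]
    omega
  th := F.toCForm (exists_pt S PA hD) (tanPt PA hD S)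
  nondeg := fun κ _ _ v c hv hc => by
    exact (Ga6a_186.transfer_nd (E := S.E) c (F.p c) (d := 2 * m + Fintype.card I)
      (fun v hv hc => by
        rw [(cpoint S PA hD F hθ c hv hc).1]
        omega)
      (fun v hv hc => (cpoint S PA hD F hθ c hv hc).2.1)
      (fun v hv hc => (cpoint S PA hD F hθ c hv hc).2.2.1)
      (fun v hv hc => (cpoint S PA hD F hθ c hv hc).2.2.2) v hv hc).2.2
  th_ne := fun κ _ _ v c hv hc => by
    exact (Ga6a_186.transfer_nd (E := S.E) c (F.p c) (d := 2 * m + Fintype.card I)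
      (fun v hv hc => by
        rw [(cpoint S PA hD F hθ c hv hc).1]
        omega)
      (fun v hv hc => (cpoint S PA hD F hθ c hv hc).2.1)
      (fun v hv hc => (cpoint S PA hD F hθ c hv hc).2.2.1)
      (fun v hv hc => (cpoint S PA hD F hθ c hv hc).2.2.2) v hv hc).2.1

end Bridge

/-- **BRIDGE, one system** -/
theorem bridgeS : BrIf_592.BridgeS := by
  intro m M _ _ _ _ A _ hPA hD L I _ S w hw θ hθ
  obtain ⟨PA⟩ := hPA
  have hI : Nonempty I := by
    by_contra h
    rw [not_nonempty_iff] at h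
    rw [Finset.univ_eq_empty, Finset.sum_empty] at hw
    exact zero_ne_one hw
  obtain ⟨F⟩ := exists_pf PA hD S θ w hw
  exact ⟨{
    D := cdata PA hD S hw hθ F
    hE := rfl
    hβ := rfl
    hw := rfl
    hm := rfl
    link := fun ch x hx c l hl u a => F.link hx c hl u a
    tanPt := tanPt PA hD S
    pt := exists_pt S PA hD
    prime := Br3_592.prime_E S }⟩

/-- **BRIDGE** -/
theorem bridge : BrIf_592.Bridge := Br5_592.bridge_of bridgeS

end

end Crest.Agent.R260.Ga_323
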