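import Mathlib
import Crest.Prelude.Def_ChartRiemQK

-- ▼ part R260/KEnd1_361
section

/-! Row 260, coordinate calculus with the frozen `pderiv` : smooth functions on an open set,
matrix valued functions, the connection matrices, the curvature matrices and their covariant
derivative.  (helper361) -/

set_option autoImplicit false
open scoped ContDiff Topology
open Crest.GeometryTopology.CoordMetric Crest.GeometryTopology.ChartRiem

noncomputable section

namespace Crest.Agent.R260.KEnd_361

variable {n : ℕ}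

/-- smooth real functions on `U` -/
def Sm (U : Set (EuclideanSpace ℝ (Fin n))) (f : EuclideanSpace ℝ (Fin n) → ℝ) : Prop :=
  ContDiffOn ℝ ∞ f U

/-- smooth matrix valued functions on `U` -/
def SmM {α β : Type*} (U : Set (EuclideanSpace ℝ (Fin n)))
    (X : EuclideanSpace ℝ (Fin n) → Matrix α β ℝ) : Prop :=
  ∀ a b, Sm U (fun y => X y a b)

section scalar

variable {U : Set (EuclideanSpace ℝ (Fin n))} {f h : EuclideanSpace ℝ (Fin n) → ℝ}
  {x : EuclideanSpace ℝ (Fin n)}

theorem Sm.diff (hU : IsOpen U) (hf : Sm U f) (hx : x ∈ U) : DifferentiableAt ℝ f x :=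
  (ContDiffOn.contDiffAt hf (hU.mem_nhds hx)).differentiableAt (by simp)

theorem Sm.const (c : ℝ) : Sm U (fun _ => c) := contDiffOn_const

theorem Sm.add (hf : Sm U f) (hh : Sm U h) : Sm U (fun y => f y + h y) := ContDiffOn.add hf hh

theorem Sm.sub (hf : Sm U f) (hh : Sm U h) : Sm U (fun y => f y - h y) := ContDiffOn.sub hf hh

theorem Sm.neg (hf : Sm U f) : Sm U (fun y => - f y) := ContDiffOn.neg hf

theorem Sm.mul (hf : Sm U f) (hh : Sm U h) : Sm U (fun y => f y * h y) := ContDiffOn.mul hf hh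

theorem Sm.sum {ι : Type*} {s : Finset ι} {F : ι → EuclideanSpace ℝ (Fin n) → ℝ}
    (hF : ∀ a ∈ s, Sm U (F a)) : Sm U (fun y => ∑ a ∈ s, F a y) :=
  ContDiffOn.sum hF

theorem Sm.prod {ι : Type*} {s : Finset ι} {F : ι → EuclideanSpace ℝ (Fin n) → ℝ}
    (hF : ∀ a ∈ s, Sm U (F a)) : Sm U (fun y => ∏ a ∈ s, F a y) :=
  contDiffOn_prod hF

theorem Sm.mono {V : Set (EuclideanSpace ℝ (Fin n))} (hf : Sm U f) (hV : V ⊆ U) : Sm V f :=
  ContDiffOn.mono hf hV

theorem Sm.congr (hf : Sm U f) (he : ∀ y ∈ U, h y = f y) : Sm U h := ContDiffOn.congr hf he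

theorem Sm.pd (hU : IsOpen U) (hf : Sm U f) (i : Fin n) : Sm U (fun y => pderiv i f y) := by
  have h1 : ContDiffOn ℝ ∞ (fderiv ℝ f) U := ContDiffOn.fderiv_of_isOpen hf hU (by simp)
  exact h1.clm_apply contDiffOn_const

theorem Sm.inv (hf : Sm U f) (h0 : ∀ y ∈ U, f y ≠ 0) : Sm U (fun y => (f y)⁻¹) :=
  ContDiffOn.inv hf h0

theorem pd_congr (hU : IsOpen U) (he : ∀ y ∈ U, f y = h y) (hx : x ∈ U) (i : Fin n) :
    pderiv i f x = pderiv i h x := by
  have : f =ᶠ[𝓝 x] h := Filter.eventually_of_mem (hU.mem_nhds hx) he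
  unfold pderiv
  rw [this.fderiv_eq]

theorem pd_const (c : ℝ) (i : Fin n) : pderiv i (fun _ => c) x = 0 := by
  unfold pderiv; simp

theorem pd_add (hU : IsOpen U) (hf : Sm U f) (hh : Sm U h) (hx : x ∈ U) (i : Fin n) :
    pderiv i (fun y => f y + h y) x = pderiv i f x + pderiv i h x := by
  unfold pderiv; rw [fderiv_fun_add (hf.diff hU hx) (hh.diff hU hx)]; rfl

theorem pd_sub (hU : IsOpen U) (hf : Sm U f) (hh : Sm U h) (hx : x ∈ U) (i : Fin n) :
    pderiv i (fun y => f y - h y) x = pderiv i f x - pderiv i h x := by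
  unfold pderiv; rw [fderiv_fun_sub (hf.diff hU hx) (hh.diff hU hx)]; rfl


theorem pd_mul (hU : IsOpen U) (hf : Sm U f) (hh : Sm U h) (hx : x ∈ U) (i : Fin n) :
    pderiv i (fun y => f y * h y) x = pderiv i f x * h x + f x * pderiv i h x := by
  unfold pderiv; rw [fderiv_fun_mul (hf.diff hU hx) (hh.diff hU hx)]
  simp only [add_apply, smul_apply, smul_eq_mul]
  ring

theorem pd_sum (hU : IsOpen U) {ι : Type*} {s : Finset ι}
    {F : ι → EuclideanSpace ℝ (Fin n) → ℝ} (hF : ∀ a ∈ s, Sm U (F a)) (hx : x ∈ U) (i : Fin n) :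
    pderiv i (fun y => ∑ a ∈ s, F a y) x = ∑ a ∈ s, pderiv i (F a) x := by
  unfold pderiv
  rw [fderiv_fun_sum (fun a ha => (hF a ha).diff hU hx), _root_.sum_apply]

theorem pd_comm (hU : IsOpen U) (hf : Sm U f) (hx : x ∈ U) (i j : Fin n) :
    pderiv i (fun y => pderiv j f y) x = pderiv j (fun y => pderiv i f y) x := by
  have h2 : ContDiffAt ℝ 2 f x :=
    (ContDiffOn.contDiffAt hf (hU.mem_nhds hx)).of_le (by norm_cast)
  have hd : DifferentiableAt ℝ (fderiv ℝ f) x :=
    (h2.fderiv_right (m := 1) (by norm_num)).differentiableAt (by simp)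
  have hs : ∀ v w : EuclideanSpace ℝ (Fin n),
      fderiv ℝ (fun y => fderiv ℝ f y w) x v = fderiv ℝ (fderiv ℝ f) x v w := by
    intro v w
    have h3 : HasFDerivAt (fun y => fderiv ℝ f y w)
        ((ContinuousLinearMap.apply ℝ ℝ w).comp (fderiv ℝ (fderiv ℝ f) x)) x :=
      (ContinuousLinearMap.apply ℝ ℝ w).hasFDerivAt.comp x hd.hasFDerivAt
    rw [h3.fderiv]; rfl
  unfold pderiv
  rw [hs, hs]
  exact (h2.isSymmSndFDerivAt (by simp)).eq _ _

end scalar

section matrix

variable {U : Set (EuclideanSpace ℝ (Fin n))} {x : EuclideanSpace ℝ (Fin n)}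
  {α β γ : Type*}

/-- entrywise partial derivative of a matrix valued function -/
def pdM (i : Fin n) (X : EuclideanSpace ℝ (Fin n) → Matrix α β ℝ)
    (x : EuclideanSpace ℝ (Fin n)) : Matrix α β ℝ :=
  Matrix.of fun a b => pderiv i (fun y => X y a b) x

theorem pdM_apply (i : Fin n) (X : EuclideanSpace ℝ (Fin n) → Matrix α β ℝ)
    (x : EuclideanSpace ℝ (Fin n)) (a : α) (b : β) :
    pdM i X x a b = pderiv i (fun y => X y a b) x := rfl

variable {X Y : EuclideanSpace ℝ (Fin n) → Matrix α β ℝ}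

theorem SmM.const (A : Matrix α β ℝ) : SmM U (fun _ => A) := fun _ _ => Sm.const _

theorem SmM.add (hX : SmM U X) (hY : SmM U Y) : SmM U (fun y => X y + Y y) :=
  fun a b => (hX a b).add (hY a b)

theorem SmM.sub (hX : SmM U X) (hY : SmM U Y) : SmM U (fun y => X y - Y y) :=
  fun a b => (hX a b).sub (hY a b)

theorem SmM.neg (hX : SmM U X) : SmM U (fun y => - X y) :=
  fun a b => (hX a b).neg

theorem SmM.smul {f : EuclideanSpace ℝ (Fin n) → ℝ} (hf : Sm U f) (hX : SmM U X) :
    SmM U (fun y => f y • X y) :=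
  fun a b => hf.mul (hX a b)


theorem SmM.mul [Fintype β] {Z : EuclideanSpace ℝ (Fin n) → Matrix β γ ℝ} (hX : SmM U X)
    (hZ : SmM U Z) : SmM U (fun y => X y * Z y) := by
  intro a c
  simp only [Matrix.mul_apply]
  exact Sm.sum fun b _ => (hX a b).mul (hZ b c)

theorem SmM.sum {ι : Type*} {s : Finset ι} {F : ι → EuclideanSpace ℝ (Fin n) → Matrix α β ℝ}
    (hF : ∀ c ∈ s, SmM U (F c)) : SmM U (fun y => ∑ c ∈ s, F c y) := by
  intro a b
  simp only [Matrix.sum_apply]
  exact Sm.sum fun c hc => hF c hc a b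

theorem SmM.pd (hU : IsOpen U) (hX : SmM U X) (i : Fin n) : SmM U (fun y => pdM i X y) :=
  fun a b => (hX a b).pd hU i

theorem SmM.mono {V : Set (EuclideanSpace ℝ (Fin n))} (hX : SmM U X) (hV : V ⊆ U) : SmM V X :=
  fun a b => (hX a b).mono hV

theorem SmM.congr (hX : SmM U X) (he : ∀ y ∈ U, Y y = X y) : SmM U Y :=
  fun a b => (hX a b).congr fun y hy => by rw [he y hy]

theorem pdM_congr (hU : IsOpen U) (he : ∀ y ∈ U, X y = Y y) (hx : x ∈ U) (i : Fin n) :
    pdM i X x = pdM i Y x := by
  ext a b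
  exact pd_congr hU (fun y hy => by rw [he y hy]) hx i

theorem pdM_const (A : Matrix α β ℝ) (i : Fin n) : pdM i (fun _ => A) x = 0 := by
  ext a b
  exact pd_const _ i

theorem pdM_add (hU : IsOpen U) (hX : SmM U X) (hY : SmM U Y) (hx : x ∈ U) (i : Fin n) :
    pdM i (fun y => X y + Y y) x = pdM i X x + pdM i Y x := by
  ext a b
  exact pd_add hU (hX a b) (hY a b) hx i

theorem pdM_sub (hU : IsOpen U) (hX : SmM U X) (hY : SmM U Y) (hx : x ∈ U) (i : Fin n) :
    pdM i (fun y => X y - Y y) x = pdM i X x - pdM i Y x := by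
  ext a b
  exact pd_sub hU (hX a b) (hY a b) hx i


theorem pdM_smul (hU : IsOpen U) {f : EuclideanSpace ℝ (Fin n) → ℝ} (hf : Sm U f)
    (hX : SmM U X) (hx : x ∈ U) (i : Fin n) :
    pdM i (fun y => f y • X y) x = pderiv i f x • X x + f x • pdM i X x := by
  ext a b
  exact pd_mul hU hf (hX a b) hx i


theorem pdM_mul [Fintype β] (hU : IsOpen U) {Z : EuclideanSpace ℝ (Fin n) → Matrix β γ ℝ}
    (hX : SmM U X) (hZ : SmM U Z) (hx : x ∈ U) (i : Fin n) :
    pdM i (fun y => X y * Z y) x = pdM i X x * Z x + X x * pdM i Z x := by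
  ext a c
  rw [Matrix.add_apply, Matrix.mul_apply, Matrix.mul_apply, pdM_apply]
  simp only [Matrix.mul_apply]
  rw [pd_sum hU (fun b _ => (hX a b).mul (hZ b c)) hx, ← Finset.sum_add_distrib]
  exact Finset.sum_congr rfl fun b _ => pd_mul hU (hX a b) (hZ b c) hx i

theorem pdM_sum {ι : Type*} {s : Finset ι} {F : ι → EuclideanSpace ℝ (Fin n) → Matrix α β ℝ}
    (hU : IsOpen U) (hF : ∀ c ∈ s, SmM U (F c)) (hx : x ∈ U) (i : Fin n) :
    pdM i (fun y => ∑ c ∈ s, F c y) x = ∑ c ∈ s, pdM i (F c) x := by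
  ext a b
  rw [Matrix.sum_apply, pdM_apply]
  simp only [Matrix.sum_apply]
  exact pd_sum hU (fun c hc => hF c hc a b) hx i

theorem pdM_comm (hU : IsOpen U) (hX : SmM U X) (hx : x ∈ U) (i j : Fin n) :
    pdM i (fun y => pdM j X y) x = pdM j (fun y => pdM i X y) x := by
  ext a b
  exact pd_comm hU (hX a b) hx i j

/-- smoothness of the inverse matrix -/
theorem SmM.det {α : Type*} [Fintype α] [DecidableEq α]
    {X : EuclideanSpace ℝ (Fin n) → Matrix α α ℝ} (hX : SmM U X) :
    Sm U (fun y => (X y).det) := by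
  simp_rw [Matrix.det_apply']
  exact Sm.sum fun σ _ => (Sm.const _).mul (Sm.prod fun i _ => hX _ _)

theorem SmM.adjugate {α : Type*} [Fintype α] [DecidableEq α]
    {X : EuclideanSpace ℝ (Fin n) → Matrix α α ℝ} (hX : SmM U X) :
    SmM U (fun y => (X y).adjugate) := by
  intro i j
  simp_rw [Matrix.adjugate_apply]
  refine SmM.det fun a b => ?_
  by_cases haj : a = j
  · subst haj
    simp only [Matrix.updateRow_self]
    exact Sm.const _
  · simp only [Matrix.updateRow_ne haj]
    exact hX a b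

theorem SmM.inv {α : Type*} [Fintype α] [DecidableEq α]
    {X : EuclideanSpace ℝ (Fin n) → Matrix α α ℝ} (hX : SmM U X)
    (h0 : ∀ y ∈ U, (X y).det ≠ 0) : SmM U (fun y => (X y)⁻¹) := by
  intro i j
  have h1 : ∀ y, (X y)⁻¹ i j = ((X y).det)⁻¹ * (X y).adjugate i j := by
    intro y
    rw [Matrix.inv_def, Matrix.smul_apply, smul_eq_mul, Ring.inverse_eq_inv']
  simp_rw [h1]
  exact (hX.det.inv h0).mul (hX.adjugate i j)

end matrix

section metric

variable {U : Set (EuclideanSpace ℝ (Fin n))} {x : EuclideanSpace ℝ (Fin n)}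
  {g : MetricField n}

theorem sm_g (hg : IsRiemannianOn g U) : SmM U g := fun i j => hg.contDiffOn i j

theorem g_symm (hg : IsRiemannianOn g U) (hx : x ∈ U) (i j : Fin n) : g x i j = g x j i := by
  have h := (hg.posDef x hx).isHermitian
  have h2 := congrFun (congrFun h j) i
  simpa [Matrix.conjTranspose_apply] using h2

theorem g_det (hg : IsRiemannianOn g U) (hx : x ∈ U) : (g x).det ≠ 0 :=
  (hg.posDef x hx).det_pos.ne'

theorem sm_ginv (hg : IsRiemannianOn g U) : SmM U (inverseField g) :=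
  (sm_g hg).inv fun _ hy => g_det hg hy

theorem g_mul_inv (hg : IsRiemannianOn g U) (hx : x ∈ U) : g x * inverseField g x = 1 :=
  Matrix.mul_nonsing_inv _ (g_det hg hx).isUnit

theorem inv_mul_g (hg : IsRiemannianOn g U) (hx : x ∈ U) : inverseField g x * g x = 1 :=
  Matrix.nonsing_inv_mul _ (g_det hg hx).isUnit

/-- the (twice) lowered Christoffel symbol -/
def low (g : MetricField n) (x : EuclideanSpace ℝ (Fin n)) (l i j : Fin n) : ℝ :=
  pderiv i (fun y => g y j l) x + pderiv j (fun y => g y i l) x - pderiv l (fun y => g y i j) x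

theorem sm_low (hg : IsRiemannianOn g U) (l i j : Fin n) : Sm U (fun y => low g y l i j) :=
  (((sm_g hg j l).pd hg.isOpen i).add ((sm_g hg i l).pd hg.isOpen j)).sub
    ((sm_g hg i j).pd hg.isOpen l)

theorem christoffel_eq (g : MetricField n) (x : EuclideanSpace ℝ (Fin n)) (k i j : Fin n) :
    christoffel g x k i j = (1 / 2) * ∑ l, inverseField g x k l * low g x l i j := rfl

theorem sm_chr (hg : IsRiemannianOn g U) (k i j : Fin n) :
    Sm U (fun y => christoffel g y k i j) := by
  simp_rw [christoffel_eq]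
  exact (Sm.const _).mul (Sm.sum fun l _ => (sm_ginv hg k l).mul (sm_low hg l i j))

/-- `Σ_k g_lk Γ^k_ij = low/2` -/
theorem g_chr (hg : IsRiemannianOn g U) (hx : x ∈ U) (l i j : Fin n) :
    ∑ k, g x l k * christoffel g x k i j = (1 / 2) * low g x l i j := by
  simp_rw [christoffel_eq]
  have h1 : ∀ m, ∑ k, g x l k * inverseField g x k m = if l = m then 1 else 0 := by
    intro m
    rw [← Matrix.mul_apply, g_mul_inv hg hx, Matrix.one_apply]
  calc ∑ k, g x l k * (1 / 2 * ∑ m, inverseField g x k m * low g x m i j)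
      = (1 / 2) * ∑ m, (∑ k, g x l k * inverseField g x k m) * low g x m i j := by
        rw [Finset.mul_sum]
        simp_rw [Finset.sum_mul, Finset.mul_sum]
        rw [Finset.sum_comm]
        refine Finset.sum_congr rfl fun m _ => Finset.sum_congr rfl fun k _ => by ring
    _ = (1 / 2) * low g x l i j := by
        simp_rw [h1]
        simp



/-- the connection matrices `(Γ_i)^l_p`, with the point as last argument of the function -/
def Gm (g : MetricField n) (i : Fin n) (x : EuclideanSpace ℝ (Fin n)) : Matrix (Fin n) (Fin n) ℝ :=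
  christoffelMatrix g x i

theorem Gm_apply (g : MetricField n) (i : Fin n) (x : EuclideanSpace ℝ (Fin n)) (l p : Fin n) :
    Gm g i x l p = christoffel g x l i p := rfl

theorem sm_Gm (hg : IsRiemannianOn g U) (i : Fin n) : SmM U (Gm g i) :=
  fun l p => sm_chr hg l i p

/-- the curvature matrices `(R_ij)^l_k = riemann g x l i j k` -/
def Rm (g : MetricField n) (i j : Fin n) (x : EuclideanSpace ℝ (Fin n)) :
    Matrix (Fin n) (Fin n) ℝ :=
  Matrix.of fun l k => riemann g x l i j k

theorem Rm_apply (g : MetricField n) (i j : Fin n) (x : EuclideanSpace ℝ (Fin n)) (l k : Fin n) :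
    Rm g i j x l k = riemann g x l i j k := rfl

theorem Rm_eq (g : MetricField n) (i j : Fin n) (x : EuclideanSpace ℝ (Fin n)) :
    Rm g i j x = pdM i (Gm g j) x - pdM j (Gm g i) x + (Gm g i x * Gm g j x - Gm g j x * Gm g i x)
    := by
  ext l k
  rw [Rm_apply, riemann, Matrix.add_apply, Matrix.sub_apply, Matrix.sub_apply, Matrix.mul_apply,
    Matrix.mul_apply, ← Finset.sum_sub_distrib]
  rfl

theorem sm_Rm (hg : IsRiemannianOn g U) (i j : Fin n) : SmM U (Rm g i j) := by
  have h1 : SmM U (fun x => pdM i (Gm g j) x - pdM j (Gm g i) x +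
      (Gm g i x * Gm g j x - Gm g j x * Gm g i x)) :=
    (((sm_Gm hg j).pd hg.isOpen i).sub ((sm_Gm hg i).pd hg.isOpen j)).add
      (((sm_Gm hg i).mul (sm_Gm hg j)).sub ((sm_Gm hg j).mul (sm_Gm hg i)))
  exact h1.congr fun y _ => Rm_eq g i j y

/-- the matrices `(∇_m R_ij)^l_k = covDerivRiemann g x m l i j k` -/
def Nm (g : MetricField n) (m i j : Fin n) (x : EuclideanSpace ℝ (Fin n)) :
    Matrix (Fin n) (Fin n) ℝ :=
  Matrix.of fun l k => covDerivRiemann g x m l i j k

theorem Nm_apply (g : MetricField n) (m i j : Fin n) (x : EuclideanSpace ℝ (Fin n))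
    (l k : Fin n) : Nm g m i j x l k = covDerivRiemann g x m l i j k := rfl

theorem Nm_eq (g : MetricField n) (m i j : Fin n) (x : EuclideanSpace ℝ (Fin n)) :
    Nm g m i j x = pdM m (Rm g i j) x + (Gm g m x * Rm g i j x - Rm g i j x * Gm g m x)
      - ∑ p, Gm g m x p i • Rm g p j x - ∑ p, Gm g m x p j • Rm g i p x := by
  ext l k
  rw [Nm_apply, covDerivRiemann]
  simp only [Matrix.sub_apply, Matrix.add_apply, Matrix.mul_apply, Matrix.sum_apply,
    Matrix.smul_apply, smul_eq_mul, pdM_apply, Gm_apply, Rm_apply]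
  simp only [Finset.sum_sub_distrib]
  have h1 : ∑ p, christoffel g x p m k * riemann g x l i j p =
      ∑ p, riemann g x l i j p * christoffel g x p m k :=
    Finset.sum_congr rfl fun p _ => mul_comm _ _
  rw [h1]
  ring

end metric

end Crest.Agent.R260.KEnd_361
end
end

-- ▼ part R260/KEnd2_361
section

/-! Row 260: a Killing field preserves the Christoffel symbols.  (helper361) -/

set_option autoImplicit false
open scoped ContDiff Topology
open Crest.GeometryTopology.CoordMetric Crest.GeometryTopology.ChartRiem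

noncomputable section

namespace Crest.Agent.R260.KEnd_361

variable {n : ℕ} {U : Set (EuclideanSpace ℝ (Fin n))} {x : EuclideanSpace ℝ (Fin n)}
  {g : MetricField n}

/-- `K = (K^a)` is a smooth Killing field of `g` on `U` (coordinate Killing equation). -/
structure Kill (g : MetricField n) (U : Set (EuclideanSpace ℝ (Fin n)))
    (K : Fin n → EuclideanSpace ℝ (Fin n) → ℝ) : Prop where
  sm : ∀ a, Sm U (K a)
  eq : ∀ y ∈ U, ∀ i j : Fin n, ∑ a, (K a y * pderiv a (fun z => g z i j) y +
    g y a j * pderiv i (K a) y + g y i a * pderiv j (K a) y) = 0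

variable {K : Fin n → EuclideanSpace ℝ (Fin n) → ℝ}

/-- the differentiated Killing equation -/
theorem Kill.d1 (hg : IsRiemannianOn g U) (hK : Kill g U K) (hx : x ∈ U) (i j l : Fin n) :
    ∑ a, (pderiv i (K a) x * pderiv a (fun z => g z j l) x +
      K a x * pderiv a (fun z => pderiv i (fun w => g w j l) z) x +
      (pderiv i (fun z => g z a l) x * pderiv j (K a) x + g x a l * pderiv i (fun z => pderiv j (K a) z) x) +
      (pderiv i (fun z => g z j a) x * pderiv l (K a) x + g x j a * pderiv i (fun z => pderiv l (K a) z) x))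
      = 0 := by
  have hU := hg.isOpen
  have h0 : pderiv i (fun y => ∑ a, (K a y * pderiv a (fun z => g z j l) y +
    g y a l * pderiv j (K a) y + g y j a * pderiv l (K a) y)) x = 0 := by
    rw [pd_congr hU (h := fun _ => (0 : ℝ)) (fun y hy => hK.eq y hy j l) hx, pd_const]
  have s1 : ∀ a, Sm U (fun y => K a y * pderiv a (fun z => g z j l) y) := fun a =>
    (hK.sm a).mul ((sm_g hg j l).pd hU a)
  have s2 : ∀ a, Sm U (fun y => g y a l * pderiv j (K a) y) := fun a =>
    (sm_g hg a l).mul ((hK.sm a).pd hU j)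
  have s3 : ∀ a, Sm U (fun y => g y j a * pderiv l (K a) y) := fun a =>
    (sm_g hg j a).mul ((hK.sm a).pd hU l)
  rw [pd_sum hU (fun a _ => ((s1 a).add (s2 a)).add (s3 a)) hx] at h0
  rw [← h0]
  refine Finset.sum_congr rfl fun a _ => ?_
  rw [pd_add hU ((s1 a).add (s2 a)) (s3 a) hx, pd_add hU (s1 a) (s2 a) hx,
    pd_mul hU (hK.sm a) ((sm_g hg j l).pd hU a) hx,
    pd_mul hU (sm_g hg a l) ((hK.sm a).pd hU j) hx,
    pd_mul hU (sm_g hg j a) ((hK.sm a).pd hU l) hx,
    pd_comm hU (sm_g hg j l) hx i a]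

/-- `L_K` of the lowered Christoffel symbols -/
theorem Kill.low (hg : IsRiemannianOn g U) (hK : Kill g U K) (hx : x ∈ U) (l i j : Fin n) :
    ∑ a, (K a x * pderiv a (fun z => low g z l i j) x + pderiv i (K a) x * KEnd_361.low g x l a j +
      pderiv j (K a) x * KEnd_361.low g x l i a + pderiv l (K a) x * KEnd_361.low g x a i j +
      2 * (g x l a * pderiv i (fun z => pderiv j (K a) z) x)) = 0 := by
  have hU := hg.isOpen
  have h1 := hK.d1 hg hx i j l
  have h2 := hK.d1 hg hx j i l
  have h3 := hK.d1 hg hx l i j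
  have hgs : ∀ a b : Fin n, ∀ c : Fin n, pderiv c (fun z => g z a b) x = pderiv c (fun z => g z b a) x :=
    fun a b c => pd_congr hU (fun y hy => g_symm hg hy a b) hx c
  have key := congrArg₂ (· - ·) (congrArg₂ (· + ·) h1 h2) h3
  simp only [← Finset.sum_add_distrib, ← Finset.sum_sub_distrib, add_zero, sub_zero] at key
  rw [← key]
  refine Finset.sum_congr rfl fun a _ => ?_
  have k1 := pd_comm hU (hK.sm a) hx i j
  have k2 := pd_comm hU (hK.sm a) hx i l
  have k3 := pd_comm hU (hK.sm a) hx j l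
  have k4 : pderiv a (fun z => KEnd_361.low g z l i j) x =
      pderiv a (fun z => pderiv i (fun w => g w j l) z) x +
      pderiv a (fun z => pderiv j (fun w => g w i l) z) x -
      pderiv a (fun z => pderiv l (fun w => g w i j) z) x := by
    have s1 := (sm_g hg j l).pd hU i
    have s2 := (sm_g hg i l).pd hU j
    have s3 := (sm_g hg i j).pd hU l
    unfold KEnd_361.low
    rw [pd_sub hU (s1.add s2) s3 hx, pd_add hU s1 s2 hx]
  rw [k4, k2, k3, k1]
  unfold KEnd_361.low
  rw [g_symm hg hx a l, g_symm hg hx a j]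
  rw [hgs a l i, hgs a l j, hgs a j l]
  ring

/-- the Jacobian matrix `B^a_j = ∂_j K^a` -/
def Bm (K : Fin n → EuclideanSpace ℝ (Fin n) → ℝ) (x : EuclideanSpace ℝ (Fin n)) :
    Matrix (Fin n) (Fin n) ℝ := Matrix.of fun a j => pderiv j (K a) x

theorem Bm_apply (K : Fin n → EuclideanSpace ℝ (Fin n) → ℝ) (x : EuclideanSpace ℝ (Fin n))
    (a j : Fin n) : Bm K x a j = pderiv j (K a) x := rfl

theorem Kill.sm_Bm (hg : IsRiemannianOn g U) (hK : Kill g U K) : SmM U (Bm K) :=
  fun a j => (hK.sm a).pd hg.isOpen j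

theorem g_pd_chr (hg : IsRiemannianOn g U) (hx : x ∈ U) (a l i j : Fin n) :
    ∑ k, g x l k * pderiv a (fun y => christoffel g y k i j) x =
      (1 / 2) * pderiv a (fun y => KEnd_361.low g y l i j) x -
        ∑ k, pderiv a (fun y => g y l k) x * christoffel g x k i j := by
  have hU := hg.isOpen
  have h1 := pd_congr hU (f := fun y => ∑ k, g y l k * christoffel g y k i j)
    (h := fun y => (1 / 2) * KEnd_361.low g y l i j) (fun y hy => g_chr hg hy l i j) hx a
  rw [pd_sum hU (fun k _ => (sm_g hg l k).mul (sm_chr hg k i j)) hx,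
    pd_mul hU (Sm.const _) (sm_low hg l i j) hx, pd_const] at h1
  simp_rw [pd_mul hU (sm_g hg l _) (sm_chr hg _ i j) hx] at h1
  rw [Finset.sum_add_distrib] at h1
  linarith

/-- **a Killing field preserves the Christoffel symbols** -/
theorem Kill.chr (hg : IsRiemannianOn g U) (hK : Kill g U K) (hx : x ∈ U) (i : Fin n) :
    ∑ a, K a x • pdM a (Gm g i) x + ∑ a, pderiv i (K a) x • Gm g a x +
      (Gm g i x * Bm K x - Bm K x * Gm g i x) + pdM i (Bm K) x = 0 := by
  have hU := hg.isOpen
  set E : Matrix (Fin n) (Fin n) ℝ := ∑ a, K a x • pdM a (Gm g i) x +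
    ∑ a, pderiv i (K a) x • Gm g a x +
      (Gm g i x * Bm K x - Bm K x * Gm g i x) + pdM i (Bm K) x with hE
  have h1 : g x * E = 0 := by
    ext l j
    have hlow := hK.low hg hx l i j
    have e1 : (g x * ∑ a, K a x • pdM a (Gm g i) x) l j =
        ∑ a, ((1 / 2) * (K a x * pderiv a (fun z => KEnd_361.low g z l i j) x)) -
        ∑ k, (∑ a, K a x * pderiv a (fun y => g y l k) x) * christoffel g x k i j := by
      rw [Matrix.mul_sum, Matrix.sum_apply]
      simp_rw [Matrix.mul_smul]
      simp only [Matrix.smul_apply, Matrix.mul_apply, pdM_apply, Gm_apply,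
        smul_eq_mul]
      simp_rw [g_pd_chr hg hx, mul_sub, Finset.sum_sub_distrib]
      congr 1
      · exact Finset.sum_congr rfl fun a _ => by ring
      · simp_rw [Finset.sum_mul, Finset.mul_sum]
        rw [Finset.sum_comm]
        exact Finset.sum_congr rfl fun a _ => Finset.sum_congr rfl fun k _ => by ring
    have e2 : (g x * ∑ a, pderiv i (K a) x • Gm g a x) l j =
        ∑ a, (1 / 2) * (pderiv i (K a) x * KEnd_361.low g x l a j) := by
      rw [Matrix.mul_sum, Matrix.sum_apply]
      simp_rw [Matrix.mul_smul]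
      simp only [Matrix.smul_apply, Matrix.mul_apply, Gm_apply, smul_eq_mul]
      simp_rw [g_chr hg hx]
      exact Finset.sum_congr rfl fun a _ => by ring
    have e3 : (g x * (Gm g i x * Bm K x)) l j =
        ∑ a, (1 / 2) * (pderiv j (K a) x * KEnd_361.low g x l i a) := by
      rw [← Matrix.mul_assoc, Matrix.mul_apply]
      refine Finset.sum_congr rfl fun a _ => ?_
      rw [Matrix.mul_apply]
      simp only [Gm_apply, Bm_apply]
      rw [g_chr hg hx]
      ring
    have e5 : (g x * pdM i (Bm K) x) l j =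
        ∑ a, (1 / 2) * (2 * (g x l a * pderiv i (fun z => pderiv j (K a) z) x)) := by
      rw [Matrix.mul_apply]
      refine Finset.sum_congr rfl fun a _ => ?_
      rw [pdM_apply]
      simp only [Bm_apply]
      ring
    have e4 : ∑ k, (∑ a, K a x * pderiv a (fun y => g y l k) x) * christoffel g x k i j =
        - (g x * (Bm K x * Gm g i x)) l j -
          ∑ a, (1 / 2) * (pderiv l (K a) x * KEnd_361.low g x a i j) := by
      have h2 : ∀ k, ∑ a, K a x * pderiv a (fun y => g y l k) x =
          - ∑ a, g x l a * pderiv k (K a) x - ∑ a, pderiv l (K a) x * g x a k := by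
        intro k
        have h3 := hK.eq x hx l k
        rw [Finset.sum_add_distrib, Finset.sum_add_distrib] at h3
        have h4 : ∑ a, g x a k * pderiv l (K a) x = ∑ a, pderiv l (K a) x * g x a k :=
          Finset.sum_congr rfl fun a _ => mul_comm _ _
        linarith
      simp_rw [h2, sub_mul, Finset.sum_sub_distrib]
      congr 1
      · rw [← Matrix.mul_assoc, Matrix.mul_apply, ← Finset.sum_neg_distrib]
        refine Finset.sum_congr rfl fun k _ => ?_
        rw [Matrix.mul_apply]
        simp only [Gm_apply, Bm_apply]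
        ring
      · simp_rw [Finset.sum_mul]
        rw [Finset.sum_comm]
        refine Finset.sum_congr rfl fun a _ => ?_
        rw [mul_left_comm, ← g_chr hg hx, Finset.mul_sum]
        exact Finset.sum_congr rfl fun k _ => by ring
    rw [hE]
    simp only [Matrix.mul_add, Matrix.mul_sub, Matrix.add_apply, Matrix.sub_apply]
    rw [e1, e2, e3, e5, e4, Matrix.zero_apply]
    have h6 := congrArg (fun t => (1 / 2 : ℝ) * t) hlow
    simp only [Finset.sum_add_distrib, mul_add, mul_zero, Finset.mul_sum] at h6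
    linarith
  calc E = inverseField g x * (g x * E) := by
        rw [← Matrix.mul_assoc, inv_mul_g hg hx, Matrix.one_mul]
    _ = 0 := by rw [h1, Matrix.mul_zero]

end Crest.Agent.R260.KEnd_361
end
end

-- ▼ part R260/KEnd3_361
section

/-! Row 260: a Killing field preserves the Riemann tensor and, at its zeros, the covariant
derivative of the Riemann tensor.  (helper361) -/

set_option autoImplicit false
open scoped ContDiff Topology
open Crest.GeometryTopology.CoordMetric Crest.GeometryTopology.ChartRiem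

noncomputable section

namespace Crest.Agent.R260.KEnd_361

variable {n : ℕ} {U : Set (EuclideanSpace ℝ (Fin n))} {x : EuclideanSpace ℝ (Fin n)}
  {g : MetricField n} {K : Fin n → EuclideanSpace ℝ (Fin n) → ℝ}

/-- commutation of `∂_i` with the derivation `Σ K^a ∂_a` -/
theorem pdM_delta {α β : Type*} (hU : IsOpen U) (hK : ∀ a, Sm U (K a))
    {X : EuclideanSpace ℝ (Fin n) → Matrix α β ℝ} (hX : SmM U X) (hx : x ∈ U) (i : Fin n) :
    pdM i (fun y => ∑ a, K a y • pdM a X y) x =
      ∑ a, K a x • pdM a (fun y => pdM i X y) x + ∑ a, pderiv i (K a) x • pdM a X x := by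
  rw [pdM_sum hU (fun a _ => SmM.smul (hK a) (hX.pd hU a)) hx, ← Finset.sum_add_distrib]
  refine Finset.sum_congr rfl fun a _ => ?_
  rw [pdM_smul hU (hK a) (hX.pd hU a) hx, pdM_comm hU hX hx i a, add_comm]

/-- derivative of `Σ_a f_a • X_a` -/
theorem pdM_lin {α β : Type*} (hU : IsOpen U) {f : Fin n → EuclideanSpace ℝ (Fin n) → ℝ}
    (hf : ∀ a, Sm U (f a)) {X : Fin n → EuclideanSpace ℝ (Fin n) → Matrix α β ℝ}
    (hX : ∀ a, SmM U (X a)) (hx : x ∈ U) (i : Fin n) :
    pdM i (fun y => ∑ a, f a y • X a y) x =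
      ∑ a, pderiv i (f a) x • X a x + ∑ a, f a x • pdM i (X a) x := by
  rw [pdM_sum hU (fun a _ => SmM.smul (hf a) (hX a)) hx, ← Finset.sum_add_distrib]
  refine Finset.sum_congr rfl fun a _ => ?_
  rw [pdM_smul hU (hf a) (hX a) hx]

theorem sum_smul_mul {α β γ : Type*} [Fintype β] (f : Fin n → ℝ) (X : Fin n → Matrix α β ℝ)
    (Y : Matrix β γ ℝ) : ∑ a, f a • (X a * Y) = (∑ a, f a • X a) * Y := by
  rw [Matrix.sum_mul]
  exact Finset.sum_congr rfl fun a _ => by rw [Matrix.smul_mul]

theorem sum_mul_smul {α β γ : Type*} [Fintype β] (f : Fin n → ℝ) (X : Fin n → Matrix β γ ℝ)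
    (Y : Matrix α β ℝ) : ∑ a, f a • (Y * X a) = Y * (∑ a, f a • X a) := by
  rw [Matrix.mul_sum]
  exact Finset.sum_congr rfl fun a _ => by rw [Matrix.mul_smul]

/-- the differentiated form of `L_K Γ = 0` -/
theorem Kill.chr_d (hg : IsRiemannianOn g U) (hK : Kill g U K) (hx : x ∈ U) (i j : Fin n) :
    ∑ a, K a x • pdM a (fun y => pdM i (Gm g j) y) x + ∑ a, pderiv i (K a) x • pdM a (Gm g j) x +
      (∑ a, pderiv i (fun y => pderiv j (K a) y) x • Gm g a x +
        ∑ a, pderiv j (K a) x • pdM i (Gm g a) x) +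
      ((pdM i (Gm g j) x * Bm K x + Gm g j x * pdM i (Bm K) x) -
        (pdM i (Bm K) x * Gm g j x + Bm K x * pdM i (Gm g j) x)) +
      pdM i (fun y => pdM j (Bm K) y) x = 0 := by
  have hU := hg.isOpen
  have hB := hK.sm_Bm hg
  have hG := sm_Gm hg
  have s1 : SmM U (fun y => ∑ a, K a y • pdM a (Gm g j) y) :=
    SmM.sum fun a _ => SmM.smul (hK.sm a) ((hG j).pd hU a)
  have s2 : SmM U (fun y => ∑ a, pderiv j (K a) y • Gm g a y) :=
    SmM.sum fun a _ => SmM.smul ((hK.sm a).pd hU j) (hG a)
  have s3 : SmM U (fun y => Gm g j y * Bm K y) := (hG j).mul hB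
  have s4 : SmM U (fun y => Bm K y * Gm g j y) := hB.mul (hG j)
  have s5 : SmM U (fun y => pdM j (Bm K) y) := hB.pd hU j
  have h0 := pdM_congr hU (X := fun y => ∑ a, K a y • pdM a (Gm g j) y +
    ∑ a, pderiv j (K a) y • Gm g a y + (Gm g j y * Bm K y - Bm K y * Gm g j y) +
      pdM j (Bm K) y) (Y := fun _ => 0) (fun y hy => hK.chr hg hy j) hx i
  rw [pdM_const, pdM_add hU ((s1.add s2).add (s3.sub s4)) s5 hx,
    pdM_add hU (s1.add s2) (s3.sub s4) hx, pdM_add hU s1 s2 hx, pdM_sub hU s3 s4 hx,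
    pdM_mul hU (hG j) hB hx, pdM_mul hU hB (hG j) hx, pdM_delta hU hK.sm (hG j) hx,
    pdM_lin hU (fun a => (hK.sm a).pd hU j) hG hx] at h0
  exact h0

/-- **a Killing field preserves the curvature tensor** -/
theorem Kill.riem (hg : IsRiemannianOn g U) (hK : Kill g U K) (hx : x ∈ U) (i j : Fin n) :
    ∑ a, K a x • pdM a (Rm g i j) x + ∑ a, pderiv i (K a) x • Rm g a j x +
      ∑ a, pderiv j (K a) x • Rm g i a x +
      (Rm g i j x * Bm K x - Bm K x * Rm g i j x) = 0 := by
  have hU := hg.isOpen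
  have hB := hK.sm_Bm hg
  have hG := sm_Gm hg
  have h1 := hK.chr_d hg hx i j
  have h2 := hK.chr_d hg hx j i
  have e1 := hK.chr hg hx i
  have e2 := hK.chr hg hx j
  have c1 : pdM i (fun y => pdM j (Bm K) y) x = pdM j (fun y => pdM i (Bm K) y) x :=
    pdM_comm hU hB hx i j
  have c2 : ∑ a, pderiv i (fun y => pderiv j (K a) y) x • Gm g a x =
      ∑ a, pderiv j (fun y => pderiv i (K a) y) x • Gm g a x :=
    Finset.sum_congr rfl fun a _ => by rw [pd_comm hU (hK.sm a) hx i j]
  rw [c1, c2] at h1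
  -- derivative of the curvature along `K`
  have r1 : ∀ a, pdM a (Rm g i j) x = pdM a (fun y => pdM i (Gm g j) y) x -
      pdM a (fun y => pdM j (Gm g i) y) x +
      ((pdM a (Gm g i) x * Gm g j x + Gm g i x * pdM a (Gm g j) x) -
        (pdM a (Gm g j) x * Gm g i x + Gm g j x * pdM a (Gm g i) x)) := by
    intro a
    rw [pdM_congr hU (Y := fun y => pdM i (Gm g j) y - pdM j (Gm g i) y +
      (Gm g i y * Gm g j y - Gm g j y * Gm g i y)) (fun y _ => Rm_eq g i j y) hx,
      pdM_add hU (((hG j).pd hU i).sub ((hG i).pd hU j))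
        (((hG i).mul (hG j)).sub ((hG j).mul (hG i))) hx,
      pdM_sub hU ((hG j).pd hU i) ((hG i).pd hU j) hx,
      pdM_sub hU ((hG i).mul (hG j)) ((hG j).mul (hG i)) hx,
      pdM_mul hU (hG i) (hG j) hx, pdM_mul hU (hG j) (hG i) hx]
  have r2 : ∑ a, K a x • pdM a (Rm g i j) x =
      ∑ a, K a x • pdM a (fun y => pdM i (Gm g j) y) x -
      ∑ a, K a x • pdM a (fun y => pdM j (Gm g i) y) x +
      (((∑ a, K a x • pdM a (Gm g i) x) * Gm g j x + Gm g i x * ∑ a, K a x • pdM a (Gm g j) x) -
        ((∑ a, K a x • pdM a (Gm g j) x) * Gm g i x +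
          Gm g j x * ∑ a, K a x • pdM a (Gm g i) x)) := by
    simp_rw [r1, smul_add, smul_sub, smul_add, Finset.sum_add_distrib, Finset.sum_sub_distrib,
      Finset.sum_add_distrib, sum_smul_mul, sum_mul_smul]
  have r3 : ∑ a, pderiv i (K a) x • Rm g a j x =
      ∑ a, pderiv i (K a) x • pdM a (Gm g j) x - ∑ a, pderiv i (K a) x • pdM j (Gm g a) x +
      ((∑ a, pderiv i (K a) x • Gm g a x) * Gm g j x -
        Gm g j x * ∑ a, pderiv i (K a) x • Gm g a x) := by
    simp_rw [Rm_eq, smul_add, smul_sub, Finset.sum_add_distrib, Finset.sum_sub_distrib,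
      sum_smul_mul, sum_mul_smul]
  have r4 : ∑ a, pderiv j (K a) x • Rm g i a x =
      ∑ a, pderiv j (K a) x • pdM i (Gm g a) x - ∑ a, pderiv j (K a) x • pdM a (Gm g i) x +
      (Gm g i x * (∑ a, pderiv j (K a) x • Gm g a x) -
        (∑ a, pderiv j (K a) x • Gm g a x) * Gm g i x) := by
    simp_rw [Rm_eq, smul_add, smul_sub, Finset.sum_add_distrib, Finset.sum_sub_distrib,
      sum_smul_mul, sum_mul_smul]
  rw [r2, r3, r4, Rm_eq]
  generalize (∑ a, K a x • pdM a (fun y => pdM i (Gm g j) y) x) = Dij at *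
  generalize (∑ a, K a x • pdM a (fun y => pdM j (Gm g i) y) x) = Dji at *
  generalize (∑ a, K a x • pdM a (Gm g i) x) = Di at *
  generalize (∑ a, K a x • pdM a (Gm g j) x) = Dj at *
  generalize (∑ a, pderiv i (K a) x • pdM a (Gm g j) x) = Wij at *
  generalize (∑ a, pderiv j (K a) x • pdM a (Gm g i) x) = Wji at *
  generalize (∑ a, pderiv i (K a) x • pdM j (Gm g a) x) = Vij at *
  generalize (∑ a, pderiv j (K a) x • pdM i (Gm g a) x) = Vji at *
  generalize (∑ a, pderiv i (K a) x • Gm g a x) = Zi at *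
  generalize (∑ a, pderiv j (K a) x • Gm g a x) = Zj at *
  generalize (∑ a, pderiv j (fun y => pderiv i (K a) y) x • Gm g a x) = Y at *
  generalize pdM i (Gm g j) x = Pij at *
  generalize pdM j (Gm g i) x = Pji at *
  generalize pdM i (Bm K) x = Bi at *
  generalize pdM j (Bm K) x = Bj at *
  generalize pdM j (fun y => pdM i (Bm K) y) x = Bij at *
  generalize Gm g i x = Gi at *
  generalize Gm g j x = Gj at *
  generalize Bm K x = B at *
  have key : (Dij + Wij + (Y + Vji) + ((Pij * B + Gj * Bi) - (Bi * Gj + B * Pij)) + Bij) -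
      (Dji + Wji + (Y + Vij) + ((Pji * B + Gi * Bj) - (Bj * Gi + B * Pji)) + Bij) +
      (Gi * (Dj + Zj + (Gj * B - B * Gj) + Bj) - (Dj + Zj + (Gj * B - B * Gj) + Bj) * Gi) -
      (Gj * (Di + Zi + (Gi * B - B * Gi) + Bi) - (Di + Zi + (Gi * B - B * Gi) + Bi) * Gj) = 0 := by
    rw [h1, h2, e1, e2]; simp
  rw [← key]
  noncomm_ring

end Crest.Agent.R260.KEnd_361
end
end

-- ▼ part R260/KEnd4_361
section

/-! Row 260: at a zero of a Killing field the linear part of the field annihilates `∇R`
(as a derivation); if its square is `-1` then `∇R = 0` there.  (helper361) -/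

set_option autoImplicit false
open scoped ContDiff Topology
open Crest.GeometryTopology.CoordMetric Crest.GeometryTopology.ChartRiem

noncomputable section

namespace Crest.Agent.R260.KEnd_361

variable {n : ℕ} {U : Set (EuclideanSpace ℝ (Fin n))} {x : EuclideanSpace ℝ (Fin n)}
  {g : MetricField n} {K : Fin n → EuclideanSpace ℝ (Fin n) → ℝ}

/-- at a zero of `K` the derivation defined by `B = ∂K` kills `∇R` -/
theorem Kill.nabla (hg : IsRiemannianOn g U) (hK : Kill g U K) (hx : x ∈ U)
    (h0 : ∀ a, K a x = 0) (m i j : Fin n) :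
    ∑ a, Bm K x a m • Nm g a i j x + ∑ a, Bm K x a i • Nm g m a j x +
      ∑ a, Bm K x a j • Nm g m i a x + (Nm g m i j x * Bm K x - Bm K x * Nm g m i j x) = 0 := by
  have hU := hg.isOpen
  have hB := hK.sm_Bm hg
  have hG := sm_Gm hg
  have hR := sm_Rm hg
  -- the curvature equation, differentiated
  have hF : ∀ a b, ∑ c, Bm K x c a • Rm g c b x + ∑ c, Bm K x c b • Rm g a c x +
      (Rm g a b x * Bm K x - Bm K x * Rm g a b x) = 0 := by
    intro a b
    have h := hK.riem hg hx a b
    simp only [h0, zero_smul, Finset.sum_const_zero, zero_add] at h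
    exact h
  have hE : ∀ a, ∑ c, Bm K x c a • Gm g c x + (Gm g a x * Bm K x - Bm K x * Gm g a x) +
      pdM a (Bm K) x = 0 := by
    intro a
    have h := hK.chr hg hx a
    simp only [h0, zero_smul, Finset.sum_const_zero, zero_add] at h
    exact h
  have s1 : SmM U (fun y => ∑ a, K a y • pdM a (Rm g i j) y) :=
    SmM.sum fun a _ => SmM.smul (hK.sm a) ((hR i j).pd hU a)
  have s2 : SmM U (fun y => ∑ a, pderiv i (K a) y • Rm g a j y) :=
    SmM.sum fun a _ => SmM.smul ((hK.sm a).pd hU i) (hR a j)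
  have s3 : SmM U (fun y => ∑ a, pderiv j (K a) y • Rm g i a y) :=
    SmM.sum fun a _ => SmM.smul ((hK.sm a).pd hU j) (hR i a)
  have s4 : SmM U (fun y => Rm g i j y * Bm K y) := (hR i j).mul hB
  have s5 : SmM U (fun y => Bm K y * Rm g i j y) := hB.mul (hR i j)
  have hd := pdM_congr hU (X := fun y => ∑ a, K a y • pdM a (Rm g i j) y +
    ∑ a, pderiv i (K a) y • Rm g a j y + ∑ a, pderiv j (K a) y • Rm g i a y +
      (Rm g i j y * Bm K y - Bm K y * Rm g i j y)) (Y := fun _ => 0)
      (fun y hy => hK.riem hg hy i j) hx m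
  rw [pdM_const, pdM_add hU ((s1.add s2).add s3) (s4.sub s5) hx,
    pdM_add hU (s1.add s2) s3 hx, pdM_add hU s1 s2 hx, pdM_sub hU s4 s5 hx,
    pdM_mul hU (hR i j) hB hx, pdM_mul hU hB (hR i j) hx, pdM_delta hU hK.sm (hR i j) hx,
    pdM_lin hU (fun a => (hK.sm a).pd hU i) (fun a => hR a j) hx,
    pdM_lin hU (fun a => (hK.sm a).pd hU j) (fun a => hR i a) hx] at hd
  simp only [h0, zero_smul, Finset.sum_const_zero, zero_add] at hd
  -- the four pieces
  have t1 : ∑ a, Bm K x a m • Nm g a i j x = ∑ a, Bm K x a m • pdM a (Rm g i j) x +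
      ((∑ a, Bm K x a m • Gm g a x) * Rm g i j x - Rm g i j x * ∑ a, Bm K x a m • Gm g a x) -
      ∑ p, (∑ a, Bm K x a m • Gm g a x) p i • Rm g p j x -
      ∑ p, (∑ a, Bm K x a m • Gm g a x) p j • Rm g i p x := by
    simp_rw [Nm_eq, smul_sub, smul_add, smul_sub, Finset.sum_sub_distrib, Finset.sum_add_distrib,
      Finset.sum_sub_distrib, sum_smul_mul, sum_mul_smul]
    congr 1
    · congr 1
      simp_rw [Finset.smul_sum, smul_smul, Matrix.sum_apply, Matrix.smul_apply, smul_eq_mul,
        Finset.sum_smul]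
      rw [Finset.sum_comm]
    · simp_rw [Finset.smul_sum, smul_smul, Matrix.sum_apply, Matrix.smul_apply, smul_eq_mul,
        Finset.sum_smul]
      rw [Finset.sum_comm]
  have t2 : ∑ a, Bm K x a i • Nm g m a j x = ∑ a, Bm K x a i • pdM m (Rm g a j) x +
      (Gm g m x * (∑ a, Bm K x a i • Rm g a j x) - (∑ a, Bm K x a i • Rm g a j x) * Gm g m x) -
      ∑ p, (Gm g m x * Bm K x) p i • Rm g p j x -
      ∑ p, Gm g m x p j • (∑ a, Bm K x a i • Rm g a p x) := by
    simp_rw [Nm_eq, smul_sub, smul_add, smul_sub, Finset.sum_sub_distrib, Finset.sum_add_distrib,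
      Finset.sum_sub_distrib, sum_smul_mul, sum_mul_smul]
    congr 1
    · congr 1
      simp_rw [Finset.smul_sum, smul_smul, Matrix.mul_apply, Finset.sum_smul]
      rw [Finset.sum_comm]
      exact Finset.sum_congr rfl fun p _ => Finset.sum_congr rfl fun a _ => by rw [mul_comm]
    · simp_rw [Finset.smul_sum, smul_smul]
      rw [Finset.sum_comm]
      exact Finset.sum_congr rfl fun p _ => Finset.sum_congr rfl fun a _ => by rw [mul_comm]
  have t3 : ∑ a, Bm K x a j • Nm g m i a x = ∑ a, Bm K x a j • pdM m (Rm g i a) x +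
      (Gm g m x * (∑ a, Bm K x a j • Rm g i a x) - (∑ a, Bm K x a j • Rm g i a x) * Gm g m x) -
      ∑ p, Gm g m x p i • (∑ a, Bm K x a j • Rm g p a x) -
      ∑ p, (Gm g m x * Bm K x) p j • Rm g i p x := by
    simp_rw [Nm_eq, smul_sub, smul_add, smul_sub, Finset.sum_sub_distrib, Finset.sum_add_distrib,
      Finset.sum_sub_distrib, sum_smul_mul, sum_mul_smul]
    congr 1
    · congr 1
      simp_rw [Finset.smul_sum, smul_smul]
      rw [Finset.sum_comm]
      exact Finset.sum_congr rfl fun p _ => Finset.sum_congr rfl fun a _ => by rw [mul_comm]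
    · simp_rw [Finset.smul_sum, smul_smul, Matrix.mul_apply, Finset.sum_smul]
      rw [Finset.sum_comm]
      exact Finset.sum_congr rfl fun p _ => Finset.sum_congr rfl fun a _ => by rw [mul_comm]
  have t4 : Nm g m i j x * Bm K x - Bm K x * Nm g m i j x =
      (pdM m (Rm g i j) x * Bm K x - Bm K x * pdM m (Rm g i j) x) +
      ((Gm g m x * Rm g i j x - Rm g i j x * Gm g m x) * Bm K x -
        Bm K x * (Gm g m x * Rm g i j x - Rm g i j x * Gm g m x)) -
      ∑ p, Gm g m x p i • (Rm g p j x * Bm K x - Bm K x * Rm g p j x) -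
      ∑ p, Gm g m x p j • (Rm g i p x * Bm K x - Bm K x * Rm g i p x) := by
    simp_rw [smul_sub, Finset.sum_sub_distrib, sum_smul_mul, sum_mul_smul]
    rw [Nm_eq]
    noncomm_ring
  -- use the curvature equation inside the sums
  have u1 : ∑ p, Gm g m x p i • (∑ a, Bm K x a j • Rm g p a x) +
      ∑ p, Gm g m x p i • (Rm g p j x * Bm K x - Bm K x * Rm g p j x) =
      - ∑ p, (Bm K x * Gm g m x) p i • Rm g p j x := by
    rw [← Finset.sum_add_distrib]
    have : ∀ p, Gm g m x p i • (∑ a, Bm K x a j • Rm g p a x) +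
        Gm g m x p i • (Rm g p j x * Bm K x - Bm K x * Rm g p j x) =
        - (Gm g m x p i • ∑ c, Bm K x c p • Rm g c j x) := by
      intro p
      rw [← smul_add, ← smul_neg]
      congr 1
      have h := hF p j
      rw [add_assoc] at h
      exact eq_neg_of_add_eq_zero_right h
    simp_rw [this, Finset.sum_neg_distrib, Finset.smul_sum, smul_smul, Matrix.mul_apply,
      Finset.sum_smul]
    rw [Finset.sum_comm]
    congr 1
    exact Finset.sum_congr rfl fun p _ => Finset.sum_congr rfl fun a _ => by rw [mul_comm]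
  have u2 : ∑ p, Gm g m x p j • (∑ a, Bm K x a i • Rm g a p x) +
      ∑ p, Gm g m x p j • (Rm g i p x * Bm K x - Bm K x * Rm g i p x) =
      - ∑ p, (Bm K x * Gm g m x) p j • Rm g i p x := by
    rw [← Finset.sum_add_distrib]
    have : ∀ p, Gm g m x p j • (∑ a, Bm K x a i • Rm g a p x) +
        Gm g m x p j • (Rm g i p x * Bm K x - Bm K x * Rm g i p x) =
        - (Gm g m x p j • ∑ c, Bm K x c p • Rm g i c x) := by
      intro p
      rw [← smul_add, ← smul_neg]
      congr 1
      have h := hF i p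
      rw [add_right_comm] at h
      exact eq_neg_of_add_eq_zero_left h
    simp_rw [this, Finset.sum_neg_distrib, Finset.smul_sum, smul_smul, Matrix.mul_apply,
      Finset.sum_smul]
    rw [Finset.sum_comm]
    congr 1
    exact Finset.sum_congr rfl fun p _ => Finset.sum_congr rfl fun a _ => by rw [mul_comm]
  -- the coefficient identity
  have v : ∀ p q, (∑ a, Bm K x a m • Gm g a x) p q + (Gm g m x * Bm K x) p q -
      (Bm K x * Gm g m x) p q + pderiv m (fun y => pderiv q (K p) y) x = 0 := by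
    intro p q
    have h := congrFun (congrFun (hE m) p) q
    simp only [Matrix.add_apply, Matrix.sub_apply, Matrix.zero_apply, pdM_apply, Bm_apply] at h ⊢
    linarith
  have w1 : ∑ p, (∑ a, Bm K x a m • Gm g a x) p i • Rm g p j x +
      ∑ p, (Gm g m x * Bm K x) p i • Rm g p j x - ∑ p, (Bm K x * Gm g m x) p i • Rm g p j x +
      ∑ p, pderiv m (fun y => pderiv i (K p) y) x • Rm g p j x = 0 := by
    rw [← Finset.sum_add_distrib, ← Finset.sum_sub_distrib, ← Finset.sum_add_distrib]
    refine Finset.sum_eq_zero fun p _ => ?_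
    rw [← add_smul, ← sub_smul, ← add_smul, v p i, zero_smul]
  have w2 : ∑ p, (∑ a, Bm K x a m • Gm g a x) p j • Rm g i p x +
      ∑ p, (Gm g m x * Bm K x) p j • Rm g i p x - ∑ p, (Bm K x * Gm g m x) p j • Rm g i p x +
      ∑ p, pderiv m (fun y => pderiv j (K p) y) x • Rm g i p x = 0 := by
    rw [← Finset.sum_add_distrib, ← Finset.sum_sub_distrib, ← Finset.sum_add_distrib]
    refine Finset.sum_eq_zero fun p _ => ?_
    rw [← add_smul, ← sub_smul, ← add_smul, v p j, zero_smul]
  have hEm := hE m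
  have hFij := hF i j
  rw [t1, t2, t3, t4]
  have hd2 : ∑ a, Bm K x a m • pdM a (Rm g i j) x +
      (∑ p, pderiv m (fun y => pderiv i (K p) y) x • Rm g p j x +
        ∑ a, Bm K x a i • pdM m (Rm g a j) x) +
      (∑ p, pderiv m (fun y => pderiv j (K p) y) x • Rm g i p x +
        ∑ a, Bm K x a j • pdM m (Rm g i a) x) +
      ((pdM m (Rm g i j) x * Bm K x + Rm g i j x * pdM m (Bm K) x) -
        (pdM m (Bm K) x * Rm g i j x + Bm K x * pdM m (Rm g i j) x)) = 0 := hd
  generalize ∑ p, (∑ a, Bm K x a m • Gm g a x) p i • Rm g p j x = A1 at *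
  generalize ∑ p, (∑ a, Bm K x a m • Gm g a x) p j • Rm g i p x = A2 at *
  generalize ∑ p, (Gm g m x * Bm K x) p i • Rm g p j x = A3 at *
  generalize ∑ p, (Gm g m x * Bm K x) p j • Rm g i p x = A4 at *
  generalize ∑ p, (Bm K x * Gm g m x) p i • Rm g p j x = A5 at *
  generalize ∑ p, (Bm K x * Gm g m x) p j • Rm g i p x = A6 at *
  generalize ∑ p, pderiv m (fun y => pderiv i (K p) y) x • Rm g p j x = A7 at *
  generalize ∑ p, pderiv m (fun y => pderiv j (K p) y) x • Rm g i p x = A8 at *
  generalize ∑ p, Gm g m x p i • (∑ a, Bm K x a j • Rm g p a x) = A9 at *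
  generalize ∑ p, Gm g m x p j • (∑ a, Bm K x a i • Rm g a p x) = A10 at *
  generalize ∑ p, Gm g m x p i • (Rm g p j x * Bm K x - Bm K x * Rm g p j x) = A11 at *
  generalize ∑ p, Gm g m x p j • (Rm g i p x * Bm K x - Bm K x * Rm g i p x) = A12 at *
  generalize ∑ a, Bm K x a m • Gm g a x = Z at *
  generalize ∑ a, Bm K x a m • pdM a (Rm g i j) x = C1 at *
  generalize ∑ a, Bm K x a i • pdM m (Rm g a j) x = C2 at *
  generalize ∑ a, Bm K x a j • pdM m (Rm g i a) x = C3 at *
  generalize ∑ a, Bm K x a i • Rm g a j x = Q1 at *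
  generalize ∑ a, Bm K x a j • Rm g i a x = Q2 at *
  generalize pdM m (Bm K) x = Bd at *
  generalize pdM m (Rm g i j) x = Rd at *
  generalize Rm g i j x = R at *
  generalize Gm g m x = Γ at *
  generalize Bm K x = B at *
  have key : (C1 + (A7 + C2) + (A8 + C3) + ((Rd * B + R * Bd) - (Bd * R + B * Rd))) +
      ((Z + (Γ * B - B * Γ) + Bd) * R - R * (Z + (Γ * B - B * Γ) + Bd)) +
      (Γ * (Q1 + Q2 + (R * B - B * R)) - (Q1 + Q2 + (R * B - B * R)) * Γ) -
      (A1 + A3 - A5 + A7) - (A2 + A4 - A6 + A8) - (A9 + A11 - (-A5)) - (A10 + A12 - (-A6)) = 0 := by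
    rw [hd2, hEm, hFij, w1, w2, u1, u2]; simp
  rw [← key]
  noncomm_ring

end Crest.Agent.R260.KEnd_361
end
end

-- ▼ part R260/KEnd5_361

/-! Row 260: parity of (1,4)-tensors, and the local end of the row:
`K` Killing near `x`, `K x = 0`, `(∂K)(x)² = -1` imply `∇R = 0` at `x`.  (helper361) -/

set_option autoImplicit false
open scoped ContDiff Topology
open Crest.GeometryTopology.CoordMetric Crest.GeometryTopology.ChartRiem

noncomputable section

namespace Crest.Agent.R260.KEnd_361

variable {n : ℕ}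

/-- five commuting square roots of `-1` have an invertible sum -/
theorem five_comm {R : Type*} [CommRing R] {a b c d e : R} (ha : a * a = -1)
    (hb : b * b = -1) (hc : c * c = -1) (hd : d * d = -1) (he : e * e = -1) :
    (4 * (a * b * c * d * e) + (a * b * c + a * b * d + a * b * e + a * c * d + a * c * e +
      a * d * e + b * c * d + b * c * e + b * d * e + c * d * e)) * 2 * (a + b + c + d + e) +
      3 * (a + b + c + d + e) * (a + b + c + d + e) = -15 := by
  linear_combination
    (8 * (b * c * d * e) + 2 * (b * c + b * d + b * e + c * d + c * e + d * e) + 3) * ha +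
    (8 * (a * c * d * e) + 2 * (a * c + a * d + a * e + c * d + c * e + d * e) + 3) * hb +
    (8 * (a * b * d * e) + 2 * (a * b + a * d + a * e + b * d + b * e + d * e) + 3) * hc +
    (8 * (a * b * c * e) + 2 * (a * b + a * c + a * e + b * c + b * e + c * e) + 3) * hd +
    (8 * (a * b * c * d) + 2 * (a * b + a * c + a * d + b * c + b * d + c * d) + 3) * he

theorem five_end {V : Type*} [AddCommGroup V] [Module ℝ V] (c : Fin 5 → Module.End ℝ V)
    (hc : ∀ i j, c i * c j = c j * c i) (hs : ∀ i, c i * c i = -1) (v : V)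
    (h : c 0 v + c 1 v + c 2 v + c 3 v + c 4 v = 0) : v = 0 := by
  have hcm : IsMulCommutative (Algebra.adjoin ℝ (Set.range c)) :=
    Algebra.isMulCommutative_adjoin ℝ (by rintro _ ⟨i, rfl⟩ _ ⟨j, rfl⟩; exact hc i j)
  let _ : CommRing (Algebra.adjoin ℝ (Set.range c)) :=
    { (inferInstance : Ring (Algebra.adjoin ℝ (Set.range c))) with
      mul_comm := fun a b => hcm.is_comm.comm a b }
  let d : Fin 5 → Algebra.adjoin ℝ (Set.range c) := fun i =>
    ⟨c i, Algebra.subset_adjoin ⟨i, rfl⟩⟩
  have hd : ∀ i, d i * d i = -1 := fun i => Subtype.ext (hs i)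
  have h5 := five_comm (R := Algebra.adjoin ℝ (Set.range c)) (hd 0) (hd 1) (hd 2) (hd 3) (hd 4)
  set T : Algebra.adjoin ℝ (Set.range c) := d 0 + d 1 + d 2 + d 3 + d 4 with hT
  set P := (4 * (d 0 * d 1 * d 2 * d 3 * d 4) + (d 0 * d 1 * d 2 + d 0 * d 1 * d 3 + d 0 * d 1 * d 4 +
      d 0 * d 2 * d 3 + d 0 * d 2 * d 4 +
      d 0 * d 3 * d 4 + d 1 * d 2 * d 3 + d 1 * d 2 * d 4 + d 1 * d 3 * d 4 + d 2 * d 3 * d 4)) * 2
    with hP
  have e1 : (P + 3 * T) * T + 15 = 0 := by linear_combination h5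
  have e2 : (((P + 3 * T) * T + 15 : Algebra.adjoin ℝ (Set.range c)) : Module.End ℝ V) v = 0 := by
    rw [e1]; rfl
  have e3 : (((P + 3 * T) * T + 15 : Algebra.adjoin ℝ (Set.range c)) : Module.End ℝ V) v =
      ((P + 3 * T : Algebra.adjoin ℝ (Set.range c)) : Module.End ℝ V)
        ((T : Module.End ℝ V) v) + ((15 : ℕ) : Module.End ℝ V) v := rfl
  have e4 : (T : Module.End ℝ V) v = 0 := h
  rw [e3, e4, map_zero, zero_add, Module.End.natCast_apply, ← Nat.cast_smul_eq_nsmul ℝ] at e2
  exact (smul_eq_zero.1 e2).resolve_left (by norm_num)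

/-- tensors with five indices -/
abbrev T5 (n : ℕ) : Type := Fin n → Fin n → Fin n → Fin n → Fin n → ℝ

def op1 (A : Matrix (Fin n) (Fin n) ℝ) : Module.End ℝ (T5 n) where
  toFun T := fun m l i j k => ∑ a, A a m * T a l i j k
  map_add' S T := by
    funext m l i j k
    simp only [Pi.add_apply, mul_add, Finset.sum_add_distrib]
  map_smul' r T := by
    funext m l i j k
    simp only [Pi.smul_apply, smul_eq_mul, RingHom.id_apply, Finset.mul_sum]
    exact Finset.sum_congr rfl fun a _ => by ring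

def op2 (A : Matrix (Fin n) (Fin n) ℝ) : Module.End ℝ (T5 n) where
  toFun T := fun m l i j k => ∑ a, A a i * T m l a j k
  map_add' S T := by
    funext m l i j k
    simp only [Pi.add_apply, mul_add, Finset.sum_add_distrib]
  map_smul' r T := by
    funext m l i j k
    simp only [Pi.smul_apply, smul_eq_mul, RingHom.id_apply, Finset.mul_sum]
    exact Finset.sum_congr rfl fun a _ => by ring

def op3 (A : Matrix (Fin n) (Fin n) ℝ) : Module.End ℝ (T5 n) where
  toFun T := fun m l i j k => ∑ a, A a j * T m l i a k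
  map_add' S T := by
    funext m l i j k
    simp only [Pi.add_apply, mul_add, Finset.sum_add_distrib]
  map_smul' r T := by
    funext m l i j k
    simp only [Pi.smul_apply, smul_eq_mul, RingHom.id_apply, Finset.mul_sum]
    exact Finset.sum_congr rfl fun a _ => by ring

def op4 (A : Matrix (Fin n) (Fin n) ℝ) : Module.End ℝ (T5 n) where
  toFun T := fun m l i j k => ∑ a, A a k * T m l i j a
  map_add' S T := by
    funext m l i j k
    simp only [Pi.add_apply, mul_add, Finset.sum_add_distrib]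
  map_smul' r T := by
    funext m l i j k
    simp only [Pi.smul_apply, smul_eq_mul, RingHom.id_apply, Finset.mul_sum]
    exact Finset.sum_congr rfl fun a _ => by ring

def op5 (A : Matrix (Fin n) (Fin n) ℝ) : Module.End ℝ (T5 n) where
  toFun T := fun m l i j k => ∑ a, - A l a * T m a i j k
  map_add' S T := by
    funext m l i j k
    simp only [Pi.add_apply, mul_add, Finset.sum_add_distrib]
  map_smul' r T := by
    funext m l i j k
    simp only [Pi.smul_apply, smul_eq_mul, RingHom.id_apply, Finset.mul_sum]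
    exact Finset.sum_congr rfl fun a _ => by ring

theorem dsum_comm (f g : Fin n → ℝ) (h : Fin n → Fin n → ℝ) :
    ∑ a, f a * ∑ b, g b * h a b = ∑ b, g b * ∑ a, f a * h a b := by
  simp_rw [Finset.mul_sum]
  rw [Finset.sum_comm]
  exact Finset.sum_congr rfl fun a _ => Finset.sum_congr rfl fun b _ => by ring

theorem dsum_sq {A : Matrix (Fin n) (Fin n) ℝ} (hA : A * A = -1) (q : Fin n) (h : Fin n → ℝ) :
    ∑ a, A a q * ∑ b, A b a * h b = - h q := by
  have hA1 : ∀ p, ∑ a, A p a * A a q = if p = q then -1 else 0 := by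
    intro p
    rw [← Matrix.mul_apply, hA, Matrix.neg_apply, Matrix.one_apply]
    split_ifs <;> simp
  calc ∑ a, A a q * ∑ b, A b a * h b = ∑ b, (∑ a, A b a * A a q) * h b := by
        simp_rw [Finset.mul_sum, Finset.sum_mul]
        rw [Finset.sum_comm]
        exact Finset.sum_congr rfl fun a _ => Finset.sum_congr rfl fun b _ => by ring
    _ = - h q := by simp_rw [hA1]; simp

theorem dsum_sq' {A : Matrix (Fin n) (Fin n) ℝ} (hA : A * A = -1) (q : Fin n) (h : Fin n → ℝ) :
    ∑ a, - A q a * ∑ b, - A a b * h b = - h q := by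
  have hA1 : ∀ p, ∑ a, A q a * A a p = if q = p then -1 else 0 := by
    intro p
    rw [← Matrix.mul_apply, hA, Matrix.neg_apply, Matrix.one_apply]
    split_ifs <;> simp
  calc ∑ a, - A q a * ∑ b, - A a b * h b = ∑ b, (∑ a, A q a * A a b) * h b := by
        simp_rw [Finset.mul_sum, Finset.sum_mul]
        rw [Finset.sum_comm]
        exact Finset.sum_congr rfl fun a _ => Finset.sum_congr rfl fun b _ => by ring
    _ = - h q := by simp_rw [hA1]; simp

/-- parity : a `(1,4)`-tensor killed by the derivation of a complex structure vanishes -/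
theorem parity {A : Matrix (Fin n) (Fin n) ℝ} (hA : A * A = -1) (T : T5 n)
    (hT : ∀ m l i j k, ∑ a, A a m * T a l i j k + ∑ a, A a i * T m l a j k +
      ∑ a, A a j * T m l i a k + (∑ a, T m l i j a * A a k - ∑ a, A l a * T m a i j k) = 0) :
    T = 0 := by
  refine five_end ![op1 A, op2 A, op3 A, op4 A, op5 A] ?_ ?_ T ?_
  · intro p q
    refine LinearMap.ext fun S => ?_
    funext m l i j k
    fin_cases p <;> fin_cases q <;> first | rfl | exact dsum_comm _ _ _
  · intro p
    refine LinearMap.ext fun S => ?_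
    funext m l i j k
    fin_cases p
    · exact dsum_sq hA m fun b => S b l i j k
    · exact dsum_sq hA i fun b => S m l b j k
    · exact dsum_sq hA j fun b => S m l i b k
    · exact dsum_sq hA k fun b => S m l i j b
    · exact dsum_sq' hA l fun b => S m b i j k
  · funext m l i j k
    have h := hT m l i j k
    change ∑ a, A a m * T a l i j k + ∑ a, A a i * T m l a j k + ∑ a, A a j * T m l i a k +
      ∑ a, A a k * T m l i j a + ∑ a, - A l a * T m a i j k = 0
    have h2 : ∑ a, T m l i j a * A a k = ∑ a, A a k * T m l i j a :=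
      Finset.sum_congr rfl fun a _ => mul_comm _ _
    have h3 : ∑ a, - A l a * T m a i j k = - ∑ a, A l a * T m a i j k := by
      rw [← Finset.sum_neg_distrib]
      exact Finset.sum_congr rfl fun a _ => by ring
    rw [h2] at h
    rw [h3]
    linarith

/-- **END of row 260.**  If near `x` there is a Killing field vanishing at `x` whose linear part
at `x` squares to `-1`, then `∇R` vanishes at `x`. -/
theorem kend {U : Set (EuclideanSpace ℝ (Fin n))} {x : EuclideanSpace ℝ (Fin n)}
    {g : MetricField n} {K : Fin n → EuclideanSpace ℝ (Fin n) → ℝ}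
    (hg : IsRiemannianOn g U) (hK : Kill g U K) (hx : x ∈ U)
    (h0 : ∀ a, K a x = 0) (hB : Bm K x * Bm K x = -1) (m l i j k : Fin n) :
    covDerivRiemann g x m l i j k = 0 := by
  have h := parity hB (fun m l i j k => covDerivRiemann g x m l i j k) ?_
  · exact congrFun (congrFun (congrFun (congrFun (congrFun h m) l) i) j) k
  · intro m l i j k
    have h1 := congrFun (congrFun (hK.nabla hg hx h0 m i j) l) k
    simp only [Matrix.add_apply, Matrix.sub_apply, Matrix.sum_apply, Matrix.smul_apply,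
      Matrix.mul_apply, Nm_apply, smul_eq_mul, Matrix.zero_apply] at h1
    exact h1

end Crest.Agent.R260.KEnd_361
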