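import Mathlib
import Crest.Agent.R249.Bia3_104
import Crest.Prelude.Def_ChartRiemQK

-- ▼ part R260/Qk1_151
section

/-!
# Row 260, QK-LOC file 1 (helper151): pointwise quaternion-Kähler curvature algebra

`QV n V` : an `n`-dimensional real vector space with a positive definite form `B`, an orthonormal
frame `ξ` and a `B`-skew quaternionic triple `J 0, J 1, J 2` (`J 0 J 1 = J 2 = - J 1 J 0`).
`IsCurv D R` : algebraic curvature tensor (`R X Y Z`); `IsQCurv D R` : moreover `[R X Y, J a]` is a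
combination of the `J b`.

Main results (`n = 4 m`, `2 ≤ m`), with `f c X Y = -(1/n) tr (R X Y ∘ J c)`:
* `comm0` : `[R X Y, J 0] = 2 f₂ J 1 - 2 f₁ J 2` (and cyclic, `comm_eps`);
* `einstein` : `f c X Y = -(ν/2) B (J c X) Y` and `Ric X Y = (m+2) ν B X Y`,
  `ν = (Σ_b Ric ξ_b ξ_b) / (4 m (m+2))`.
-/

set_option autoImplicit false

noncomputable section

namespace Crest.Agent.R260.Qk1_151

variable {n : ℕ} {V : Type*} [AddCommGroup V] [Module ℝ V]

/-- a real vector space with a positive definite form, an orthonormal frame and a skew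
quaternionic triple. -/
structure QV (n : ℕ) (V : Type*) [AddCommGroup V] [Module ℝ V] where
  B : V →ₗ[ℝ] V →ₗ[ℝ] ℝ
  ξ : Fin n → V
  J : Fin 3 → Module.End ℝ V
  symm : ∀ X Y, B X Y = B Y X
  orth : ∀ a b, B (ξ a) (ξ b) = if a = b then 1 else 0
  expand : ∀ X, X = ∑ a, B X (ξ a) • ξ a
  sq : ∀ a X, J a (J a X) = -X
  mul01 : ∀ X, J 0 (J 1 X) = J 2 X
  mul10 : ∀ X, J 1 (J 0 X) = -J 2 X
  skew : ∀ a X Y, B (J a X) Y = -B X (J a Y)

namespace QV

variable (D : QV n V)

lemma mul12 (X : V) : D.J 1 (D.J 2 X) = D.J 0 X := by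
  rw [← D.mul01, D.mul10, ← D.mul01, D.sq, map_neg, neg_neg]

lemma mul21 (X : V) : D.J 2 (D.J 1 X) = -D.J 0 X := by
  rw [← D.mul01, D.sq, map_neg]

lemma mul20 (X : V) : D.J 2 (D.J 0 X) = D.J 1 X := by
  rw [← D.mul01, D.mul10, map_neg, ← D.mul01, D.sq, neg_neg]

lemma mul02 (X : V) : D.J 0 (D.J 2 X) = -D.J 1 X := by
  rw [← D.mul01, D.sq]

/-- cyclic rotation of the triple -/
def rot : QV n V where
  B := D.B
  ξ := D.ξ
  J := ![D.J 1, D.J 2, D.J 0]
  symm := D.symm
  orth := D.orth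
  expand := D.expand
  sq := by intro a X; fin_cases a <;> exact D.sq _ X
  mul01 := D.mul12
  mul10 := D.mul21
  skew := by intro a X Y; fin_cases a <;> exact D.skew _ X Y

lemma rot_J0 : D.rot.J 0 = D.J 1 := rfl
lemma rot_J1 : D.rot.J 1 = D.J 2 := rfl
lemma rot_J2 : D.rot.J 2 = D.J 0 := rfl

lemma ext {X Y : V} (h : ∀ Z, D.B X Z = D.B Y Z) : X = Y := by
  rw [D.expand X, D.expand Y]
  simp only [h]


/-- trace -/
def tr (T : V → V) : ℝ := ∑ a, D.B (T (D.ξ a)) (D.ξ a)

lemma tr_comm (S T : Module.End ℝ V) : D.tr (fun X => S (T X)) = D.tr (fun X => T (S X)) := by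
  have key : ∀ S T : Module.End ℝ V, D.tr (fun X => S (T X)) =
      ∑ a, ∑ b, D.B (T (D.ξ a)) (D.ξ b) * D.B (S (D.ξ b)) (D.ξ a) := by
    intro S T
    refine Finset.sum_congr rfl fun a _ => ?_
    change D.B (S (T (D.ξ a))) (D.ξ a) = _
    conv_lhs => rw [D.expand (T (D.ξ a))]
    simp only [map_sum, map_smul, LinearMap.sum_apply, LinearMap.smul_apply, smul_eq_mul]
  rw [key, key, Finset.sum_comm]
  exact Finset.sum_congr rfl fun a _ => Finset.sum_congr rfl fun b _ => mul_comm _ _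


lemma tr_id : D.tr (fun X => X) = (n : ℝ) := by
  simp [tr, D.orth]

lemma tr_J (a : Fin 3) : D.tr (fun X => D.J a X) = 0 := by
  have h : ∀ i, D.B (D.J a (D.ξ i)) (D.ξ i) = 0 := by
    intro i
    have h1 := D.skew a (D.ξ i) (D.ξ i)
    rw [D.symm (D.ξ i)] at h1
    linarith
  simp [tr, h]

lemma B_J_self (a : Fin 3) (X : V) : D.B (D.J a X) X = 0 := by
  have h1 := D.skew a X X
  rw [D.symm X] at h1
  linarith

lemma B_J_J (a : Fin 3) (X Y : V) : D.B (D.J a X) (D.J a Y) = D.B X Y := by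
  rw [D.skew, D.sq, map_neg, neg_neg]

lemma tr_add (S T : V → V) : D.tr (fun X => S X + T X) = D.tr S + D.tr T := by
  simp [tr, Finset.sum_add_distrib, map_add]

lemma tr_sub (S T : V → V) : D.tr (fun X => S X - T X) = D.tr S - D.tr T := by
  simp [tr, Finset.sum_sub_distrib, map_sub]

lemma tr_smul (c : ℝ) (T : V → V) : D.tr (fun X => c • T X) = c * D.tr T := by
  simp [tr, Finset.mul_sum]

lemma tr_neg (T : V → V) : D.tr (fun X => - T X) = - D.tr T := by
  simp [tr, Finset.sum_neg_distrib]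

/-- moving a skew endomorphism from one leg of the frame to the other. -/
lemma frame_J {W : Type*} [AddCommGroup W] [Module ℝ W] (a : Fin 3) (φ : V →ₗ[ℝ] V →ₗ[ℝ] W) :
    ∑ i, φ (D.J a (D.ξ i)) (D.ξ i) = -∑ i, φ (D.ξ i) (D.J a (D.ξ i)) := by
  have h1 : ∀ i, φ (D.J a (D.ξ i)) (D.ξ i) =
      ∑ j, D.B (D.J a (D.ξ i)) (D.ξ j) • φ (D.ξ j) (D.ξ i) := by
    intro i
    conv_lhs => rw [D.expand (D.J a (D.ξ i))]
    simp only [map_sum, map_smul, LinearMap.sum_apply, LinearMap.smul_apply]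
  have h2 : ∀ i, φ (D.ξ i) (D.J a (D.ξ i)) =
      ∑ j, D.B (D.J a (D.ξ i)) (D.ξ j) • φ (D.ξ i) (D.ξ j) := by
    intro i
    conv_lhs => rw [D.expand (D.J a (D.ξ i))]
    simp only [map_sum, map_smul]
  simp only [h1, h2]
  rw [Finset.sum_comm, ← Finset.sum_neg_distrib]
  refine Finset.sum_congr rfl fun i _ => ?_
  rw [← Finset.sum_neg_distrib]
  refine Finset.sum_congr rfl fun j _ => ?_
  rw [← neg_smul]
  congr 1
  rw [D.skew, D.symm]

lemma frame_contract (φ : V →ₗ[ℝ] ℝ) (Y : V) : ∑ i, φ (D.ξ i) * D.B Y (D.ξ i) = φ Y := by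
  conv_rhs => rw [D.expand Y]
  simp only [map_sum, map_smul, smul_eq_mul]
  exact Finset.sum_congr rfl fun i _ => mul_comm _ _

end QV

/-- algebraic curvature tensor -/
structure IsCurv (D : QV n V) (R : V →ₗ[ℝ] V →ₗ[ℝ] Module.End ℝ V) : Prop where
  swap : ∀ X Y, R X Y = -R Y X
  skew : ∀ X Y Z W, D.B (R X Y Z) W = -D.B (R X Y W) Z
  first : ∀ X Y Z, R X Y Z + R Y Z X + R Z X Y = 0

lemma IsCurv.pair {D : QV n V} {R : V →ₗ[ℝ] V →ₗ[ℝ] Module.End ℝ V} (h : IsCurv D R)
    (X W Y Z : V) : D.B (R X W Y) Z = D.B (R Z Y W) X := by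
  have A : ∀ a b c d : V, D.B (R a b c) d + D.B (R b c a) d + D.B (R c a b) d = 0 := by
    intro a b c d
    have := congrArg (fun v => D.B v d) (h.first a b c)
    simpa [map_add] using this
  have S1 : ∀ a b c d : V, D.B (R a b c) d = - D.B (R b a c) d := by
    intro a b c d
    rw [h.swap]; simp
  have S2 : ∀ a b c d : V, D.B (R a b c) d = - D.B (R a b d) c := h.skew
  have a1 := A X W Y Z
  have a2 := A W Y Z X
  have a3 := A Y Z X W
  have a4 := A Z X W Y
  have s1 := S1 X W Y Z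
  have t1 := S2 X W Y Z
  have t2 := S2 W Y X Z
  have t3 := S2 Y X W Z
  have t4 := S2 W Y Z X
  have t5 := S2 Y Z W X
  have t6 := S2 Z W Y X
  have t7 := S2 Y Z X W
  have t8 := S2 Z X Y W
  have t9 := S2 X Y Z W
  have u1 := S1 X W Z Y
  have u2 := S1 Z Y W X
  have u3 := S1 Y X W Z
  have u4 := S1 W Z Y X
  have u5 := S1 Z X W Y
  have u6 := S1 X Y Z W
  have u7 := S1 Z W Y X
  have u8 := S1 Z X Y W
  have u9 := S1 W X Z Y
  have v1 := S2 Z X W Y
  have v2 := S2 X W Z Y
  have v3 := S2 W Z X Y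
  have v4 := S1 W Z X Y
  have v5 := S1 W Y Z X
  linarith

/-- curvature tensor of quaternionic type -/
structure IsQCurv (D : QV n V) (R : V →ₗ[ℝ] V →ₗ[ℝ] Module.End ℝ V) : Prop
    extends IsCurv D R where
  comm : ∀ X Y a, ∃ c : Fin 3 → ℝ, ∀ Z, R X Y (D.J a Z) - D.J a (R X Y Z) = ∑ b, c b • D.J b Z

/-- the Ricci form `Ric Y Z = tr (X ↦ R X Y Z)`. -/
def Ric (D : QV n V) (R : V →ₗ[ℝ] V →ₗ[ℝ] Module.End ℝ V) (Y Z : V) : ℝ :=
  D.tr (fun X => R X Y Z)

/-- the `sp(1)` parts of `R`. -/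
def f (D : QV n V) (R : V →ₗ[ℝ] V →ₗ[ℝ] Module.End ℝ V) (c : Fin 3) (X Y : V) : ℝ :=
  -(1 / (n : ℝ)) * D.tr (fun Z => R X Y (D.J c Z))

section

variable {D : QV n V} {R : V →ₗ[ℝ] V →ₗ[ℝ] Module.End ℝ V}

lemma IsQCurv.rot (h : IsQCurv D R) : IsQCurv D.rot R where
  swap := h.swap
  skew := h.skew
  first := h.first
  comm := by
    have key : ∀ X Y a, ∃ c : Fin 3 → ℝ, ∀ Z, R X Y (D.J a Z) - D.J a (R X Y Z) =
        ∑ b, c b • D.rot.J b Z := by
      intro X Y a
      obtain ⟨c, hc⟩ := h.comm X Y a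
      refine ⟨![c 1, c 2, c 0], fun Z => ?_⟩
      rw [hc]
      simp only [Fin.sum_univ_three, QV.rot_J0, QV.rot_J1, QV.rot_J2]
      simp only [Matrix.cons_val_zero, Matrix.cons_val_one, Matrix.cons_val]
      abel
    intro X Y a
    fin_cases a
    · exact key X Y 1
    · exact key X Y 2
    · exact key X Y 0

lemma f_add_left (c : Fin 3) (X X' Y : V) : f D R c (X + X') Y = f D R c X Y + f D R c X' Y := by
  simp [f, QV.tr, Finset.sum_add_distrib, mul_add]

lemma f_smul_left (c : Fin 3) (r : ℝ) (X Y : V) : f D R c (r • X) Y = r * f D R c X Y := by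
  simp only [f, QV.tr, map_smul, LinearMap.smul_apply, smul_eq_mul, ← Finset.mul_sum]
  ring

lemma f_neg_left (c : Fin 3) (X Y : V) : f D R c (-X) Y = -f D R c X Y := by
  have := f_smul_left (D := D) (R := R) c (-1) X Y
  simpa using this

lemma f_swap (h : IsCurv D R) (c : Fin 3) (X Y : V) : f D R c X Y = -f D R c Y X := by
  simp only [f, QV.tr]
  rw [h.swap X Y]
  simp

lemma Ric_symm (h : IsCurv D R) (Y Z : V) : Ric D R Y Z = Ric D R Z Y := by
  unfold Ric QV.tr
  exact Finset.sum_congr rfl fun _ _ => h.pair _ _ _ _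

lemma tr_RJ (hn : n ≠ 0) (c : Fin 3) (X Y : V) :
    D.tr (fun Z => R X Y (D.J c Z)) = -(n : ℝ) * f D R c X Y := by
  have : (n : ℝ) ≠ 0 := Nat.cast_ne_zero.2 hn
  rw [f]; field_simp

/-- `[R X Y, J 0] = 2 f₂ J 1 - 2 f₁ J 2`. -/
lemma comm0 (h : IsQCurv D R) (hn : n ≠ 0) (X Y Z : V) :
    R X Y (D.J 0 Z) - D.J 0 (R X Y Z) =
      (2 * f D R 2 X Y) • D.J 1 Z - (2 * f D R 1 X Y) • D.J 2 Z := by
  obtain ⟨c, hc⟩ := h.comm X Y 0
  have hn' : (n : ℝ) ≠ 0 := Nat.cast_ne_zero.2 hn
  -- traces against `J b`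
  have T : ∀ b : Fin 3, D.tr (fun Z => R X Y (D.J 0 (D.J b Z))) -
      D.tr (fun Z => R X Y (D.J b (D.J 0 Z))) =
      c 0 * D.tr (fun Z => D.J 0 (D.J b Z)) + c 1 * D.tr (fun Z => D.J 1 (D.J b Z)) +
        c 2 * D.tr (fun Z => D.J 2 (D.J b Z)) := by
    intro b
    have e1 : (fun Z => R X Y (D.J 0 (D.J b Z)) - D.J 0 (R X Y (D.J b Z))) =
        fun Z => c 0 • D.J 0 (D.J b Z) + c 1 • D.J 1 (D.J b Z) + c 2 • D.J 2 (D.J b Z) := by
      funext Z
      rw [hc, Fin.sum_univ_three]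
    have e2 := congrArg D.tr e1
    rw [D.tr_sub, D.tr_add, D.tr_add, D.tr_smul, D.tr_smul, D.tr_smul] at e2
    have e3 : D.tr (fun Z => D.J 0 (R X Y (D.J b Z))) =
        D.tr (fun Z => R X Y (D.J b (D.J 0 Z))) :=
      D.tr_comm (D.J 0) ((R X Y).comp (D.J b))
    rw [e3] at e2
    exact e2
  have T0 := T 0
  have T1 := T 1
  have T2 := T 2
  simp only [D.sq, D.mul01, D.mul10, D.mul12, D.mul21, D.mul20, D.mul02, D.tr_neg, D.tr_J,
    D.tr_id, map_neg, tr_RJ hn] at T0 T1 T2
  have c0 : c 0 = 0 := by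
    have : c 0 * (n : ℝ) = 0 := by linarith
    rcases mul_eq_zero.1 this with h | h
    · exact h
    · exact absurd h hn'
  have c1 : c 1 = 2 * f D R 2 X Y := by
    have : (n : ℝ) * c 1 = n * (2 * f D R 2 X Y) := by linarith
    exact mul_left_cancel₀ hn' this
  have c2 : c 2 = -(2 * f D R 1 X Y) := by
    have : (n : ℝ) * c 2 = n * (-(2 * f D R 1 X Y)) := by linarith
    exact mul_left_cancel₀ hn' this
  rw [hc, Fin.sum_univ_three, c0, c1, c2, zero_smul, zero_add, neg_smul, sub_eq_add_neg]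




/-- `-n f₀(X,Y) = 2 Ric(Y, J₀X) - 4 f₂(J₁X,Y) + 4 f₁(J₂X,Y)`. -/
lemma ricf0 (h : IsQCurv D R) (hn : n ≠ 0) (X Y : V) :
    -(n : ℝ) * f D R 0 X Y =
      2 * Ric D R Y (D.J 0 X) - 4 * f D R 2 (D.J 1 X) Y + 4 * f D R 1 (D.J 2 X) Y := by
  have h1 : -(n : ℝ) * f D R 0 X Y = ∑ a, D.B (R (D.ξ a) (D.J 0 (D.ξ a)) Y) X := by
    rw [← tr_RJ hn]
    exact Finset.sum_congr rfl fun a _ => h.pair _ _ _ _
  -- first Bianchi
  have h2 : ∑ a, D.B (R (D.ξ a) (D.J 0 (D.ξ a)) Y) X =
      -∑ a, D.B (R (D.J 0 (D.ξ a)) Y (D.ξ a)) X + ∑ a, D.B (R (D.ξ a) Y (D.J 0 (D.ξ a))) X := by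
    rw [← Finset.sum_neg_distrib, ← Finset.sum_add_distrib]
    refine Finset.sum_congr rfl fun a _ => ?_
    have e := congrArg (fun v => D.B v X) (h.first (D.ξ a) (D.J 0 (D.ξ a)) Y)
    have e2 : D.B (R Y (D.ξ a) (D.J 0 (D.ξ a))) X = -D.B (R (D.ξ a) Y (D.J 0 (D.ξ a))) X := by
      rw [h.swap]; simp
    simp only [map_add, LinearMap.add_apply, map_zero, LinearMap.zero_apply] at e
    linarith
  have h3 : ∑ a, D.B (R (D.J 0 (D.ξ a)) Y (D.ξ a)) X =
      -∑ a, D.B (R (D.ξ a) Y (D.J 0 (D.ξ a))) X := by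
    have := D.frame_J 0 (W := ℝ) (LinearMap.mk₂ ℝ (fun P Q => D.B (R P Y Q) X)
      (by intro a b c; simp) (by intro c a b; simp) (by intro a b c; simp)
      (by intro c a b; simp))
    simpa using this
  have h4 : ∀ a, D.B (R (D.ξ a) Y (D.J 0 (D.ξ a))) X =
      D.B (R (D.ξ a) Y (D.J 0 X)) (D.ξ a) +
      (2 * f D R 2 (D.ξ a) Y) * D.B (D.J 1 (D.ξ a)) X -
        (2 * f D R 1 (D.ξ a) Y) * D.B (D.J 2 (D.ξ a)) X := by
    intro a
    have e := comm0 h hn (D.ξ a) Y (D.ξ a)
    have e1 : R (D.ξ a) Y (D.J 0 (D.ξ a)) = D.J 0 (R (D.ξ a) Y (D.ξ a)) +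
        ((2 * f D R 2 (D.ξ a) Y) • D.J 1 (D.ξ a) - (2 * f D R 1 (D.ξ a) Y) • D.J 2 (D.ξ a)) := by
      rw [← e]; abel
    rw [e1]
    simp only [map_add, map_sub, map_smul, LinearMap.add_apply, LinearMap.sub_apply,
      LinearMap.smul_apply, smul_eq_mul]
    rw [D.skew 0, h.skew (D.ξ a) Y (D.ξ a) (D.J 0 X)]
    ring
  have h5 : ∀ (b c : Fin 3), ∑ a, (2 * f D R b (D.ξ a) Y) * D.B (D.J c (D.ξ a)) X =
      -(2 * f D R b (D.J c X) Y) := by
    intro b c
    have e := D.frame_contract (φ := { toFun := fun P => f D R b P Y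
                                       map_add' := fun P Q => f_add_left b P Q Y
                                       map_smul' := fun r P => f_smul_left b r P Y }) (D.J c X)
    simp only [LinearMap.coe_mk, AddHom.coe_mk] at e
    rw [← e, Finset.mul_sum, ← Finset.sum_neg_distrib]
    refine Finset.sum_congr rfl fun a _ => ?_
    rw [D.skew, D.symm (D.ξ a)]
    ring
  have h6 : ∑ a, D.B (R (D.ξ a) Y (D.J 0 (D.ξ a))) X = Ric D R Y (D.J 0 X) -
      2 * f D R 2 (D.J 1 X) Y + 2 * f D R 1 (D.J 2 X) Y := by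
    simp only [h4]
    rw [Finset.sum_sub_distrib, Finset.sum_add_distrib, h5, h5]
    simp only [Ric, QV.tr]
    ring
  rw [h1, h2, h3, h6]
  ring

/-- `2 Ric(X,Y) = n p₀ + 4 p₁ + 4 p₂`, `p_c (X,Y) = f_c (J_c X, Y)`. -/
lemma ricp0 (h : IsQCurv D R) (hn : n ≠ 0) (X Y : V) :
    2 * Ric D R X Y = (n : ℝ) * f D R 0 (D.J 0 X) Y + 4 * f D R 1 (D.J 1 X) Y +
      4 * f D R 2 (D.J 2 X) Y := by
  have h1 := ricf0 h hn (D.J 0 X) Y
  have h2 : Ric D R Y (-X) = -Ric D R Y X := by simp [Ric, QV.tr]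
  rw [D.sq, D.mul10, D.mul20, h2, f_neg_left, Ric_symm h.toIsCurv Y X] at h1
  linarith


lemma ricp1 (h : IsQCurv D R) (hn : n ≠ 0) (X Y : V) :
    2 * Ric D R X Y = (n : ℝ) * f D R 1 (D.J 1 X) Y + 4 * f D R 2 (D.J 2 X) Y +
      4 * f D R 0 (D.J 0 X) Y := ricp0 h.rot hn X Y

lemma ricp2 (h : IsQCurv D R) (hn : n ≠ 0) (X Y : V) :
    2 * Ric D R X Y = (n : ℝ) * f D R 2 (D.J 2 X) Y + 4 * f D R 0 (D.J 0 X) Y +
      4 * f D R 1 (D.J 1 X) Y := ricp0 h.rot.rot hn X Y

/-- for `n = 4 m`, `m ≥ 2`, the three forms `f_c (J_c X, Y)` agree: `Ric = 2 (m + 2) p`. -/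
lemma p_eq {m : ℕ} (hm : 2 ≤ m) (hnm : n = 4 * m) (h : IsQCurv D R) (c : Fin 3) (X Y : V) :
    f D R c (D.J c X) Y = Ric D R X Y / (2 * (m + 2)) := by
  have hn : n ≠ 0 := by omega
  have h0 := ricp0 h hn X Y
  have h1 := ricp1 h hn X Y
  have h2 := ricp2 h hn X Y
  have hm' : (2 : ℝ) ≤ m := by exact_mod_cast hm
  have hnr : (n : ℝ) = 4 * m := by rw [hnm]; push_cast; ring
  rw [hnr] at h0 h1 h2
  have e01 : f D R 0 (D.J 0 X) Y = f D R 1 (D.J 1 X) Y := by
    have : (4 * (m : ℝ) - 4) * (f D R 0 (D.J 0 X) Y - f D R 1 (D.J 1 X) Y) = 0 := by linarith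
    rcases mul_eq_zero.1 this with h | h
    · linarith
    · linarith
  have e12 : f D R 1 (D.J 1 X) Y = f D R 2 (D.J 2 X) Y := by
    have : (4 * (m : ℝ) - 4) * (f D R 1 (D.J 1 X) Y - f D R 2 (D.J 2 X) Y) = 0 := by linarith
    rcases mul_eq_zero.1 this with h | h
    · linarith
    · linarith
  have hpos : (2 * ((m : ℝ) + 2)) ≠ 0 := by positivity
  have key : f D R 0 (D.J 0 X) Y = Ric D R X Y / (2 * (m + 2)) := by
    rw [eq_div_iff hpos]
    rw [← e12, ← e01] at h0
    linarith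
  fin_cases c
  · exact key
  · change f D R 1 (D.J 1 X) Y = _
    rw [← e01]; exact key
  · change f D R 2 (D.J 2 X) Y = _
    rw [← e12, ← e01]; exact key

lemma f_eq_Ric {m : ℕ} (hm : 2 ≤ m) (hnm : n = 4 * m) (h : IsQCurv D R) (c : Fin 3) (X Y : V) :
    f D R c X Y = -(Ric D R (D.J c X) Y / (2 * (m + 2))) := by
  have := p_eq hm hnm h c (D.J c X) Y
  rw [D.sq, f_neg_left] at this
  linarith

/-- the Ricci form commutes with the `J c`. -/
lemma Ric_J {m : ℕ} (hm : 2 ≤ m) (hnm : n = 4 * m) (h : IsQCurv D R) (c : Fin 3) (X Y : V) :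
    Ric D R (D.J c X) Y = -Ric D R X (D.J c Y) := by
  have h1 := f_eq_Ric hm hnm h c X Y
  have h2 := f_eq_Ric hm hnm h c Y X
  have h3 := f_swap h.toIsCurv c X Y
  have hpos : (2 * ((m : ℝ) + 2)) ≠ 0 := by positivity
  rw [h1, h2, Ric_symm h.toIsCurv (D.J c Y) X] at h3
  have : Ric D R (D.J c X) Y / (2 * (m + 2)) = (-Ric D R X (D.J c Y)) / (2 * (m + 2)) := by
    rw [neg_div]; linarith
  field_simp at this
  linarith

lemma Ric_add_left (X X' Y : V) : Ric D R (X + X') Y = Ric D R X Y + Ric D R X' Y := by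
  simp [Ric, QV.tr, Finset.sum_add_distrib]

lemma Ric_smul_left (r : ℝ) (X Y : V) : Ric D R (r • X) Y = r * Ric D R X Y := by
  simp [Ric, QV.tr, Finset.mul_sum]

lemma Ric_add_right (X Y Y' : V) : Ric D R X (Y + Y') = Ric D R X Y + Ric D R X Y' := by
  simp [Ric, QV.tr, Finset.sum_add_distrib]

lemma Ric_smul_right (r : ℝ) (X Y : V) : Ric D R X (r • Y) = r * Ric D R X Y := by
  simp [Ric, QV.tr, Finset.mul_sum]

/-- Ricci as an endomorphism -/
def RicE (D : QV n V) (R : V →ₗ[ℝ] V →ₗ[ℝ] Module.End ℝ V) : Module.End ℝ V where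
  toFun X := ∑ a, Ric D R X (D.ξ a) • D.ξ a
  map_add' X Y := by simp only [Ric_add_left, add_smul, Finset.sum_add_distrib]
  map_smul' r X := by simp only [Ric_smul_left, mul_smul, Finset.smul_sum, RingHom.id_apply]

lemma B_RicE (X Y : V) : D.B (RicE D R X) Y = Ric D R X Y := by
  have e := D.frame_contract (φ := { toFun := fun P => Ric D R X P
                                     map_add' := fun P Q => Ric_add_right X P Q
                                     map_smul' := fun r P => Ric_smul_right r X P }) Y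
  simp only [LinearMap.coe_mk, AddHom.coe_mk] at e
  rw [← e]
  simp only [RicE, LinearMap.coe_mk, AddHom.coe_mk, map_sum, map_smul, LinearMap.sum_apply,
    LinearMap.smul_apply, smul_eq_mul]
  exact Finset.sum_congr rfl fun a _ => by rw [D.symm Y]

/-- **Einstein**: a curvature tensor of quaternionic type in dimension `4 m ≥ 8` is Einstein. -/
theorem Ric_eq {m : ℕ} (hm : 2 ≤ m) (hnm : n = 4 * m) (h : IsQCurv D R) :
    ∃ γ : ℝ, ∀ X Y, Ric D R X Y = γ * D.B X Y := by
  have hn : n ≠ 0 := by omega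
  have hnr : (n : ℝ) = 4 * m := by rw [hnm]; push_cast; ring
  have hm' : (2 : ℝ) ≤ m := by exact_mod_cast hm
  set κ : ℝ := (n : ℝ) / (2 * (m + 2)) with hκ
  have hκ0 : κ ≠ 0 := by rw [hκ]; positivity
  -- `T = Σ R(ξ_a, J₀ ξ_a) = -κ Ric ∘ J₀`
  have hT : ∀ Y, ∑ a, R (D.ξ a) (D.J 0 (D.ξ a)) Y = -(κ • RicE D R (D.J 0 Y)) := by
    intro Y
    refine D.ext fun X => ?_
    have h1 : -(n : ℝ) * f D R 0 X Y = ∑ a, D.B (R (D.ξ a) (D.J 0 (D.ξ a)) Y) X := by
      rw [← tr_RJ hn]
      exact Finset.sum_congr rfl fun a _ => h.pair _ _ _ _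
    rw [map_sum, LinearMap.sum_apply, ← h1, f_eq_Ric hm hnm h]
    simp only [map_neg, map_smul, LinearMap.neg_apply, LinearMap.smul_apply, smul_eq_mul,
      B_RicE]
    rw [Ric_J hm hnm h, Ric_symm h.toIsCurv X, hκ]
    ring
  -- its commutator with `J 1`
  have hRJ : ∀ c Y, RicE D R (D.J c Y) = D.J c (RicE D R Y) := by
    intro c Y
    refine D.ext fun X => ?_
    rw [B_RicE, D.skew, B_RicE, Ric_J hm hnm h]
  choose c hc using h.comm
  have hcomm : ∀ Y, ∑ a, R (D.ξ a) (D.J 0 (D.ξ a)) (D.J 1 Y) -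
      D.J 1 (∑ a, R (D.ξ a) (D.J 0 (D.ξ a)) Y) =
      ∑ b, (∑ a, c (D.ξ a) (D.J 0 (D.ξ a)) 1 b) • D.J b Y := by
    intro Y
    rw [map_sum, ← Finset.sum_sub_distrib]
    simp only [hc, Finset.sum_smul]
    rw [Finset.sum_comm]
  set s : Fin 3 → ℝ := fun b => ∑ a, c (D.ξ a) (D.J 0 (D.ξ a)) 1 b with hs
  -- `-2κ Ric J₂ = Σ s_b J_b`
  have h2 : ∀ Y, -(κ • RicE D R (D.J 2 Y)) - κ • RicE D R (D.J 2 Y) = ∑ b, s b • D.J b Y := by
    intro Y
    rw [← hcomm, hT, hT, D.mul01, map_neg, map_smul, ← hRJ, D.mul10, map_neg]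
    simp
  have h3 : ∀ X, Ric D R X X = s 2 / (2 * κ) * -1 * D.B X X := by
    intro X
    have e := congrArg (fun v => D.B v (D.J 2 X)) (h2 X)
    simp only [Fin.sum_univ_three, map_add, map_sub, map_neg, map_smul, LinearMap.add_apply,
      LinearMap.sub_apply, LinearMap.neg_apply, LinearMap.smul_apply, smul_eq_mul, B_RicE,
      D.B_J_J] at e
    have e0 : D.B (D.J 0 X) (D.J 2 X) = 0 := by
      rw [D.skew, D.mul02, map_neg, neg_neg, D.symm, D.B_J_self]
    have e1 : D.B (D.J 1 X) (D.J 2 X) = 0 := by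
      rw [D.skew, D.mul12, D.symm, D.B_J_self, neg_zero]
    have e2 : Ric D R (D.J 2 X) (D.J 2 X) = Ric D R X X := by
      rw [Ric_J hm hnm h, D.sq]
      have : Ric D R X (-X) = -Ric D R X X := by simp [Ric, QV.tr]
      rw [this, neg_neg]
    rw [e0, e1, e2] at e
    field_simp
    linarith
  refine ⟨s 2 / (2 * κ) * -1, fun X Y => ?_⟩
  have e := h3 (X + Y)
  have eX := h3 X
  have eY := h3 Y
  rw [Ric_add_left, Ric_add_right, Ric_add_right, Ric_symm h.toIsCurv Y X] at e
  simp only [map_add, LinearMap.add_apply] at e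
  rw [D.symm Y X] at e
  nlinarith

/-- the scalar curvature -/
def scal (D : QV n V) (R : V →ₗ[ℝ] V →ₗ[ℝ] Module.End ℝ V) : ℝ := ∑ b, Ric D R (D.ξ b) (D.ξ b)

/-- the normalised scalar curvature `ν`, `scal = 4 m (m+2) ν`. -/
def nu (m : ℕ) (D : QV n V) (R : V →ₗ[ℝ] V →ₗ[ℝ] Module.End ℝ V) : ℝ :=
  scal D R / (4 * m * (m + 2))

theorem einstein {m : ℕ} (hm : 2 ≤ m) (hnm : n = 4 * m) (h : IsQCurv D R) (X Y : V) :
    Ric D R X Y = (m + 2) * nu m D R * D.B X Y := by
  obtain ⟨γ, hγ⟩ := Ric_eq hm hnm h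
  have hm' : (2 : ℝ) ≤ m := by exact_mod_cast hm
  have h1 : scal D R = 4 * m * γ := by
    rw [scal]
    simp only [hγ, D.orth, if_true, mul_one, Finset.sum_const, Finset.card_univ, Fintype.card_fin,
      nsmul_eq_mul]
    rw [hnm]; push_cast; ring
  rw [hγ, nu, h1]
  field_simp

theorem f_eq {m : ℕ} (hm : 2 ≤ m) (hnm : n = 4 * m) (h : IsQCurv D R) (c : Fin 3) (X Y : V) :
    f D R c X Y = -(nu m D R / 2) * D.B (D.J c X) Y := by
  rw [f_eq_Ric hm hnm h, einstein hm hnm h]
  have : (0 : ℝ) < m + 2 := by positivity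
  field_simp

end

end Crest.Agent.R260.Qk1_151
end
end

-- ▼ part R260/Qk2_151
section

/-!
# Row 260, QK-LOC file 2 (helper151): the model curvature `R0` and the decomposition `R = ν R0 + W`

`R0 D X Y Z = ¼ (B Y Z • X - B X Z • Y + Σ_a (B (J a Y) Z • J a X - B (J a X) Z • J a Y
  - 2 B (J a X) Y • J a Z))`; `isQCurv_R0`, `Ric_R0`; `W = R - ν R0` is a curvature tensor,
commutes with all `J a` (`W_comm`) and is Ricci flat (`Ric_W`).
-/

set_option autoImplicit false
set_option linter.unusedSimpArgs false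

noncomputable section

namespace Crest.Agent.R260.Qk2_151

open Crest.Agent.R260.Qk1_151

variable {n : ℕ} {V : Type*} [AddCommGroup V] [Module ℝ V]

/-- the underlying endomorphism of the model curvature -/
def R0E (D : QV n V) (X Y : V) : Module.End ℝ V :=
  (1 / 4 : ℝ) • ((D.B Y).smulRight X - (D.B X).smulRight Y +
    ∑ a, ((D.B (D.J a Y)).smulRight (D.J a X) - (D.B (D.J a X)).smulRight (D.J a Y)
      - (2 * D.B (D.J a X) Y) • D.J a))

lemma R0E_apply (D : QV n V) (X Y Z : V) : R0E D X Y Z =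
    (1 / 4 : ℝ) • (D.B Y Z • X - D.B X Z • Y +
      ∑ a, (D.B (D.J a Y) Z • D.J a X - D.B (D.J a X) Z • D.J a Y
        - (2 * D.B (D.J a X) Y) • D.J a Z)) := by
  simp [R0E, LinearMap.sum_apply]

/-- the model curvature -/
def R0 (D : QV n V) : V →ₗ[ℝ] V →ₗ[ℝ] Module.End ℝ V :=
  LinearMap.mk₂ ℝ (R0E D)
    (by
      intro X X' Y
      refine LinearMap.ext fun Z => ?_
      simp only [R0E_apply, LinearMap.add_apply, map_add, Fin.sum_univ_three, add_smul]
      module)
    (by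
      intro c X Y
      refine LinearMap.ext fun Z => ?_
      simp only [R0E_apply, LinearMap.smul_apply, map_smul, Fin.sum_univ_three, smul_eq_mul]
      module)
    (by
      intro X Y Y'
      refine LinearMap.ext fun Z => ?_
      simp only [R0E_apply, LinearMap.add_apply, map_add, Fin.sum_univ_three, add_smul]
      module)
    (by
      intro c X Y
      refine LinearMap.ext fun Z => ?_
      simp only [R0E_apply, LinearMap.smul_apply, map_smul, Fin.sum_univ_three, smul_eq_mul]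
      module)


section

variable (D : QV n V)











variable {D} {R : V →ₗ[ℝ] V →ₗ[ℝ] Module.End ℝ V}




end

end Crest.Agent.R260.Qk2_151
end
end

-- ▼ part R260/Qk3_151
section

/-!
# Row 260, QK-LOC file 3 (helper151): matrix calculus over `Def_ChartRiemQK`

* `mL A` : the endomorphism of `𝔼 = EuclideanSpace ℝ (Fin n)` of a matrix;
* `riemann_eq_curv`, `covDerivRiemann_eq_covR` : the frozen tensors in terms of `curv`, `covR`;
* `pd i A` : entrywise partial derivative of a matrix field, product rule;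
* `covEndo_comm` : Ricci identity `[∇_i, ∇_j] J = [R_ij, J]` for endomorphism fields, where
  `Rm g x i j` is the matrix `l k ↦ riemann g x l i j k`.
-/

set_option autoImplicit false
set_option linter.unusedSimpArgs false

open scoped ContDiff Topology
open Filter Set
open Crest.GeometryTopology.CoordMetric
open Crest.GeometryTopology.ChartRiem
open Crest.Agent.R202.Tens Crest.Agent.R247.Bo84
open Crest.Agent.R249.Bia1_104 Crest.Agent.R249.Bia2_104 Crest.Agent.R249.Bia3_104

noncomputable section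

namespace Crest.Agent.R260.Qk3_151

variable {n : ℕ}

local notation "𝔼" => EuclideanSpace ℝ (Fin n)

variable {g : MetricField n} {U : Set (EuclideanSpace ℝ (Fin n))} {x : EuclideanSpace ℝ (Fin n)}

/-! ### matrices as endomorphisms -/

/-- the endomorphism of a matrix -/
def mL (A : Matrix (Fin n) (Fin n) ℝ) : Module.End ℝ (EuclideanSpace ℝ (Fin n)) where
  toFun X := WithLp.toLp 2 fun i => ∑ k, A i k * X k
  map_add' X Y := by
    ext i
    simp [mul_add, Finset.sum_add_distrib]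
  map_smul' c X := by
    ext i
    simp only [PiLp.smul_apply, smul_eq_mul, RingHom.id_apply, Finset.mul_sum]
    exact Finset.sum_congr rfl fun k _ => by ring

lemma mL_apply (A : Matrix (Fin n) (Fin n) ℝ) (X : 𝔼) (i : Fin n) :
    mL A X i = ∑ k, A i k * X k := rfl

lemma mL_single (A : Matrix (Fin n) (Fin n) ℝ) (i k : Fin n) :
    mL A (EuclideanSpace.single k 1) i = A i k := by
  rw [mL_apply, Finset.sum_eq_single k]
  · simp
  · intro b _ hb; simp [hb]
  · simp

lemma mL_add (A B : Matrix (Fin n) (Fin n) ℝ) : mL (A + B) = mL A + mL B := by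
  refine LinearMap.ext fun X => ?_
  ext i
  simp [mL_apply, add_mul, Finset.sum_add_distrib]

lemma mL_sub (A B : Matrix (Fin n) (Fin n) ℝ) : mL (A - B) = mL A - mL B := by
  refine LinearMap.ext fun X => ?_
  ext i
  simp [mL_apply, sub_mul, Finset.sum_sub_distrib]

lemma mL_neg (A : Matrix (Fin n) (Fin n) ℝ) : mL (-A) = - mL A := by
  refine LinearMap.ext fun X => ?_
  ext i
  simp [mL_apply, Finset.sum_neg_distrib]

lemma mL_smul (c : ℝ) (A : Matrix (Fin n) (Fin n) ℝ) : mL (c • A) = c • mL A := by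
  refine LinearMap.ext fun X => ?_
  ext i
  simp [mL_apply, Finset.mul_sum, mul_assoc]

lemma mL_zero : mL (0 : Matrix (Fin n) (Fin n) ℝ) = 0 := by
  refine LinearMap.ext fun X => ?_
  ext i
  simp [mL_apply]

lemma mL_one : mL (1 : Matrix (Fin n) (Fin n) ℝ) = 1 := by
  refine LinearMap.ext fun X => ?_
  ext i
  simp [mL_apply, Matrix.one_apply]

lemma mL_mul (A B : Matrix (Fin n) (Fin n) ℝ) (X : 𝔼) : mL (A * B) X = mL A (mL B X) := by
  ext i
  rw [mL_apply, mL_apply]
  simp only [mL_apply, Matrix.mul_apply, Finset.sum_mul, Finset.mul_sum]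
  rw [Finset.sum_comm]
  exact Finset.sum_congr rfl fun k _ => Finset.sum_congr rfl fun l _ => by ring

lemma mL_sum {ι : Type*} (s : Finset ι) (A : ι → Matrix (Fin n) (Fin n) ℝ) :
    mL (∑ a ∈ s, A a) = ∑ a ∈ s, mL (A a) := by
  classical
  induction s using Finset.induction_on with
  | empty => simp [mL_zero]
  | insert a s ha ih => rw [Finset.sum_insert ha, Finset.sum_insert ha, mL_add, ih]

lemma mL_injective {A B : Matrix (Fin n) (Fin n) ℝ} (h : mL A = mL B) : A = B := by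
  ext i k
  rw [← mL_single A i k, h, mL_single]

lemma tr_mL (A : Matrix (Fin n) (Fin n) ℝ) : trF (fun X => mL A X) = A.trace := by
  rw [trF, Matrix.trace]
  exact Finset.sum_congr rfl fun k _ => mL_single A k k

/-! ### curvature in coordinates -/

lemma riemann_eq_riemann (g : MetricField n) (x : 𝔼) (l i j k : Fin n) :
    riemann g x l i j k = Crest.GeometryTopology.ChartCurvature.riemann g x l k i j := rfl

theorem riemann_eq_curv (hg : IsRiemannianOn g U) (hx : x ∈ U) (l i j k : Fin n) :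
    riemann g x l i j k = curv (Gam g) x (EuclideanSpace.single i 1)
      (EuclideanSpace.single j 1) (EuclideanSpace.single k 1) l := by
  rw [curv_apply (fun k i j => differentiableAt_christoffel hg hx k i j), riemann_eq_riemann]
  rw [Finset.sum_eq_single k, Finset.sum_eq_single i, Finset.sum_eq_single j]
  · simp
  · intro b _ hb; simp [hb]
  · simp
  · intro b _ hb
    refine Finset.sum_eq_zero fun c _ => ?_
    simp [hb]
  · simp
  · intro b _ hb
    refine Finset.sum_eq_zero fun c _ => Finset.sum_eq_zero fun d _ => ?_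
    simp [hb]
  · simp


lemma Gam_single_left (g : MetricField n) (x Y : 𝔼) (l i : Fin n) :
    Gam g x (EuclideanSpace.single i 1) Y l = ∑ p, christoffel g x l i p * Y p := by
  rw [Gam_apply, Finset.sum_eq_single i]
  · refine Finset.sum_congr rfl fun p _ => ?_
    simp
  · intro b _ hb
    refine Finset.sum_eq_zero fun c _ => ?_
    simp [hb]
  · simp

lemma fderiv_coord {F : 𝔼 → 𝔼} (hF : DifferentiableAt ℝ F x) (V : 𝔼) (l : Fin n) :
    fderiv ℝ F x V l = fderiv ℝ (fun y => F y l) x V := by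
  have := ((EuclideanSpace.proj l : 𝔼 →L[ℝ] ℝ).hasFDerivAt.comp x hF.hasFDerivAt).fderiv
  have e : ((EuclideanSpace.proj l : 𝔼 →L[ℝ] ℝ) ∘ F) = fun y => F y l := rfl
  rw [e] at this
  rw [this]
  rfl


/-! ### matrix fields -/

/-- the curvature endomorphism `R(∂_i, ∂_j)` as a matrix -/
def Rm (g : MetricField n) (x : EuclideanSpace ℝ (Fin n)) (i j : Fin n) :
    Matrix (Fin n) (Fin n) ℝ := Matrix.of fun l k => riemann g x l i j k

/-- entrywise partial derivative -/
def pd (i : Fin n) (A : EuclideanSpace ℝ (Fin n) → Matrix (Fin n) (Fin n) ℝ)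
    (x : EuclideanSpace ℝ (Fin n)) : Matrix (Fin n) (Fin n) ℝ :=
  Matrix.of fun l p => pderiv i (fun y => A y l p) x

/-- entrywise differentiability -/
def DM (A : EuclideanSpace ℝ (Fin n) → Matrix (Fin n) (Fin n) ℝ) (x : EuclideanSpace ℝ (Fin n)) :
    Prop := ∀ l p, DifferentiableAt ℝ (fun y => A y l p) x

lemma pderiv_add {f h : 𝔼 → ℝ} (hf : DifferentiableAt ℝ f x) (hh : DifferentiableAt ℝ h x)
    (i : Fin n) : pderiv i (fun y => f y + h y) x = pderiv i f x + pderiv i h x := by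
  unfold pderiv; rw [fderiv_fun_add hf hh]; rfl

lemma pderiv_sub {f h : 𝔼 → ℝ} (hf : DifferentiableAt ℝ f x) (hh : DifferentiableAt ℝ h x)
    (i : Fin n) : pderiv i (fun y => f y - h y) x = pderiv i f x - pderiv i h x := by
  unfold pderiv; rw [fderiv_fun_sub hf hh]; rfl

lemma pderiv_mul {f h : 𝔼 → ℝ} (hf : DifferentiableAt ℝ f x) (hh : DifferentiableAt ℝ h x)
    (i : Fin n) : pderiv i (fun y => f y * h y) x = pderiv i f x * h x + f x * pderiv i h x := by
  unfold pderiv; rw [fderiv_fun_mul hf hh]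
  simp only [add_apply, smul_apply, smul_eq_mul]; ring

lemma pderiv_sum {ι : Type*} (s : Finset ι) {f : ι → 𝔼 → ℝ}
    (hf : ∀ a ∈ s, DifferentiableAt ℝ (f a) x) (i : Fin n) :
    pderiv i (fun y => ∑ a ∈ s, f a y) x = ∑ a ∈ s, pderiv i (f a) x := by
  unfold pderiv; rw [fderiv_fun_sum hf]; simp

lemma pderiv_congr {f h : 𝔼 → ℝ} (e : f =ᶠ[𝓝 x] h) (i : Fin n) :
    pderiv i f x = pderiv i h x := by
  unfold pderiv; rw [e.fderiv_eq]

lemma pderiv_const (c : ℝ) (i : Fin n) : pderiv i (fun _ : 𝔼 => c) x = 0 := by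
  unfold pderiv; simp

lemma pderiv_neg {f : 𝔼 → ℝ} (i : Fin n) :
    pderiv i (fun y => - f y) x = - pderiv i f x := by
  unfold pderiv; rw [fderiv_fun_neg]; rfl


lemma pderiv_comm {f : 𝔼 → ℝ} (hf : ContDiffAt ℝ 2 f x) (i j : Fin n) :
    pderiv i (fun y => pderiv j f y) x = pderiv j (fun y => pderiv i f y) x := by
  have hd : DifferentiableAt ℝ (fderiv ℝ f) x :=
    (hf.fderiv_right (m := 1) (by norm_num)).differentiableAt (by norm_num)
  have key : ∀ i j : Fin n, pderiv i (fun y => pderiv j f y) x =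
      fderiv ℝ (fderiv ℝ f) x (EuclideanSpace.single i 1) (EuclideanSpace.single j 1) := by
    intro i j
    unfold pderiv
    rw [fderiv_clm_apply hd (differentiableAt_const _)]
    simp
  rw [key, key]
  exact (hf.isSymmSndFDerivAt (by simp)).eq _ _

lemma pd_apply (i : Fin n) (A : 𝔼 → Matrix (Fin n) (Fin n) ℝ) (l p : Fin n) :
    pd i A x l p = pderiv i (fun y => A y l p) x := rfl

lemma DM.add {A B : 𝔼 → Matrix (Fin n) (Fin n) ℝ} (hA : DM A x) (hB : DM B x) :
    DM (fun y => A y + B y) x := fun l p => (hA l p).add (hB l p)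

lemma DM.sub {A B : 𝔼 → Matrix (Fin n) (Fin n) ℝ} (hA : DM A x) (hB : DM B x) :
    DM (fun y => A y - B y) x := fun l p => (hA l p).sub (hB l p)

lemma DM.mul {A B : 𝔼 → Matrix (Fin n) (Fin n) ℝ} (hA : DM A x) (hB : DM B x) :
    DM (fun y => A y * B y) x := fun l p => by
  simp only [Matrix.mul_apply]
  exact DifferentiableAt.fun_sum fun k _ => (hA l k).mul (hB k p)

lemma pd_add {A B : 𝔼 → Matrix (Fin n) (Fin n) ℝ} (hA : DM A x) (hB : DM B x) (i : Fin n) :
    pd i (fun y => A y + B y) x = pd i A x + pd i B x := by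
  ext l p
  exact pderiv_add (hA l p) (hB l p) i

lemma pd_sub {A B : 𝔼 → Matrix (Fin n) (Fin n) ℝ} (hA : DM A x) (hB : DM B x) (i : Fin n) :
    pd i (fun y => A y - B y) x = pd i A x - pd i B x := by
  ext l p
  exact pderiv_sub (hA l p) (hB l p) i

lemma pd_mul {A B : 𝔼 → Matrix (Fin n) (Fin n) ℝ} (hA : DM A x) (hB : DM B x) (i : Fin n) :
    pd i (fun y => A y * B y) x = pd i A x * B x + A x * pd i B x := by
  ext l p
  have e : (fun y => (A y * B y) l p) = fun y => ∑ k, A y l k * B y k p := by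
    funext y; exact Matrix.mul_apply
  change pderiv i (fun y => (A y * B y) l p) x = _
  rw [e, pderiv_sum (f := fun k y => A y l k * B y k p) _ (fun k _ => (hA l k).mul (hB k p)),
    Matrix.add_apply, Matrix.mul_apply, Matrix.mul_apply, ← Finset.sum_add_distrib]
  exact Finset.sum_congr rfl fun k _ => pderiv_mul (hA l k) (hB k p) i

lemma pd_smul {f : 𝔼 → ℝ} {A : 𝔼 → Matrix (Fin n) (Fin n) ℝ} (hf : DifferentiableAt ℝ f x)
    (hA : DM A x) (i : Fin n) :
    pd i (fun y => f y • A y) x = pderiv i f x • A x + f x • pd i A x := by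
  ext l p
  exact pderiv_mul hf (hA l p) i

lemma pd_congr {A B : 𝔼 → Matrix (Fin n) (Fin n) ℝ} (e : A =ᶠ[𝓝 x] B) (i : Fin n) :
    pd i A x = pd i B x := by
  ext l p
  exact pderiv_congr (e.mono fun y hy => by rw [hy]) i


lemma covDerivEndo_eq (g : MetricField n) (J : 𝔼 → Matrix (Fin n) (Fin n) ℝ) (x : 𝔼) (i : Fin n) :
    covDerivEndo g J x i = pd i J x + (christoffelMatrix g x i * J x -
      J x * christoffelMatrix g x i) := rfl

lemma DM_christoffel (hg : IsRiemannianOn g U) (hx : x ∈ U) (i : Fin n) :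
    DM (fun y => christoffelMatrix g y i) x :=
  fun l p => differentiableAt_christoffel hg hx l i p

lemma pd_christoffel (g : MetricField n) (x : 𝔼) (i j : Fin n) :
    pd i (fun y => christoffelMatrix g y j) x - pd j (fun y => christoffelMatrix g y i) x +
      (christoffelMatrix g x i * christoffelMatrix g x j -
        christoffelMatrix g x j * christoffelMatrix g x i) = Rm g x i j := by
  ext l k
  simp only [Rm, Matrix.of_apply, riemann, Matrix.add_apply, Matrix.sub_apply, pd_apply,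
    christoffelMatrix, Matrix.mul_apply, Finset.sum_sub_distrib]

/-- the Ricci identity for endomorphism fields. -/
theorem covEndo_comm (hg : IsRiemannianOn g U) (hx : x ∈ U)
    {J : 𝔼 → Matrix (Fin n) (Fin n) ℝ} (hJ : ∀ l p, ContDiffAt ℝ 2 (fun y => J y l p) x)
    (i j : Fin n) :
    covDerivEndo g (fun y => covDerivEndo g J y j) x i -
      covDerivEndo g (fun y => covDerivEndo g J y i) x j = Rm g x i j * J x - J x * Rm g x i j := by
  have hJ1 : DM J x := fun l p => (hJ l p).differentiableAt (by norm_num)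
  have hG := DM_christoffel hg hx
  have hpd : ∀ j, DM (pd j J) x := fun j l p =>
    ((((hJ l p).fderiv_right (m := 1) (by norm_num)).differentiableAt (by norm_num)).clm_apply
      (differentiableAt_const (EuclideanSpace.single j (1:ℝ))))
  have key : ∀ i j, covDerivEndo g (fun y => covDerivEndo g J y j) x i =
      pd i (pd j J) x + ((pd i (fun y => christoffelMatrix g y j) x * J x +
        christoffelMatrix g x j * pd i J x) - (pd i J x * christoffelMatrix g x j +
        J x * pd i (fun y => christoffelMatrix g y j) x)) +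
      (christoffelMatrix g x i * (pd j J x + (christoffelMatrix g x j * J x -
      J x * christoffelMatrix g x j)) - (pd j J x + (christoffelMatrix g x j * J x -
      J x * christoffelMatrix g x j)) * christoffelMatrix g x i) := by
    intro i j
    rw [covDerivEndo_eq, covDerivEndo_eq]
    congr 1
    have : (fun y => covDerivEndo g J y j) = fun y => pd j J y +
      (christoffelMatrix g y j * J y - J y * christoffelMatrix g y j) := rfl
    rw [this, pd_add (hpd j) (((hG j).mul hJ1).sub (hJ1.mul (hG j))),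
      pd_sub ((hG j).mul hJ1) (hJ1.mul (hG j)), pd_mul (hG j) hJ1, pd_mul hJ1 (hG j)]
  have hsymm : pd i (pd j J) x = pd j (pd i J) x := by
    ext l p
    exact pderiv_comm (hJ l p) i j
  rw [key, key, hsymm, ← pd_christoffel g x i j]
  noncomm_ring

end Crest.Agent.R260.Qk3_151
end
end

-- ▼ part R260/Qk4_151

/-!
# Row 260, QK-LOC file 4 (helper151): connection forms and curvature forms of a quaternionic
structure in a chart (frozen language of `Def_ChartRiemQK`)

* `QKOn g J U` : the fields of `QuaternionicStructure` on an open set, `qkOn`;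
* `cf g J x i a b` : `∇_i J_a = Σ_b cf i a b J_b` (`cf_spec`), antisymmetric (`cf_antisymm`),
  smooth (`cf_smooth`);
* `Fc g J x i j a b` : curvature of `cf`; `ricci_J` : `[R_ij, J_a] = Σ_b Fc i j a b J_b`.
-/

set_option autoImplicit false
set_option linter.unusedSimpArgs false

open scoped Manifold ContDiff Topology
open Filter Set
open Crest.GeometryTopology.CoordMetric
open Crest.GeometryTopology.ChartRiem
open Crest.Agent.R202.Tens Crest.Agent.R247.Bo84

noncomputable section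

namespace Crest.Agent.R260.Qk4_151

open Crest.Agent.R260.Qk3_151

variable {n : ℕ}

local notation "𝔼" => EuclideanSpace ℝ (Fin n)

/-- the data of a parallel orthogonal quaternionic structure on an open subset of `ℝⁿ`. -/
structure QKOn {n : ℕ} (g : MetricField n)
    (J : Fin 3 → EuclideanSpace ℝ (Fin n) → Matrix (Fin n) (Fin n) ℝ)
    (U : Set (EuclideanSpace ℝ (Fin n))) : Prop where
  riem : IsRiemannianOn g U
  smooth : ∀ a : Fin 3, ∀ l p : Fin n, ContDiffOn ℝ ∞ (fun y => J a y l p) U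
  sq : ∀ x ∈ U, ∀ a : Fin 3, J a x * J a x = -1
  mul : ∀ x ∈ U, J 0 x * J 1 x = J 2 x ∧ J 1 x * J 0 x = -J 2 x
  orth : ∀ x ∈ U, ∀ a : Fin 3, (J a x).transpose * g x * J a x = g x
  par : ∀ x ∈ U, ∀ i : Fin n, ∀ a : Fin 3,
    ∃ c : Fin 3 → ℝ, covDerivEndo g (J a) x i = ∑ b, c b • J b x

/-- every atlas chart of a quaternionic structure gives local data. -/
theorem qkOn {n : ℕ} {M : Type} [TopologicalSpace M] [ChartedSpace (EuclideanSpace ℝ (Fin n)) M]
    (G : ChartMetric n M) (Q : QuaternionicStructure n M G)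
    {e : OpenPartialHomeomorph M (EuclideanSpace ℝ (Fin n))}
    (he : e ∈ atlas (EuclideanSpace ℝ (Fin n)) M) : QKOn (G.g e) (Q.J e) e.target where
  riem := G.riemannian e he
  smooth := Q.smooth e he
  sq := Q.sq e he
  mul := Q.mul e he
  orth := Q.orthogonal e he
  par := Q.parallel e he

/-- the connection coefficients: `∇_i J_a = Σ_b cf i a b J_b`. -/
def cf {n : ℕ} (g : MetricField n)
    (J : Fin 3 → EuclideanSpace ℝ (Fin n) → Matrix (Fin n) (Fin n) ℝ)
    (x : EuclideanSpace ℝ (Fin n)) (i : Fin n) (a b : Fin 3) : ℝ :=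
  -(1 / (n : ℝ)) * (covDerivEndo g (J a) x i * J b x).trace

/-- the curvature forms: `[R_ij, J_a] = Σ_b Fc i j a b J_b`. -/
def Fc {n : ℕ} (g : MetricField n)
    (J : Fin 3 → EuclideanSpace ℝ (Fin n) → Matrix (Fin n) (Fin n) ℝ)
    (x : EuclideanSpace ℝ (Fin n)) (i j : Fin n) (a b : Fin 3) : ℝ :=
  pderiv i (fun y => cf g J y j a b) x - pderiv j (fun y => cf g J y i a b) x +
    ∑ d, (cf g J x j a d * cf g J x i d b - cf g J x i a d * cf g J x j d b)

/-- the Levi-Civita symbol on `Fin 3` -/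
def eps (a b c : Fin 3) : ℝ :=
  if b = a + 1 ∧ c = a + 2 then 1 else if b = a + 2 ∧ c = a + 1 then -1 else 0

section

variable {g : MetricField n} {J : Fin 3 → EuclideanSpace ℝ (Fin n) → Matrix (Fin n) (Fin n) ℝ}
  {U : Set (EuclideanSpace ℝ (Fin n))} {x : EuclideanSpace ℝ (Fin n)}

namespace QKOn

lemma isOpen (h : QKOn g J U) : IsOpen U := h.riem.isOpen

lemma mul01 (h : QKOn g J U) (hx : x ∈ U) : J 0 x * J 1 x = J 2 x := (h.mul x hx).1
lemma mul10 (h : QKOn g J U) (hx : x ∈ U) : J 1 x * J 0 x = -J 2 x := (h.mul x hx).2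

lemma mul12 (h : QKOn g J U) (hx : x ∈ U) : J 1 x * J 2 x = J 0 x := by
  rw [← h.mul01 hx, ← Matrix.mul_assoc, h.mul10 hx, ← h.mul01 hx, Matrix.neg_mul,
    Matrix.mul_assoc, h.sq x hx]
  simp

lemma mul21 (h : QKOn g J U) (hx : x ∈ U) : J 2 x * J 1 x = -J 0 x := by
  rw [← h.mul01 hx, Matrix.mul_assoc, h.sq x hx]
  simp

lemma mul20 (h : QKOn g J U) (hx : x ∈ U) : J 2 x * J 0 x = J 1 x := by
  rw [← h.mul01 hx, Matrix.mul_assoc, h.mul10 hx, ← h.mul01 hx, Matrix.mul_neg,
    ← Matrix.mul_assoc, h.sq x hx]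
  simp

lemma mul02 (h : QKOn g J U) (hx : x ∈ U) : J 0 x * J 2 x = -J 1 x := by
  rw [← h.mul01 hx, ← Matrix.mul_assoc, h.sq x hx]
  simp

lemma trace_J (h : QKOn g J U) (hx : x ∈ U) (a : Fin 3) : (J a x).trace = 0 := by
  have key : ∀ A B C : Matrix (Fin n) (Fin n) ℝ, A * B = C → B * A = -C → C.trace = 0 := by
    intro A B C h1 h2
    have h3 := Matrix.trace_mul_comm A B
    rw [h1, h2, Matrix.trace_neg] at h3
    linarith
  fin_cases a
  · exact key _ _ _ (h.mul12 hx) (h.mul21 hx)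
  · exact key _ _ _ (h.mul20 hx) (h.mul02 hx)
  · exact key _ _ _ (h.mul01 hx) (h.mul10 hx)

/-- `tr (J_a J_b) = -n δ_ab`. -/
lemma trace_JJ (h : QKOn g J U) (hx : x ∈ U) (a b : Fin 3) :
    (J a x * J b x).trace = if a = b then -(n : ℝ) else 0 := by
  have t0 := h.trace_J hx 0
  have t1 := h.trace_J hx 1
  have t2 := h.trace_J hx 2
  have hs : ∀ c : Fin 3, (J c x * J c x).trace = -(n : ℝ) := by
    intro c
    rw [h.sq x hx, Matrix.trace_neg, Matrix.trace_one, Fintype.card_fin]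
  fin_cases a <;> fin_cases b
  · exact hs 0
  · change (J 0 x * J 1 x).trace = 0
    rw [h.mul01 hx, t2]
  · change (J 0 x * J 2 x).trace = 0
    rw [h.mul02 hx, Matrix.trace_neg, t1, neg_zero]
  · change (J 1 x * J 0 x).trace = 0
    rw [h.mul10 hx, Matrix.trace_neg, t2, neg_zero]
  · exact hs 1
  · change (J 1 x * J 2 x).trace = 0
    rw [h.mul12 hx, t0]
  · change (J 2 x * J 0 x).trace = 0
    rw [h.mul20 hx, t1]
  · change (J 2 x * J 1 x).trace = 0
    rw [h.mul21 hx, Matrix.trace_neg, t0, neg_zero]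
  · exact hs 2

/-- coefficients of a combination of the `J_b` by traces. -/
lemma trace_comb (h : QKOn g J U) (hx : x ∈ U) (c : Fin 3 → ℝ) (b : Fin 3) :
    ((∑ d, c d • J d x) * J b x).trace = -(n : ℝ) * c b := by
  rw [Finset.sum_mul, Matrix.trace_sum]
  simp only [Matrix.smul_mul, Matrix.trace_smul, h.trace_JJ hx, smul_eq_mul]
  rw [Finset.sum_eq_single b]
  · simp; ring
  · intro d _ hd; simp [hd]
  · simp

lemma comb_inj (h : QKOn g J U) (hx : x ∈ U) (hn : n ≠ 0) {c c' : Fin 3 → ℝ}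
    (e : ∑ d, c d • J d x = ∑ d, c' d • J d x) : c = c' := by
  have hn' : (n : ℝ) ≠ 0 := Nat.cast_ne_zero.2 hn
  funext b
  have h1 := h.trace_comb hx c b
  rw [e, h.trace_comb hx c' b] at h1
  have : (n : ℝ) * c b = n * c' b := by linarith
  exact mul_left_cancel₀ hn' this

theorem cf_spec (h : QKOn g J U) (hx : x ∈ U) (i : Fin n) (a : Fin 3) :
    covDerivEndo g (J a) x i = ∑ b, cf g J x i a b • J b x := by
  have hn : (n : ℝ) ≠ 0 := by
    have : 0 < n := Fin.pos i
    exact_mod_cast this.ne'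
  obtain ⟨c, hc⟩ := h.par x hx i a
  have : ∀ b, cf g J x i a b = c b := by
    intro b
    rw [cf, hc, h.trace_comb hx]
    field_simp
  simp only [this]
  exact hc

lemma contDiffAt_J (h : QKOn g J U) (hx : x ∈ U) (a : Fin 3) (l p : Fin n) :
    ContDiffAt ℝ ∞ (fun y => J a y l p) x := (h.smooth a l p).contDiffAt (h.isOpen.mem_nhds hx)

lemma DM_J (h : QKOn g J U) (hx : x ∈ U) (a : Fin 3) : DM (J a) x :=
  fun l p => (h.contDiffAt_J hx a l p).differentiableAt (by norm_num)

theorem cov_smooth (h : QKOn g J U) (i : Fin n) (a : Fin 3) (l p : Fin n) :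
    ContDiffOn ℝ ∞ (fun y => covDerivEndo g (J a) y i l p) U := by
  have e : (fun y => covDerivEndo g (J a) y i l p) = fun y => pderiv i (fun z => J a z l p) y +
      (∑ k, christoffel g y l i k * J a y k p - ∑ k, J a y l k * christoffel g y k i p) := by
    funext y
    rfl
  rw [e]
  refine (contDiffOn_pderiv h.isOpen (h.smooth a l p) i).add (ContDiffOn.sub ?_ ?_)
  · exact ContDiffOn.sum fun k _ => (contDiffOn_christoffel h.riem l i k).mul (h.smooth a k p)
  · exact ContDiffOn.sum fun k _ => (h.smooth a l k).mul (contDiffOn_christoffel h.riem k i p)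

theorem cf_smooth (h : QKOn g J U) (i : Fin n) (a b : Fin 3) :
    ContDiffOn ℝ ∞ (fun y => cf g J y i a b) U := by
  unfold cf
  refine contDiffOn_const.mul ?_
  simp only [Matrix.trace, Matrix.diag_apply, Matrix.mul_apply]
  exact ContDiffOn.sum fun l _ => ContDiffOn.sum fun k _ => (h.cov_smooth i a l k).mul
    (h.smooth b k l)

lemma cf_diff (h : QKOn g J U) (hx : x ∈ U) (i : Fin n) (a b : Fin 3) :
    DifferentiableAt ℝ (fun y => cf g J y i a b) x :=
  ((h.cf_smooth i a b).contDiffAt (h.isOpen.mem_nhds hx)).differentiableAt (by norm_num)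

/-- metric connection: the coefficients are antisymmetric. -/
theorem cf_antisymm (h : QKOn g J U) (hx : x ∈ U) (i : Fin n) (a b : Fin 3) :
    cf g J x i a b = -cf g J x i b a := by
  have h1 : pderiv i (fun y => (J a y * J b y).trace) x = 0 := by
    have : (fun y => (J a y * J b y).trace) =ᶠ[𝓝 x] fun _ => if a = b then -(n : ℝ) else 0 := by
      filter_upwards [h.isOpen.mem_nhds hx] with y hy using h.trace_JJ hy a b
    rw [pderiv_congr this, pderiv_const]
  have h2 : pderiv i (fun y => (J a y * J b y).trace) x = (pd i (fun y => J a y * J b y) x).trace := by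
    simp only [Matrix.trace, Matrix.diag_apply]
    exact pderiv_sum _ (fun l _ => (h.DM_J hx a).mul (h.DM_J hx b) l l) i
  rw [h2, pd_mul (h.DM_J hx a) (h.DM_J hx b)] at h1
  have h3 : (covDerivEndo g (J a) x i * J b x).trace + (covDerivEndo g (J b) x i * J a x).trace =
      0 := by
    have e1 : covDerivEndo g (J a) x i * J b x + J a x * covDerivEndo g (J b) x i =
        (pd i (J a) x * J b x + J a x * pd i (J b) x) +
        (christoffelMatrix g x i * (J a x * J b x) - (J a x * J b x) * christoffelMatrix g x i) := by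
      rw [covDerivEndo_eq, covDerivEndo_eq]
      noncomm_ring
    have e2 := congrArg Matrix.trace e1
    rw [Matrix.trace_add, Matrix.trace_add, Matrix.trace_sub,
      Matrix.trace_mul_comm (christoffelMatrix g x i), sub_self, h1, add_zero,
      Matrix.trace_mul_comm (J a x)] at e2
    exact e2
  unfold cf
  have : (covDerivEndo g (J a) x i * J b x).trace = -(covDerivEndo g (J b) x i * J a x).trace := by
    linarith
  rw [this]
  ring

lemma cf_self (h : QKOn g J U) (hx : x ∈ U) (i : Fin n) (a : Fin 3) : cf g J x i a a = 0 := by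
  have := h.cf_antisymm hx i a a
  linarith

end QKOn

lemma covDerivEndo_congr {A B : 𝔼 → Matrix (Fin n) (Fin n) ℝ} (e : A =ᶠ[𝓝 x] B) (i : Fin n) :
    covDerivEndo g A x i = covDerivEndo g B x i := by
  rw [covDerivEndo_eq, covDerivEndo_eq, pd_congr e, e.self_of_nhds]

lemma covDerivEndo_add {A B : 𝔼 → Matrix (Fin n) (Fin n) ℝ} (hA : DM A x) (hB : DM B x)
    (i : Fin n) : covDerivEndo g (fun y => A y + B y) x i =
      covDerivEndo g A x i + covDerivEndo g B x i := by
  simp only [covDerivEndo_eq]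
  rw [pd_add hA hB]
  noncomm_ring


lemma covDerivEndo_smul {f : 𝔼 → ℝ} {A : 𝔼 → Matrix (Fin n) (Fin n) ℝ}
    (hf : DifferentiableAt ℝ f x) (hA : DM A x) (i : Fin n) :
    covDerivEndo g (fun y => f y • A y) x i = pderiv i f x • A x + f x • covDerivEndo g A x i := by
  simp only [covDerivEndo_eq]
  rw [pd_smul hf hA]
  simp only [Matrix.mul_smul, Matrix.smul_mul]
  module

lemma DM_smul {f : 𝔼 → ℝ} {A : 𝔼 → Matrix (Fin n) (Fin n) ℝ}
    (hf : DifferentiableAt ℝ f x) (hA : DM A x) : DM (fun y => f y • A y) x :=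
  fun l p => hf.mul (hA l p)

/-- covariant derivative of a section of the span of the `J_b`. -/
theorem covDerivEndo_comb (h : QKOn g J U) (hx : x ∈ U) {c : Fin 3 → 𝔼 → ℝ}
    (hc : ∀ b, DifferentiableAt ℝ (c b) x) (i : Fin n) :
    covDerivEndo g (fun y => ∑ b, c b y • J b y) x i =
      ∑ b, (pderiv i (c b) x + ∑ d, c d x * cf g J x i d b) • J b x := by
  have e : (fun y => ∑ b, c b y • J b y) = fun y => (c 0 y • J 0 y + c 1 y • J 1 y) + c 2 y • J 2 y := by
    funext y; rw [Fin.sum_univ_three]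
  rw [e, covDerivEndo_add ((DM_smul (hc 0) (h.DM_J hx 0)).add (DM_smul (hc 1) (h.DM_J hx 1)))
    (DM_smul (hc 2) (h.DM_J hx 2)), covDerivEndo_add (DM_smul (hc 0) (h.DM_J hx 0))
    (DM_smul (hc 1) (h.DM_J hx 1)), covDerivEndo_smul (hc 0) (h.DM_J hx 0),
    covDerivEndo_smul (hc 1) (h.DM_J hx 1), covDerivEndo_smul (hc 2) (h.DM_J hx 2),
    h.cf_spec hx, h.cf_spec hx, h.cf_spec hx]
  simp only [Fin.sum_univ_three]
  module

/-- `[R_ij, J_a] = Σ_b Fc i j a b J_b`. -/
theorem ricci_J (h : QKOn g J U) (hx : x ∈ U) (i j : Fin n) (a : Fin 3) :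
    Rm g x i j * J a x - J a x * Rm g x i j = ∑ b, Fc g J x i j a b • J b x := by
  have h2 : ∀ l p, ContDiffAt ℝ 2 (fun y => J a y l p) x := fun l p =>
    (h.contDiffAt_J hx a l p).of_le (WithTop.coe_le_coe.2 le_top)
  rw [← covEndo_comm h.riem hx h2 i j]
  have key : ∀ i j, covDerivEndo g (fun y => covDerivEndo g (J a) y j) x i =
      ∑ b, (pderiv i (fun y => cf g J y j a b) x + ∑ d, cf g J x j a d * cf g J x i d b) •
        J b x := by
    intro i j
    have e : (fun y => covDerivEndo g (J a) y j) =ᶠ[𝓝 x] fun y => ∑ b, cf g J y j a b • J b y := by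
      filter_upwards [h.isOpen.mem_nhds hx] with y hy using h.cf_spec hy j a
    rw [covDerivEndo_congr e]
    exact covDerivEndo_comb h hx (c := fun b y => cf g J y j a b) (fun b => h.cf_diff hx j a b) i
  rw [key i j, key j i, ← Finset.sum_sub_distrib]
  refine Finset.sum_congr rfl fun b _ => ?_
  rw [← sub_smul, Fc, Finset.sum_sub_distrib]
  congr 1
  ring


lemma Fc_antisymm (h : QKOn g J U) (hx : x ∈ U) (i j : Fin n) (a b : Fin 3) :
    Fc g J x i j a b = -Fc g J x i j b a := by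
  have e : ∀ j, pderiv i (fun y => cf g J y j a b) x = - pderiv i (fun y => cf g J y j b a) x := by
    intro j
    rw [← pderiv_neg]
    refine pderiv_congr ?_ i
    filter_upwards [h.isOpen.mem_nhds hx] with y hy using h.cf_antisymm hy j a b
  have e' : pderiv j (fun y => cf g J y i a b) x = - pderiv j (fun y => cf g J y i b a) x := by
    rw [← pderiv_neg]
    refine pderiv_congr ?_ j
    filter_upwards [h.isOpen.mem_nhds hx] with y hy using h.cf_antisymm hy i a b
  unfold Fc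
  rw [e, e']
  have s : ∑ d, (cf g J x j a d * cf g J x i d b - cf g J x i a d * cf g J x j d b) =
      -∑ d, (cf g J x j b d * cf g J x i d a - cf g J x i b d * cf g J x j d a) := by
    rw [← Finset.sum_neg_distrib]
    refine Finset.sum_congr rfl fun d _ => ?_
    rw [h.cf_antisymm hx j a d, h.cf_antisymm hx i d b, h.cf_antisymm hx i a d,
      h.cf_antisymm hx j d b]
    ring
  rw [s]
  ring

end

end Crest.Agent.R260.Qk4_151
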