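import Crest.Agent.R260.NNB1_580
import Crest.Agent.R275.Core_144

/-!
# Row 260, NN-ATL, part 3 (helper580): calculus in the holomorphic charts

`φ` is a holomorphic chart (`JCh C φ`), `i` a real chart.
* `JCh.contDiffAt_iff`, `JCh.differentiableAt_iff`, `JCh.fderiv_eq`, `JCh.fderiv_eq'`
* `JCh.holo_iff`     : `f` is complex differentiable in `φ` iff it is real differentiable with a
                       `J`-linear differential in the real chart
* `JCh.smOn_iff`, `JCh.smAt_iff`, `JCh.holOn_iff`, `JCh.holAt_iff` : `Atl.SmAt`, `HolAt`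
* `JCh.curve`        : maps into `Z`
* `JCh.X`            : the coordinate fields of `φ` in the real chart `i`
-/

set_option autoImplicit false

open Set Filter Topology Complex
open scoped ContDiff Manifold

namespace Crest.Agent.R260.NNB_580

open Crest.Agent.R260.ACM_580 Crest.Agent.R275.Geo Crest.Agent.R275.Core144

noncomputable section

variable {V Z : Type} [NormedAddCommGroup V] [NormedSpace ℝ V] [TopologicalSpace Z]
  {C : ACM V Z} {d : ℕ} {φ : OpenPartialHomeomorph Z (EuclideanSpace ℂ (Fin d))} {i : C.ι} {x : Z}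

namespace JCh

theorem contDiffAt_fwd (h : JCh C φ) (hx : x ∈ φ.source) (hi : x ∈ (C.e i).source) :
    ContDiffAt ℝ ∞ (fun z => φ ((C.e i).symm z)) (C.e i x) :=
  (h.sm i).contDiffAt ((isOpen_ovr i φ).mem_nhds (mem_ovr_of_source hx hi))

theorem contDiffAt_bwd (h : JCh C φ) (hx : x ∈ φ.source) (hi : x ∈ (C.e i).source) :
    ContDiffAt ℝ ∞ (fun z => C.e i (φ.symm z)) (φ x) :=
  (h.sm' i).contDiffAt ((isOpen_ovc i φ).mem_nhds (mem_ovc_of_source hx hi))

theorem ev_c {W : Type*} (f : Z → W) (hx : x ∈ φ.source) (hi : x ∈ (C.e i).source) :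
    (fun z => f (φ.symm z)) =ᶠ[𝓝 (φ x)] fun z => f ((C.e i).symm (C.e i (φ.symm z))) := by
  filter_upwards [(isOpen_ovc i φ).mem_nhds (mem_ovc_of_source hx hi)] with w hw
  rw [(C.e i).left_inv hw.2]

theorem ev_r {W : Type*} (f : Z → W) (hx : x ∈ φ.source) (hi : x ∈ (C.e i).source) :
    (fun z => f ((C.e i).symm z)) =ᶠ[𝓝 (C.e i x)] fun z => f (φ.symm (φ ((C.e i).symm z))) := by
  filter_upwards [(isOpen_ovr i φ).mem_nhds (mem_ovr_of_source hx hi)] with w hw
  rw [φ.left_inv hw.2]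

section real

variable {W : Type*} [NormedAddCommGroup W] [NormedSpace ℝ W] {f : Z → W}

theorem contDiffAt_iff (h : JCh C φ) (hx : x ∈ φ.source) (hi : x ∈ (C.e i).source) {n : ℕ∞} :
    ContDiffAt ℝ n (fun z => f (φ.symm z)) (φ x) ↔
      ContDiffAt ℝ n (fun z => f ((C.e i).symm z)) (C.e i x) := by
  have hn : ((n : ℕ∞) : WithTop ℕ∞) ≤ ∞ := by exact_mod_cast le_top
  constructor
  · intro hf
    refine ContDiffAt.congr_of_eventuallyEq ?_ (ev_r f hx hi)
    refine ContDiffAt.comp (C.e i x) (g := fun z => f (φ.symm z))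
      (f := fun z => φ ((C.e i).symm z)) ?_ ((h.contDiffAt_fwd hx hi).of_le hn)
    rw [(C.e i).left_inv hi]
    exact hf
  · intro hf
    refine ContDiffAt.congr_of_eventuallyEq ?_ (ev_c f hx hi)
    refine ContDiffAt.comp (φ x) (g := fun z => f ((C.e i).symm z))
      (f := fun z => C.e i (φ.symm z)) ?_ ((h.contDiffAt_bwd hx hi).of_le hn)
    rw [φ.left_inv hx]
    exact hf

theorem hasFDerivAt_c (h : JCh C φ) (hx : x ∈ φ.source) (hi : x ∈ (C.e i).source)
    {T : V →L[ℝ] W} (hf : HasFDerivAt (fun z => f ((C.e i).symm z)) T (C.e i x)) :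
    HasFDerivAt (fun z => f (φ.symm z))
      (T.comp (fderiv ℝ (fun z => C.e i (φ.symm z)) (φ x))) (φ x) := by
  refine HasFDerivAt.congr_of_eventuallyEq ?_ (ev_c f hx hi)
  refine HasFDerivAt.comp (φ x) (g := fun z => f ((C.e i).symm z))
      (f := fun z => C.e i (φ.symm z)) ?_ (h.diffAt' (mem_ovc_of_source hx hi)).hasFDerivAt
  rw [φ.left_inv hx]
  exact hf

theorem hasFDerivAt_r (h : JCh C φ) (hx : x ∈ φ.source) (hi : x ∈ (C.e i).source)
    {T : EuclideanSpace ℂ (Fin d) →L[ℝ] W} (hf : HasFDerivAt (fun z => f (φ.symm z)) T (φ x)) :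
    HasFDerivAt (fun z => f ((C.e i).symm z))
      (T.comp (fderiv ℝ (fun z => φ ((C.e i).symm z)) (C.e i x))) (C.e i x) := by
  refine HasFDerivAt.congr_of_eventuallyEq ?_ (ev_r f hx hi)
  refine HasFDerivAt.comp (C.e i x) (g := fun z => f (φ.symm z))
      (f := fun z => φ ((C.e i).symm z)) ?_ (h.diffAt (mem_ovr_of_source hx hi)).hasFDerivAt
  rw [(C.e i).left_inv hi]
  exact hf

theorem differentiableAt_iff (h : JCh C φ) (hx : x ∈ φ.source) (hi : x ∈ (C.e i).source) :
    DifferentiableAt ℝ (fun z => f (φ.symm z)) (φ x) ↔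
      DifferentiableAt ℝ (fun z => f ((C.e i).symm z)) (C.e i x) :=
  ⟨fun hf => (h.hasFDerivAt_r hx hi hf.hasFDerivAt).differentiableAt,
    fun hf => (h.hasFDerivAt_c hx hi hf.hasFDerivAt).differentiableAt⟩

theorem fderiv_c (h : JCh C φ) (hx : x ∈ φ.source) (hi : x ∈ (C.e i).source)
    (hf : DifferentiableAt ℝ (fun z => f ((C.e i).symm z)) (C.e i x))
    (v : EuclideanSpace ℂ (Fin d)) :
    fderiv ℝ (fun z => f (φ.symm z)) (φ x) v =
      fderiv ℝ (fun z => f ((C.e i).symm z)) (C.e i x)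
        (fderiv ℝ (fun z => C.e i (φ.symm z)) (φ x) v) := by
  rw [(h.hasFDerivAt_c hx hi hf.hasFDerivAt).fderiv]
  rfl

theorem fderiv_r (h : JCh C φ) (hx : x ∈ φ.source) (hi : x ∈ (C.e i).source)
    (hf : DifferentiableAt ℝ (fun z => f (φ.symm z)) (φ x)) (v : V) :
    fderiv ℝ (fun z => f ((C.e i).symm z)) (C.e i x) v =
      fderiv ℝ (fun z => f (φ.symm z)) (φ x)
        (fderiv ℝ (fun z => φ ((C.e i).symm z)) (C.e i x) v) := by
  rw [(h.hasFDerivAt_r hx hi hf.hasFDerivAt).fderiv]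
  rfl



end real

section complex

variable {W : Type*} [NormedAddCommGroup W] [NormedSpace ℂ W] {f : Z → W}

/-- complex differentiable in the holomorphic chart = real differentiable with a `J`-linear
differential in the real chart -/
theorem holo_iff (h : JCh C φ) (hx : x ∈ φ.source) (hi : x ∈ (C.e i).source) :
    DifferentiableAt ℂ (fun z => f (φ.symm z)) (φ x) ↔
      DifferentiableAt ℝ (fun z => f ((C.e i).symm z)) (C.e i x) ∧
        ∀ v, fderiv ℝ (fun z => f ((C.e i).symm z)) (C.e i x) (C.J i (C.e i x) v) =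
          I • fderiv ℝ (fun z => f ((C.e i).symm z)) (C.e i x) v := by
  constructor
  · intro hf
    have h1 : DifferentiableAt ℝ (fun z => f (φ.symm z)) (φ x) := hf.restrictScalars ℝ
    refine ⟨(h.differentiableAt_iff hx hi).1 h1, fun v => ?_⟩
    rw [h.fderiv_r hx hi h1, h.fderiv_r hx hi h1, h.lin i _ (mem_ovr_of_source hx hi)]
    exact fderiv_real_I hf _
  · rintro ⟨hf, hJ⟩
    refine differentiableAt_of_real ((h.differentiableAt_iff hx hi).2 hf) fun v => ?_
    rw [h.fderiv_c hx hi hf, h.fderiv_c hx hi hf, h.lin' (mem_ovc_of_source hx hi),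
      φ.left_inv hx, hJ]

/-- holomorphic on an open set -/
theorem holOn_iff (h : JCh C φ) {U : Set Z} (hU : IsOpen U) :
    DifferentiableOn ℂ (fun z => f (φ.symm z)) (φ.target ∩ φ.symm ⁻¹' U) ↔
      ∀ i, ∀ x ∈ φ.source, x ∈ (C.e i).source → x ∈ U →
        DifferentiableAt ℝ (fun z => f ((C.e i).symm z)) (C.e i x) ∧
        ∀ v, fderiv ℝ (fun z => f ((C.e i).symm z)) (C.e i x) (C.J i (C.e i x) v) =
          I • fderiv ℝ (fun z => f ((C.e i).symm z)) (C.e i x) v := by
  have hoc : IsOpen (φ.target ∩ φ.symm ⁻¹' U) := φ.isOpen_inter_preimage_symm hU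
  constructor
  · intro hf i x hx hi hxU
    rw [← h.holo_iff hx hi]
    refine hf.differentiableAt (hoc.mem_nhds ⟨φ.map_source hx, ?_⟩)
    rw [mem_preimage, φ.left_inv hx]
    exact hxU
  · intro hf z hz
    apply DifferentiableAt.differentiableWithinAt
    obtain ⟨i, hi⟩ := C.cover (φ.symm z)
    have hs : φ.symm z ∈ φ.source := φ.map_target hz.1
    have h1 := (h.holo_iff (f := f) hs hi).2 (hf i _ hs hi hz.2)
    rw [φ.right_inv hz.1] at h1
    exact h1



end complex

/-! ### the coordinate fields -/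

/-- the field `∂/∂v` of the holomorphic chart, in the real chart `i` -/
def X (C : ACM V Z) (i : C.ι) (φ : OpenPartialHomeomorph Z (EuclideanSpace ℂ (Fin d)))
    (v : EuclideanSpace ℂ (Fin d)) (z : V) : V :=
  fderiv ℝ (fun z => C.e i (φ.symm z)) (φ ((C.e i).symm z)) v






end JCh

/-! ### `Atl` -/

section atl

variable {A : Atl d Z} {a : A.ι}


theorem holAt_iff (h : JCh C (A.e a)) {U : Set Z} (hU : IsOpen U) {f : Z → ℂ} :
    HolAt A a U f ↔ ∀ i, ∀ x ∈ (A.e a).source, x ∈ (C.e i).source → x ∈ U →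
        DifferentiableAt ℝ (fun z => f ((C.e i).symm z)) (C.e i x) ∧
        ∀ v, fderiv ℝ (fun z => f ((C.e i).symm z)) (C.e i x) (C.J i (C.e i x) v) =
          I • fderiv ℝ (fun z => f ((C.e i).symm z)) (C.e i x) v := h.holOn_iff hU


end atl

end

end Crest.Agent.R260.NNB_580
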