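import Mathlib
import Crest.Agent.R260.Tw1_979
import Crest.Agent.R260.Tup1_45
import Crest.Agent.R260.Tw4_979
import Crest.Agent.R260.NNB3_580
import Crest.Agent.R260.BrIf_592

-- ▼ part R260/TL1_660
section

/-!
Row 260, leaf TW-LINE (helper660), part 1: the null operators `N w = ∑ nn_a(w) J_a` of a
quaternionic triple of complex matrices (conventions of `Tw1_979`).

* `anti`   : `N u * N v + N v * N u = 4 (u - v)^2`
* `ker_eq_range`, `finrank_ker` : `ker (N w) = range (N w)`, of dimension `n/2`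
* `inf_*`  : the operator `Ninf = ∑ ninf_a J_a` at `w = ∞`.
-/

set_option autoImplicit false

open Complex Matrix

noncomputable section

namespace Crest.Agent.R260.TL_660

open Crest.Agent.R260.Tw_979


section alg

variable {A : Type*} [Ring A] [Algebra ℂ A] {J : Fin 3 → A}

/-- `u · J` -/
def dJ (u : Fin 3 → ℂ) (J : Fin 3 → A) : A := u 0 • J 0 + u 1 • J 1 + u 2 • J 2

lemma dJ_mul (h : QT J) (u v : Fin 3 → ℂ) :
    dJ u J * dJ v J = -(dt u v) • (1 : A) + dJ (cr u v) J := by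
  have h0 := h.sq 0
  have h1 := h.sq 1
  have h2 := h.sq 2
  simp only [dJ, add_mul, mul_add, smul_mul_smul_comm, h0, h1, h2, h.m01, h.m10, h.m12, h.m21,
    h.m20, h.m02, dt, cr, Matrix.cons_val_zero, Matrix.cons_val_one, Matrix.cons_val]
  module


lemma dJ_smul (c : ℂ) (u : Fin 3 → ℂ) : dJ (c • u) J = c • dJ u J := by
  simp only [dJ, Pi.smul_apply, smul_eq_mul]; module











end alg

section lin

variable {V : Type*} [AddCommGroup V] [Module ℂ V] {P Q : V →ₗ[ℂ] V}




end lin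

section quat

variable {V : Type*} [AddCommGroup V] [Module ℂ V] {J : Fin 3 → (V →ₗ[ℂ] V)}

/-- the operator `N w` -/
def N (J : Fin 3 → (V →ₗ[ℂ] V)) (w : ℂ) : V →ₗ[ℂ] V := dJ (nn w) J








end quat

end Crest.Agent.R260.TL_660
end
end

-- ▼ part R260/Tup2_45
section

/-!
Row 260, leaf TUP (helper45), part 2: the Cauchy-Riemann equation of a section of `L ^ k` on the
chart `E × ℂ` of the twistor space (almost complex structure `JZ` of `Tw4_979`, connection form `α`
of the frame of `L`) is the horizontal equation `HolK` together with holomorphy in the fibre.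

* `be'`         : `β'_w = -(i/2) nn'(w) · Θ`
* `AlSpec`      : what is used of the connection form `α` (`alF_spec`: the explicit formula)
* `holK_of_dbar`, `holw_of_dbar`.
-/

set_option autoImplicit false
set_option linter.unusedSectionVars false

open Complex Matrix
open scoped ContDiff Topology
open Crest.GeometryTopology.CoordMetric Crest.GeometryTopology.ChartRiem
open Crest.Agent.R260.Tw_979 Crest.Agent.R260.TwPen_389

noncomputable section

namespace Crest.Agent.R260.Tup_45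

/-- `β'_w = -(i/2) nn'(w) · Θ` -/
def be' (w : ℂ) (Θ : Fin 3 → ℝ) : ℂ := -(I / 2) * dt (nd w) (cx Θ)

section Lin

variable {E : Type*} [NormedAddCommGroup E] [NormedSpace ℝ E]

/-- the properties of the connection form of the frame of `L` used here -/
structure AlSpec (Th : E → Fin 3 → (E →L[ℝ] ℝ)) (z : E × ℂ) (α : E × ℂ →L[ℝ] ℂ) : Prop where
  vert : ∀ η : ℂ, α (0, η) + I * α (0, I * η) = 0
  hor : ∀ X : E, α (X, bec Th z X) = -be' z.2 (thv Th z.1 X)




variable {Jo : E → Fin 3 → (E →L[ℝ] E)} {Th : E → Fin 3 → (E →L[ℝ] ℝ)}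

/-- the horizontal derivative of weight `k` -/
def hD (Th : E → Fin 3 → (E →L[ℝ] ℝ)) (s : E × ℂ → ℂ) (k : ℂ) (z : E × ℂ) (X : E) : ℂ :=
  fderiv ℝ s z (X, bec Th z X) - k * be' z.2 (thv Th z.1 X) * s z

lemma JZ_hor (z : E × ℂ) (X : E) :
    JZ Jo Th z (X, bec Th z X) = (Iw Jo z X, bec Th z (Iw Jo z X)) := by
  refine Prod.ext rfl ?_
  rw [JZ_snd]
  ring

lemma JZ_vert (z : E × ℂ) (η : ℂ) : JZ Jo Th z (0, η) = (0, I * η) := by
  refine Prod.ext ?_ ?_
  · rw [JZ_fst]; simp
  · rw [JZ_snd]; simp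

/-- the Cauchy-Riemann equation on horizontal vectors -/
theorem hD_Iw {s : E × ℂ → ℂ} {k : ℂ} {z : E × ℂ} {α : E × ℂ →L[ℝ] ℂ} (hα : AlSpec Th z α)
    (hdb : ∀ v, fderiv ℝ s z v + I * fderiv ℝ s z (JZ Jo Th z v) +
      k * (α v + I * α (JZ Jo Th z v)) * s z = 0) (X : E) :
    hD Th s k z X + I * hD Th s k z (Iw Jo z X) = 0 := by
  have h := hdb (X, bec Th z X)
  rw [JZ_hor, hα.hor, hα.hor] at h
  unfold hD
  linear_combination h

/-- holomorphy along the fibre -/
theorem holw_of_dbar {s : E × ℂ → ℂ} {k : ℂ} {z : E × ℂ} {α : E × ℂ →L[ℝ] ℂ}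
    (hα : AlSpec Th z α) (hs : DifferentiableAt ℝ s z)
    (hdb : ∀ v, fderiv ℝ s z v + I * fderiv ℝ s z (JZ Jo Th z v) +
      k * (α v + I * α (JZ Jo Th z v)) * s z = 0) :
    HasDerivAt (fun w => s (z.1, w)) (fderiv ℝ s z (0, 1)) z.2 := by
  have hv : ∀ η : ℂ, fderiv ℝ s z (0, η) + I * fderiv ℝ s z (0, I * η) = 0 := by
    intro η
    have h := hdb (0, η)
    rw [JZ_vert, hα.vert] at h
    simpa using h
  have h1 : HasFDerivAt (fun w : ℂ => s (z.1, w))
      ((fderiv ℝ s z).comp (ContinuousLinearMap.inr ℝ E ℂ)) z.2 := by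
    have h2 : HasFDerivAt (fun w : ℂ => ((z.1, w) : E × ℂ)) (ContinuousLinearMap.inr ℝ E ℂ) z.2 :=
      hasFDerivAt_prodMk_right z.1 z.2
    exact (show HasFDerivAt s (fderiv ℝ s z) (z.1, z.2) from hs.hasFDerivAt).comp z.2 h2
  -- the derivative is complex linear
  have hI : fderiv ℝ s z (0, I) = I * fderiv ℝ s z (0, 1) := by
    have h := hv 1
    rw [mul_one] at h
    linear_combination (-I) * h + fderiv ℝ s z (0, I) * I_sq
  have hlin : ∀ η : ℂ, fderiv ℝ s z (0, η) = fderiv ℝ s z (0, 1) * η := by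
    intro η
    have e : ((0, η) : E × ℂ) = η.re • ((0, 1) : E × ℂ) + η.im • ((0, I) : E × ℂ) := by
      refine Prod.ext ?_ ?_
      · simp
      · simp only [Prod.snd_add, Prod.smul_snd, real_smul, mul_one]
        exact (re_add_im η).symm
    rw [e, map_add, map_smul, map_smul, hI, real_smul, real_smul]
    conv_rhs => rw [← re_add_im η]
    ring
  have h3 : HasFDerivAt (𝕜 := ℂ) (fun w : ℂ => s (z.1, w))
      (ContinuousLinearMap.toSpanSingleton ℂ (fderiv ℝ s z (0, 1))) z.2 := by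
    refine (hasFDerivAt_of_restrictScalars ℝ h1 ?_)
    refine ContinuousLinearMap.ext fun η => ?_
    have e2 : ((fderiv ℝ s z).comp (ContinuousLinearMap.inr ℝ E ℂ)) η = fderiv ℝ s z (0, η) := rfl
    rw [e2, hlin η]
    show η • fderiv ℝ s z (0, 1) = _
    rw [smul_eq_mul, mul_comm]
  exact hasDerivAt_iff_hasFDerivAt.2 h3

end Lin

section Chart

variable {n : ℕ}

/-- the frame data `Jo`, `Th` of `Tw4_979` in terms of the matrices `J` and the coefficients `c` -/
structure FrSpec (J : Fin 3 → EuclideanSpace ℝ (Fin n) → Matrix (Fin n) (Fin n) ℝ)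
    (c : EuclideanSpace ℝ (Fin n) → Fin n → Fin 3 → Fin 3 → ℝ)
    (Jo : EuclideanSpace ℝ (Fin n) → Fin 3 → (EuclideanSpace ℝ (Fin n) →L[ℝ] EuclideanSpace ℝ (Fin n)))
    (Th : EuclideanSpace ℝ (Fin n) → Fin 3 → (EuclideanSpace ℝ (Fin n) →L[ℝ] ℝ))
    (x : EuclideanSpace ℝ (Fin n)) : Prop where
  qt : QT (fun a => J a x)
  skew : ∀ i a b, c x i a b = -c x i b a
  jo : ∀ a X l, (Jo x a X) l = ∑ p, J a x l p * X p
  th0 : ∀ i, Th x 0 (EuclideanSpace.single i 1) = c x i 2 1
  th1 : ∀ i, Th x 1 (EuclideanSpace.single i 1) = c x i 0 2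
  th2 : ∀ i, Th x 2 (EuclideanSpace.single i 1) = c x i 1 0

variable {J : Fin 3 → EuclideanSpace ℝ (Fin n) → Matrix (Fin n) (Fin n) ℝ}
  {c : EuclideanSpace ℝ (Fin n) → Fin n → Fin 3 → Fin 3 → ℝ}
  {Jo : EuclideanSpace ℝ (Fin n) → Fin 3 → (EuclideanSpace ℝ (Fin n) →L[ℝ] EuclideanSpace ℝ (Fin n))}
  {Th : EuclideanSpace ℝ (Fin n) → Fin 3 → (EuclideanSpace ℝ (Fin n) →L[ℝ] ℝ)}
  {x : EuclideanSpace ℝ (Fin n)}

lemma FrSpec.mu_eq (h : FrSpec J c Jo Th x) (w : ℂ) (i : Fin n) :
    mu (c x i) w = -bec Th (x, w) (EuclideanSpace.single i 1) := by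
  rw [bec_apply]
  simp only [be, dt, nn, cx, thv, mu, h.th0, h.th1, h.th2, Matrix.cons_val_zero,
    Matrix.cons_val_one, Matrix.cons_val]
  have h21 : c x i 2 1 = -c x i 1 2 := h.skew i 2 1
  have h10 : c x i 1 0 = -c x i 0 1 := h.skew i 1 0
  rw [h21, h10]
  push_cast
  linear_combination ((1 + w ^ 2) / 2 * (c x i 0 1 : ℂ)) * I_sq

lemma FrSpec.lam_eq (h : FrSpec J c Jo Th x) (w : ℂ) (i : Fin n) :
    lam (c x i) w = be' w (thv Th x (EuclideanSpace.single i 1)) := by
  simp only [be', dt, nd, cx, thv, lam, h.th0, h.th1, h.th2, Matrix.cons_val_zero,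
    Matrix.cons_val_one, Matrix.cons_val]
  have h21 : c x i 2 1 = -c x i 1 2 := h.skew i 2 1
  have h10 : c x i 1 0 = -c x i 0 1 := h.skew i 1 0
  rw [h21, h10]
  push_cast
  linear_combination (-w * (c x i 0 1 : ℂ)) * I_sq

lemma FrSpec.cqt (h : FrSpec J c Jo Th x) : QT (fun a => cm (J a x)) where
  sq a := by rw [← cm_mul, h.qt.sq, cm_neg, cm_one]
  m01 := by rw [← cm_mul]; exact congrArg cm h.qt.m01
  m10 := by rw [← cm_mul, ← cm_neg]; exact congrArg cm h.qt.m10

/-- `I_w N(w) = - i N(w)` -/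
lemma FrSpec.Iw_N (h : FrSpec J c Jo Th x) (w : ℂ) :
    Nq (fun a => cm (J a x)) (cx (xx w)) * Nq (fun a => cm (J a x)) (nn w) =
      (-I) • Nq (fun a => cm (J a x)) (nn w) := by
  have e : ∀ z, Nq (fun a => cm (J a x)) z = TL_660.dJ z (fun a => cm (J a x)) := by
    intro z
    simp only [Nq, TL_660.dJ, Fin.sum_univ_three]
  rw [e, e, TL_660.dJ_mul h.cqt, xx_nn, cr_xx_nn, TL_660.dJ_smul, neg_zero, zero_smul, zero_add]

/-- the real operator `I_w` in coordinates -/
lemma FrSpec.Iw_apply (h : FrSpec J c Jo Th x) (w : ℂ) (j l : Fin n) :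
    ((Iw Jo (x, w) (EuclideanSpace.single j 1) l : ℝ) : ℂ) =
      Nq (fun a => cm (J a x)) (cx (xx w)) l j := by
  have h1 : ∀ a, (Jo x a (EuclideanSpace.single j 1)) l = J a x l j := by
    intro a
    rw [h.jo]
    simp
  simp only [Iw, Nq, Fin.sum_univ_three, _root_.add_apply, _root_.smul_apply, PiLp.add_apply,
    PiLp.smul_apply, h1, smul_eq_mul, Matrix.add_apply, Matrix.smul_apply, cx, cm_apply]
  push_cast
  rfl

/-- **the Cauchy-Riemann equation implies the horizontal equation** -/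
theorem holK_of_dbar (h : FrSpec J c Jo Th x) {s : EuclideanSpace ℝ (Fin n) × ℂ → ℂ} {k w : ℂ}
    {α : EuclideanSpace ℝ (Fin n) × ℂ →L[ℝ] ℂ} (hα : AlSpec Th (x, w) α)
    (hs : DifferentiableAt ℝ s (x, w))
    (hdb : ∀ v, fderiv ℝ s (x, w) v + I * fderiv ℝ s (x, w) (JZ Jo Th (x, w) v) +
      k * (α v + I * α (JZ Jo Th (x, w) v)) * s (x, w) = 0) :
    HolK J c k (fun y w => s (y, w)) x w := by
  set z : EuclideanSpace ℝ (Fin n) × ℂ := (x, w) with hz
  set hh : Fin n → ℂ := fun i => hD Th s k z (EuclideanSpace.single i 1) with hhh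
  have hw : HasDerivAt (fun w => s (x, w)) (fderiv ℝ s z (0, 1)) w := holw_of_dbar hα hs hdb
  -- `hD` is real linear
  have hlin : ∀ X : EuclideanSpace ℝ (Fin n), hD Th s k z X = ∑ i, (X i : ℂ) * hh i := by
    intro X
    have hL : ∃ L : EuclideanSpace ℝ (Fin n) →ₗ[ℝ] ℂ, ∀ X, L X = hD Th s k z X := by
      refine ⟨{ toFun := hD Th s k z, map_add' := ?_, map_smul' := ?_ }, fun X => rfl⟩
      · intro X Y
        have e1 : ((X + Y, bec Th z (X + Y)) : EuclideanSpace ℝ (Fin n) × ℂ) =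
            (X, bec Th z X) + (Y, bec Th z Y) := by
          refine Prod.ext rfl ?_
          simp
        have e2 : thv Th z.1 (X + Y) = thv Th z.1 X + thv Th z.1 Y := by
          funext a; simp [thv]
        unfold hD
        rw [e1, map_add, e2]
        simp only [be', dt, cx, Pi.add_apply]
        push_cast
        ring
      · intro r X
        have e1 : ((r • X, bec Th z (r • X)) : EuclideanSpace ℝ (Fin n) × ℂ) =
            r • (X, bec Th z X) := by
          refine Prod.ext rfl ?_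
          simp
        have e2 : thv Th z.1 (r • X) = r • thv Th z.1 X := by
          funext a; simp [thv]
        unfold hD
        rw [e1, map_smul, e2]
        simp only [be', dt, cx, Pi.smul_apply, smul_eq_mul, real_smul, RingHom.id_apply]
        push_cast
        ring
    obtain ⟨L, hL⟩ := hL
    have hX : X = ∑ i, X i • EuclideanSpace.single i (1 : ℝ) := by
      ext l
      simp [Pi.single_apply]
    rw [← hL X]
    conv_lhs => rw [hX]
    rw [map_sum]
    refine Finset.sum_congr rfl fun i _ => ?_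
    rw [map_smul, hL, real_smul]
  -- coordinates of the equation
  set A := Nq (fun a => cm (J a x)) (cx (xx w)) with hA
  set N := Nq (fun a => cm (J a x)) (nn w) with hN
  have h1 : hh ᵥ* (1 + I • A) = 0 := by
    funext j
    have h2 := hD_Iw (Jo := Jo) (k := k) hα hdb (EuclideanSpace.single j 1)
    rw [hlin (Iw Jo z (EuclideanSpace.single j 1))] at h2
    have h3 : (hh ᵥ* (1 + I • A)) j = hh j + I * ∑ l, hh l * A l j := by
      rw [Matrix.vecMul_add, Matrix.vecMul_one, Matrix.vecMul_smul]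
      simp [Matrix.vecMul, dotProduct]
    rw [h3, Pi.zero_apply, ← h2]
    congr 2
    refine Finset.sum_congr rfl fun l _ => ?_
    rw [h.Iw_apply w j l, mul_comm]
  have h4 : hh ᵥ* N = 0 := by
    have h5 : (1 + I • A) * N = (2 : ℂ) • N := by
      rw [Matrix.add_mul, Matrix.one_mul, Matrix.smul_mul, h.Iw_N w, smul_smul]
      have : I * -I = 1 := by linear_combination -I_sq
      rw [this, one_smul, two_smul]
    have h6 : (2 : ℂ) • (hh ᵥ* N) = 0 := by
      rw [← Matrix.vecMul_smul, ← h5, ← Matrix.vecMul_vecMul, h1, Matrix.zero_vecMul]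
    exact (smul_eq_zero.1 h6).resolve_left two_ne_zero
  -- `horK = hh`
  have h7 : ∀ i, horK c k (fun y w => s (y, w)) x w i = hh i := by
    intro i
    have e1 : cpd i (fun y => s (y, w)) x = fderiv ℝ s z (EuclideanSpace.single i 1, 0) := by
      have h2 : HasFDerivAt (fun y => s (y, w))
          ((fderiv ℝ s z).comp (ContinuousLinearMap.inl ℝ (EuclideanSpace ℝ (Fin n)) ℂ)) x := by
        have h3 : HasFDerivAt (fun y : EuclideanSpace ℝ (Fin n) =>
            ((y, w) : EuclideanSpace ℝ (Fin n) × ℂ))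
            (ContinuousLinearMap.inl ℝ (EuclideanSpace ℝ (Fin n)) ℂ) x := hasFDerivAt_prodMk_left x w
        exact (show HasFDerivAt s (fderiv ℝ s z) (x, w) from hs.hasFDerivAt).comp x h3
      unfold cpd
      rw [h2.fderiv]
      rfl
    have e2 : deriv (fun w => s (x, w)) w = fderiv ℝ s z (0, 1) := hw.deriv
    have e3 : fderiv ℝ s z (EuclideanSpace.single i 1, bec Th z (EuclideanSpace.single i 1)) =
        fderiv ℝ s z (EuclideanSpace.single i 1, 0) +
          bec Th z (EuclideanSpace.single i 1) * fderiv ℝ s z (0, 1) := by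
      have hη : ∀ η : ℂ, fderiv ℝ s z (0, η) = η * fderiv ℝ s z (0, 1) := by
        intro η
        have h8 := hasDerivAt_iff_hasFDerivAt.1 hw
        have h9 : HasFDerivAt (fun w : ℂ => s (x, w))
            ((fderiv ℝ s z).comp (ContinuousLinearMap.inr ℝ (EuclideanSpace ℝ (Fin n)) ℂ)) w := by
          have h2 : HasFDerivAt (fun w : ℂ => ((x, w) : EuclideanSpace ℝ (Fin n) × ℂ))
            (ContinuousLinearMap.inr ℝ (EuclideanSpace ℝ (Fin n)) ℂ) w := hasFDerivAt_prodMk_right x w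
          exact (show HasFDerivAt s (fderiv ℝ s z) (x, w) from hs.hasFDerivAt).comp w h2
        have h10 := h9.unique (h8.restrictScalars ℝ)
        have h11 := congrArg (fun L => L η) h10
        refine (show fderiv ℝ s z (0, η) = _ from h11).trans ?_
        show η • fderiv ℝ s z (0, 1) = _
        rw [smul_eq_mul]
      have e4 : ((EuclideanSpace.single i 1, bec Th z (EuclideanSpace.single i 1)) :
          EuclideanSpace ℝ (Fin n) × ℂ) = (EuclideanSpace.single i 1, 0) +
            (0, bec Th z (EuclideanSpace.single i 1)) := by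
        refine Prod.ext ?_ ?_ <;> simp
      rw [e4, map_add, hη]
    unfold horK
    show cpd i (fun y => s (y, w)) x - mu (c x i) w * deriv (fun w => s (x, w)) w -
      k * lam (c x i) w * s (x, w) = _
    rw [e1, e2, h.mu_eq w i, h.lam_eq w i, hhh]
    simp only [hD]
    rw [e3]
    ring
  intro j
  have h8 := congrFun h4 j
  rw [Pi.zero_apply] at h8
  rw [← h8]
  show _ = ∑ i, hh i * N i j
  refine Finset.sum_congr rfl fun i _ => ?_
  rw [h7 i, mul_comm]

end Chart

end Crest.Agent.R260.Tup_45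
end
end

-- ▼ part R260/Tup4_45

/-!
Row 260, leaf TUP (helper45), part 4: from the holomorphic coordinates `S : MSys A L I` of the
twistor space to functions in the real charts.

* `FLink C A L lam α` : comparison functions `κ a i` between the holomorphic frame `e_a` of `L` in
   the chart `a` of `A` and the smooth frame `e_i` of `L` in the real chart `i` of `C`
   (`e_a = κ a i • e_i`, `e_j = lam i j • e_i`, `∇ e_i = α i • e_i`), `∂̄`-closed;
* `FLink.Th`          : compatibility with the contact forms (`θ i` real chart, `θ'` in `A`);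
* `sec S K i y`       : the homogeneous coordinates in the frame `e_i` at the point `y` of the chart
* `rawFam_of_link`    : the raw family of twistor tuples.
-/

set_option autoImplicit false
set_option linter.unusedSectionVars false

open Complex Matrix Set Filter
open scoped ContDiff Topology
open Crest.GeometryTopology.CoordMetric Crest.GeometryTopology.ChartRiem
open Crest.Agent.R260.Tw_979 Crest.Agent.R260.TwPen_389 Crest.Agent.R270.BM_360
open Crest.Agent.R260.ACM_580 Crest.Agent.R260.NNB_580 Crest.Agent.R260.BrDefs_592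
open Crest.Agent.R275.Geo Crest.Agent.R275.Core144
open Crest.Agent.R260.Ga_323 (OneForm Contact)

noncomputable section

namespace Crest.Agent.R260.Tup_45

section Link

variable {V Z : Type} [NormedAddCommGroup V] [NormedSpace ℝ V] [TopologicalSpace Z] {d : ℕ}

/-- comparison functions between the holomorphic frames (charts of `A`) and the smooth frames (charts
of `C`) of `L` -/
structure FLink (C : ACM V Z) (A : Atl d Z) (L : LB A) (lam : C.ι → C.ι → V → ℂ)
    (α : C.ι → V → V →L[ℝ] ℂ) where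
  κ : A.ι → C.ι → V → ℂ
  ne : ∀ a i, ∀ x ∈ (A.e a).source, x ∈ (C.e i).source → κ a i (C.e i x) ≠ 0
  sm : ∀ a i, ∀ x ∈ (A.e a).source, x ∈ (C.e i).source → ContDiffAt ℝ ∞ (κ a i) (C.e i x)
  db : ∀ a i, ∀ x ∈ (A.e a).source, x ∈ (C.e i).source → ∀ v,
    fderiv ℝ (κ a i) (C.e i x) v + I * fderiv ℝ (κ a i) (C.e i x) (C.J i (C.e i x) v) +
      (α i (C.e i x) v + I * α i (C.e i x) (C.J i (C.e i x) v)) * κ a i (C.e i x) = 0
  trA : ∀ a b i, ∀ x ∈ (A.e a).source, x ∈ (A.e b).source → x ∈ (C.e i).source →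
    κ b i (C.e i x) = L.g a b x * κ a i (C.e i x)
  trC : ∀ a i j, ∀ x ∈ (A.e a).source, x ∈ (C.e i).source → x ∈ (C.e j).source →
    κ a i (C.e i x) = lam i j (C.e i x) * κ a j (C.e j x)

/-- compatibility of `FLink` with the contact forms: `θ_i e_i = θ'_a e_a` -/
def FLink.Th {C : ACM V Z} {A : Atl d Z} {L : LB A} {lam : C.ι → C.ι → V → ℂ}
    {α : C.ι → V → V →L[ℝ] ℂ} (K : FLink C A L lam α) (θ : C.ι → V → V →L[ℝ] ℂ)
    (θ' : OneForm L) : Prop :=
  ∀ a i, ∀ x ∈ (A.e a).source, x ∈ (C.e i).source → ∀ u : Cn d,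
    θ i (C.e i x) (fderiv ℝ (fun z => C.e i ((A.e a).symm z)) (A.e a x) u) =
      K.κ a i (C.e i x) * θ'.app a x u

variable {C : ACM V Z} {A : Atl d Z} {L : LB A} {lam : C.ι → C.ι → V → ℂ}
  {α : C.ι → V → V →L[ℝ] ℂ} {I' : Type} [Fintype I']

open Classical in
/-- the homogeneous coordinates in the frame of the real chart `i` -/
def sec (S : MSys A L I') (K : FLink C A L lam α) (i : C.ι) (y : V) : ∀ j, S.J j → ℂ := fun j b =>
  K.κ (A.cover ((C.e i).symm y)).choose i y ^ S.β j *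
    S.pt (A.cover ((C.e i).symm y)).choose ((C.e i).symm y) j b

theorem sec_eq' (S : MSys A L I') (K : FLink C A L lam α) {i : C.ι} {a : A.ι} {y : V}
    (hy : y ∈ (C.e i).target) (ha : (C.e i).symm y ∈ (A.e a).source) (j : I') (b : S.J j) :
    sec S K i y j b = K.κ a i y ^ S.β j * S.pt a ((C.e i).symm y) j b := by
  unfold sec
  set a' := (A.cover ((C.e i).symm y)).choose with ha'
  have h1 : (C.e i).symm y ∈ (A.e a').source := (A.cover ((C.e i).symm y)).choose_spec
  have hi := (C.e i).map_target hy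
  have h2 := K.trA a' a i _ h1 ha hi
  rw [(C.e i).right_inv hy] at h2
  have h3 := S.pt_chg ⟨h1, ha⟩ j b
  rw [h3, h2, mul_pow]
  ring

theorem sec_eq (S : MSys A L I') (K : FLink C A L lam α) {i : C.ι} {a : A.ι} {x : Z}
    (ha : x ∈ (A.e a).source) (hi : x ∈ (C.e i).source) (j : I') (b : S.J j) :
    sec S K i (C.e i x) j b = K.κ a i (C.e i x) ^ S.β j * S.pt a x j b := by
  have h1 := sec_eq' S K (i := i) (a := a) ((C.e i).map_source hi)
    (by rw [(C.e i).left_inv hi]; exact ha) j b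
  rwa [(C.e i).left_inv hi] at h1

/-- near a point, in the real chart -/
theorem sec_ev (S : MSys A L I') (K : FLink C A L lam α) {i : C.ι} {a : A.ι} {x : Z}
    (ha : x ∈ (A.e a).source) (hi : x ∈ (C.e i).source) (j : I') (b : S.J j) :
    (fun y => sec S K i y j b) =ᶠ[𝓝 (C.e i x)]
      fun y => K.κ a i y ^ S.β j * S.pt a ((C.e i).symm y) j b := by
  have h1 : ovr C i (A.e a) ∈ 𝓝 (C.e i x) :=
    (isOpen_ovr i (A.e a)).mem_nhds (mem_ovr_of_source ha hi)
  filter_upwards [h1] with y hy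
  have h2 : C.e i ((C.e i).symm y) = y := (C.e i).right_inv hy.1
  have h3 := sec_eq S K hy.2 ((C.e i).map_target hy.1) j b
  rw [h2] at h3
  exact h3

theorem pt_holAt (S : MSys A L I') (a : A.ι) (j : I') (b : S.J j) :
    HolAt A a univ (fun x => S.pt a x j b) := by
  have h := (S.P j).hol a b
  exact h

/-- coordinates in a holomorphic chart, read in a real chart -/
theorem pt_real (hC : ∀ a, JCh C (A.e a)) (S : MSys A L I') {i : C.ι} {a : A.ι} {x : Z}
    (ha : x ∈ (A.e a).source) (hi : x ∈ (C.e i).source) (j : I') (b : S.J j) :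
    ContDiffAt ℝ ∞ (fun y => S.pt a ((C.e i).symm y) j b) (C.e i x) ∧
      ∀ v, fderiv ℝ (fun y => S.pt a ((C.e i).symm y) j b) (C.e i x) (C.J i (C.e i x) v) =
        I * fderiv ℝ (fun y => S.pt a ((C.e i).symm y) j b) (C.e i x) v := by
  have h0 := pt_holAt S a j b
  constructor
  · have h1 : ContDiffAt ℝ ∞ (fun z => S.pt a ((A.e a).symm z) j b) (A.e a x) := by
      refine (h0.contDiffOn isOpen_univ).contDiffAt ?_
      refine ((A.e a).isOpen_inter_preimage_symm isOpen_univ).mem_nhds ?_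
      exact ⟨(A.e a).map_source ha, mem_univ _⟩
    exact (JCh.contDiffAt_iff (f := fun x => S.pt a x j b) (hC a) ha hi (n := ⊤)).1 h1
  · exact ((holAt_iff (hC a) isOpen_univ).1 h0 i x ha hi (mem_univ _)).2

theorem sec_contDiffAt (hC : ∀ a, JCh C (A.e a)) (S : MSys A L I') (K : FLink C A L lam α)
    {i : C.ι} {x : Z} (hi : x ∈ (C.e i).source) (j : I') (b : S.J j) :
    ContDiffAt ℝ ∞ (fun y => sec S K i y j b) (C.e i x) := by
  obtain ⟨a, ha⟩ := A.cover x
  refine ContDiffAt.congr_of_eventuallyEq ?_ (sec_ev S K ha hi j b)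
  exact ((K.sm a i x ha hi).pow _).mul (pt_real hC S ha hi j b).1

/-- **the Cauchy-Riemann equation of the coordinates in the smooth frame** -/
theorem sec_db (hC : ∀ a, JCh C (A.e a)) (S : MSys A L I') (K : FLink C A L lam α)
    {i : C.ι} {x : Z} (hi : x ∈ (C.e i).source) (j : I') (b : S.J j) (v : V) :
    fderiv ℝ (fun y => sec S K i y j b) (C.e i x) v +
      I * fderiv ℝ (fun y => sec S K i y j b) (C.e i x) (C.J i (C.e i x) v) +
      (S.β j : ℂ) * (α i (C.e i x) v + I * α i (C.e i x) (C.J i (C.e i x) v)) *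
        sec S K i (C.e i x) j b = 0 := by
  obtain ⟨a, ha⟩ := A.cover x
  obtain ⟨h1, h2⟩ := pt_real hC S ha hi j b
  have hk : HasFDerivAt (K.κ a i) (fderiv ℝ (K.κ a i) (C.e i x)) (C.e i x) :=
    ((K.sm a i x ha hi).differentiableAt (by simp)).hasFDerivAt
  have hp : HasFDerivAt (fun y => S.pt a ((C.e i).symm y) j b)
      (fderiv ℝ (fun y => S.pt a ((C.e i).symm y) j b) (C.e i x)) (C.e i x) :=
    (h1.differentiableAt (by simp)).hasFDerivAt
  have hk' := hk.pow (S.β j)
  have hm := hk'.mul hp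
  have he : fderiv ℝ (fun y => sec S K i y j b) (C.e i x) = _ :=
    (hm.congr_of_eventuallyEq (sec_ev S K ha hi j b)).fderiv
  have hdb := K.db a i x ha hi v
  have hx : (C.e i).symm (C.e i x) = x := (C.e i).left_inv hi
  rw [he, sec_eq S K ha hi j b]
  have hb : S.β j = (S.β j - 1) + 1 := (Nat.succ_pred_eq_of_pos (S.pos j)).symm
  have hpow : K.κ a i (C.e i x) ^ S.β j =
      K.κ a i (C.e i x) ^ (S.β j - 1) * K.κ a i (C.e i x) := by
    conv_lhs => rw [hb]
    rw [pow_succ]
  simp only [_root_.add_apply, _root_.smul_apply, smul_eq_mul, hx, nsmul_eq_mul]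
  rw [h2 v, hpow]
  linear_combination (K.κ a i (C.e i x) ^ (S.β j - 1) * (S.β j : ℂ) * S.pt a x j b) * hdb +
    (K.κ a i (C.e i x) ^ (S.β j - 1) * K.κ a i (C.e i x) *
      fderiv ℝ (fun y => S.pt a ((C.e i).symm y) j b) (C.e i x) v) * I_sq

theorem sec_tr (S : MSys A L I') (K : FLink C A L lam α) {i j' : C.ι} {x : Z}
    (hi : x ∈ (C.e i).source) (hj : x ∈ (C.e j').source) (j : I') (b : S.J j) :
    sec S K i (C.e i x) j b = lam i j' (C.e i x) ^ S.β j * sec S K j' (C.e j' x) j b := by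
  obtain ⟨a, ha⟩ := A.cover x
  rw [sec_eq S K ha hi j b, sec_eq S K ha hj j b, K.trC a i j' x ha hi hj, mul_pow]
  ring

theorem sec_on (S : MSys A L I') (K : FLink C A L lam α) {i : C.ι} {x : Z}
    (hi : x ∈ (C.e i).source) : OnX S.E (sec S K i (C.e i x)) := by
  obtain ⟨a, ha⟩ := A.cover x
  have h1 : sec S K i (C.e i x) = fun j b => K.κ a i (C.e i x) ^ S.β j * S.pt a x j b := by
    funext j b
    exact sec_eq S K ha hi j b
  rw [h1]
  exact S.onX ha fun j => K.κ a i (C.e i x) ^ S.β j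

theorem sec_ne (S : MSys A L I') (K : FLink C A L lam α) {i : C.ι} {x : Z}
    (hi : x ∈ (C.e i).source) (j : I') : sec S K i (C.e i x) j ≠ 0 := by
  obtain ⟨a, ha⟩ := A.cover x
  intro h0
  apply S.pt_ne ha j
  funext b
  have h1 := congrFun h0 b
  rw [sec_eq S K ha hi j b] at h1
  exact (mul_eq_zero.1 h1).resolve_left (pow_ne_zero _ (K.ne a i x ha hi))

end Link

section Raw

variable {n d : ℕ} {Z : Type} [TopologicalSpace Z]
  {C : ACM (EuclideanSpace ℝ (Fin n) × ℂ) Z} {A : Atl d Z} {L : LB A}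
  {lam : C.ι → C.ι → EuclideanSpace ℝ (Fin n) × ℂ → ℂ}
  {α : C.ι → EuclideanSpace ℝ (Fin n) × ℂ → EuclideanSpace ℝ (Fin n) × ℂ →L[ℝ] ℂ}
  {I' : Type} [Fintype I']

/-- the chart of the twistor space over the open set `U` with the two stereographic coordinates -/
structure TwCh (C : ACM (EuclideanSpace ℝ (Fin n) × ℂ) Z)
    (lam : C.ι → C.ι → EuclideanSpace ℝ (Fin n) × ℂ → ℂ)
    (α : C.ι → EuclideanSpace ℝ (Fin n) × ℂ → EuclideanSpace ℝ (Fin n) × ℂ →L[ℝ] ℂ)
    (J : Fin 3 → EuclideanSpace ℝ (Fin n) → Matrix (Fin n) (Fin n) ℝ)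
    (c : EuclideanSpace ℝ (Fin n) → Fin n → Fin 3 → Fin 3 → ℝ)
    (Jo : EuclideanSpace ℝ (Fin n) → Fin 3 → (EuclideanSpace ℝ (Fin n) →L[ℝ] EuclideanSpace ℝ (Fin n)))
    (Th : EuclideanSpace ℝ (Fin n) → Fin 3 → (EuclideanSpace ℝ (Fin n) →L[ℝ] ℝ))
    (U : Set (EuclideanSpace ℝ (Fin n))) (ip im : C.ι) : Prop where
  isOpen : IsOpen U
  tp : (C.e ip).target = U ×ˢ univ
  tm : (C.e im).target = U ×ˢ univ
  tr : ∀ x ∈ U, ∀ w : ℂ, w ≠ 0 → (C.e ip).symm (x, w) = (C.e im).symm (x, w⁻¹)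
  hlam : ∀ x ∈ U, ∀ w : ℂ, w ≠ 0 → lam ip im (x, w) = -w ^ 2
  hJ : ∀ x ∈ U, ∀ w : ℂ, C.J ip (x, w) = JZ Jo Th (x, w)
  hα : ∀ x ∈ U, ∀ w : ℂ, AlSpec Th (x, w) (α ip (x, w))
  hfr : ∀ x ∈ U, FrSpec J c Jo Th x

variable {J : Fin 3 → EuclideanSpace ℝ (Fin n) → Matrix (Fin n) (Fin n) ℝ}
  {c : EuclideanSpace ℝ (Fin n) → Fin n → Fin 3 → Fin 3 → ℝ}
  {Jo : EuclideanSpace ℝ (Fin n) → Fin 3 → (EuclideanSpace ℝ (Fin n) →L[ℝ] EuclideanSpace ℝ (Fin n))}
  {Th : EuclideanSpace ℝ (Fin n) → Fin 3 → (EuclideanSpace ℝ (Fin n) →L[ℝ] ℝ)}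
  {U : Set (EuclideanSpace ℝ (Fin n))} {ip im : C.ι}

/-- the point of the twistor space with coordinates `(x, w)` -/
def TwCh.q (_ : TwCh C lam α J c Jo Th U ip im) (x : EuclideanSpace ℝ (Fin n)) (w : ℂ) : Z :=
  (C.e ip).symm (x, w)

theorem TwCh.q_mem (h : TwCh C lam α J c Jo Th U ip im) {x : EuclideanSpace ℝ (Fin n)}
    (hx : x ∈ U) (w : ℂ) : h.q x w ∈ (C.e ip).source :=
  (C.e ip).map_target (by rw [h.tp]; exact ⟨hx, mem_univ _⟩)

theorem TwCh.e_q (h : TwCh C lam α J c Jo Th U ip im) {x : EuclideanSpace ℝ (Fin n)}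
    (hx : x ∈ U) (w : ℂ) : C.e ip (h.q x w) = (x, w) :=
  (C.e ip).right_inv (by rw [h.tp]; exact ⟨hx, mem_univ _⟩)

/-- **the raw family of twistor tuples** -/
theorem rawFam_of_link (h : TwCh C lam α J c Jo Th U ip im) (hC : ∀ a, JCh C (A.e a))
    (S : MSys A L I') (K : FLink C A L lam α) :
    RawFam J c U S.E S.β (fun x w => sec S K ip (x, w)) (fun x v => sec S K im (x, v)) := by
  have hp : ∀ x ∈ U, ∀ w j b, ContDiffAt ℝ ∞ (fun y => sec S K ip y j b) (x, w) := by
    intro x hx w j b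
    have := sec_contDiffAt hC S K (h.q_mem hx w) j b
    rwa [h.e_q hx w] at this
  have hdb : ∀ x ∈ U, ∀ w j b, ∀ v, fderiv ℝ (fun y => sec S K ip y j b) (x, w) v +
      I * fderiv ℝ (fun y => sec S K ip y j b) (x, w) (JZ Jo Th (x, w) v) +
      (S.β j : ℂ) * (α ip (x, w) v + I * α ip (x, w) (JZ Jo Th (x, w) v)) *
        sec S K ip (x, w) j b = 0 := by
    intro x hx w j b v
    have := sec_db hC S K (h.q_mem hx w) j b v
    rw [h.e_q hx w, h.hJ x hx w] at this
    exact this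
  have hm : ∀ x ∈ U, ∀ v : ℂ, (C.e im).symm (x, v) ∈ (C.e im).source ∧
      C.e im ((C.e im).symm (x, v)) = (x, v) := by
    intro x hx v
    have : (x, v) ∈ (C.e im).target := by rw [h.tm]; exact ⟨hx, mem_univ _⟩
    exact ⟨(C.e im).map_target this, (C.e im).right_inv this⟩
  refine ⟨?_, ?_, ?_, ?_, ?_, ?_, ?_, ?_⟩
  · intro w j b x hx
    have h1 := hp x hx w j b
    have h2 : ContDiffAt ℝ ∞ (fun x : EuclideanSpace ℝ (Fin n) => (x, w)) x :=
      contDiffAt_id.prodMk contDiffAt_const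
    exact (ContDiffAt.comp (g := fun y => sec S K ip y j b) x h1 h2).contDiffWithinAt
  · intro x hx j b w
    have h1 := (hp x hx w j b).differentiableAt (by simp)
    exact (holw_of_dbar (z := (x, w)) (s := fun y => sec S K ip y j b) (h.hα x hx w) h1
      (hdb x hx w j b)).differentiableAt
  · intro x hx j b
    obtain ⟨h1, h2⟩ := hm x hx 0
    have h3 := (sec_contDiffAt hC S K h1 j b).continuousAt
    rw [h2] at h3
    have h4 : ContinuousAt (fun v : ℂ => (x, v)) 0 := by fun_prop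
    exact ContinuousAt.comp (g := fun y => sec S K im y j b) h3 h4
  · intro x hx w hw j b
    have h1 := h.q_mem hx w
    have h2 := h.e_q hx w
    obtain ⟨h3, h4⟩ := hm x hx w⁻¹
    have h5 : h.q x w = (C.e im).symm (x, w⁻¹) := h.tr x hx w hw
    have h6 : h.q x w ∈ (C.e im).source := by rw [h5]; exact h3
    have h7 := sec_tr S K h1 h6 j b
    rw [h2, h.hlam x hx w hw] at h7
    have h8 : C.e im (h.q x w) = (x, w⁻¹) := by rw [h5]; exact h4
    rw [h8] at h7
    exact h7
  · intro x hx w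
    have := sec_on S K (h.q_mem hx w)
    rwa [h.e_q hx w] at this
  · intro x hx w j
    have := sec_ne S K (h.q_mem hx w) j
    rwa [h.e_q hx w] at this
  · intro x hx j
    obtain ⟨h1, h2⟩ := hm x hx 0
    have := sec_ne S K h1 j
    rwa [h2] at this
  · intro x hx w j b
    exact holK_of_dbar (h.hfr x hx) (s := fun y => sec S K ip y j b) (h.hα x hx w)
      ((hp x hx w j b).differentiableAt (by simp)) (hdb x hx w j b)

end Raw

end Crest.Agent.R260.Tup_45
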