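import Crest.Agent.R260.Tw2_979
import Crest.Agent.R260.Tw4_979
import Crest.Agent.R260.Qk7_151
import Crest.Agent.R260.ACM_580
import Crest.Agent.R260.TwL1_847

-- ▼ part R260/Tw3_979
section

/-!
Row 260, leaf TW-Z (helper979), part 3: topology of the total space (T2, compact, connected) and
its stereographic charts.
-/

set_option autoImplicit false

open Complex Matrix Set Topology

noncomputable section

namespace Crest.Agent.R260.Tw_979

namespace Coc

variable {M : Type} [TopologicalSpace M] {κ : Type} (C : Coc M κ)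

/-- the total space of the bundle of spheres -/
abbrev Z : Type := C.core.TotalSpace

/-- projection -/
def pr (z : C.Z) : M := z.1

/-- fibre coordinate of `z` in the frame `i` (meaningful over `U i`) -/
def fc (i : κ) (z : C.Z) : S2 := (C.core.localTriv i z).2

lemma cont_pr : Continuous C.pr := C.core.continuous_proj



lemma mem_source {i : κ} {z : C.Z} : z ∈ (C.core.localTriv i).source ↔ C.pr z ∈ C.U i := Iff.rfl

lemma mem_target {i : κ} {y : M × S2} : y ∈ (C.core.localTriv i).target ↔ y.1 ∈ C.U i := by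
  simp only [mfld_simps]; rfl

/-- the point with frame-`i` coordinates `(p, x)` -/
def mz (i : κ) (p : M) (x : S2) : C.Z := (C.core.localTriv i).toOpenPartialHomeomorph.symm (p, x)

lemma pr_mz (i : κ) (p : M) (x : S2) : C.pr (C.mz i p x) = p := rfl

lemma fc_mz {i : κ} {p : M} (hp : p ∈ C.U i) (x : S2) : C.fc i (C.mz i p x) = x := by
  have h := (C.core.localTriv i).apply_symm_apply (x := (p, x)) (C.mem_target.2 hp)
  exact congrArg Prod.snd h

lemma mz_fc {i : κ} {z : C.Z} (hz : C.pr z ∈ C.U i) : C.mz i (C.pr z) (C.fc i z) = z :=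
  (C.core.localTriv i).toOpenPartialHomeomorph.left_inv (C.mem_source.2 hz)

/-- change of fibre coordinates -/
lemma fc_val {i j : κ} {z : C.Z} (hi : C.pr z ∈ C.U i) (hj : C.pr z ∈ C.U j) :
    (C.fc j z).1 = C.q i j (C.pr z) *ᵥ (C.fc i z).1 := by
  have hk : C.pr z ∈ C.U (C.idx (C.pr z)) := C.mem_idx _
  have e1 : (C.fc i z).1 = C.q (C.idx (C.pr z)) i (C.pr z) *ᵥ (z.2 : S2).1 :=
    act_val (C.orth _ _ _ ⟨hk, hi⟩) _
  have e2 : (C.fc j z).1 = C.q (C.idx (C.pr z)) j (C.pr z) *ᵥ (z.2 : S2).1 :=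
    act_val (C.orth _ _ _ ⟨hk, hj⟩) _
  rw [e1, e2, Matrix.mulVec_mulVec, C.comp _ _ _ _ ⟨⟨hk, hi⟩, hj⟩]

lemma cont_mz {i : κ} : ContinuousOn (fun y : M × S2 => C.mz i y.1 y.2) (C.U i ×ˢ univ) := by
  have h := (C.core.localTriv i).toOpenPartialHomeomorph.continuousOn_symm
  refine h.mono ?_
  intro y hy
  exact C.mem_target.2 hy.1

lemma cont_fc {i : κ} : ContinuousOn (C.fc i) (C.pr ⁻¹' (C.U i)) := by
  have h := (C.core.localTriv i).toOpenPartialHomeomorph.continuousOn
  exact continuous_snd.comp_continuousOn h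

instance t2Z [T2Space M] : T2Space C.Z := by
  refine ⟨fun z z' hne => ?_⟩
  by_cases hp : C.pr z = C.pr z'
  · set i := C.idx (C.pr z)
    have hi : C.pr z ∈ C.U i := C.mem_idx _
    have hi' : C.pr z' ∈ C.U i := hp ▸ hi
    have hx : C.fc i z ≠ C.fc i z' := by
      intro h
      apply hne
      rw [← C.mz_fc hi, ← C.mz_fc hi', hp, h]
    obtain ⟨u, v, hu, hv, hxu, hxv, huv⟩ := t2_separation hx
    have hopen : IsOpen (C.pr ⁻¹' (C.U i)) := (C.isOpen_U i).preimage C.cont_pr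
    refine ⟨C.pr ⁻¹' (C.U i) ∩ C.fc i ⁻¹' u, C.pr ⁻¹' (C.U i) ∩ C.fc i ⁻¹' v,
      C.cont_fc.isOpen_inter_preimage hopen hu, C.cont_fc.isOpen_inter_preimage hopen hv,
      ⟨hi, hxu⟩, ⟨hi', hxv⟩, ?_⟩
    exact (huv.preimage (C.fc i)).mono inter_subset_right inter_subset_right
  · obtain ⟨u, v, hu, hv, hxu, hxv, huv⟩ := t2_separation hp
    exact ⟨C.pr ⁻¹' u, C.pr ⁻¹' v, hu.preimage C.cont_pr, hv.preimage C.cont_pr, hxu, hxv,
      huv.preimage _⟩

lemma isCompact_pre {K : Set M} (hK : IsCompact K) {i : κ} (h : K ⊆ C.U i) :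
    IsCompact (C.pr ⁻¹' K) := by
  have h1 : IsCompact (K ×ˢ (univ : Set S2)) := hK.prod isCompact_univ
  have h2 : C.pr ⁻¹' K = (fun y : M × S2 => C.mz i y.1 y.2) '' (K ×ˢ univ) := by
    ext z
    constructor
    · intro hz
      exact ⟨(C.pr z, C.fc i z), ⟨hz, mem_univ _⟩, C.mz_fc (h hz)⟩
    · rintro ⟨y, hy, rfl⟩
      exact hy.1
  rw [h2]
  exact h1.image_of_continuousOn (C.cont_mz.mono (prod_mono h (subset_refl _)))

instance compactZ [CompactSpace M] [T2Space M] : CompactSpace C.Z := by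
  have hloc : ∀ p : M, ∃ K, IsCompact K ∧ K ∈ 𝓝 p ∧ K ⊆ C.U (C.idx p) := fun p => by
    obtain ⟨K, hK, h1, h2⟩ := exists_compact_subset (C.isOpen_U (C.idx p)) (C.mem_idx p)
    exact ⟨K, hK, mem_interior_iff_mem_nhds.1 h1, h2⟩
  choose K hK hn hs using hloc
  obtain ⟨t, ht⟩ := isCompact_univ.elim_nhds_subcover K (fun p _ => hn p)
  refine ⟨?_⟩
  have : (univ : Set C.Z) = ⋃ p ∈ t, C.pr ⁻¹' (K p) := by
    ext z
    simp only [mem_univ, mem_iUnion, mem_preimage, true_iff]
    have := ht.2 (mem_univ (C.pr z))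
    simpa using this
  rw [this]
  exact t.isCompact_biUnion fun p _ => C.isCompact_pre (hK p) (hs p)

end Coc

/-- `S2` is connected -/
instance connS2 : ConnectedSpace S2 := by
  have h : IsConnected (Metric.sphere (0 : EuclideanSpace ℝ (Fin 3)) 1) := by
    apply isConnected_sphere
    · rw [← Module.finrank_eq_rank, finrank_euclideanSpace_fin]
      norm_num
    · norm_num
  have h2 : {x : Fin 3 → ℝ | x 0 ^ 2 + x 1 ^ 2 + x 2 ^ 2 = 1} =
      (fun x : EuclideanSpace ℝ (Fin 3) => (x : Fin 3 → ℝ)) '' (Metric.sphere 0 1) := by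
    ext x
    constructor
    · intro hx
      refine ⟨WithLp.toLp 2 x, ?_, rfl⟩
      rw [mem_sphere_zero_iff_norm, EuclideanSpace.norm_eq, Fin.sum_univ_three]
      simp only [Real.norm_eq_abs, sq_abs]
      have : x 0 ^ 2 + x 1 ^ 2 + x 2 ^ 2 = 1 := hx
      rw [this]; simp
    · rintro ⟨y, hy, rfl⟩
      rw [mem_sphere_zero_iff_norm, EuclideanSpace.norm_eq, Fin.sum_univ_three] at hy
      simp only [Real.norm_eq_abs, sq_abs] at hy
      have h0 : 0 ≤ y 0 ^ 2 + y 1 ^ 2 + y 2 ^ 2 := by positivity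
      have h1 := Real.sq_sqrt h0
      rw [hy] at h1
      show y 0 ^ 2 + y 1 ^ 2 + y 2 ^ 2 = 1
      linarith
  have h3 : IsConnected {x : Fin 3 → ℝ | x 0 ^ 2 + x 1 ^ 2 + x 2 ^ 2 = 1} := by
    rw [h2]
    exact h.image _ (by fun_prop)
  exact isConnected_iff_connectedSpace.1 h3

namespace Coc

variable {M : Type} [TopologicalSpace M] {κ : Type} (C : Coc M κ)

instance connectedZ [ConnectedSpace M] : ConnectedSpace C.Z := by
  have hfib : ∀ p : M, IsConnected (C.pr ⁻¹' {p}) := fun p => by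
    have hp : p ∈ C.U (C.idx p) := C.mem_idx p
    have : C.pr ⁻¹' {p} = (fun x : S2 => C.mz (C.idx p) p x) '' univ := by
      ext z
      constructor
      · intro hz
        have hz' : C.pr z = p := hz
        exact ⟨C.fc (C.idx p) z, mem_univ _, by
          have := C.mz_fc (i := C.idx p) (z := z) (hz'.symm ▸ hp)
          rw [hz'] at this; exact this⟩
      · rintro ⟨x, -, rfl⟩; rfl
    rw [this]
    refine isConnected_univ.image _ ?_
    exact C.cont_mz.comp (f := fun x : S2 => (p, x)) (by fun_prop) (fun x _ => ⟨hp, mem_univ _⟩)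
  have hq : IsQuotientMap C.pr :=
    C.core.isOpenMap_proj.isQuotientMap C.cont_pr (fun p => ⟨C.mz (C.idx p) p
      (Classical.arbitrary _), rfl⟩)
  obtain ⟨p⟩ := (inferInstance : Nonempty M)
  have h := preimage_connectedComponent_connected hfib hq.isCoinducing p
  rw [PreconnectedSpace.connectedComponent_eq_univ, preimage_univ] at h
  exact connectedSpace_iff_univ.2 h

end Coc

end Crest.Agent.R260.Tw_979
end
end

-- ▼ part R260/Tw5_979
section

/-!
Row 260, leaf TW-Z (helper979), part 5: the frames of the quaternionic structure over the atlas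
charts (two frames per chart) and the `SO(3)`-cocycle between them.
-/

set_option autoImplicit false

open scoped Manifold ContDiff Topology
open Filter Set Complex Matrix
open Crest.GeometryTopology.CoordMetric
open Crest.GeometryTopology.ChartRiem

noncomputable section

namespace Crest.Agent.R260.Tw_979

open Crest.Agent.R260.Qk3_151 Crest.Agent.R260.Qk4_151 Crest.Agent.R260.Qk7_151

variable {n : ℕ}

local notation "𝔼" => EuclideanSpace ℝ (Fin n)

/-! ### the sign flip -/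

/-- the signs of the second frame -/
def sg (s : Bool) : Fin 3 → ℝ := if s then ![1, 1, 1] else ![-1, 1, -1]

lemma sg_sq (s : Bool) (a : Fin 3) : sg s a * sg s a = 1 := by
  cases s <;> fin_cases a <;> simp [sg]

lemma sg_12 (s : Bool) : sg s 0 * sg s 1 = sg s 2 := by cases s <;> simp [sg]

lemma covDerivEndo_csmul (g : MetricField n) (A : 𝔼 → Matrix (Fin n) (Fin n) ℝ) (c : ℝ) (x : 𝔼)
    (i : Fin n) : covDerivEndo g (fun y => c • A y) x i = c • covDerivEndo g A x i := by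
  have h : (Matrix.of fun l p => pderiv i (fun y => (c • A y) l p) x) =
      c • Matrix.of (fun l p => pderiv i (fun y => A y l p) x) := by
    ext l p
    simp only [Matrix.of_apply, Matrix.smul_apply, smul_eq_mul, pderiv]
    rw [show (fun y => c * A y l p) = c • (fun y => A y l p) from rfl, fderiv_const_smul_field]
    simp
  unfold covDerivEndo
  rw [h]
  simp only [Matrix.mul_smul, Matrix.smul_mul, smul_add, smul_sub]

/-- the flipped frame -/
def flip (s : Bool) (J : Fin 3 → 𝔼 → Matrix (Fin n) (Fin n) ℝ) :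
    Fin 3 → 𝔼 → Matrix (Fin n) (Fin n) ℝ := fun a y => sg s a • J a y

lemma qkOn_flip {g : MetricField n} {J : Fin 3 → 𝔼 → Matrix (Fin n) (Fin n) ℝ} {U : Set 𝔼}
    (h : QKOn g J U) (s : Bool) : QKOn g (flip s J) U where
  riem := h.riem
  smooth a l p := (h.smooth a l p).const_smul (sg s a)
  sq x hx a := by
    simp only [flip, Matrix.smul_mul, Matrix.mul_smul, smul_smul, sg_sq, one_smul, h.sq x hx a]
  mul x hx := by
    constructor
    · simp only [flip, Matrix.smul_mul, Matrix.mul_smul, smul_smul, (h.mul x hx).1]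
      rw [mul_comm, sg_12]
    · simp only [flip, Matrix.smul_mul, Matrix.mul_smul, smul_smul, (h.mul x hx).2, smul_neg]
      rw [sg_12]
  orth x hx a := by
    simp only [flip, Matrix.transpose_smul, Matrix.smul_mul, Matrix.mul_smul, smul_smul, sg_sq,
      one_smul, h.orth x hx a]
  par x hx i a := by
    obtain ⟨c, hc⟩ := h.par x hx i a
    refine ⟨fun b => sg s a * c b * sg s b, ?_⟩
    have e : covDerivEndo g (flip s J a) x i = sg s a • covDerivEndo g (J a) x i :=
      covDerivEndo_csmul g (J a) (sg s a) x i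
    rw [e, hc, Finset.smul_sum]
    refine Finset.sum_congr rfl fun b _ => ?_
    simp only [flip, smul_smul]
    rw [mul_assoc, sg_sq, mul_one]

/-! ### products of imaginary quaternions -/

/-- `u · J` -/
def uJ (u : Fin 3 → ℝ) (J : Fin 3 → Matrix (Fin n) (Fin n) ℝ) : Matrix (Fin n) (Fin n) ℝ :=
  ∑ a, u a • J a

lemma uJ_mul {g : MetricField n} {J : Fin 3 → 𝔼 → Matrix (Fin n) (Fin n) ℝ} {U : Set 𝔼}
    (h : QKOn g J U) {x : 𝔼} (hx : x ∈ U) (u v : Fin 3 → ℝ) :
    uJ u (fun a => J a x) * uJ v (fun a => J a x) =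
      (-(u ⬝ᵥ v)) • (1 : Matrix (Fin n) (Fin n) ℝ) + uJ (cr u v) (fun a => J a x) := by
  simp only [uJ, Fin.sum_univ_three, add_mul, mul_add, Matrix.smul_mul, Matrix.mul_smul,
    h.sq x hx, h.mul01 hx, h.mul10 hx, h.mul12 hx, h.mul21 hx, h.mul20 hx, h.mul02 hx,
    dotProduct, cr, Matrix.cons_val_zero, Matrix.cons_val_one, Matrix.cons_val]
  module

/-! ### Jacobian matrices of changes of charts -/

section manifold

variable {M : Type} [TopologicalSpace M] [ChartedSpace (EuclideanSpace ℝ (Fin n)) M]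
  [IsManifold 𝓘(ℝ, EuclideanSpace ℝ (Fin n)) ∞ M]
  {e e' e'' : OpenPartialHomeomorph M (EuclideanSpace ℝ (Fin n))}

lemma jac_comp (he : e ∈ atlas (EuclideanSpace ℝ (Fin n)) M)
    (he' : e' ∈ atlas (EuclideanSpace ℝ (Fin n)) M)
    (he'' : e'' ∈ atlas (EuclideanSpace ℝ (Fin n)) M) {p : M}
    (hp : p ∈ e.source) (hp' : p ∈ e'.source) (hp'' : p ∈ e''.source) :
    jacobianMatrix n M e' e'' p * jacobianMatrix n M e e' p = jacobianMatrix n M e e'' p := by
  apply mL_injective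
  refine LinearMap.ext fun X => ?_
  rw [mL_mul, ← jac_eq he he' ⟨hp, hp'⟩, ← jac_eq he' he'' ⟨hp', hp''⟩, ← jac_eq he he'' ⟨hp, hp''⟩]
  have h1 : DifferentiableAt ℝ (chg e e') (e p) := chg_diff he he' (mem_dom ⟨hp, hp'⟩)
  have h2 : DifferentiableAt ℝ (chg e' e'') (chg e e' (e p)) := by
    rw [chg_apply hp]; exact chg_diff he' he'' (mem_dom ⟨hp', hp''⟩)
  have h3 : (chg e' e'' ∘ chg e e') =ᶠ[𝓝 (e p)] chg e e'' := by
    filter_upwards [(isOpen_dom e e').mem_nhds (mem_dom ⟨hp, hp'⟩)] with y hy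
    show e'' (e'.symm (e' (e.symm y))) = e'' (e.symm y)
    rw [e'.left_inv hy.2]
  have h4 := fderiv_comp (x := e p) h2 h1
  rw [h3.fderiv_eq, chg_apply hp] at h4
  rw [h4]
  rfl

lemma jac_self (he : e ∈ atlas (EuclideanSpace ℝ (Fin n)) M) {p : M} (hp : p ∈ e.source) :
    jacobianMatrix n M e e p = 1 := by
  apply mL_injective
  refine LinearMap.ext fun X => ?_
  rw [mL_one, ← jac_eq he he ⟨hp, hp⟩]
  have h3 : chg e e =ᶠ[𝓝 (e p)] id := by
    filter_upwards [(isOpen_dom e e).mem_nhds (mem_dom ⟨hp, hp⟩)] with y hy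
    exact e.right_inv hy.1
  rw [h3.fderiv_eq, fderiv_id]
  rfl

lemma jac_inv (he : e ∈ atlas (EuclideanSpace ℝ (Fin n)) M)
    (he' : e' ∈ atlas (EuclideanSpace ℝ (Fin n)) M) {p : M}
    (hp : p ∈ e.source) (hp' : p ∈ e'.source) :
    jacobianMatrix n M e' e p * jacobianMatrix n M e e' p = 1 := by
  rw [jac_comp he he' he hp hp' hp, jac_self he hp]

/-! ### the cocycle -/

/-- index set of the frames: an atlas chart and a sign -/
structure Idx (n : ℕ) (M : Type) [TopologicalSpace M]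
    [ChartedSpace (EuclideanSpace ℝ (Fin n)) M] : Type where
  /-- the chart -/
  e : OpenPartialHomeomorph M (EuclideanSpace ℝ (Fin n))
  he : e ∈ atlas (EuclideanSpace ℝ (Fin n)) M
  /-- the sign: `true` = frame `Q.J e`, `false` = frame `(-J 0, J 1, -J 2)` -/
  s : Bool

variable {G : ChartMetric n M} (Q : QuaternionicStructure n M G)

/-- the frame with index `k` -/
def fr (k : Idx n M) : Fin 3 → EuclideanSpace ℝ (Fin n) → Matrix (Fin n) (Fin n) ℝ :=
  flip k.s (Q.J k.e)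

omit [IsManifold 𝓘(ℝ, EuclideanSpace ℝ (Fin n)) ∞ M] in
lemma qk (k : Idx n M) : QKOn (G.g k.e) (fr Q k) k.e.target := qkOn_flip (qkOn G Q k.he) k.s

/-- the transition matrix: `P (J_a) P⁻¹ = Σ_b q_ba J'_b` -/
def qm (k k' : Idx n M) (p : M) : Matrix (Fin 3) (Fin 3) ℝ :=
  Matrix.of fun b a => -(1 / (n : ℝ)) * (jacobianMatrix n M k.e k'.e p * fr Q k a (k.e p) *
    jacobianMatrix n M k'.e k.e p * fr Q k' b (k'.e p)).trace

lemma qm_unique (hn : n ≠ 0) {k k' : Idx n M} {p : M} (hp : p ∈ k.e.source) (hp' : p ∈ k'.e.source)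
    {a : Fin 3} {c : Fin 3 → ℝ} (h : jacobianMatrix n M k.e k'.e p * fr Q k a (k.e p) =
      (∑ b, c b • fr Q k' b (k'.e p)) * jacobianMatrix n M k.e k'.e p) (b : Fin 3) :
    qm Q k k' p b a = c b := by
  have hn' : (n : ℝ) ≠ 0 := Nat.cast_ne_zero.2 hn
  simp only [qm, Matrix.of_apply]
  rw [h, Matrix.mul_assoc _ (jacobianMatrix n M k.e k'.e p),
    jac_inv k'.he k.he hp' hp, Matrix.mul_one, (qk Q k').trace_comb (k'.e.map_source hp')]
  field_simp

lemma qm_spec (hn : n ≠ 0) {k k' : Idx n M} {p : M} (hp : p ∈ k.e.source) (hp' : p ∈ k'.e.source)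
    (a : Fin 3) : jacobianMatrix n M k.e k'.e p * fr Q k a (k.e p) =
      (∑ b, qm Q k k' p b a • fr Q k' b (k'.e p)) * jacobianMatrix n M k.e k'.e p := by
  obtain ⟨c, hc⟩ := Q.compat k.e k.he k'.e k'.he p ⟨hp, hp'⟩ a
  have h : jacobianMatrix n M k.e k'.e p * fr Q k a (k.e p) =
      (∑ b, (sg k.s a * c b * sg k'.s b) • fr Q k' b (k'.e p)) * jacobianMatrix n M k.e k'.e p := by
    simp only [fr, flip]
    rw [Matrix.mul_smul, hc, ← Matrix.smul_mul, Finset.smul_sum]
    congr 1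
    refine Finset.sum_congr rfl fun b _ => ?_
    rw [smul_smul, smul_smul]
    congr 1
    rw [mul_assoc (sg k.s a * c b), sg_sq, mul_one]
  have hq : ∀ b, qm Q k k' p b a = sg k.s a * c b * sg k'.s b := qm_unique Q hn hp hp' h
  simp only [hq]
  exact h

lemma qm_uJ (hn : n ≠ 0) {k k' : Idx n M} {p : M} (hp : p ∈ k.e.source) (hp' : p ∈ k'.e.source)
    (u : Fin 3 → ℝ) : jacobianMatrix n M k.e k'.e p * uJ u (fun a => fr Q k a (k.e p)) =
      uJ (qm Q k k' p *ᵥ u) (fun a => fr Q k' a (k'.e p)) * jacobianMatrix n M k.e k'.e p := by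
  simp only [uJ, Finset.mul_sum, Matrix.mul_smul, qm_spec Q hn hp hp', Finset.sum_mul,
    Finset.smul_sum, Matrix.mulVec, dotProduct, Finset.sum_smul, Matrix.smul_mul, smul_smul]
  rw [Finset.sum_comm]
  refine Finset.sum_congr rfl fun b _ => Finset.sum_congr rfl fun a _ => ?_
  rw [mul_comm]

lemma qm_unique' (hn : n ≠ 0) {k k' : Idx n M} {p : M} (hp : p ∈ k.e.source)
    (hp' : p ∈ k'.e.source) {q : Matrix (Fin 3) (Fin 3) ℝ}
    (h : ∀ u : Fin 3 → ℝ, jacobianMatrix n M k.e k'.e p * uJ u (fun a => fr Q k a (k.e p)) =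
      uJ (q *ᵥ u) (fun a => fr Q k' a (k'.e p)) * jacobianMatrix n M k.e k'.e p) :
    qm Q k k' p = q := by
  ext b a
  have h1 := h (Pi.single a 1)
  have h2 : uJ (Pi.single a 1) (fun a => fr Q k a (k.e p)) = fr Q k a (k.e p) := by
    simp only [uJ]
    rw [Finset.sum_eq_single a]
    · simp
    · intro c _ hc; simp [hc]
    · simp
  rw [h2] at h1
  have h3 : q *ᵥ (Pi.single a 1) = fun b => q b a := by
    funext b; simp
  rw [h3] at h1
  exact qm_unique Q hn hp hp' h1 b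

lemma uJ_inj {g : MetricField n} {J : Fin 3 → 𝔼 → Matrix (Fin n) (Fin n) ℝ} {U : Set 𝔼}
    (h : QKOn g J U) {x : 𝔼} (hx : x ∈ U) (hn : n ≠ 0) {s t : ℝ} {u v : Fin 3 → ℝ}
    (e : s • (1 : Matrix (Fin n) (Fin n) ℝ) + uJ u (fun a => J a x) =
      t • (1 : Matrix (Fin n) (Fin n) ℝ) + uJ v (fun a => J a x)) : s = t ∧ u = v := by
  have hn' : (n : ℝ) ≠ 0 := Nat.cast_ne_zero.2 hn
  have ht : ∀ u : Fin 3 → ℝ, (uJ u (fun a => J a x)).trace = 0 := by
    intro u
    simp only [uJ, Matrix.trace_sum, Matrix.trace_smul, h.trace_J hx, smul_zero,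
      Finset.sum_const_zero]
  have h1 := congrArg Matrix.trace e
  rw [Matrix.trace_add, Matrix.trace_add, ht, ht, Matrix.trace_smul, Matrix.trace_smul,
    Matrix.trace_one, Fintype.card_fin, add_zero, add_zero, smul_eq_mul, smul_eq_mul] at h1
  have hst : s = t := mul_right_cancel₀ hn' h1
  refine ⟨hst, ?_⟩
  rw [hst] at e
  exact h.comb_inj hx hn (add_left_cancel e)

theorem qm_so (hn : n ≠ 0) {k k' : Idx n M} {p : M} (hp : p ∈ k.e.source)
    (hp' : p ∈ k'.e.source) : SO (qm Q k k' p) := by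
  have key : ∀ u v : Fin 3 → ℝ, -(u ⬝ᵥ v) = -((qm Q k k' p *ᵥ u) ⬝ᵥ (qm Q k k' p *ᵥ v)) ∧
      qm Q k k' p *ᵥ cr u v = cr (qm Q k k' p *ᵥ u) (qm Q k k' p *ᵥ v) := by
    intro u v
    refine uJ_inj (qk Q k') (k'.e.map_source hp') hn ?_
    have h1 : jacobianMatrix n M k.e k'.e p * (uJ u (fun a => fr Q k a (k.e p)) *
        uJ v (fun a => fr Q k a (k.e p))) = (uJ (qm Q k k' p *ᵥ u) (fun a => fr Q k' a (k'.e p)) *
        uJ (qm Q k k' p *ᵥ v) (fun a => fr Q k' a (k'.e p))) * jacobianMatrix n M k.e k'.e p := by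
      rw [← Matrix.mul_assoc, qm_uJ Q hn hp hp', Matrix.mul_assoc, qm_uJ Q hn hp hp',
        Matrix.mul_assoc]
    rw [uJ_mul (qk Q k) (k.e.map_source hp), uJ_mul (qk Q k') (k'.e.map_source hp'),
      Matrix.mul_add, qm_uJ Q hn hp hp', Matrix.mul_smul, Matrix.mul_one] at h1
    have h2 := congrArg (fun A => A * jacobianMatrix n M k'.e k.e p) h1
    simp only [Matrix.add_mul, Matrix.smul_mul, Matrix.mul_assoc, jac_inv k'.he k.he hp' hp,
      Matrix.mul_one, Matrix.one_mul] at h2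
    exact h2
  refine ⟨?_, fun u v => (key u v).2.symm⟩
  ext a b
  have h1 := neg_injective (key (Pi.single a 1) (Pi.single b 1)).1
  have h2 : ∀ a, qm Q k k' p *ᵥ (Pi.single a 1) = fun b => qm Q k k' p b a := by
    intro a; funext b; simp
  rw [h2, h2] at h1
  rw [Matrix.mul_apply]
  simp only [Matrix.transpose_apply]
  rw [show (∑ j, qm Q k k' p j a * qm Q k k' p j b) =
    (fun c => qm Q k k' p c a) ⬝ᵥ (fun c => qm Q k k' p c b) from rfl, ← h1]
  simp [Matrix.one_apply, Pi.single_apply, eq_comm]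

theorem qm_self (hn : n ≠ 0) {k : Idx n M} {p : M} (hp : p ∈ k.e.source) : qm Q k k p = 1 := by
  refine qm_unique' Q hn hp hp fun u => ?_
  rw [jac_self k.he hp, Matrix.one_mul, Matrix.mul_one, Matrix.one_mulVec]

theorem qm_comp (hn : n ≠ 0) {i j k : Idx n M} {p : M} (hi : p ∈ i.e.source)
    (hj : p ∈ j.e.source) (hk : p ∈ k.e.source) : qm Q j k p * qm Q i j p = qm Q i k p := by
  symm
  refine qm_unique' Q hn hi hk fun u => ?_
  rw [← jac_comp i.he j.he k.he hi hj hk, Matrix.mul_assoc, qm_uJ Q hn hi hj,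
    ← Matrix.mul_assoc, qm_uJ Q hn hj hk, Matrix.mul_assoc, Matrix.mulVec_mulVec]

/-! ### smoothness of the transition matrices in the charts -/

lemma jac_chg (he : e ∈ atlas (EuclideanSpace ℝ (Fin n)) M)
    (he' : e' ∈ atlas (EuclideanSpace ℝ (Fin n)) M) {y : 𝔼} (hy : y ∈ dom e e') (l p : Fin n) :
    jacobianMatrix n M e e' (e.symm y) l p = (fderiv ℝ (chg e e') y (EuclideanSpace.single p 1)) l := by
  have h3 := jac_eq he he' ⟨e.map_target hy.1, hy.2⟩ (EuclideanSpace.single p 1)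
  rw [e.right_inv hy.1] at h3
  rw [h3, mL_single]

lemma jac_chg' (he : e ∈ atlas (EuclideanSpace ℝ (Fin n)) M)
    (he' : e' ∈ atlas (EuclideanSpace ℝ (Fin n)) M) {y : 𝔼} (hy : y ∈ dom e e') (l p : Fin n) :
    jacobianMatrix n M e' e (e.symm y) l p =
      (fderiv ℝ (chg e' e) (chg e e' y) (EuclideanSpace.single p 1)) l := by
  have h1 := jac_chg he' he (chg_mem hy) l p
  have h2 : e'.symm (chg e e' y) = e.symm y := e'.left_inv hy.2
  rw [h2] at h1
  exact h1

lemma smooth_fderiv_chg (he : e ∈ atlas (EuclideanSpace ℝ (Fin n)) M)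
    (he' : e' ∈ atlas (EuclideanSpace ℝ (Fin n)) M) (l p : Fin n) :
    ContDiffOn ℝ ∞ (fun y => (fderiv ℝ (chg e e') y (EuclideanSpace.single p 1)) l) (dom e e') := by
  have h1 : ContDiffOn ℝ ∞ (fun y => fderiv ℝ (chg e e') y (EuclideanSpace.single p (1:ℝ)))
      (dom e e') :=
    ((chg_smooth he he').fderiv_of_isOpen (isOpen_dom e e') (by norm_num)).clm_apply
      contDiffOn_const
  exact (EuclideanSpace.proj l : EuclideanSpace ℝ (Fin n) →L[ℝ] ℝ).contDiff.comp_contDiffOn h1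

theorem qm_smooth (i j : Idx n M) (b a : Fin 3) :
    ContDiffOn ℝ ∞ (fun y => qm Q i j (i.e.symm y) b a) (dom i.e j.e) := by
  simp only [qm, Matrix.of_apply, Matrix.trace, Matrix.diag_apply, Matrix.mul_apply]
  refine contDiffOn_const.mul (ContDiffOn.sum fun l _ => ContDiffOn.sum fun r _ => ?_)
  refine ContDiffOn.mul (ContDiffOn.sum fun s _ => ?_) ?_
  · refine ContDiffOn.mul (ContDiffOn.sum fun t _ => ?_) ?_
    · refine ContDiffOn.mul ?_ ?_
      · exact (smooth_fderiv_chg i.he j.he l t).congr fun y hy => jac_chg i.he j.he hy l t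
      · refine (((qk Q i).smooth a t s).mono fun y hy => hy.1).congr fun y hy => ?_
        rw [i.e.right_inv hy.1]
    · refine ((smooth_fderiv_chg j.he i.he s r).comp (chg_smooth i.he j.he)
        fun y hy => chg_mem hy).congr fun y hy => ?_
      exact jac_chg' i.he j.he hy s r
  · exact ((qk Q j).smooth b r l).comp (chg_smooth i.he j.he) fun y hy => (chg_mem hy).1

theorem qm_cont (i j : Idx n M) (b a : Fin 3) :
    ContinuousOn (fun p => qm Q i j p b a) (i.e.source ∩ j.e.source) := by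
  have h := (qm_smooth Q i j b a).continuousOn
  have h2 : ContinuousOn (fun p => qm Q i j (i.e.symm (i.e p)) b a) (i.e.source ∩ j.e.source) :=
    h.comp (i.e.continuousOn.mono inter_subset_left) fun p hp => mem_dom hp
  exact h2.congr fun p hp => by simp only [i.e.left_inv hp.1]

/-- **the cocycle of the bundle of spheres** -/
def coc (hn : n ≠ 0) : Coc M (Idx n M) where
  U k := k.e.source
  isOpen_U k := k.e.open_source
  idx p := ⟨chartAt (EuclideanSpace ℝ (Fin n)) p, chart_mem_atlas _ p, true⟩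
  mem_idx p := mem_chart_source _ p
  q i j p := qm Q i j p
  orth _ _ _ hp := (qm_so Q hn hp.1 hp.2).orth
  self _ _ hp := qm_self Q hn hp
  comp _ _ _ _ hp := qm_comp Q hn hp.1.1 hp.1.2 hp.2
  cont i j a b := qm_cont Q i j a b

end manifold

end Crest.Agent.R260.Tw_979
end
end

-- ▼ part R260/Qk8_151
section

/-!
# Row 260, QK-COC file 1 (helper151): change of frame of a quaternionic structure

`Pair g g' J J' φ V U'` : local quaternionic data `(g, J)` on `V`, `(g', J')` on `U'`, `φ : V → U'`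
a local diffeomorphism pulling back the metric and the span.  With `P = jm φ y` the Jacobian matrix:
* `qm .. y b a` : the `SO(3)` matrix, `P * J a y = (Σ_b qm y b a • J' b (φ y)) * P` (`qm_spec`),
  unique (`qm_unique`), smooth (`qm_smooth`), orthogonal (`qm_orth`), `qm_cr`;
* `cf_trans` : `Σ_b c_ab(i) q_db = ∂_i q_da + Σ_b q_ba c'_bd(φ_* ∂_i)`.
-/

set_option autoImplicit false
set_option linter.unusedSimpArgs false

open scoped Manifold ContDiff Topology
open Filter Set
open Crest.GeometryTopology.CoordMetric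
open Crest.GeometryTopology.ChartRiem
open Crest.Agent.R202.Tens Crest.Agent.R247.Bo84
open Crest.Agent.R249.Bia1_104 Crest.Agent.R249.Bia2_104 Crest.Agent.R249.Bia3_104

noncomputable section

namespace Crest.Agent.R260.Qk8_151

open Crest.Agent.R260.Qk3_151 Crest.Agent.R260.Qk4_151 Crest.Agent.R260.Qk5_151
open Crest.Agent.R260.Qk6_151 Crest.Agent.R260.Qk7_151

variable {n : ℕ}

local notation "𝔼" => EuclideanSpace ℝ (Fin n)

/-! ### smooth matrix fields -/

/-- entrywise smoothness on a set -/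
def SmM (A : EuclideanSpace ℝ (Fin n) → Matrix (Fin n) (Fin n) ℝ)
    (V : Set (EuclideanSpace ℝ (Fin n))) : Prop := ∀ l p, ContDiffOn ℝ ∞ (fun y => A y l p) V

lemma SmM.mul {A B : 𝔼 → Matrix (Fin n) (Fin n) ℝ} {V : Set 𝔼} (hA : SmM A V) (hB : SmM B V) :
    SmM (fun y => A y * B y) V := fun l p => by
  simp only [Matrix.mul_apply]
  exact ContDiffOn.sum fun k _ => (hA l k).mul (hB k p)

lemma SmM.transpose {A : 𝔼 → Matrix (Fin n) (Fin n) ℝ} {V : Set 𝔼} (hA : SmM A V) :
    SmM (fun y => (A y).transpose) V := fun l p => hA p l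

lemma SmM.trace {A : 𝔼 → Matrix (Fin n) (Fin n) ℝ} {V : Set 𝔼} (hA : SmM A V) :
    ContDiffOn ℝ ∞ (fun y => (A y).trace) V := by
  simp only [Matrix.trace, Matrix.diag_apply]
  exact ContDiffOn.sum fun k _ => hA k k

lemma SmM.comp {A : 𝔼 → Matrix (Fin n) (Fin n) ℝ} {V W : Set 𝔼} {φ : 𝔼 → 𝔼} (hA : SmM A W)
    (hφ : ContDiffOn ℝ ∞ φ V) (hm : ∀ y ∈ V, φ y ∈ W) : SmM (fun y => A (φ y)) V :=
  fun l p => (hA l p).comp hφ hm

lemma SmM.dm {A : 𝔼 → Matrix (Fin n) (Fin n) ℝ} {V : Set 𝔼} (hA : SmM A V) (hV : IsOpen V)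
    {y : 𝔼} (hy : y ∈ V) : DM A y := fun l p =>
  ((hA l p).contDiffAt (hV.mem_nhds hy)).differentiableAt (by norm_num)

/-- the Jacobian matrix of a map -/
def jm (φ : EuclideanSpace ℝ (Fin n) → EuclideanSpace ℝ (Fin n)) (y : EuclideanSpace ℝ (Fin n)) :
    Matrix (Fin n) (Fin n) ℝ := Matrix.of fun a b => pderiv b (fun z => φ z a) y


lemma jm_eq {φ : 𝔼 → 𝔼} {y : 𝔼} (hφ : DifferentiableAt ℝ φ y) (X : 𝔼) :
    fderiv ℝ φ y X = mL (jm φ y) X := by
  conv_lhs => rw [eq_sum_single X]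
  conv_rhs => rw [eq_sum_single X]
  rw [map_sum, map_sum]
  refine Finset.sum_congr rfl fun b _ => ?_
  rw [map_smul, map_smul]
  congr 1
  ext a
  rw [mL_single, fderiv_coord hφ]
  rfl

lemma jm_coord {φ : 𝔼 → 𝔼} {y : 𝔼} (hφ : DifferentiableAt ℝ φ y) (a b : Fin n) :
    (fderiv ℝ φ y (EuclideanSpace.single b 1)) a = jm φ y a b := by
  rw [jm_eq hφ, mL_single]




lemma jm_smooth {φ : 𝔼 → 𝔼} {V : Set 𝔼} (hV : IsOpen V) (hφ : ContDiffOn ℝ ∞ φ V) :
    SmM (jm φ) V := fun a b =>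
  contDiffOn_pderiv hV ((EuclideanSpace.proj a : 𝔼 →L[ℝ] ℝ).contDiff.comp_contDiffOn hφ) b

/-- chain rule for the entries of a matrix field. -/
lemma pd_comp {A : 𝔼 → Matrix (Fin n) (Fin n) ℝ} {φ : 𝔼 → 𝔼} {y : 𝔼} (hA : DM A (φ y))
    (hφ : DifferentiableAt ℝ φ y) (i : Fin n) :
    pd i (fun z => A (φ z)) y = ∑ k, jm φ y k i • pd k A (φ y) := by
  ext l p
  rw [pd_apply, Matrix.sum_apply]
  have h1 : pderiv i (fun z => A (φ z) l p) y =
      fderiv ℝ (fun w => A w l p) (φ y) (fderiv ℝ φ y (EuclideanSpace.single i 1)) := by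
    rw [pderiv, fderiv_fun_comp y (hA l p) hφ]
    rfl
  rw [h1, fderiv_eq_sum]
  refine Finset.sum_congr rfl fun k _ => ?_
  rw [jm_coord hφ]
  rfl

/-! ### pairs of local quaternionic data -/

/-- local quaternionic data related by a change of coordinates -/
structure Pair (g g' : MetricField n)
    (J J' : Fin 3 → EuclideanSpace ℝ (Fin n) → Matrix (Fin n) (Fin n) ℝ)
    (φ : EuclideanSpace ℝ (Fin n) → EuclideanSpace ℝ (Fin n))
    (V U' : Set (EuclideanSpace ℝ (Fin n))) : Prop where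
  pull : Pull g g' φ V U'
  qk : QKOn g J V
  qk' : QKOn g' J' U'
  span : ∀ y ∈ V, ∀ a : Fin 3, ∃ q : Fin 3 → ℝ,
    jm φ y * J a y = (∑ b, q b • J' b (φ y)) * jm φ y

/-- the inverse Jacobian `g⁻¹ Pᵀ g'(φ)` -/
def jinv (g g' : MetricField n) (φ : EuclideanSpace ℝ (Fin n) → EuclideanSpace ℝ (Fin n))
    (y : EuclideanSpace ℝ (Fin n)) : Matrix (Fin n) (Fin n) ℝ :=
  inverseField g y * ((jm φ y).transpose * g' (φ y))

/-- the change of frame: column `a` = coordinates of `J a` in the frame `J'`. -/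
def qm (g g' : MetricField n) (J J' : Fin 3 → EuclideanSpace ℝ (Fin n) → Matrix (Fin n) (Fin n) ℝ)
    (φ : EuclideanSpace ℝ (Fin n) → EuclideanSpace ℝ (Fin n)) (y : EuclideanSpace ℝ (Fin n)) :
    Matrix (Fin 3) (Fin 3) ℝ :=
  Matrix.of fun b a => -(1 / (n : ℝ)) * (jm φ y * J a y * jinv g g' φ y * J' b (φ y)).trace

lemma qm_apply (g g' : MetricField n) (J J' : Fin 3 → 𝔼 → Matrix (Fin n) (Fin n) ℝ)
    (φ : 𝔼 → 𝔼) (y : 𝔼) (b a : Fin 3) : qm g g' J J' φ y b a =
      -(1 / (n : ℝ)) * (jm φ y * J a y * jinv g g' φ y * J' b (φ y)).trace := rfl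



namespace Pair

variable {g g' : MetricField n} {J J' : Fin 3 → EuclideanSpace ℝ (Fin n) → Matrix (Fin n) (Fin n) ℝ}
  {φ : EuclideanSpace ℝ (Fin n) → EuclideanSpace ℝ (Fin n)}
  {V U' : Set (EuclideanSpace ℝ (Fin n))} {y : EuclideanSpace ℝ (Fin n)}

lemma isOpen (h : Pair g g' J J' φ V U') : IsOpen V := h.pull.isOpen

lemma diff (h : Pair g g' J J' φ V U') (hy : y ∈ V) : DifferentiableAt ℝ φ y :=
  (h.pull.contDiffAt hy).differentiableAt (by norm_num)

lemma g_eq (h : Pair g g' J J' φ V U') (hy : y ∈ V) :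
    g y = (jm φ y).transpose * g' (φ y) * jm φ y := by
  ext i j
  rw [h.pull.pull y hy i j, Matrix.mul_apply]
  have : ∀ b, ((jm φ y).transpose * g' (φ y)) i b * jm φ y b j = ∑ a, g' (φ y) a b *
      (fderiv ℝ φ y (EuclideanSpace.single i 1)) a *
      (fderiv ℝ φ y (EuclideanSpace.single j 1)) b := by
    intro b
    rw [Matrix.mul_apply, Finset.sum_mul]
    refine Finset.sum_congr rfl fun a _ => ?_
    rw [Matrix.transpose_apply, jm_coord (h.diff hy), jm_coord (h.diff hy)]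
    ring
  simp only [this]
  rw [Finset.sum_comm]

lemma jinv_mul (h : Pair g g' J J' φ V U') (hy : y ∈ V) : jinv g g' φ y * jm φ y = 1 := by
  rw [jinv, Matrix.mul_assoc, ← h.g_eq hy]
  exact Matrix.nonsing_inv_mul (g y) (det_pos h.qk.riem hy).ne'.isUnit

lemma mul_jinv (h : Pair g g' J J' φ V U') (hy : y ∈ V) : jm φ y * jinv g g' φ y = 1 :=
  mul_eq_one_comm.1 (h.jinv_mul hy)

lemma conj_eq (h : Pair g g' J J' φ V U') (hy : y ∈ V) {A B : Matrix (Fin n) (Fin n) ℝ}
    (e : jm φ y * A = B * jm φ y) : jm φ y * A * jinv g g' φ y = B := by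
  rw [e, Matrix.mul_assoc, h.mul_jinv hy, Matrix.mul_one]


/-- uniqueness of the change of frame -/
theorem qm_unique (h : Pair g g' J J' φ V U') (hy : y ∈ V) (hn : n ≠ 0) {a : Fin 3}
    {r : Fin 3 → ℝ} (e : jm φ y * J a y = (∑ b, r b • J' b (φ y)) * jm φ y) (b : Fin 3) :
    qm g g' J J' φ y b a = r b := by
  have hn' : (n : ℝ) ≠ 0 := Nat.cast_ne_zero.2 hn
  rw [qm_apply, h.conj_eq hy e, h.qk'.trace_comb (h.pull.maps y hy)]
  field_simp

theorem qm_spec (h : Pair g g' J J' φ V U') (hy : y ∈ V) (hn : n ≠ 0) (a : Fin 3) :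
    jm φ y * J a y = (∑ b, qm g g' J J' φ y b a • J' b (φ y)) * jm φ y := by
  obtain ⟨r, hr⟩ := h.span y hy a
  have : ∀ b, qm g g' J J' φ y b a = r b := fun b => h.qm_unique hy hn hr b
  simp only [this]
  exact hr

theorem qm_smooth (h : Pair g g' J J' φ V U') (b a : Fin 3) :
    ContDiffOn ℝ ∞ (fun y => qm g g' J J' φ y b a) V := by
  have h1 : SmM (jm φ) V := jm_smooth h.isOpen h.pull.smooth
  have h2 : SmM (fun y => g' (φ y)) V := SmM.comp (fun l p => h.pull.riem.contDiffOn l p)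
    h.pull.smooth h.pull.maps
  have h3 : SmM (fun y => J' b (φ y)) V := SmM.comp (fun l p => h.qk'.smooth b l p)
    h.pull.smooth h.pull.maps
  have h4 : SmM (fun y => inverseField g y) V := fun l p => contDiffOn_inv_entry h.qk.riem l p
  have h5 : SmM (J a) V := fun l p => h.qk.smooth a l p
  have h6 : SmM (fun y => jm φ y * J a y * jinv g g' φ y * J' b (φ y)) V :=
    ((h1.mul h5).mul (h4.mul (h1.transpose.mul h2))).mul h3
  exact contDiffOn_const.mul h6.trace

lemma qm_diff (h : Pair g g' J J' φ V U') (hy : y ∈ V) (b a : Fin 3) :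
    DifferentiableAt ℝ (fun y => qm g g' J J' φ y b a) y :=
  ((h.qm_smooth b a).contDiffAt (h.isOpen.mem_nhds hy)).differentiableAt (by norm_num)





/-- transformation of the Christoffel matrices: `P Γ_i = (Σ_k P_ki Γ'_k) P + ∂_i P`. -/
lemma gam_trans (h : Pair g g' J J' φ V U') (hy : y ∈ V) (i : Fin n) :
    jm φ y * christoffelMatrix g y i =
      (∑ k, jm φ y k i • christoffelMatrix g' (φ y) k) * jm φ y + pd i (jm φ) y := by
  have hd := h.diff hy
  have hdd : DifferentiableAt ℝ (fderiv ℝ φ) y :=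
    ((h.pull.contDiffAt hy).fderiv_right (m := 1) (by norm_cast)).differentiableAt (by norm_num)
  have hG : ∀ (g : MetricField n) (x Y : 𝔼) (k : Fin n), Gam g x (EuclideanSpace.single k 1) Y =
      mL (christoffelMatrix g x k) Y := by
    intro g x Y k
    ext l
    rw [Gam_single_left]
    rfl
  have hpd : ∀ p, mL (pd i (jm φ) y) (EuclideanSpace.single p 1) =
      fderiv ℝ (fderiv ℝ φ) y (EuclideanSpace.single i 1) (EuclideanSpace.single p 1) := by
    intro p
    ext l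
    rw [mL_single, pd_apply]
    have e1 : (fun z => jm φ z l p) =ᶠ[𝓝 y] fun z => fderiv ℝ φ z (EuclideanSpace.single p 1) l := by
      filter_upwards [h.isOpen.mem_nhds hy] with z hz
      rw [jm_coord (h.diff hz)]
    rw [pderiv_congr e1, pderiv, ← fderiv_coord (hdd.clm_apply (differentiableAt_const _)),
      fderiv_clm_apply hdd (differentiableAt_const _)]
    simp
  refine mL_injective (LinearMap.ext fun Y => ?_)
  have h1 := h.pull.gam_eq hy (EuclideanSpace.single i 1) Y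
  have e1 : fderiv ℝ φ y (EuclideanSpace.single i 1) =
      ∑ k, jm φ y k i • EuclideanSpace.single k (1:ℝ) := by
    conv_lhs => rw [eq_sum_single (fderiv ℝ φ y (EuclideanSpace.single i 1))]
    exact Finset.sum_congr rfl fun k _ => by rw [jm_coord hd]
  have e2 : fderiv ℝ (fderiv ℝ φ) y (EuclideanSpace.single i 1) Y = mL (pd i (jm φ) y) Y := by
    conv_lhs => rw [eq_sum_single Y]
    conv_rhs => rw [eq_sum_single Y]
    rw [map_sum, map_sum]
    exact Finset.sum_congr rfl fun p _ => by rw [map_smul, map_smul, hpd]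
  rw [hG, jm_eq hd, ← mL_mul] at h1
  rw [h1, mL_add, LinearMap.add_apply, mL_mul, mL_sum, LinearMap.sum_apply, ← e2, e1, map_sum,
    sum_apply, jm_eq hd Y]
  congr 1
  refine Finset.sum_congr rfl fun k _ => ?_
  rw [map_smul, mL_smul, smul_apply, LinearMap.smul_apply, hG]

/-- **transformation of the connection coefficients** -/
theorem cf_trans (h : Pair g g' J J' φ V U') (hy : y ∈ V) (hn : n ≠ 0) (i : Fin n) (a d : Fin 3) :
    ∑ b, cf g J y i a b * qm g g' J J' φ y d b =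
      pderiv i (fun z => qm g g' J J' φ z d a) y +
        ∑ b, qm g g' J J' φ y b a * ∑ k, jm φ y k i * cf g' J' (φ y) k b d := by
  set q := qm g g' J J' φ with hq
  have hφ := h.pull.maps y hy
  have hd := h.diff hy
  have dP : DM (jm φ) y := (jm_smooth h.isOpen h.pull.smooth).dm h.isOpen hy
  have dJ : DM (J a) y := h.qk.DM_J hy a
  have dJ' : ∀ b, DM (fun z => J' b (φ z)) y := fun b =>
    (SmM.comp (fun l p => h.qk'.smooth b l p) h.pull.smooth h.pull.maps).dm h.isOpen hy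
  have dq : ∀ b, DifferentiableAt ℝ (fun z => q z b a) y := fun b => h.qm_diff hy b a
  have dA : DM (fun z => ∑ b, q z b a • J' b (φ z)) y := by
    intro l p
    have e : (fun z => (∑ b, q z b a • J' b (φ z)) l p) = fun z => ∑ b, q z b a * J' b (φ z) l p := by
      funext z
      rw [Matrix.sum_apply]
      rfl
    rw [e]
    exact DifferentiableAt.fun_sum fun b _ => (dq b).mul (dJ' b l p)
  -- differentiate the defining relation
  have h1 : pd i (fun z => jm φ z * J a z) y =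
      pd i (fun z => (∑ b, q z b a • J' b (φ z)) * jm φ z) y := by
    refine pd_congr ?_ i
    filter_upwards [h.isOpen.mem_nhds hy] with z hz using h.qm_spec hz hn a
  have h2 : pd i (fun z => ∑ b, q z b a • J' b (φ z)) y =
      ∑ b, (pderiv i (fun z => q z b a) y • J' b (φ y) +
        q y b a • ∑ k, jm φ y k i • pd k (J' b) (φ y)) := by
    have e : (fun z => ∑ b, q z b a • J' b (φ z)) = fun z =>
        (q z 0 a • J' 0 (φ z) + q z 1 a • J' 1 (φ z)) + q z 2 a • J' 2 (φ z) := by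
      funext z; rw [Fin.sum_univ_three]
    rw [e, pd_add ((DM_smul (dq 0) (dJ' 0)).add (DM_smul (dq 1) (dJ' 1)))
      (DM_smul (dq 2) (dJ' 2)), pd_add (DM_smul (dq 0) (dJ' 0)) (DM_smul (dq 1) (dJ' 1)),
      pd_smul (dq 0) (dJ' 0), pd_smul (dq 1) (dJ' 1), pd_smul (dq 2) (dJ' 2),
      pd_comp (h.qk'.DM_J hφ 0) hd, pd_comp (h.qk'.DM_J hφ 1) hd, pd_comp (h.qk'.DM_J hφ 2) hd,
      Fin.sum_univ_three]
  rw [pd_mul dP dJ, pd_mul dA dP, h2] at h1
  -- covariant derivatives
  have hJ : pd i (J a) y = ∑ b, cf g J y i a b • J b y -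
      (christoffelMatrix g y i * J a y - J a y * christoffelMatrix g y i) := by
    rw [← h.qk.cf_spec hy, covDerivEndo_eq]; abel
  have hJ' : ∀ b k, pd k (J' b) (φ y) = ∑ d, cf g' J' (φ y) k b d • J' d (φ y) -
      (christoffelMatrix g' (φ y) k * J' b (φ y) - J' b (φ y) * christoffelMatrix g' (φ y) k) := by
    intro b k
    rw [← h.qk'.cf_spec hφ, covDerivEndo_eq]; abel
  set P := jm φ y with hP
  set G' := ∑ k, P k i • christoffelMatrix g' (φ y) k with hG'
  set A := ∑ b, q y b a • J' b (φ y) with hA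
  have hPJ : P * J a y = A * P := h.qm_spec hy hn a
  have hPG : P * christoffelMatrix g y i = G' * P + pd i (jm φ) y := h.gam_trans hy i
  set K : Matrix (Fin n) (Fin n) ℝ := ∑ d, (∑ b, q y b a * ∑ k, P k i * cf g' J' (φ y) k b d) •
    J' d (φ y) with hK
  have h3 : ∀ b, ∑ k, P k i • pd k (J' b) (φ y) =
      ∑ d, (∑ k, P k i * cf g' J' (φ y) k b d) • J' d (φ y) - (G' * J' b (φ y) - J' b (φ y) * G') := by
    intro b
    have e1 : ∑ k, P k i • ∑ d, cf g' J' (φ y) k b d • J' d (φ y) =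
        ∑ d, (∑ k, P k i * cf g' J' (φ y) k b d) • J' d (φ y) := by
      simp only [Finset.smul_sum, smul_smul, Finset.sum_smul]
      exact Finset.sum_comm
    have e2 : ∑ k, P k i • (christoffelMatrix g' (φ y) k * J' b (φ y)) = G' * J' b (φ y) := by
      rw [hG', Finset.sum_mul]
      simp only [Matrix.smul_mul]
    have e3 : ∑ k, P k i • (J' b (φ y) * christoffelMatrix g' (φ y) k) = J' b (φ y) * G' := by
      rw [hG', Finset.mul_sum]
      simp only [Matrix.mul_smul]
    simp only [hJ', smul_sub, Finset.sum_sub_distrib]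
    rw [e1, e2, e3]
  have h4 : ∑ b, (pderiv i (fun z => q z b a) y • J' b (φ y) +
        q y b a • ∑ k, P k i • pd k (J' b) (φ y)) =
      ∑ b, pderiv i (fun z => q z b a) y • J' b (φ y) + (K - (G' * A - A * G')) := by
    have e0 : ∀ s : Fin 3 → Fin 3 → ℝ, ∑ b, q y b a • ∑ d, s b d • J' d (φ y) =
        ∑ d, (∑ b, q y b a * s b d) • J' d (φ y) := by
      intro s
      simp only [Finset.smul_sum, smul_smul, Finset.sum_smul]
      exact Finset.sum_comm
    have e1 : ∑ b, q y b a • ∑ d, (∑ k, P k i * cf g' J' (φ y) k b d) • J' d (φ y) = K :=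
      e0 fun b d => ∑ k, P k i * cf g' J' (φ y) k b d
    have e2 : ∑ b, q y b a • (G' * J' b (φ y)) = G' * A := by
      rw [hA, Finset.mul_sum]
      simp only [Matrix.mul_smul]
    have e3 : ∑ b, q y b a • (J' b (φ y) * G') = A * G' := by
      rw [hA, Finset.sum_mul]
      simp only [Matrix.smul_mul]
    rw [Finset.sum_add_distrib]
    simp only [h3, smul_sub, Finset.sum_sub_distrib]
    rw [e1, e2, e3]
  rw [h4, hJ] at h1
  set C := ∑ b, cf g J y i a b • J b y with hC
  set D := ∑ b, pderiv i (fun z => q z b a) y • J' b (φ y) with hD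
  have h5 : P * C = (D + K) * P := by
    have e1 : P * (christoffelMatrix g y i * J a y) = G' * A * P + pd i (jm φ) y * J a y := by
      rw [← Matrix.mul_assoc, hPG, Matrix.add_mul, Matrix.mul_assoc, hPJ, Matrix.mul_assoc]
    have e2 : P * (J a y * christoffelMatrix g y i) = A * G' * P + A * pd i (jm φ) y := by
      rw [← Matrix.mul_assoc, hPJ, Matrix.mul_assoc, hPG, Matrix.mul_add, Matrix.mul_assoc]
    rw [Matrix.mul_sub, Matrix.mul_sub, e1, e2] at h1
    have : P * C = (pd i (jm φ) y * J a y + (P * C - (G' * A * P + pd i (jm φ) y * J a y -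
        (A * G' * P + A * pd i (jm φ) y)))) + G' * A * P - A * G' * P - A * pd i (jm φ) y := by
      abel
    rw [this, h1]
    noncomm_ring
  have h6 : P * C = (∑ d, (∑ b, cf g J y i a b * q y d b) • J' d (φ y)) * P := by
    rw [hC, Finset.mul_sum]
    have : ∀ b, P * (cf g J y i a b • J b y) =
        (∑ d, (cf g J y i a b * q y d b) • J' d (φ y)) * P := by
      intro b
      rw [Matrix.mul_smul, h.qm_spec hy hn b, ← Matrix.smul_mul, Finset.smul_sum]
      simp only [smul_smul]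
      rfl
    simp only [this]
    rw [← Finset.sum_mul, Finset.sum_comm]
    simp only [Finset.sum_smul]
  have h7 : (∑ d, (∑ b, cf g J y i a b * q y d b) • J' d (φ y)) =
      ∑ d, (pderiv i (fun z => q z d a) y + ∑ b, q y b a * ∑ k, P k i * cf g' J' (φ y) k b d) •
        J' d (φ y) := by
    have e := h5
    rw [h6] at e
    have e2 := congrArg (fun B => B * jinv g g' φ y) e
    have hPi : P * jinv g g' φ y = 1 := h.mul_jinv hy
    simp only [Matrix.mul_assoc, hPi, Matrix.mul_one] at e2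
    rw [e2, hD, hK, ← Finset.sum_add_distrib]
    exact Finset.sum_congr rfl fun d _ => by rw [add_smul]
  exact congrFun (h.qk'.comb_inj hφ hn h7) d

end Pair

end Crest.Agent.R260.Qk8_151
end
end

-- ▼ part R260/Tw6_979
section

/-!
Row 260, leaf TW-Z (helper979), part 6: the charts of the twistor space and the almost complex
manifold `acm`.
-/

set_option autoImplicit false

open scoped Manifold ContDiff Topology
open Filter Set Complex Matrix
open Crest.GeometryTopology.CoordMetric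
open Crest.GeometryTopology.ChartRiem

noncomputable section

namespace Crest.Agent.R260.Tw_979

open Crest.Agent.R202.Tens
open Crest.Agent.R260.Qk3_151 Crest.Agent.R260.Qk4_151 Crest.Agent.R260.Qk7_151

variable {n : ℕ}

local notation "𝔼" => EuclideanSpace ℝ (Fin n)

/-! ### the connection vector of a frame -/

/-- contraction of the connection coefficients with a tangent vector -/
def Cx (g : MetricField n) (J : Fin 3 → EuclideanSpace ℝ (Fin n) → Matrix (Fin n) (Fin n) ℝ)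
    (y X : EuclideanSpace ℝ (Fin n)) (a b : Fin 3) : ℝ := ∑ i, X i * cf g J y i a b

/-- the pairs of indices defining `Θ` -/
def ti : Fin 3 → Fin 3 × Fin 3 := ![(2, 1), (0, 2), (1, 0)]

/-- the connection form `Θ = (cf 2 1, cf 0 2, cf 1 0)` -/
def Th (g : MetricField n) (J : Fin 3 → EuclideanSpace ℝ (Fin n) → Matrix (Fin n) (Fin n) ℝ)
    (y : EuclideanSpace ℝ (Fin n)) (a : Fin 3) : EuclideanSpace ℝ (Fin n) →L[ℝ] ℝ :=
  ∑ i, cf g J y i (ti a).1 (ti a).2 • (EuclideanSpace.proj i : EuclideanSpace ℝ (Fin n) →L[ℝ] ℝ)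

lemma Th_apply (g : MetricField n) (J : Fin 3 → 𝔼 → Matrix (Fin n) (Fin n) ℝ) (y X : 𝔼)
    (a : Fin 3) : Th g J y a X = Cx g J y X (ti a).1 (ti a).2 := by
  simp only [Th, Cx, _root_.sum_apply, _root_.smul_apply, smul_eq_mul]
  exact Finset.sum_congr rfl fun i _ => mul_comm _ _

lemma Cx_antisymm {g : MetricField n} {J : Fin 3 → 𝔼 → Matrix (Fin n) (Fin n) ℝ} {U : Set 𝔼}
    (h : QKOn g J U) {y : 𝔼} (hy : y ∈ U) (X : 𝔼) (a b : Fin 3) :
    Cx g J y X a b = -Cx g J y X b a := by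
  simp only [Cx]
  rw [← Finset.sum_neg_distrib]
  refine Finset.sum_congr rfl fun i _ => ?_
  rw [h.cf_antisymm hy i a b]
  ring

lemma sum_Cx {g : MetricField n} {J : Fin 3 → 𝔼 → Matrix (Fin n) (Fin n) ℝ} {U : Set 𝔼}
    (h : QKOn g J U) {y : 𝔼} (hy : y ∈ U) (X : 𝔼) (x : Fin 3 → ℝ) (b : Fin 3) :
    ∑ a, x a * Cx g J y X a b = -cr (thv (Th g J) y X) x b := by
  have h0 : ∀ a, Cx g J y X a a = 0 := fun a => by
    have := Cx_antisymm h hy X a a; linarith
  have t0 : thv (Th g J) y X 0 = Cx g J y X 2 1 := Th_apply g J y X 0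
  have t1 : thv (Th g J) y X 1 = Cx g J y X 0 2 := Th_apply g J y X 1
  have t2 : thv (Th g J) y X 2 = Cx g J y X 1 0 := Th_apply g J y X 2
  have a01 := Cx_antisymm h hy X 0 1
  have a12 := Cx_antisymm h hy X 1 2
  have a20 := Cx_antisymm h hy X 2 0
  fin_cases b
  · simp only [Fin.sum_univ_three, cr, t0, t1, t2, h0, Fin.zero_eta, Matrix.cons_val_zero]
    rw [a20]; ring
  · simp only [Fin.sum_univ_three, cr, t0, t1, t2, h0, Fin.mk_one, Matrix.cons_val_one,
      Matrix.cons_val_zero]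
    rw [a01]; ring
  · simp only [Fin.sum_univ_three, cr, t0, t1, t2, h0, Fin.reduceFinMk, Matrix.cons_val]
    rw [a12]; ring

section manifold

variable {M : Type} [TopologicalSpace M] [ChartedSpace (EuclideanSpace ℝ (Fin n)) M]
  [IsManifold 𝓘(ℝ, EuclideanSpace ℝ (Fin n)) ∞ M]
  {G : ChartMetric n M} (Q : QuaternionicStructure n M G)

/-- the two frames `i`, `j` as a pair in the sense of 151 -/
lemma pair (hn : n ≠ 0) (i j : Idx n M) : Qk8_151.Pair (G.g i.e) (G.g j.e) (fr Q i) (fr Q j)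
    (chg i.e j.e) (dom i.e j.e) j.e.target where
  pull := pull_chart G i.he j.he
  qk := by
    have h := qk Q i
    exact
    { riem := (pull_chart G i.he j.he).riem'
      smooth := fun a l p => (h.smooth a l p).mono fun y hy => hy.1
      sq := fun x hx => h.sq x hx.1
      mul := fun x hx => h.mul x hx.1
      orth := fun x hx => h.orth x hx.1
      par := fun x hx => h.par x hx.1 }
  qk' := qk Q j
  span := by
    intro y hy a
    have h := qm_spec Q hn (k := i) (k' := j) (p := i.e.symm y) (i.e.map_target hy.1) hy.2 a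
    rw [i.e.right_inv hy.1] at h
    have h2 : jacobianMatrix n M i.e j.e (i.e.symm y) = Qk8_151.jm (chg i.e j.e) y := by
      ext l p
      rw [jac_chg i.he j.he hy, Qk8_151.jm_coord (chg_diff i.he j.he hy)]
    rw [h2] at h
    exact ⟨_, h⟩

lemma qm_eq (hn : n ≠ 0) (i j : Idx n M) {y : 𝔼} (hy : y ∈ dom i.e j.e) (b a : Fin 3) :
    Qk8_151.qm (G.g i.e) (G.g j.e) (fr Q i) (fr Q j) (chg i.e j.e) y b a =
      qm Q i j (i.e.symm y) b a := by
  refine (pair Q hn i j).qm_unique hy hn (r := fun b => qm Q i j (i.e.symm y) b a) ?_ b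
  have h := qm_spec Q hn (k := i) (k' := j) (p := i.e.symm y) (i.e.map_target hy.1) hy.2 a
  rw [i.e.right_inv hy.1] at h
  have h2 : jacobianMatrix n M i.e j.e (i.e.symm y) = Qk8_151.jm (chg i.e j.e) y := by
    ext l p
    rw [jac_chg i.he j.he hy, Qk8_151.jm_coord (chg_diff i.he j.he hy)]
  rw [h2] at h
  exact h

/-- the transition matrix in the chart `i` -/
def qc (i j : Idx n M) (y : EuclideanSpace ℝ (Fin n)) : Matrix (Fin 3) (Fin 3) ℝ :=
  qm Q i j (i.e.symm y)

lemma qc_diff (i j : Idx n M) {y : 𝔼} (hy : y ∈ dom i.e j.e) (b a : Fin 3) :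
    DifferentiableAt ℝ (fun y => qc Q i j y b a) y :=
  ((qm_smooth Q i j b a).contDiffAt ((isOpen_dom _ _).mem_nhds hy)).differentiableAt (by norm_num)

lemma qc_so (hn : n ≠ 0) (i j : Idx n M) {y : 𝔼} (hy : y ∈ dom i.e j.e) : SO (qc Q i j y) :=
  qm_so Q hn (i.e.map_target hy.1) hy.2

/-- transformation law of the connection -/
theorem Cx_trans (hn : n ≠ 0) (i j : Idx n M) {y : 𝔼} (hy : y ∈ dom i.e j.e) (X : 𝔼)
    (a d : Fin 3) : ∑ b, Cx (G.g i.e) (fr Q i) y X a b * qc Q i j y d b =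
      fderiv ℝ (fun z => qc Q i j z d a) y X + ∑ b, qc Q i j y b a *
        Cx (G.g j.e) (fr Q j) (chg i.e j.e y) (fderiv ℝ (chg i.e j.e) y X) b d := by
  have h := fun l => (pair Q hn i j).cf_trans hy hn l a d
  simp only [qm_eq Q hn i j hy] at h
  have hd : (fun z => Qk8_151.qm (G.g i.e) (G.g j.e) (fr Q i) (fr Q j) (chg i.e j.e) z d a)
      =ᶠ[𝓝 y] fun z => qc Q i j z d a := by
    filter_upwards [(isOpen_dom _ _).mem_nhds hy] with z hz using qm_eq Q hn i j hz d a
  simp only [Qk3_151.pderiv_congr hd] at h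
  have e1 : ∑ b, Cx (G.g i.e) (fr Q i) y X a b * qc Q i j y d b =
      ∑ l, X l * ∑ b, cf (G.g i.e) (fr Q i) y l a b * qm Q i j (i.e.symm y) d b := by
    simp only [Cx, Finset.sum_mul, Finset.mul_sum, qc]
    rw [Finset.sum_comm]
    exact Finset.sum_congr rfl fun l _ => Finset.sum_congr rfl fun b _ => by ring
  rw [e1]
  simp only [h, mul_add, Finset.sum_add_distrib]
  congr 1
  · rw [fderiv_eq_sum]
  · have hP : ∀ k, (fderiv ℝ (chg i.e j.e) y X) k = ∑ l, Qk8_151.jm (chg i.e j.e) y k l * X l := by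
      intro k
      rw [Qk8_151.jm_eq (chg_diff i.he j.he hy)]
      rfl
    simp only [Cx, hP, Finset.mul_sum, Finset.sum_mul, qc]
    rw [Finset.sum_comm]
    refine Finset.sum_congr rfl fun b _ => ?_
    rw [Finset.sum_comm]
    exact Finset.sum_congr rfl fun k _ => Finset.sum_congr rfl fun l _ => by ring

theorem hT (hn : n ≠ 0) (i j : Idx n M) {y : 𝔼} (hy : y ∈ dom i.e j.e) (X : 𝔼)
    (x : Fin 3 → ℝ) :
    cr (thv (Th (G.g j.e) (fr Q j)) (chg i.e j.e y) (fderiv ℝ (chg i.e j.e) y X))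
      (qc Q i j y *ᵥ x) =
    qc Q i j y *ᵥ cr (thv (Th (G.g i.e) (fr Q i)) y X) x +
      (Matrix.of fun a b => fderiv ℝ (fun z => qc Q i j z a b) y X) *ᵥ x := by
  funext d
  have h := fun a => Cx_trans Q hn i j hy X a d
  have h1 : ∑ a, x a * ∑ b, Cx (G.g i.e) (fr Q i) y X a b * qc Q i j y d b =
      -(qc Q i j y *ᵥ cr (thv (Th (G.g i.e) (fr Q i)) y X) x) d := by
    have h2 := fun b => sum_Cx (qk Q i) hy.1 X x b
    simp only [Matrix.mulVec, dotProduct]
    rw [← Finset.sum_neg_distrib]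
    simp only [Finset.mul_sum]
    rw [Finset.sum_comm]
    refine Finset.sum_congr rfl fun b _ => ?_
    rw [← mul_neg, ← h2 b, Finset.mul_sum]
    exact Finset.sum_congr rfl fun a _ => by ring
  have h3 : ∑ a, x a * ∑ b, qc Q i j y b a * Cx (G.g j.e) (fr Q j) (chg i.e j.e y)
      (fderiv ℝ (chg i.e j.e) y X) b d =
      -(cr (thv (Th (G.g j.e) (fr Q j)) (chg i.e j.e y) (fderiv ℝ (chg i.e j.e) y X))
      (qc Q i j y *ᵥ x)) d := by
    rw [← sum_Cx (qk Q j) (chg_mem hy).1]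
    simp only [Matrix.mulVec, dotProduct, Finset.mul_sum, Finset.sum_mul]
    rw [Finset.sum_comm]
    exact Finset.sum_congr rfl fun a _ => Finset.sum_congr rfl fun b _ => by ring
  have h4 : ∑ a, x a * fderiv ℝ (fun z => qc Q i j z d a) y X =
      ((Matrix.of fun a b => fderiv ℝ (fun z => qc Q i j z a b) y X) *ᵥ x) d := by
    simp only [Matrix.mulVec, dotProduct, Matrix.of_apply]
    exact Finset.sum_congr rfl fun a _ => mul_comm _ _
  simp only [h, mul_add, Finset.sum_add_distrib] at h1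
  rw [h3, h4] at h1
  rw [Pi.add_apply]
  linarith

/-! ### the almost complex structure in a chart -/

/-- a matrix as a continuous linear map -/
def mc (A : Matrix (Fin n) (Fin n) ℝ) : EuclideanSpace ℝ (Fin n) →L[ℝ] EuclideanSpace ℝ (Fin n) :=
  LinearMap.toContinuousLinearMap (mL A)

lemma mc_apply (A : Matrix (Fin n) (Fin n) ℝ) (X : 𝔼) : mc A X = mL A X := rfl

lemma mc_eq_sum (A : Matrix (Fin n) (Fin n) ℝ) : mc A = ∑ l, ∑ p, A l p •
    (EuclideanSpace.proj p : 𝔼 →L[ℝ] ℝ).smulRight (EuclideanSpace.single l (1:ℝ)) := by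
  refine ContinuousLinearMap.ext fun X => ?_
  ext k
  rw [mc_apply, mL_apply]
  simp only [_root_.sum_apply, _root_.smul_apply, ContinuousLinearMap.smulRight_apply,
    WithLp.ofLp_sum, Finset.sum_apply, PiLp.smul_apply, smul_eq_mul, PiLp.single_apply]
  symm
  rw [Finset.sum_eq_single k]
  · refine Finset.sum_congr rfl fun p _ => ?_
    simp
  · intro b _ hb
    simp [hb.symm]
  · simp

/-- the operator fields of a frame -/
def Jop (J : Fin 3 → EuclideanSpace ℝ (Fin n) → Matrix (Fin n) (Fin n) ℝ)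
    (y : EuclideanSpace ℝ (Fin n)) (a : Fin 3) :
    EuclideanSpace ℝ (Fin n) →L[ℝ] EuclideanSpace ℝ (Fin n) := mc (J a y)

/-- **the almost complex structure of the twistor space in a frame** -/
def JT (g : MetricField n) (J : Fin 3 → EuclideanSpace ℝ (Fin n) → Matrix (Fin n) (Fin n) ℝ) :
    EuclideanSpace ℝ (Fin n) × ℂ →
      (EuclideanSpace ℝ (Fin n) × ℂ →L[ℝ] EuclideanSpace ℝ (Fin n) × ℂ) := JZ (Jop J) (Th g J)

theorem hJ (hn : n ≠ 0) (i j : Idx n M) {y : 𝔼} (hy : y ∈ dom i.e j.e) (a : Fin 3) (X : 𝔼) :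
    fderiv ℝ (chg i.e j.e) y (Jop (fr Q i) y a X) =
      ∑ b, qc Q i j y b a • Jop (fr Q j) (chg i.e j.e y) b (fderiv ℝ (chg i.e j.e) y X) := by
  have h := (pair Q hn i j).qm_spec hy hn a
  simp only [qm_eq Q hn i j hy] at h
  have h1 := congrArg (fun A => mL A X) h
  simp only [mL_mul] at h1
  rw [Qk8_151.jm_eq (chg_diff i.he j.he hy), Qk8_151.jm_eq (chg_diff i.he j.he hy)]
  simp only [Jop, mc_apply]
  rw [h1, mL_sum, LinearMap.sum_apply]
  refine Finset.sum_congr rfl fun b _ => ?_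
  rw [mL_smul, LinearMap.smul_apply]
  rfl

/-- **`J` commutes with the differentials of the transition maps** -/
theorem JT_compat (hn : n ≠ 0) (i j : Idx n M) {z : 𝔼 × ℂ} (hz : z.1 ∈ dom i.e j.e)
    (hd : tdom (qc Q i j) z) (v : 𝔼 × ℂ) :
    fderiv ℝ (trn (chg i.e j.e) (qc Q i j)) z (JT (G.g i.e) (fr Q i) z v) =
      JT (G.g j.e) (fr Q j) (trn (chg i.e j.e) (qc Q i j) z)
        (fderiv ℝ (trn (chg i.e j.e) (qc Q i j)) z v) := by
  refine JZ_compat (chg_diff i.he j.he hz) (fun a b => qc_diff Q i j hz a b) ?_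
    (qc_so Q hn i j hz) hd (fun a X => hJ Q hn i j hz a X) (fun X x => hT Q hn i j hz X x) v
  filter_upwards [(isOpen_dom i.e j.e).mem_nhds hz] with y hy using (qc_so Q hn i j hy).orth

/-! ### the charts -/

/-- the chart of the twistor space given by the frame `k` and the stereographic coordinate -/
def ch (hn : n ≠ 0) (k : Idx n M) :
    OpenPartialHomeomorph (coc Q hn).Z (EuclideanSpace ℝ (Fin n) × ℂ) :=
  ((coc Q hn).core.localTriv k).toOpenPartialHomeomorph.trans (k.e.prod ster)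

lemma ch_apply (hn : n ≠ 0) (k : Idx n M) (z : (coc Q hn).Z) :
    ch Q hn k z = (k.e ((coc Q hn).pr z), st ((coc Q hn).fc k z).1) := rfl

lemma ch_symm_apply (hn : n ≠ 0) (k : Idx n M) (z : 𝔼 × ℂ) :
    (ch Q hn k).symm z = (coc Q hn).mz k (k.e.symm z.1) (pt z.2) := rfl

lemma mem_ch_source (hn : n ≠ 0) (k : Idx n M) (z : (coc Q hn).Z) :
    z ∈ (ch Q hn k).source ↔
      (coc Q hn).pr z ∈ k.e.source ∧ 1 + ((coc Q hn).fc k z).1 0 ≠ 0 := by
  rw [ch, OpenPartialHomeomorph.trans_source]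
  constructor
  · rintro ⟨h1, h2, h3⟩
    exact ⟨h2, h3⟩
  · rintro ⟨h1, h2⟩
    exact ⟨h1, h1, h2⟩

lemma mem_ch_target (hn : n ≠ 0) (k : Idx n M) (z : 𝔼 × ℂ) :
    z ∈ (ch Q hn k).target ↔ z.1 ∈ k.e.target := by
  rw [ch, OpenPartialHomeomorph.trans_target]
  constructor
  · rintro ⟨⟨h1, -⟩, -⟩
    exact h1
  · intro h
    refine ⟨⟨h, mem_univ _⟩, ?_⟩
    show (k.e.symm z.1, pt z.2) ∈ ((coc Q hn).core.localTriv k).target
    rw [(coc Q hn).mem_target]
    exact k.e.map_target h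

end manifold

end Crest.Agent.R260.Tw_979
end
end

-- ▼ part R260/Tw7_979

/-!
Row 260, leaf TW-Z (helper979), part 7: the almost complex manifold `acm Q hn : ACM (E × ℂ) Z`.
-/

set_option autoImplicit false

open scoped Manifold ContDiff Topology
open Filter Set Complex Matrix
open Crest.GeometryTopology.CoordMetric
open Crest.GeometryTopology.ChartRiem

noncomputable section

namespace Crest.Agent.R260.Tw_979

open Crest.Agent.R202.Tens
open Crest.Agent.R260.Qk3_151 Crest.Agent.R260.Qk4_151 Crest.Agent.R260.Qk7_151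

variable {n : ℕ}

local notation "𝔼" => EuclideanSpace ℝ (Fin n)

/-- the same structure in the notation of 847 -/
lemma JT_eq (g : MetricField n) (J : Fin 3 → 𝔼 → Matrix (Fin n) (Fin n) ℝ) :
    JT g J = TwL_847.JZ (fun a y => Jop J y a) (fun a y => Th g J y a) := by
  funext p
  refine ContinuousLinearMap.ext fun v => ?_
  rw [TwL_847.JZ_apply]
  refine Prod.ext rfl ?_
  show (JZ (Jop J) (Th g J) p v).2 = _
  have h1 : ∀ X, bec (Th g J) p X = TwL_847.bt (fun a y => Th g J y a) p X := by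
    intro X
    rw [bec_apply, TwL_847.bt_apply]
    rfl
  rw [JZ_snd, h1, h1]
  show _ = I * v.2 + _ - _
  rw [add_sub_assoc]
  rfl

lemma mc_mul (A B : Matrix (Fin n) (Fin n) ℝ) : mc (A * B) = mc A * mc B := by
  refine ContinuousLinearMap.ext fun X => ?_
  exact mL_mul A B X

lemma mc_neg (A : Matrix (Fin n) (Fin n) ℝ) : mc (-A) = -mc A := by
  refine ContinuousLinearMap.ext fun X => ?_
  simp only [mc_apply, mL_neg, LinearMap.neg_apply]
  rfl

lemma mc_one : mc (1 : Matrix (Fin n) (Fin n) ℝ) = 1 := by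
  refine ContinuousLinearMap.ext fun X => ?_
  simp only [mc_apply, mL_one]
  rfl

section loc

variable {g : MetricField n} {J : Fin 3 → EuclideanSpace ℝ (Fin n) → Matrix (Fin n) (Fin n) ℝ}
  {U : Set (EuclideanSpace ℝ (Fin n))}

lemma qt_Jop (h : QKOn g J U) {y : 𝔼} (hy : y ∈ U) : QT (fun a => Jop J y a) where
  sq a := by simp only [Jop, ← mc_mul, h.sq y hy a, mc_neg, mc_one]
  m01 := by simp only [Jop, ← mc_mul, h.mul01 hy]
  m10 := by simp only [Jop, ← mc_mul, h.mul10 hy, mc_neg]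

lemma mc_smooth {A : 𝔼 → Matrix (Fin n) (Fin n) ℝ}
    (h : ∀ l p, ContDiffOn ℝ ∞ (fun y => A y l p) U) : ContDiffOn ℝ ∞ (fun y => mc (A y)) U := by
  simp only [mc_eq_sum]
  exact ContDiffOn.sum fun l _ => ContDiffOn.sum fun p _ => (h l p).smul contDiffOn_const

lemma Jop_smooth (h : QKOn g J U) (a : Fin 3) : ContDiffOn ℝ ∞ (fun y => Jop J y a) U :=
  mc_smooth (h.smooth a)

lemma Th_smooth (h : QKOn g J U) (a : Fin 3) : ContDiffOn ℝ ∞ (fun y => Th g J y a) U :=
  ContDiffOn.sum fun i _ => (h.cf_smooth i _ _).smul contDiffOn_const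

lemma JT_smooth (h : QKOn g J U) : ContDiffOn ℝ ∞ (JT g J) (U ×ˢ univ) := by
  rw [JT_eq]
  exact TwL_847.JZ_smooth (fun a => Jop_smooth h a) (fun a => Th_smooth h a)

lemma JT_sq (h : QKOn g J U) {z : 𝔼 × ℂ} (hz : z.1 ∈ U) (v : 𝔼 × ℂ) :
    JT g J z (JT g J z v) = -v := by
  rw [JT_eq]
  exact TwL_847.JZ_sq (J := fun a y => Jop J y a) (Th := fun a y => Th g J y a) (qt_Jop h hz) v

end loc

section manifold

variable {M : Type} [TopologicalSpace M] [ChartedSpace (EuclideanSpace ℝ (Fin n)) M]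
  [IsManifold 𝓘(ℝ, EuclideanSpace ℝ (Fin n)) ∞ M]
  {G : ChartMetric n M} (Q : QuaternionicStructure n M G) (hn : n ≠ 0)

lemma ch_target (k : Idx n M) : (ch Q hn k).target = k.e.target ×ˢ univ := by
  ext z
  rw [mem_ch_target, mem_prod]
  simp

/-- the fibre coordinate of the point with coordinates `z` of the chart `i` in the frame `j` -/
lemma fc_ch {i j : Idx n M} {z : 𝔼 × ℂ} (hz : z.1 ∈ dom i.e j.e) :
    ((coc Q hn).fc j ((ch Q hn i).symm z)).1 = qc Q i j z.1 *ᵥ xx z.2 := by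
  have hi : (coc Q hn).pr ((ch Q hn i).symm z) ∈ (coc Q hn).U i := i.e.map_target hz.1
  have hj : (coc Q hn).pr ((ch Q hn i).symm z) ∈ (coc Q hn).U j := hz.2
  rw [(coc Q hn).fc_val hi hj, ch_symm_apply]
  have hi' : i.e.symm z.1 ∈ (coc Q hn).U i := hi
  rw [(coc Q hn).fc_mz hi', (coc Q hn).pr_mz]
  rfl

/-- the transition maps -/
lemma ch_ch {i j : Idx n M} {z : 𝔼 × ℂ} (hz : z.1 ∈ dom i.e j.e) :
    ch Q hn j ((ch Q hn i).symm z) = trn (chg i.e j.e) (qc Q i j) z := by
  rw [ch_apply, fc_ch Q hn hz]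
  rfl

lemma mem_ov {i j : Idx n M} {z : 𝔼 × ℂ} :
    (z ∈ (ch Q hn i).target ∧ (ch Q hn i).symm z ∈ (ch Q hn j).source) ↔
      z.1 ∈ dom i.e j.e ∧ tdom (qc Q i j) z := by
  rw [mem_ch_target, mem_ch_source]
  constructor
  · rintro ⟨h1, h2, h3⟩
    have hz : z.1 ∈ dom i.e j.e := ⟨h1, h2⟩
    rw [fc_ch Q hn hz] at h3
    exact ⟨hz, h3⟩
  · rintro ⟨hz, h3⟩
    refine ⟨hz.1, hz.2, ?_⟩
    rw [fc_ch Q hn hz]
    exact h3

lemma ch_cover (z : (coc Q hn).Z) : ∃ k, z ∈ (ch Q hn k).source := by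
  set p := (coc Q hn).pr z with hp
  set e := chartAt (EuclideanSpace ℝ (Fin n)) p with he
  have hpe : p ∈ e.source := mem_chart_source _ p
  set k : Idx n M := ⟨e, chart_mem_atlas _ p, true⟩ with hk
  set k' : Idx n M := ⟨e, chart_mem_atlas _ p, false⟩ with hk'
  by_cases h : 1 + ((coc Q hn).fc k z).1 0 ≠ 0
  · exact ⟨k, (mem_ch_source Q hn k z).2 ⟨hpe, h⟩⟩
  · refine ⟨k', (mem_ch_source Q hn k' z).2 ⟨hpe, ?_⟩⟩
    push Not at h
    have h1 := (coc Q hn).fc_val (i := k) (j := k') (z := z) hpe hpe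
    have h2 : (coc Q hn).q k k' (coc Q hn |>.pr z) = Matrix.diagonal ![-1, 1, -1] := by
      refine qm_unique' Q hn (k := k) (k' := k') hpe hpe fun u => ?_
      rw [jac_self k.he hpe, Matrix.one_mul, Matrix.mul_one]
      simp only [uJ, fr, flip, Fin.sum_univ_three, Matrix.mulVec_diagonal, smul_smul]
      simp [hk, hk', sg]
    rw [h2] at h1
    rw [h1, Matrix.mulVec_diagonal]
    simp only [Matrix.cons_val_zero]
    linarith

lemma trn_smooth (i j : Idx n M) : ContDiffOn ℝ ∞ (trn (chg i.e j.e) (qc Q i j))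
    {z | z.1 ∈ dom i.e j.e ∧ tdom (qc Q i j) z} := by
  intro z hz
  refine ContDiffAt.contDiffWithinAt ?_
  have hφ : ContDiffAt ℝ ∞ (chg i.e j.e) z.1 :=
    (chg_smooth i.he j.he).contDiffAt ((isOpen_dom _ _).mem_nhds hz.1)
  have hq : ∀ a b, ContDiffAt ℝ ∞ (fun y => qc Q i j y a b) z.1 := fun a b =>
    (qm_smooth Q i j a b).contDiffAt ((isOpen_dom _ _).mem_nhds hz.1)
  have h1 : ContDiffAt ℝ ∞ (fun z : 𝔼 × ℂ => chg i.e j.e z.1) z :=
    ContDiffAt.comp (g := chg i.e j.e) (f := fun z : 𝔼 × ℂ => z.1) z hφ contDiffAt_fst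
  have h2 : ContDiffAt ℝ ∞ (fun z : 𝔼 × ℂ => qc Q i j z.1 *ᵥ xx z.2) z := by
    rw [contDiffAt_pi]
    intro a
    simp only [Matrix.mulVec, dotProduct]
    refine ContDiffAt.sum fun b _ => ContDiffAt.mul ?_ ?_
    · exact ContDiffAt.comp (g := fun y => qc Q i j y a b) (f := fun z : 𝔼 × ℂ => z.1) z
        (hq a b) contDiffAt_fst
    · have h3 : ContDiff ℝ ∞ (fun w : ℂ => xx w b) := (contDiff_pi.1 contDiff_xx) b
      exact ContDiffAt.comp (g := fun w => xx w b) (f := fun z : 𝔼 × ℂ => z.2) z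
        h3.contDiffAt contDiffAt_snd
  exact h1.prodMk (ContDiffAt.comp (g := st) (f := fun z : 𝔼 × ℂ => qc Q i j z.1 *ᵥ xx z.2) z
    (contDiffAt_st hz.2) h2)

include hn in
lemma isOpen_ov (i j : Idx n M) : IsOpen {z : 𝔼 × ℂ | z.1 ∈ dom i.e j.e ∧ tdom (qc Q i j) z} := by
  have h : {z : 𝔼 × ℂ | z.1 ∈ dom i.e j.e ∧ tdom (qc Q i j) z} =
      (ch Q hn i).target ∩ (ch Q hn i).symm ⁻¹' (ch Q hn j).source := by
    ext z
    exact (mem_ov Q hn).symm
  rw [h]
  exact (ch Q hn i).isOpen_inter_preimage_symm (ch Q hn j).open_source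

/-- **the twistor space as an almost complex manifold** -/
def acm : ACM_580.ACM (EuclideanSpace ℝ (Fin n) × ℂ) (coc Q hn).Z where
  ι := Idx n M
  e := ch Q hn
  cover := ch_cover Q hn
  sm i j := by
    have h := trn_smooth Q i j
    refine (h.congr fun z hz => ch_ch Q hn hz.1).mono fun z hz => (mem_ov Q hn).1 hz
  J k := JT (G.g k.e) (fr Q k)
  J_sm k := by
    rw [ch_target]
    exact JT_smooth (qk Q k)
  J_sq k z hz v := JT_sq (qk Q k) ((mem_ch_target Q hn k z).1 hz) v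
  J_tr i j z hz hz' v := by
    obtain ⟨h1, h2⟩ := (mem_ov Q hn).1 ⟨hz, hz'⟩
    have hev : (fun z => ch Q hn j ((ch Q hn i).symm z)) =ᶠ[𝓝 z]
        trn (chg i.e j.e) (qc Q i j) := by
      filter_upwards [(isOpen_ov Q hn i j).mem_nhds ⟨h1, h2⟩] with y hy using ch_ch Q hn hy.1
    rw [hev.fderiv_eq, JT_compat Q hn i j h1 h2, ch_ch Q hn h1]

end manifold

end Crest.Agent.R260.Tw_979
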