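import Crest.Agent.R260.TwPenB_389
import Crest.Agent.R260.Tup1_45
import Crest.Agent.R260.Tw4_979
import Crest.Agent.R260.Qk4_151
import Crest.Agent.R260.Tw7_979
import Crest.Agent.R260.Tup4_45
import Crest.Agent.R260.NnDefs_254

-- ▼ part R260/TwPenF_389
section

/-!
Row 260, leaf TW-PEN (helper389), part F: adapters.

* `qh_of` : `Qk4_151.QKOn g J U` gives `QH g J (cf g J) U`.
* `hol_k` : the weight `k` Cauchy-Riemann equation in the frame `nn`, from 979's `JZ` and the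
  connection form `a(v) = 2 w̄ η/(1+|w|²) + i Θ(X)·xx(w)`.
-/

set_option autoImplicit false

open Complex Matrix
open scoped ContDiff Topology
open Crest.GeometryTopology.CoordMetric Crest.GeometryTopology.ChartRiem
open Crest.Agent.R260.Tw_979

noncomputable section

namespace Crest.Agent.R260.TwPen_389

variable {n : ℕ}

theorem qh_of {g : MetricField n} {J : Fin 3 → EuclideanSpace ℝ (Fin n) → Matrix (Fin n) (Fin n) ℝ}
    {U : Set (EuclideanSpace ℝ (Fin n))} (h : Qk4_151.QKOn g J U) :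
    QH g J (Qk4_151.cf g J) U where
  riem := h.riem
  smooth := h.smooth
  sq := h.sq
  mul := h.mul
  orth := h.orth
  skew _ hx i a b := h.cf_antisymm hx i a b
  csm i a b := h.cf_smooth i a b

section Gen

variable {J : Fin 3 → EuclideanSpace ℝ (Fin n) → Matrix (Fin n) (Fin n) ℝ}
  {c : EuclideanSpace ℝ (Fin n) → Fin n → Fin 3 → Fin 3 → ℝ} {g : MetricField n}
  {U : Set (EuclideanSpace ℝ (Fin n))}

/-- `∑ X_i ℓ_i` -/
def lin (ℓ : Fin n → ℂ) (X : EuclideanSpace ℝ (Fin n)) : ℂ := ∑ i, (X i : ℂ) * ℓ i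


end Gen

section Dict

variable {J : Fin 3 → EuclideanSpace ℝ (Fin n) → Matrix (Fin n) (Fin n) ℝ}
  {c : EuclideanSpace ℝ (Fin n) → Fin n → Fin 3 → Fin 3 → ℝ} {g : MetricField n}
  {U : Set (EuclideanSpace ℝ (Fin n))}
  {Jo : EuclideanSpace ℝ (Fin n) → Fin 3 → (EuclideanSpace ℝ (Fin n) →L[ℝ] EuclideanSpace ℝ (Fin n))}
  {Th : EuclideanSpace ℝ (Fin n) → Fin 3 → (EuclideanSpace ℝ (Fin n) →L[ℝ] ℝ)}

/-- 979's `Θ(∂_i)` -/
def tht (c : Fin 3 → Fin 3 → ℝ) : Fin 3 → ℝ := ![c 2 1, c 0 2, c 1 0]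

/-- `Jo`, `Th` are the operators of `J`, `c` at `x` -/
structure DictAt (J : Fin 3 → EuclideanSpace ℝ (Fin n) → Matrix (Fin n) (Fin n) ℝ)
    (c : EuclideanSpace ℝ (Fin n) → Fin n → Fin 3 → Fin 3 → ℝ)
    (Jo : EuclideanSpace ℝ (Fin n) → Fin 3 → (EuclideanSpace ℝ (Fin n) →L[ℝ] EuclideanSpace ℝ (Fin n)))
    (Th : EuclideanSpace ℝ (Fin n) → Fin 3 → (EuclideanSpace ℝ (Fin n) →L[ℝ] ℝ))
    (x : EuclideanSpace ℝ (Fin n)) : Prop where
  jo : ∀ a X, Jo x a X = WithLp.toLp 2 (J a x *ᵥ (X : Fin n → ℝ))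
  th : ∀ a X, Th x a X = ∑ i, X i * tht (c x i) a








/-- the Chern connection form of `L⁻¹` in the frame `nn·J` -/
def aL (Th : EuclideanSpace ℝ (Fin n) → Fin 3 → (EuclideanSpace ℝ (Fin n) →L[ℝ] ℝ))
    (x : EuclideanSpace ℝ (Fin n)) (w : ℂ) (v : EuclideanSpace ℝ (Fin n) × ℂ) : ℂ :=
  2 * (starRingEnd ℂ) w * v.2 / (1 + w * (starRingEnd ℂ) w) + I * dt (cx (xx w)) (cx (thv Th x v.1))





end Dict

end Crest.Agent.R260.TwPen_389
end
end

-- ▼ part R260/MainT_803

/-!
# Row 260 (S0398), MAIN (helper803): the charts of the twistor space (979) as `TwCh` (45)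
-/

set_option autoImplicit false
set_option linter.unusedSectionVars false

open Set Filter Topology Complex Matrix
open scoped ContDiff Manifold
open Crest.GeometryTopology.CoordMetric Crest.GeometryTopology.ChartRiem
open Crest.Agent.R202.Tens
open Crest.Agent.R260.Tw_979 Crest.Agent.R260.Tup_45 Crest.Agent.R260.ACM_580
open Crest.Agent.R260.Qk4_151 Crest.Agent.R260.Qk3_151 Crest.Agent.R260.Qk7_151

noncomputable section

namespace Crest.Agent.R260.MainC_803

variable {n : ℕ}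

theorem flip_true (J : Fin 3 → EuclideanSpace ℝ (Fin n) → Matrix (Fin n) (Fin n) ℝ) :
    Tw_979.flip true J = J := by
  funext a y
  fin_cases a <;> simp [Tw_979.flip, sg]

section loc

variable {g : MetricField n} {J : Fin 3 → EuclideanSpace ℝ (Fin n) → Matrix (Fin n) (Fin n) ℝ}
  {U : Set (EuclideanSpace ℝ (Fin n))}

theorem frSpec (h : QKOn g J U) {x : EuclideanSpace ℝ (Fin n)} (hx : x ∈ U) :
    FrSpec J (cf g J) (Jop J) (Th g J) x where
  qt :=
    { sq := fun a => h.sq x hx a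
      m01 := h.mul01 hx
      m10 := h.mul10 hx }
  skew i a b := h.cf_antisymm hx i a b
  jo a X l := by
    show (mL (J a x) X) l = _
    rw [mL_apply]
  th0 i := by
    rw [Th_apply]
    simp [Cx, ti]
  th1 i := by
    rw [Th_apply]
    simp [Cx, ti]
  th2 i := by
    rw [Th_apply]
    simp [Cx, ti]

end loc

section manifold

variable {M : Type} [TopologicalSpace M] [ChartedSpace (EuclideanSpace ℝ (Fin n)) M]
  [IsManifold 𝓘(ℝ, EuclideanSpace ℝ (Fin n)) ∞ M]
  {G : ChartMetric n M} (Q : QuaternionicStructure n M G) (hn : n ≠ 0)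
  {e : OpenPartialHomeomorph M (EuclideanSpace ℝ (Fin n))}
  (he : e ∈ atlas (EuclideanSpace ℝ (Fin n)) M)

theorem fr_true : fr Q ⟨e, he, true⟩ = Q.J e := flip_true _

include hn in
theorem qm_pm {p : M} (hp : p ∈ e.source) :
    qm Q ⟨e, he, true⟩ ⟨e, he, false⟩ p = Matrix.diagonal ![-1, 1, -1] := by
  refine qm_unique' Q hn (k := ⟨e, he, true⟩) (k' := ⟨e, he, false⟩) hp hp fun u => ?_
  rw [jac_self he hp, Matrix.one_mul, Matrix.mul_one]
  simp only [uJ, fr, Tw_979.flip, Fin.sum_univ_three, Matrix.mulVec_diagonal, smul_smul]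
  simp [sg]

theorem chg_self {x : EuclideanSpace ℝ (Fin n)} (hx : x ∈ e.target) : chg e e x = x :=
  e.right_inv hx

include hn in
theorem qc_pm {x : EuclideanSpace ℝ (Fin n)} (hx : x ∈ e.target) :
    qc Q ⟨e, he, true⟩ ⟨e, he, false⟩ x = Matrix.diagonal ![-1, 1, -1] :=
  qm_pm Q hn he (e.map_target hx)

/-- the two stereographic coordinates over one chart -/
theorem ch_pm {x : EuclideanSpace ℝ (Fin n)} (hx : x ∈ e.target) {w : ℂ} (hw : w ≠ 0) :
    (ch Q hn ⟨e, he, true⟩).symm (x, w) = (ch Q hn ⟨e, he, false⟩).symm (x, w⁻¹) := by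
  set i : Idx n M := ⟨e, he, true⟩ with hi
  set j : Idx n M := ⟨e, he, false⟩ with hj
  have hd : (x, w).1 ∈ dom i.e j.e := ⟨hx, e.map_target hx⟩
  have hq : qc Q i j x = Matrix.diagonal ![-1, 1, -1] := qc_pm Q hn he hx
  have hxx : ∀ a, (Matrix.diagonal ![-1, 1, -1] *ᵥ xx w) a = ![-1, 1, -1] a * xx w a := fun a => by
    rw [Matrix.mulVec_diagonal]
  have hns : normSq w ≠ 0 := by simpa using hw
  have hden : den w ≠ 0 := den_ne w
  have ht : tdom (qc Q i j) (x, w) := by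
    show 1 + (qc Q i j x *ᵥ xx w) 0 ≠ 0
    rw [hq, hxx]
    simp only [xx, Matrix.cons_val_zero]
    have : 1 + -1 * ((1 - normSq w) / den w) = 2 * normSq w / den w := by
      field_simp
      rw [den]
      ring
    rw [this]
    exact div_ne_zero (mul_ne_zero two_ne_zero hns) hden
  have hov := (mem_ov Q hn (i := i) (j := j) (z := (x, w))).2 ⟨hd, ht⟩
  have h1 := ch_ch Q hn (i := i) (j := j) (z := (x, w)) hd
  have h2 : trn (chg i.e j.e) (qc Q i j) (x, w) = (x, w⁻¹) := by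
    refine Prod.ext (chg_self hx) ?_
    show st (qc Q i j x *ᵥ xx w) = w⁻¹
    rw [hq]
    apply Complex.ext
    · simp only [st, hxx]
      simp only [xx, Matrix.cons_val_zero, Matrix.cons_val_one, Matrix.cons_val]
      have h3 : 1 + -1 * ((1 - normSq w) / den w) = 2 * normSq w / den w := by
        field_simp
        rw [den]
        ring
      rw [h3, Complex.inv_re]
      field_simp
    · simp only [st, hxx]
      simp only [xx, Matrix.cons_val_zero, Matrix.cons_val_one, Matrix.cons_val]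
      have h3 : 1 + -1 * ((1 - normSq w) / den w) = 2 * normSq w / den w := by
        field_simp
        rw [den]
        ring
      rw [h3, Complex.inv_im]
      field_simp
  rw [h2] at h1
  rw [← h1, (ch Q hn j).left_inv hov.2]

/-- the contact data of the twistor space -/
structure TwCD (Q : QuaternionicStructure n M G) (hn : n ≠ 0) where
  int : (acm Q hn).Int
  cd : Nn_254.CD (acm Q hn)
  /-- `θ = η - β_w(X)` on vertical vectors -/
  th1 : ∀ k : Idx n M, ∀ x ∈ k.e.target, ∀ w : ℂ, cd.θ k (x, w) (0, 1) = 1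
  lam : ∀ (e : OpenPartialHomeomorph M (EuclideanSpace ℝ (Fin n)))
    (he : e ∈ atlas (EuclideanSpace ℝ (Fin n)) M), ∀ x ∈ e.target, ∀ w : ℂ, w ≠ 0 →
    cd.lam (⟨e, he, true⟩ : Idx n M) (⟨e, he, false⟩ : Idx n M) (x, w) = -w ^ 2
  al : ∀ k : Idx n M, ∀ x ∈ k.e.target, ∀ w : ℂ,
    AlSpec (Th (G.g k.e) (fr Q k)) (x, w) (cd.α k (x, w))

theorem twCh (T : TwCD Q hn) : TwCh (acm Q hn) T.cd.lam T.cd.α (Q.J e) (cf (G.g e) (Q.J e))
    (Jop (Q.J e)) (Th (G.g e) (Q.J e)) e.target (⟨e, he, true⟩ : Idx n M)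
    (⟨e, he, false⟩ : Idx n M) where
  isOpen := e.open_target
  tp := ch_target Q hn ⟨e, he, true⟩
  tm := ch_target Q hn ⟨e, he, false⟩
  tr x hx w hw := ch_pm Q hn he hx hw
  hlam := T.lam e he
  hJ x hx w := by
    show JT (G.g e) (fr Q ⟨e, he, true⟩) (x, w) = _
    rw [fr_true Q he]
    rfl
  hα x hx w := by
    have h := T.al ⟨e, he, true⟩ x hx w
    rw [fr_true Q he] at h
    exact h
  hfr x hx := frSpec (qkOn G Q he) hx

end manifold

end Crest.Agent.R260.MainC_803
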