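import Mathlib

/-!
# R260 (S0398), AG-OUT part 1 (helper516): Baire piece, simple root germ

`baire_piece` : a dense `Gδ`, covered inside an open set by countably many sets: one of them is
dense in a smaller open set.
`root_germ`   : a simple root of a polynomial with polynomial coefficients extends to a unique
analytic root near the point.
-/

set_option autoImplicit false

open Set Filter Topology Metric
open scoped ContDiff

namespace Crest.Agent.R260.Out_516



section Root

variable {σ : Type*} [Fintype σ] {k0 : Type*} [CommRing k0] [Algebra k0 ℂ]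

/-- the polynomial in `T` obtained by substituting the pair `q` of vectors. -/
noncomputable def evP (P : Polynomial (MvPolynomial (σ ⊕ σ) k0)) (q : (σ → ℂ) × (σ → ℂ)) :
    Polynomial ℂ :=
  P.map (MvPolynomial.aeval (Sum.elim q.1 q.2)).toRingHom

/-- value of `P` at the pair `q` and `T = t` -/
noncomputable def valP (P : Polynomial (MvPolynomial (σ ⊕ σ) k0)) (x : ((σ → ℂ) × (σ → ℂ)) × ℂ) : ℂ :=
  (evP P x.1).eval x.2

theorem contDiff_aeval (p : MvPolynomial (σ ⊕ σ) k0) :
    ContDiff ℂ ω (fun q : (σ → ℂ) × (σ → ℂ) => MvPolynomial.aeval (Sum.elim q.1 q.2) p) := by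
  induction p using MvPolynomial.induction_on with
  | C a => simpa using contDiff_const
  | add p q hp hq => simpa using hp.add hq
  | mul_X p i hp =>
    rcases i with i | i
    · simp only [map_mul, MvPolynomial.aeval_X, Sum.elim_inl]
      exact hp.mul ((contDiff_apply ℂ ℂ i).comp contDiff_fst)
    · simp only [map_mul, MvPolynomial.aeval_X, Sum.elim_inr]
      exact hp.mul ((contDiff_apply ℂ ℂ i).comp contDiff_snd)

omit [Fintype σ] in
theorem valP_eq (P : Polynomial (MvPolynomial (σ ⊕ σ) k0)) (x : ((σ → ℂ) × (σ → ℂ)) × ℂ) :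
    valP P x = ∑ k ∈ P.support, MvPolynomial.aeval (Sum.elim x.1.1 x.1.2) (P.coeff k) * x.2 ^ k := by
  unfold valP evP
  rw [Polynomial.eval_map, Polynomial.eval₂_eq_sum, Polynomial.sum_def]
  rfl

theorem contDiff_valP (P : Polynomial (MvPolynomial (σ ⊕ σ) k0)) : ContDiff ℂ ω (valP P) := by
  have : valP P = fun x : ((σ → ℂ) × (σ → ℂ)) × ℂ =>
      ∑ k ∈ P.support, MvPolynomial.aeval (Sum.elim x.1.1 x.1.2) (P.coeff k) * x.2 ^ k := by
    funext x
    exact valP_eq P x
  rw [this]
  refine ContDiff.sum fun k _ => ?_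
  exact ((contDiff_aeval (P.coeff k)).comp contDiff_fst).mul (contDiff_snd.pow k)

omit [Fintype σ] in
theorem hasDerivAt_valP (P : Polynomial (MvPolynomial (σ ⊕ σ) k0)) (q : (σ → ℂ) × (σ → ℂ)) (t : ℂ) :
    HasDerivAt (fun s => valP P (q, s)) ((evP P q).derivative.eval t) t :=
  (evP P q).hasDerivAt t

/-- a simple root extends analytically, and is the only root nearby -/
theorem root_germ (P : Polynomial (MvPolynomial (σ ⊕ σ) k0)) (q : (σ → ℂ) × (σ → ℂ)) (t : ℂ)
    (h0 : (evP P q).eval t = 0) (h1 : (evP P q).derivative.eval t ≠ 0) :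
    ∃ Φ : (σ → ℂ) × (σ → ℂ) → ℂ, ContDiffAt ℂ ω Φ q ∧ Φ q = t ∧
      (∀ᶠ x in 𝓝 q, (evP P x).eval (Φ x) = 0) ∧
      (∀ᶠ x in 𝓝 (q, t), (evP P x.1).eval x.2 = 0 → x.2 = Φ x.1) := by
  have hcd : ContDiffAt ℂ ω (valP P) (q, t) := (contDiff_valP P).contDiffAt
  have hinv : (fderiv ℂ (valP P) (q, t) ∘L .inr ℂ ((σ → ℂ) × (σ → ℂ)) ℂ).IsInvertible := by
    have hd : HasFDerivAt (fun s => valP P (q, s))
        (fderiv ℂ (valP P) (q, t) ∘L .inr ℂ ((σ → ℂ) × (σ → ℂ)) ℂ) t := by
      have h2 := (hcd.differentiableAt (by simp)).hasFDerivAt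
      exact h2.comp t (hasFDerivAt_prodMk_right q t)
    have hd' := (hasDerivAt_valP P q t).hasFDerivAt
    rw [hd.unique hd']
    refine ⟨ContinuousLinearEquiv.smulLeft (Units.mk0 _ h1), ?_⟩
    ext
    simp
  have hval : valP P (q, t) = 0 := h0
  refine ⟨hcd.implicitFunction (by simp) hinv, hcd.contDiffAt_implicitFunction _ _,
    hcd.implicitFunction_apply_self _ _, ?_, ?_⟩
  · filter_upwards [hcd.eventually_apply_implicitFunction (by simp) hinv] with x hx
    rw [hval] at hx
    exact hx
  · filter_upwards [hcd.eventually_apply_eq_iff_implicitFunction (by simp) hinv] with x hx h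
    rw [hval] at hx
    exact (hx.1 h).symm

end Root

end Crest.Agent.R260.Out_516
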