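import Crest.Agent.R260.BrIf_592
import Crest.Agent.R260.NNB2_580
import Crest.Agent.R260.NnDefs_254
import Crest.Agent.R260.Tup1_45
import Crest.Agent.R260.Pair2_764
import Crest.Agent.R266.SCV
import Crest.Agent.R260.EndDefs_919
import Crest.Agent.R202.GeoTens
import Crest.Agent.R260.KEnd5_361
import Crest.Agent.R260.QKh_838
import Crest.Agent.R260.LinDefs_678
import Crest.Agent.R260.TwPenB_389
import Crest.Agent.R260.Out1_516
import Crest.Agent.R260.Tw4_979
import Crest.Agent.R260.OutDefs_516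
import Crest.Agent.R260.MainC_803
import Crest.Agent.R260.Tup4_45
import Crest.Agent.R260.MainT_803
import Crest.Agent.R272.Kod8_410

-- ▼ part R260/Con_803
section

/-!
# Row 260 (S0398), the contact constant of the twistor lines (helper803)

`val_of_ld`   : pointwise data `F(w) = l • pt`, `F'(w) = l • dpt u + a • pt`,
                `∏ l ^ w * θ(u) = κ` for all `w`  ⟹  `th.Val F F' (C κ)`;
`ld_of_chart` : the pointwise data from `F(v) = q ^ β • pt` near `w` along a fibre of a real chart.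
-/

set_option autoImplicit false
set_option linter.unusedSectionVars false

open Set Filter Topology Complex
open scoped ContDiff Matrix ComplexConjugate

namespace Crest.Agent.R260.Con_803

open Crest.Agent.R275 Crest.Agent.R275.Geo Crest.Agent.R275.Core144
open Crest.Agent.R273.Defs_333 Crest.Agent.R273.SerA_945 Crest.Agent.R273.SerE_945
open Crest.Agent.R273.TD3_733
open Crest.Agent.R270.BM_360 Crest.Agent.R260.BrDefs_592 Crest.Agent.R260.BrIf_592
open Crest.Agent.R260.Lin_678 Crest.Agent.R260.ACM_580 Crest.Agent.R260.NNB_580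
open Crest.Agent.R260.Ga_323 (OneForm Contact)

noncomputable section

variable {d : ℕ} {Z : Type} [TopologicalSpace Z] {A : Atl d Z} {L : LB A} {I : Type} [Fintype I]

/-- pointwise data of the tuple `F` at the parameter `w` -/
def LD (S : MSys A L I) (θ : OneForm L) (wt : I → ℤ) (F : ∀ i, S.J i → Polynomial ℂ) (κ w : ℂ) :
    Prop :=
  ∃ ch, ∃ z ∈ (A.e ch).source, ∃ (l : I → ℂ) (u : Cn d) (a : I → ℂ), (∀ i, l i ≠ 0) ∧
    (∀ i b, (F i b).eval w = l i * S.pt ch z i b) ∧
    (∀ i b, (Polynomial.derivative (F i b)).eval w = l i * dpt S ch z u i b + a i * S.pt ch z i b) ∧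
    (∏ i, l i ^ wt i) * θ.app ch z u = κ

theorem val_of_ld {S : MSys A L I} {θ : OneForm L} {E : Set (MvPolynomial (Σ i, S.J i) ℂ)}
    {wt : I → ℤ} {th : CForm E wt} (hl : Link S θ th) {F : ∀ i, S.J i → Polynomial ℂ} {κ : ℂ}
    (h : ∀ w, LD S θ wt F κ w) :
    th.Val F (fun i a => Polynomial.derivative (F i a)) (Polynomial.C κ) := by
  intro c
  apply Polynomial.funext
  intro w
  obtain ⟨ch, z, hz, l, u, a, hl0, h1, h2, h3⟩ := h w
  have key := hl ch z hz c l hl0 u a
  have e1 : (fun i b => (F i b).eval w) = fun i b => l i * S.pt ch z i b := by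
    funext i b; exact h1 i b
  have e2 : (fun i b => (Polynomial.derivative (F i b)).eval w) =
      fun i b => l i * dpt S ch z u i b + a i * S.pt ch z i b := by
    funext i b; exact h2 i b
  have e3 : (den c F).eval w = den c (fun i b => (F i b).eval w) := by
    unfold den
    rw [Polynomial.eval_prod]
  have e4 : (form (th.p c) F (fun i a => Polynomial.derivative (F i a))).eval w =
      form (th.p c) (fun i b => (F i b).eval w)
        (fun i b => (Polynomial.derivative (F i b)).eval w) := by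
    unfold form
    rw [Polynomial.eval_finsetSum]
    refine Finset.sum_congr rfl fun x _ => ?_
    rw [Polynomial.eval_mul, Tup_45.eval_aeval_poly]
  rw [Polynomial.eval_mul, Polynomial.eval_pow, Polynomial.eval_C, e3, e4, e1, e2, key, ← h3]
  ring

variable {X : Type} [NormedAddCommGroup X] [NormedSpace ℝ X]

theorem ld_of_chart {S : MSys A L I} {θ : OneForm L} {wt : I → ℤ}
    (hw : ∑ i, wt i * (S.β i : ℤ) = 1) (C : ACM (X × ℂ) Z) (hcp : Cp C A) (k : C.ι)
    {F : ∀ i, S.J i → Polynomial ℂ} {x : X} {w : ℂ} {ch : A.ι}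
    (ht : (x, w) ∈ (C.e k).target) (hs : (C.e k).symm (x, w) ∈ (A.e ch).source) (q : Z → ℂ)
    (hq : DifferentiableAt ℝ (fun y => q ((C.e k).symm y)) (x, w))
    (hq0 : q ((C.e k).symm (x, w)) ≠ 0)
    (hF : ∀ᶠ v in 𝓝 w, ∀ i b, (F i b).eval v =
      q ((C.e k).symm (x, v)) ^ S.β i * S.pt ch ((C.e k).symm (x, v)) i b) {κ : ℂ}
    (hκ : q ((C.e k).symm (x, w)) * θ.app ch ((C.e k).symm (x, w))
      (fderiv ℝ (fun y => A.e ch ((C.e k).symm y)) (x, w) (0, 1)) = κ) :
    LD S θ wt F κ w := by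
  set z := (C.e k).symm (x, w) with hz
  set ψ : X × ℂ → Cn d := fun y => A.e ch ((C.e k).symm y) with hψ
  have hov : (x, w) ∈ ovr C k (A.e ch) := ⟨ht, hs⟩
  have hψd : DifferentiableAt ℝ ψ (x, w) := (hcp ch).diffAt hov
  set u : Cn d := fderiv ℝ ψ (x, w) (0, 1) with hu
  set Q : X × ℂ → ℂ := fun y => q ((C.e k).symm y) with hQ
  set q' : ℂ := fderiv ℝ Q (x, w) (0, 1) with hq'
  have hin : HasFDerivAt (fun v : ℂ => (x, v)) (ContinuousLinearMap.inr ℝ X ℂ) w :=
    hasFDerivAt_prodMk_right x w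
  refine ⟨ch, z, hs, fun i => q z ^ S.β i, u, fun i => S.β i * q z ^ (S.β i - 1) * q',
    fun i => pow_ne_zero _ hq0, fun i b => hF.self_of_nhds i b, fun i b => ?_, ?_⟩
  · -- derivative
    have h1 : HasFDerivAt (fun v : ℂ => (F i b).eval v)
        ((ContinuousLinearMap.smulRight (1 : ℂ →L[ℂ] ℂ)
          ((Polynomial.derivative (F i b)).eval w)).restrictScalars ℝ) w :=
      ((F i b).hasDerivAt w).hasFDerivAt.restrictScalars ℝ
    -- the factor q
    have h2 : HasFDerivAt (fun v : ℂ => Q (x, v)) ((fderiv ℝ Q (x, w)).comp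
        (ContinuousLinearMap.inr ℝ X ℂ)) w := hq.hasFDerivAt.comp w hin
    have h2' := h2.pow (S.β i)
    -- the coordinate
    have hpt : DifferentiableAt ℂ (fun y => S.pt ch ((A.e ch).symm y) i b) (A.e ch z) := by
      have h := (S.P i).hol ch b
      unfold HolAt at h
      rw [preimage_univ, inter_univ] at h
      exact (h _ ((A.e ch).map_source hs)).differentiableAt
        ((A.e ch).open_target.mem_nhds ((A.e ch).map_source hs))
    have h3 : HasFDerivAt (fun v : ℂ => S.pt ch ((A.e ch).symm (ψ (x, v))) i b)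
        ((((fderiv ℂ (fun y => S.pt ch ((A.e ch).symm y) i b) (A.e ch z)).restrictScalars ℝ).comp
          (fderiv ℝ ψ (x, w))).comp (ContinuousLinearMap.inr ℝ X ℂ)) w := by
      have h4 : HasFDerivAt (fun y => S.pt ch ((A.e ch).symm y) i b)
          ((fderiv ℂ (fun y => S.pt ch ((A.e ch).symm y) i b) (A.e ch z)).restrictScalars ℝ)
          (ψ (x, w)) := hpt.hasFDerivAt.restrictScalars ℝ
      exact (h4.comp (x, w) hψd.hasFDerivAt).comp w hin
    have h5 := h2'.mul h3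
    have hev : (fun v : ℂ => (F i b).eval v) =ᶠ[𝓝 w]
        ((fun v : ℂ => Q (x, v)) ^ S.β i * fun v : ℂ => S.pt ch ((A.e ch).symm (ψ (x, v))) i b) := by
      have hnb : ∀ᶠ v : ℂ in 𝓝 w, (x, v) ∈ ovr C k (A.e ch) := by
        have hc : ContinuousAt (fun v : ℂ => (x, v)) w := by fun_prop
        exact hc.eventually ((isOpen_ovr k (A.e ch)).mem_nhds hov)
      filter_upwards [hF, hnb] with v hv hv2
      rw [hv i b]
      show _ = Q (x, v) ^ S.β i * S.pt ch ((A.e ch).symm (ψ (x, v))) i b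
      rw [hψ]
      show _ = Q (x, v) ^ S.β i * S.pt ch ((A.e ch).symm (A.e ch ((C.e k).symm (x, v)))) i b
      rw [(A.e ch).left_inv hv2.2]
    have h6 := h1.unique (h5.congr_of_eventuallyEq hev)
    have h7 := congrArg (fun T : ℂ →L[ℝ] ℂ => T 1) h6
    simp only [ContinuousLinearMap.coe_restrictScalars', ContinuousLinearMap.smulRight_apply,
      one_apply_eq_self, add_apply, one_mul,
      smul_apply, ContinuousLinearMap.comp_apply,
      ContinuousLinearMap.inr_apply, smul_eq_mul, nsmul_eq_mul] at h7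
    rw [h7]
    have e1 : (A.e ch).symm (ψ (x, w)) = z := (A.e ch).left_inv hs
    have e2 : dpt S ch z u i b =
        (fderiv ℂ (fun y => S.pt ch ((A.e ch).symm y) i b) (A.e ch z)) u := rfl
    rw [e1]
    show Q (x, w) ^ S.β i * (fderiv ℂ (fun y => S.pt ch ((A.e ch).symm y) i b) (A.e ch z)) u +
      S.pt ch z i b * (↑(S.β i) * Q (x, w) ^ (S.β i - 1) * q') =
      q z ^ S.β i * dpt S ch z u i b + ↑(S.β i) * q z ^ (S.β i - 1) * q' * S.pt ch z i b
    rw [e2]
    show q z ^ S.β i * _ + S.pt ch z i b * (↑(S.β i) * q z ^ (S.β i - 1) * q') = _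
    ring
  · show (∏ i, (q z ^ S.β i) ^ wt i) * θ.app ch z u = κ
    have e1 : ∏ i, (q z ^ S.β i) ^ wt i = q z := by
      have e2 : ∀ i, (q z ^ S.β i) ^ wt i = q z ^ (wt i * (S.β i : ℤ)) := by
        intro i
        rw [mul_comm, zpow_mul, zpow_natCast]
      rw [Finset.prod_congr rfl fun i _ => e2 i]
      have e3 : ∏ i, q z ^ (wt i * (S.β i : ℤ)) = q z ^ (∑ i, wt i * (S.β i : ℤ)) := by
        classical
        induction (Finset.univ : Finset I) using Finset.induction_on with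
        | empty => simp
        | insert a s ha ih => rw [Finset.prod_insert ha, Finset.sum_insert ha, zpow_add₀ hq0, ih]
      rw [e3, hw, zpow_one]
    rw [e1]
    exact hκ

/-- **CON**: the contact constant of the twistor lines. -/
theorem con_of_link {S : MSys A L I} {θ : OneForm L} {E : Set (MvPolynomial (Σ i, S.J i) ℂ)}
    {wt : I → ℤ} {th : CForm E wt} (hl : Link S θ th) (hw : ∑ i, wt i * (S.β i : ℤ) = 1)
    (C : ACM (X × ℂ) Z) (cd : Nn_254.CD C) (hcp : Cp C A) (cmp : A.ι → C.ι → Z → ℂ)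
    (hne : ∀ a i x, x ∈ (A.e a).source → x ∈ (C.e i).source → cmp a i x ≠ 0)
    (hsm : ∀ a i, ContDiffOn ℝ ∞ (fun y => cmp a i ((C.e i).symm y)) (ovr C i (A.e a)))
    (hth : ∀ a i x, x ∈ (A.e a).source → x ∈ (C.e i).source → ∀ v, cd.θ i (C.e i x) v =
      cmp a i x * θ.app a x (fderiv ℝ (fun y => A.e a ((C.e i).symm y)) (C.e i x) v))
    (k : C.ι) {x : X} (hx : ∀ w, (x, w) ∈ (C.e k).target) {F : ∀ i, S.J i → Polynomial ℂ}
    (hF : ∀ w ch, (C.e k).symm (x, w) ∈ (A.e ch).source → ∀ i b, (F i b).eval w =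
      cmp ch k ((C.e k).symm (x, w)) ^ S.β i * S.pt ch ((C.e k).symm (x, w)) i b) {κ : ℂ}
    (hκ : ∀ w, cd.θ k (x, w) (0, 1) = κ) :
    th.Val F (fun i a => Polynomial.derivative (F i a)) (Polynomial.C κ) := by
  refine val_of_ld hl fun w => ?_
  obtain ⟨ch, hch⟩ := A.cover ((C.e k).symm (x, w))
  have hov : (x, w) ∈ ovr C k (A.e ch) := ⟨hx w, hch⟩
  have hks : (C.e k).symm (x, w) ∈ (C.e k).source := (C.e k).map_target (hx w)
  refine ld_of_chart hw C hcp k (hx w) hch (cmp ch k)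
    (((hsm ch k).contDiffAt ((isOpen_ovr k (A.e ch)).mem_nhds hov)).differentiableAt (by simp))
    (hne ch k _ hch hks) ?_ ?_
  · have hc : ContinuousAt (fun v : ℂ => (x, v)) w := by fun_prop
    filter_upwards [hc.eventually ((isOpen_ovr k (A.e ch)).mem_nhds hov)] with v hv i b
    exact hF v ch hv.2 i b
  · have h1 := hth ch k _ hch hks (0, 1)
    rw [(C.e k).right_inv (hx w)] at h1
    rw [← h1]
    exact hκ w

end

end Crest.Agent.R260.Con_803
end

-- ▼ part R260/Pair3_764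
section

/-!
# R260 (S0398), AG-PAIR, part 3 (helper764): CR-generic submanifolds are sets of uniqueness

`cr_iter`     : `φ : V → E` real differentiable with `span_ℂ (range dφ) = ⊤`, `g ∘ φ = 0`,
                `g` holomorphic: all derivatives of `g` vanish on the image of `φ`.
`cr_zero`     : so `g = 0` near the image of `φ`.
`cr_manifold` : the same for families of local holomorphic functions on `M × M`.
-/

set_option autoImplicit false

open Set Filter Topology Complex Metric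
open scoped ComplexConjugate

namespace Crest.Agent.R260.Pair_764

open Crest.Agent.R275.Geo Crest.Agent.R275.Core144

section Abstract

variable {E V : Type} [NormedAddCommGroup E] [NormedSpace ℂ E]
  [NormedAddCommGroup V] [NormedSpace ℝ V]

/-- a holomorphic function which vanishes on the image of a CR-generic map vanishes there with all
its derivatives -/
theorem cr_iter {O : Set E} {U : Set V} (hU : IsOpen U) (φ : V → E)
    (hφ : ∀ x ∈ U, DifferentiableAt ℝ φ x) (hφO : ∀ x ∈ U, φ x ∈ O)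
    (hspan : ∀ x ∈ U, Submodule.span ℂ (Set.range (fderiv ℝ φ x)) = ⊤) (k : ℕ) :
    ∀ {F : Type} [NormedAddCommGroup F] [NormedSpace ℂ F] [CompleteSpace F] (g : E → F),
      AnalyticOnNhd ℂ g O → (∀ x ∈ U, g (φ x) = 0) → ∀ x ∈ U, iteratedFDeriv ℂ k g (φ x) = 0 := by
  induction k with
  | zero =>
    intro F _ _ _ g hg h0 x hx
    ext m
    simp [h0 x hx]
  | succ k ih =>
    intro F _ _ _ g hg h0 x hx
    have hfd : ∀ x ∈ U, fderiv ℂ g (φ x) = 0 := by
      intro x hx
      have h1 : HasFDerivAt g ((fderiv ℂ g (φ x)).restrictScalars ℝ) (φ x) :=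
        ((hg _ (hφO x hx)).differentiableAt.hasFDerivAt).restrictScalars ℝ
      have h2 : HasFDerivAt (fun y => g (φ y))
          (((fderiv ℂ g (φ x)).restrictScalars ℝ).comp (fderiv ℝ φ x)) x :=
        h1.comp x (hφ x hx).hasFDerivAt
      have h3 : HasFDerivAt (fun y => g (φ y)) (0 : V →L[ℝ] F) x := by
        have h4 : (fun y => g (φ y)) =ᶠ[𝓝 x] fun _ => (0 : F) := by
          filter_upwards [hU.mem_nhds hx] with y hy
          exact h0 y hy
        exact (hasFDerivAt_const (0 : F) x).congr_of_eventuallyEq h4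
      have h5 := h2.unique h3
      have h6 : ∀ w ∈ Submodule.span ℂ (Set.range (fderiv ℝ φ x)), fderiv ℂ g (φ x) w = 0 := by
        intro w hw
        induction hw using Submodule.span_induction with
        | mem w hw =>
          obtain ⟨v, rfl⟩ := hw
          have := congrArg (fun L : V →L[ℝ] F => L v) h5
          simpa using this
        | zero => simp
        | add a b _ _ ha hb => rw [map_add, ha, hb, add_zero]
        | smul c a _ ha => rw [map_smul, ha, smul_zero]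
      ext w
      have hw : w ∈ Submodule.span ℂ (Set.range (fderiv ℝ φ x)) := by
        rw [hspan x hx]
        trivial
      simpa using h6 w hw
    have := ih (fderiv ℂ g) hg.fderiv hfd x hx
    rw [iteratedFDeriv_succ_eq_comp_right, Function.comp_apply, this]
    exact (continuousMultilinearCurryRightEquiv' ℂ k E F).symm.map_zero

/-- a holomorphic function which vanishes on the image of a CR-generic map vanishes near the
image -/
theorem cr_zero {O : Set E} {U : Set V} (hU : IsOpen U) (φ : V → E)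
    (hφ : ∀ x ∈ U, DifferentiableAt ℝ φ x) (hφO : ∀ x ∈ U, φ x ∈ O)
    (hspan : ∀ x ∈ U, Submodule.span ℂ (Set.range (fderiv ℝ φ x)) = ⊤)
    {F : Type} [NormedAddCommGroup F] [NormedSpace ℂ F] [CompleteSpace F] (g : E → F)
    (hg : AnalyticOnNhd ℂ g O) (h0 : ∀ x ∈ U, g (φ x) = 0) :
    ∀ x ∈ U, g =ᶠ[𝓝 (φ x)] 0 := by
  intro x hx
  obtain ⟨p, r, hp⟩ := hg _ (hφO x hx)
  have hr := hp.r_pos
  have hball : Metric.eball (φ x) r ∈ 𝓝 (φ x) := Metric.eball_mem_nhds _ hr
  filter_upwards [hball] with y hy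
  have hy' : y - φ x ∈ Metric.eball (0 : E) r := by
    rw [Metric.mem_eball] at hy ⊢
    rwa [edist_eq_enorm_sub, sub_zero, ← edist_eq_enorm_sub]
  have hs := hp.hasSum_iteratedFDeriv hy'
  have hz : (fun n : ℕ => ((Nat.factorial n : ℕ) : ℂ)⁻¹ •
      (iteratedFDeriv ℂ n g (φ x)) fun _ => y - φ x) = fun _ => 0 := by
    funext n
    rw [cr_iter hU φ hφ hφO hspan n g hg h0 x hx]
    simp
  rw [hz] at hs
  have := hs.unique hasSum_zero
  simpa using this

end Abstract

variable {n : ℕ} {M : Type} [TopologicalSpace M] {A : Atl n M}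

/-- identity theorem on `M × M`, `M` connected: a family of local holomorphic functions on `M × M`
with a chart independent zero set which vanishes on a non-empty open set vanishes. -/
theorem zero_of_open [PreconnectedSpace M] {Γ : Type*}
    (h : A.ι → A.ι → Γ → M → M → ℂ)
    (hol : ∀ i j c, DifferentiableOn ℂ
      (fun p : Cn n × Cn n => h i j c ((A.e i).symm p.1) ((A.e j).symm p.2))
      ((A.e i).target ×ˢ (A.e j).target))
    (cc : ∀ i i' j j' x y, x ∈ (A.e i).source → x ∈ (A.e i').source → y ∈ (A.e j).source →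
      y ∈ (A.e j').source → (∀ c, h i j c x y = 0) → ∀ c, h i' j' c x y = 0)
    (W : Set (M × M)) (hW : IsOpen W) (hne : W.Nonempty)
    (hz : ∀ q ∈ W, ∃ i j, q.1 ∈ (A.e i).source ∧ q.2 ∈ (A.e j).source ∧
      ∀ c, h i j c q.1 q.2 = 0) :
    ∀ x y i j c, x ∈ (A.e i).source → y ∈ (A.e j).source → h i j c x y = 0 := by
  classical
  let V : Set (M × M) := {p | ∀ i j c, p.1 ∈ (A.e i).source → p.2 ∈ (A.e j).source →
    h i j c p.1 p.2 = 0}
  have hVmem : ∀ x y i j, x ∈ (A.e i).source → y ∈ (A.e j).source → (∀ c, h i j c x y = 0) →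
      (x, y) ∈ V := by
    intro x y i j hx hy h0 i' j' c hx' hy'
    exact cc i i' j j' x y hx hx' hy hy' h0 c
  have step1 : (interior V).Nonempty := by
    obtain ⟨q, hq⟩ := hne
    refine ⟨q, mem_interior.2 ⟨W, ?_, hW, hq⟩⟩
    rintro ⟨x, y⟩ hxy
    obtain ⟨i, j, hi, hj, h0⟩ := hz _ hxy
    exact hVmem x y i j hi hj h0
  have step2 : IsClosed (interior V) := by
    rw [← closure_subset_iff_isClosed]
    rintro ⟨x, y⟩ hxy
    obtain ⟨i, hi⟩ := A.cover x
    obtain ⟨j, hj⟩ := A.cover y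
    obtain ⟨ε, hε, hεb⟩ := Metric.isOpen_iff.1 (A.e i).open_target _ ((A.e i).map_source hi)
    obtain ⟨δ, hδ, hδb⟩ := Metric.isOpen_iff.1 (A.e j).open_target _ ((A.e j).map_source hj)
    let N : Set (M × M) := ((A.e i).source ∩ (A.e i) ⁻¹' ball (A.e i x) ε) ×ˢ
      ((A.e j).source ∩ (A.e j) ⁻¹' ball (A.e j y) δ)
    have hN : IsOpen N :=
      ((A.e i).isOpen_inter_preimage isOpen_ball).prod ((A.e j).isOpen_inter_preimage isOpen_ball)
    have hxyN : (x, y) ∈ N := ⟨⟨hi, mem_ball_self hε⟩, ⟨hj, mem_ball_self hδ⟩⟩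
    obtain ⟨⟨x', y'⟩, hN', hV'⟩ := mem_closure_iff.1 hxy N hN hxyN
    have hNV : N ⊆ V := by
      rintro ⟨s, t⟩ ⟨⟨hs1, hs2⟩, ⟨ht1, ht2⟩⟩
      simp only [mem_preimage] at hs2 ht2
      apply hVmem s t i j hs1 ht1
      intro c
      let U : Set (Cn n × Cn n) := ball (A.e i x) ε ×ˢ ball (A.e j y) δ
      have hUo : IsOpen U := isOpen_ball.prod isOpen_ball
      have hUc : Convex ℝ U := (convex_ball _ _).prod (convex_ball _ _)
      have hUs : U ⊆ (A.e i).target ×ˢ (A.e j).target := prod_mono hεb hδb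
      let T : Set (Cn n × Cn n) := U ∩ (fun p => ((A.e i).symm p.1, (A.e j).symm p.2)) ⁻¹'
        interior V
      have hT : IsOpen T := by
        apply ContinuousOn.isOpen_inter_preimage _ hUo isOpen_interior
        apply ContinuousOn.prodMk
        · exact ((A.e i).continuousOn_symm).comp continuousOn_fst (fun p hp => hεb hp.1)
        · exact ((A.e j).continuousOn_symm).comp continuousOn_snd (fun p hp => hδb hp.2)
      have hTne : (T ∩ U).Nonempty := by
        refine ⟨(A.e i x', A.e j y'), ⟨⟨hN'.1.2, hN'.2.2⟩, ?_⟩, ⟨hN'.1.2, hN'.2.2⟩⟩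
        simp only [mem_preimage]
        rw [(A.e i).left_inv hN'.1.1, (A.e j).left_inv hN'.2.1]
        exact hV'
      have hzero := convex_zero hUo hUc _ ((hol i j c).mono hUs) hT hTne (by
        rintro ⟨p1, p2⟩ ⟨⟨hp, hpV⟩, -⟩
        have := interior_subset hpV
        exact this i j c ((A.e i).map_target (hεb hp.1)) ((A.e j).map_target (hδb hp.2)))
        (A.e i s, A.e j t) ⟨hs2, ht2⟩
      simp only at hzero
      rwa [(A.e i).left_inv hs1, (A.e j).left_inv ht1] at hzero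
    exact mem_interior.2 ⟨N, hNV, hN, hxyN⟩
  have hclopen : IsClopen (interior V) := ⟨step2, isOpen_interior⟩
  have huniv : interior V = univ := IsClopen.eq_univ hclopen step1
  intro x y i j c hx hy
  have : (x, y) ∈ interior V := by rw [huniv]; trivial
  exact interior_subset this i j c hx hy

/-- **(P1), CR-generic form**: `(φ₁, φ₂) : U → M × M` real differentiable, the complex span of the
image of its differential is everything (in the charts, at every point): a family of local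
holomorphic functions on `M × M` vanishing on the image vanishes on `M × M`. -/
theorem cr_manifold [PreconnectedSpace M] {Γ : Type*}
    (h : A.ι → A.ι → Γ → M → M → ℂ)
    (hol : ∀ i j c, DifferentiableOn ℂ
      (fun p : Cn n × Cn n => h i j c ((A.e i).symm p.1) ((A.e j).symm p.2))
      ((A.e i).target ×ˢ (A.e j).target))
    (cc : ∀ i i' j j' x y, x ∈ (A.e i).source → x ∈ (A.e i').source → y ∈ (A.e j).source →
      y ∈ (A.e j').source → (∀ c, h i j c x y = 0) → ∀ c, h i' j' c x y = 0)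
    {V : Type} [NormedAddCommGroup V] [NormedSpace ℝ V] (U : Set V) (hU : IsOpen U)
    (hne : U.Nonempty) (φ₁ φ₂ : V → M) (hφ₁ : ContinuousOn φ₁ U) (hφ₂ : ContinuousOn φ₂ U)
    (hd : ∀ x ∈ U, ∀ i j, φ₁ x ∈ (A.e i).source → φ₂ x ∈ (A.e j).source →
      DifferentiableAt ℝ (fun y => (A.e i (φ₁ y), A.e j (φ₂ y))) x ∧
      Submodule.span ℂ (Set.range (fderiv ℝ (fun y => (A.e i (φ₁ y), A.e j (φ₂ y))) x)) = ⊤)
    (hz : ∀ x ∈ U, ∀ i j c, φ₁ x ∈ (A.e i).source → φ₂ x ∈ (A.e j).source →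
      h i j c (φ₁ x) (φ₂ x) = 0) :
    ∀ x y i j c, x ∈ (A.e i).source → y ∈ (A.e j).source → h i j c x y = 0 := by
  classical
  obtain ⟨x0, hx0⟩ := hne
  obtain ⟨i, hi⟩ := A.cover (φ₁ x0)
  obtain ⟨j, hj⟩ := A.cover (φ₂ x0)
  let U' : Set V := (U ∩ φ₁ ⁻¹' (A.e i).source) ∩ (U ∩ φ₂ ⁻¹' (A.e j).source)
  have hU' : IsOpen U' := (hφ₁.isOpen_inter_preimage hU (A.e i).open_source).inter
    (hφ₂.isOpen_inter_preimage hU (A.e j).open_source)
  have hx0' : x0 ∈ U' := ⟨⟨hx0, hi⟩, ⟨hx0, hj⟩⟩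
  let O : Set (Cn n × Cn n) := (A.e i).target ×ˢ (A.e j).target
  have hO : IsOpen O := (A.e i).open_target.prod (A.e j).open_target
  let φ : V → Cn n × Cn n := fun y => (A.e i (φ₁ y), A.e j (φ₂ y))
  let g : Cn n × Cn n → Γ → ℂ := fun p c => h i j c ((A.e i).symm p.1) ((A.e j).symm p.2)
  have hg : ∀ c, AnalyticOnNhd ℂ (fun p => g p c) O := fun c =>
    Crest.Agent.R266.SCV.analyticOnNhd_of_differentiableOn hO (hol i j c)
  have hev : ∀ c, (fun p => g p c) =ᶠ[𝓝 (φ x0)] 0 := by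
    intro c
    refine cr_zero (O := O) hU' φ (fun x hx => (hd x hx.1.1 i j hx.1.2 hx.2.2).1)
      (fun x hx => ⟨(A.e i).map_source hx.1.2, (A.e j).map_source hx.2.2⟩)
      (fun x hx => (hd x hx.1.1 i j hx.1.2 hx.2.2).2) _ (hg c) ?_ x0 hx0'
    intro x hx
    simp only [g, φ]
    rw [(A.e i).left_inv hx.1.2, (A.e j).left_inv hx.2.2]
    exact hz x hx.1.1 i j c hx.1.2 hx.2.2
  -- a convex neighbourhood on which all the functions vanish
  have hφO : φ x0 ∈ O := ⟨(A.e i).map_source hi, (A.e j).map_source hj⟩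
  obtain ⟨r, hr, hball⟩ := Metric.isOpen_iff.1 hO _ hφO
  have hzb : ∀ c, ∀ p ∈ ball (φ x0) r, g p c = 0 := by
    intro c
    obtain ⟨s, hs, hsb⟩ := Metric.eventually_nhds_iff_ball.1 (hev c)
    exact convex_zero isOpen_ball (convex_ball _ _) (fun p => g p c) ((hol i j c).mono hball)
      (isOpen_ball (x := φ x0) (ε := s)) ⟨φ x0, mem_ball_self hs, mem_ball_self hr⟩
      (fun p hp => hsb p hp.1)
  let W : Set (M × M) := ((A.e i).source ×ˢ (A.e j).source) ∩
    (fun q : M × M => (A.e i q.1, A.e j q.2)) ⁻¹' ball (φ x0) r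
  have hW : IsOpen W := by
    apply ContinuousOn.isOpen_inter_preimage _ ((A.e i).open_source.prod (A.e j).open_source)
      isOpen_ball
    apply ContinuousOn.prodMk
    · exact ((A.e i).continuousOn).comp continuousOn_fst (fun p hp => hp.1)
    · exact ((A.e j).continuousOn).comp continuousOn_snd (fun p hp => hp.2)
  refine zero_of_open h hol cc W hW ⟨(φ₁ x0, φ₂ x0), ⟨hi, hj⟩, mem_ball_self hr⟩ ?_
  rintro ⟨x, y⟩ ⟨⟨hx, hy⟩, hxy⟩
  refine ⟨i, j, hx, hy, fun c => ?_⟩
  have := hzb c _ hxy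
  simp only [g] at this
  rwa [(A.e i).left_inv hx, (A.e j).left_inv hy] at this

end Crest.Agent.R260.Pair_764
end

-- ▼ part R260/End1_919
section

/-!
# Row 260 (S0398), END-2PT part 1 (helper919): two-variable calculus, algebra, `K = 0` on the
diagonal
-/

set_option autoImplicit false
open scoped ContDiff Topology
open Crest.GeometryTopology.CoordMetric Crest.GeometryTopology.ChartRiem
open Crest.Agent.R260.QKk_838 Crest.Agent.R260.QKm_838

namespace Crest.Agent.R260.End_919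

variable {n : ℕ}

section calc2

variable {U : Set (EuclideanSpace ℝ (Fin n))}
  {f : EuclideanSpace ℝ (Fin n) → EuclideanSpace ℝ (Fin n) → ℝ}

/-- the joint function. -/
abbrev unc (f : EuclideanSpace ℝ (Fin n) → EuclideanSpace ℝ (Fin n) → ℝ) :
    EuclideanSpace ℝ (Fin n) × EuclideanSpace ℝ (Fin n) → ℝ := fun z => f z.1 z.2

/-- jointly smooth on `U × U`. -/
def S2 (U : Set (EuclideanSpace ℝ (Fin n)))
    (f : EuclideanSpace ℝ (Fin n) → EuclideanSpace ℝ (Fin n) → ℝ) : Prop :=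
  ContDiffOn ℝ ∞ (unc f) (U ×ˢ U)

theorem S2.at (hU : IsOpen U) (hf : S2 U f) {x y : EuclideanSpace ℝ (Fin n)} (hx : x ∈ U)
    (hy : y ∈ U) : ContDiffAt ℝ ∞ (unc f) (x, y) :=
  (hf (x, y) ⟨hx, hy⟩).contDiffAt ((hU.prod hU).mem_nhds ⟨hx, hy⟩)

theorem S2.diffAt (hU : IsOpen U) (hf : S2 U f) {x y : EuclideanSpace ℝ (Fin n)} (hx : x ∈ U)
    (hy : y ∈ U) : DifferentiableAt ℝ (unc f) (x, y) :=
  (hf.at hU hx hy).differentiableAt (by simp)

theorem has1 (x y : EuclideanSpace ℝ (Fin n)) :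
    HasFDerivAt (fun x' : EuclideanSpace ℝ (Fin n) => (x', y))
      (ContinuousLinearMap.inl ℝ (EuclideanSpace ℝ (Fin n)) (EuclideanSpace ℝ (Fin n))) x := by
  exact hasFDerivAt_prodMk_left x y

theorem has2 (x y : EuclideanSpace ℝ (Fin n)) :
    HasFDerivAt (fun y' : EuclideanSpace ℝ (Fin n) => (x, y'))
      (ContinuousLinearMap.inr ℝ (EuclideanSpace ℝ (Fin n)) (EuclideanSpace ℝ (Fin n))) y := by
  exact hasFDerivAt_prodMk_right x y

theorem pd1_eq (hU : IsOpen U) (hf : S2 U f) {x y : EuclideanSpace ℝ (Fin n)} (hx : x ∈ U)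
    (hy : y ∈ U) (i : Fin n) : pderiv i (fun x' => f x' y) x
      = fderiv ℝ (unc f) (x, y) (EuclideanSpace.single i 1, 0) := by
  unfold pderiv
  have h := ((hf.diffAt hU hx hy).hasFDerivAt).comp x (has1 x y)
  have e : (fun x' => f x' y) = unc f ∘ (fun x' => (x', y)) := rfl
  rw [e, h.fderiv]; simp

theorem pd2_eq (hU : IsOpen U) (hf : S2 U f) {x y : EuclideanSpace ℝ (Fin n)} (hx : x ∈ U)
    (hy : y ∈ U) (i : Fin n) : pderiv i (fun y' => f x y') y
      = fderiv ℝ (unc f) (x, y) (0, EuclideanSpace.single i 1) := by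
  unfold pderiv
  have h := ((hf.diffAt hU hx hy).hasFDerivAt).comp y (has2 x y)
  have e : (fun y' => f x y') = unc f ∘ (fun y' => (x, y')) := rfl
  rw [e, h.fderiv]; simp

theorem S2_dir (hU : IsOpen U) (hf : S2 U f)
    (v : EuclideanSpace ℝ (Fin n) × EuclideanSpace ℝ (Fin n)) :
    ContDiffOn ℝ ∞ (fun z => fderiv ℝ (unc f) z v) (U ×ˢ U) := by
  have h : ContDiffOn ℝ ∞ (fderiv ℝ (unc f)) (U ×ˢ U) :=
    ContDiffOn.fderiv_of_isOpen hf (hU.prod hU) (by simp)
  exact h.clm_apply contDiffOn_const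

theorem S2.d1 (hU : IsOpen U) (hf : S2 U f) (i : Fin n) :
    S2 U (fun x y => pderiv i (fun x' => f x' y) x) :=
  (S2_dir hU hf (EuclideanSpace.single i 1, 0)).congr fun z hz => by
    simp only [unc]; exact pd1_eq hU hf hz.1 hz.2 i

theorem S2.d2 (hU : IsOpen U) (hf : S2 U f) (i : Fin n) :
    S2 U (fun x y => pderiv i (fun y' => f x y') y) :=
  (S2_dir hU hf (0, EuclideanSpace.single i 1)).congr fun z hz => by
    simp only [unc]; exact pd2_eq hU hf hz.1 hz.2 i



theorem S2.sm1 (hf : S2 U f) {y : EuclideanSpace ℝ (Fin n)} (hy : y ∈ U) :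
    ContDiffOn ℝ ∞ (fun x => f x y) U :=
  ContDiffOn.comp (g := unc f) hf (contDiff_id.prodMk contDiff_const).contDiffOn
    (fun _ hy' => ⟨hy', hy⟩)


theorem S2.mul {h : EuclideanSpace ℝ (Fin n) → EuclideanSpace ℝ (Fin n) → ℝ} (hf : S2 U f)
    (hh : S2 U h) : S2 U (fun x y => f x y * h x y) := ContDiffOn.mul hf hh

theorem S2.add {h : EuclideanSpace ℝ (Fin n) → EuclideanSpace ℝ (Fin n) → ℝ} (hf : S2 U f)
    (hh : S2 U h) : S2 U (fun x y => f x y + h x y) := ContDiffOn.add hf hh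

theorem S2.neg (hf : S2 U f) : S2 U (fun x y => -f x y) := ContDiffOn.neg hf

theorem S2.sum {ι : Type*} {s : Finset ι}
    {h : ι → EuclideanSpace ℝ (Fin n) → EuclideanSpace ℝ (Fin n) → ℝ}
    (hh : ∀ i ∈ s, S2 U (h i)) : S2 U (fun x y => ∑ i ∈ s, h i x y) :=
  ContDiffOn.sum (f := fun i => unc (h i)) hh



end calc2

/-! ## quaternionic algebra -/


end Crest.Agent.R260.End_919
end

-- ▼ part R260/End2_919
section

/-!
# Row 260 (S0398), END-2PT part 2 (helper919): the main computation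

`end2pt`: at every point `x ∈ U` the vector field `K_a(x, ·)` satisfies the twistor equation,
vanishes at `x` and `∇K_a + (lam/2) J_a = 0` at `x`.
-/

set_option autoImplicit false
open scoped ContDiff Topology
open Crest.GeometryTopology.CoordMetric Crest.GeometryTopology.ChartRiem
open Crest.Agent.R260.QKk_838 Crest.Agent.R260.QKm_838

namespace Crest.Agent.R260.End_919

variable {n : ℕ} {g : MetricField n} {U : Set (EuclideanSpace ℝ (Fin n))}
  {J : Fin 3 → EuclideanSpace ℝ (Fin n) → Matrix (Fin n) (Fin n) ℝ}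
  {c : EuclideanSpace ℝ (Fin n) → Fin n → Fin 3 → Fin 3 → ℝ} {lam : ℝ}
  {G : Fin 3 → Fin 3 → EuclideanSpace ℝ (Fin n) → EuclideanSpace ℝ (Fin n) → ℝ}











/-- the swapped tensor. -/
abbrev sw (G : Fin 3 → Fin 3 → EuclideanSpace ℝ (Fin n) → EuclideanSpace ℝ (Fin n) → ℝ) :
    Fin 3 → Fin 3 → EuclideanSpace ℝ (Fin n) → EuclideanSpace ℝ (Fin n) → ℝ :=
  fun a b x y => G b a y x









end Crest.Agent.R260.End_919
end

-- ▼ part R260/MainDefs_803
section

/-!
# Row 260 (S0398), MAIN (helper803): the frozen interfaces algebra ↔ analysis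

`n = dim M = 4m`, `E = EuclideanSpace ℝ (Fin n)`; `D : CData ℂ I Jt` = the contact manifold `Z` in
tuple language over `ℂ`; `VF` = "very free" (predicate on tuples of class `2β`).

* `AGOut D VF`          : output of the algebraic side (600's AG-FINAL).
* `TwFam`, `TwAlg`      : the twistor lines over one chart of `M` as polynomial tuples.
* `OutP`                : (516) `TwAlg + AGOut ⟹ TwoPt` near a dense set of points.
-/

set_option autoImplicit false
set_option linter.unusedSectionVars false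

open Set Filter Topology Polynomial
open scoped ContDiff Matrix
open Crest.GeometryTopology.CoordMetric Crest.GeometryTopology.ChartRiem
open Crest.Agent.R270.BM_360 Crest.Agent.R260.Lin_678 Crest.Agent.R260.TwPen_389
open Crest.Agent.R260.Tw_979 Crest.Agent.R260.Out_516

noncomputable section

namespace Crest.Agent.R260.Main_803

/-! ### tuples over `ℂ` -/

section Tup

variable {I : Type} {J : I → Type}

/-- a family of vectors as one vector -/
def unc {A : Type*} (v : ∀ i, J i → A) : (Σ i, J i) → A := fun x => v x.1 x.2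

/-- the value of a tuple at a point of the affine line -/
def evT {A : Type*} [CommRing A] (F : ∀ i, J i → A[X]) (s : A) : ∀ i, J i → A :=
  fun i a => (F i a).eval s

/-- coefficientwise derivative -/
def derT {A : Type*} [CommRing A] (F : ∀ i, J i → A[X]) : ∀ i, J i → A[X] :=
  fun i a => derivative (F i a)

/-- rescaling of the blocks -/
def scT {A : Type*} [CommRing A] (a : I → A) (v : ∀ i, J i → A) : ∀ i, J i → A :=
  fun i j => a i * v i j

/-- points of the multicone with all blocks non-zero -/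
structure Pt (E : Set (MvPolynomial (Σ i, J i) ℂ)) (v : ∀ i, J i → ℂ) : Prop where
  on : OnX E v
  ne : ∀ i, v i ≠ 0

/-- value of a polynomial on a pair of points -/
def val2 (Δ : MvPolynomial ((Σ i, J i) ⊕ (Σ i, J i)) ℂ) (v v' : ∀ i, J i → ℂ) : ℂ :=
  MvPolynomial.aeval (Sum.elim (unc v) (unc v')) Δ

open Classical in
/-- bihomogeneous polynomials on pairs of points -/
def BHom (Δ : MvPolynomial ((Σ i, J i) ⊕ (Σ i, J i)) ℂ) : Prop :=
  ∃ d : I ⊕ I → ℕ, MvPolynomial.IsWeightedHomogeneous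
    (fun x : (Σ i, J i) ⊕ (Σ i, J i) => (Pi.single (Sum.map Sigma.fst Sigma.fst x) 1 : I ⊕ I → ℕ)) Δ d

end Tup

section AG

variable {I : Type} {J : I → Type} [Fintype I] [∀ i, Fintype (J i)]

/-- **Output of the algebraic side.** `P(v, v'; T)` = the polynomial with root
`Φ(v, v') = c²` for every tuple of class `2β` with leading vector `v`, constant vector `v'` and
contact constant `c ≠ 0`. -/
structure AGOut (D : CData ℂ I J) (VF : (∀ i, J i → ℂ[X]) → Prop) where
  P : Polynomial (MvPolynomial ((Σ i, J i) ⊕ (Σ i, J i)) ℂ)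
  Δ : MvPolynomial ((Σ i, J i) ⊕ (Σ i, J i)) ℂ
  /-- `P(a v, b v'; a^w b^w T)` is a monomial times `P(v, v'; T)` -/
  homP : ∃ dl dr : I → ℤ, ∀ (a b : I → ℂ), (∀ i, a i ≠ 0) → (∀ i, b i ≠ 0) →
    ∀ (v v' : ∀ i, J i → ℂ) (t : ℂ),
    (evP P (unc (scT a v), unc (scT b v'))).eval
        ((∏ i, a i ^ D.w i) * (∏ i, b i ^ D.w i) * t) =
      (∏ i, a i ^ dl i) * (∏ i, b i ^ dr i) * (evP P (unc v, unc v')).eval t
  homΔ : BHom Δ
  ne : ∃ v v', Pt D.E v ∧ Pt D.E v' ∧ val2 Δ v v' ≠ 0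
  root : ∀ F : ∀ i, J i → ℂ[X], IsMap D.E F → cls F = 2 • D.β →
    ∀ c : ℂ, c ≠ 0 → D.th.Val F (derT F) (C c) →
    val2 Δ (fun i a => (F i a).coeff (2 * D.β i)) (evT F 0) ≠ 0 →
    (evP P (unc (fun i a => (F i a).coeff (2 * D.β i)), unc (evT F 0))).eval (c ^ 2) = 0
  simple : ∀ v v', Pt D.E v → Pt D.E v' → val2 Δ v v' ≠ 0 → ∀ t,
    (evP P (unc v, unc v')).eval t = 0 → (evP P (unc v, unc v')).derivative.eval t ≠ 0
  quadR : ∀ v, Pt D.E v → ∀ H : ∀ i, J i → ℂ[X], IsMap D.E H → cls H = 2 • D.β → VF H →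
    (∃ u, val2 Δ v (evT H u) ≠ 0) →
    ∀ V : Set ℂ, IsOpen V → IsPreconnected V → V.Nonempty → ∀ f : ℂ → ℂ, DifferentiableOn ℂ f V →
    (∀ u ∈ V, (evP P (unc v, unc (evT H u))).eval (f u) = 0) →
    ∃ q : ℂ[X], q.natDegree ≤ 2 ∧ ∀ u ∈ V, f u = q.eval u
  quadL : ∀ v, Pt D.E v → ∀ H : ∀ i, J i → ℂ[X], IsMap D.E H → cls H = 2 • D.β → VF H →
    (∃ u, val2 Δ (evT H u) v ≠ 0) →
    ∀ V : Set ℂ, IsOpen V → IsPreconnected V → V.Nonempty → ∀ f : ℂ → ℂ, DifferentiableOn ℂ f V →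
    (∀ u ∈ V, (evP P (unc (evT H u), unc v)).eval (f u) = 0) →
    ∃ q : ℂ[X], q.natDegree ≤ 2 ∧ ∀ u ∈ V, f u = q.eval u

end AG

/-! ### the twistor lines over one chart of `M` -/

section Tw

variable {n : ℕ}

/-- (45) horizontal derivative of a section of `L ^ k` -/
def horK (c : EuclideanSpace ℝ (Fin n) → Fin n → Fin 3 → Fin 3 → ℝ) (k : ℂ)
    (f : EuclideanSpace ℝ (Fin n) → ℂ → ℂ) (x : EuclideanSpace ℝ (Fin n)) (w : ℂ) (i : Fin n) : ℂ :=
  cpd i (fun y => f y w) x - mu (c x i) w * deriv (f x) w - k * lam (c x i) w * f x w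

variable {I : Type} {Jt : I → Type} [Fintype I] [∀ i, Fintype (Jt i)]

/-- (45) the smooth family of twistor tuples over the open set `U` of a chart -/
structure TwFam (J : Fin 3 → EuclideanSpace ℝ (Fin n) → Matrix (Fin n) (Fin n) ℝ)
    (c : EuclideanSpace ℝ (Fin n) → Fin n → Fin 3 → Fin 3 → ℝ)
    (U : Set (EuclideanSpace ℝ (Fin n))) (E : Set (MvPolynomial (Σ i, Jt i) ℂ)) (β : I → ℕ)
    (F : EuclideanSpace ℝ (Fin n) → ∀ i, Jt i → ℂ[X]) : Prop where
  map : ∀ x ∈ U, IsMap E (F x)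
  cls : ∀ x ∈ U, cls (F x) = 2 • β
  sm : ∀ i a k, ContDiffOn ℝ ∞ (fun x => (F x i a).coeff k) U
  hol : ∀ x ∈ U, ∀ w j i a,
    ∑ l, Nq (fun a => cm (J a x)) (nn w) l j *
      horK c (β i) (fun y w => (F y i a).eval w) x w l = 0

/-- **The twistor lines over one chart**, everything the step OUT consumes. -/
structure TwAlg (J : Fin 3 → EuclideanSpace ℝ (Fin n) → Matrix (Fin n) (Fin n) ℝ)
    (c : EuclideanSpace ℝ (Fin n) → Fin n → Fin 3 → Fin 3 → ℝ)
    (U : Set (EuclideanSpace ℝ (Fin n))) (D : CData ℂ I Jt) (VF : (∀ i, Jt i → ℂ[X]) → Prop)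
    (F : EuclideanSpace ℝ (Fin n) → ∀ i, Jt i → ℂ[X]) : Prop where
  fam : TwFam J c U D.E D.β F
  /-- the contact constant of the twistor lines is a constant -/
  con : ∃ κ : ℂ, κ ≠ 0 ∧ ∀ x ∈ U, D.th.Val (F x) (derT (F x)) (C κ)
  vf : ∀ x ∈ U, VF (F x)
  /-- the pairs of points on a common twistor line are dense enough -/
  gen : ∀ Δ, BHom Δ → (∃ v v', Pt D.E v ∧ Pt D.E v' ∧ val2 Δ v v' ≠ 0) →
    ∀ V ⊆ U, IsOpen V → V.Nonempty →
    ∃ x ∈ V, ∃ s t : ℂ, s ≠ t ∧ val2 Δ (evT (F x) s) (evT (F x) t) ≠ 0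


end Tw

end Crest.Agent.R260.Main_803
end
end

-- ▼ part R260/Gen_764
section

/-!
# R260 (S0398): producer of `TwAlg.gen` (helper764)

`span_top`   : `L₁, L₂ : E × ℂ → W` complex linear for `J_Z` at `(x, s)`, `(x, t)`, `s ≠ t`:
               the complex span of the vectors `(L₁ (X, a), L₂ (X, b))` is everything.
`gen_of_acm` : `Z` connected, `C : ACM (E × ℂ) Z` with `J = JZ Jo Th` over `U` in the real chart `k`,
               `A : Atl d Z` compatible with `C`, tuples `F x` over `x ∈ U` : pairs of points of the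
               twistor lines are not contained in a proper closed algebraic subset of `Z × Z`.
-/

set_option autoImplicit false

open Set Filter Topology Complex
open scoped ComplexConjugate

namespace Crest.Agent.R260.Pair_764

open Crest.Agent.R275.Geo Crest.Agent.R275.Core144 Crest.Agent.R260.ACM_580
  Crest.Agent.R260.NNB_580 Crest.Agent.R260.Tw_979 Crest.Agent.R260.Main_803

/-! ### linear algebra -/

/-- two complex linear maps for two almost complex structures which differ on the base -/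
theorem span_top {E W₁ W₂ : Type*} [NormedAddCommGroup E] [NormedSpace ℝ E]
    [NormedAddCommGroup W₁] [NormedSpace ℂ W₁] [NormedAddCommGroup W₂] [NormedSpace ℂ W₂]
    (L₁ : E × ℂ →L[ℝ] W₁) (L₂ : E × ℂ →L[ℝ] W₂) (J₁ J₂ : E × ℂ →L[ℝ] E × ℂ)
    (I₁ I₂ : E →L[ℝ] E) (h₁ : ∀ v, L₁ (J₁ v) = I • L₁ v) (h₂ : ∀ v, L₂ (J₂ v) = I • L₂ v)
    (s₁ : Function.Surjective L₁) (s₂ : Function.Surjective L₂)
    (f₁ : ∀ v, (J₁ v).1 = I₁ v.1) (f₂ : ∀ v, (J₂ v).1 = I₂ v.1)
    (hs : ∀ Y : E, ∃ X, I₂ X - I₁ X = Y) (S : Submodule ℂ (W₁ × W₂))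
    (hS : ∀ X a b, (L₁ (X, a), L₂ (X, b)) ∈ S) : S = ⊤ := by
  have v₁ : ∀ a : ℂ, (L₁ (0, a), (0 : W₂)) ∈ S := by
    intro a
    have h := hS 0 a 0
    have e : L₂ ((0 : E), (0 : ℂ)) = 0 := by
      have : ((0 : E), (0 : ℂ)) = 0 := rfl
      rw [this, map_zero]
    rwa [e] at h
  have v₂ : ∀ b : ℂ, ((0 : W₁), L₂ (0, b)) ∈ S := by
    intro b
    have h := hS 0 0 b
    have e : L₁ ((0 : E), (0 : ℂ)) = 0 := by
      have : ((0 : E), (0 : ℂ)) = 0 := rfl
      rw [this, map_zero]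
    rwa [e] at h
  have split₁ : ∀ (X : E) (a : ℂ), L₁ (X, a) = L₁ (X, 0) + L₁ (0, a) := by
    intro X a
    rw [← map_add]
    simp
  have split₂ : ∀ (X : E) (a : ℂ), L₂ (X, a) = L₂ (X, 0) + L₂ (0, a) := by
    intro X a
    rw [← map_add]
    simp
  -- second slot
  have w₂ : ∀ Y : E, ((0 : W₁), L₂ (Y, 0)) ∈ S := by
    intro Y
    obtain ⟨X, hX⟩ := hs Y
    have h1 : I • (L₁ (X, 0), L₂ (X, 0)) ∈ S := S.smul_mem I (hS X 0 0)
    have h2 : I • (L₁ (X, 0), L₂ (X, 0)) = (L₁ (J₁ (X, 0)), L₂ (J₂ (X, 0))) := by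
      rw [h₁, h₂]
      rfl
    rw [h2] at h1
    have e1 : J₁ (X, 0) = (I₁ X, (J₁ (X, 0)).2) := by
      ext1
      · exact f₁ (X, 0)
      · rfl
    have e2 : J₂ (X, 0) = (I₂ X, (J₂ (X, 0)).2) := by
      ext1
      · exact f₂ (X, 0)
      · rfl
    rw [e1, e2, split₁, split₂] at h1
    have h3 := S.sub_mem (S.sub_mem h1 (v₁ (J₁ (X, 0)).2)) (v₂ (J₂ (X, 0)).2)
    have h4 := S.sub_mem h3 (hS (I₁ X) 0 0)
    have e3 : L₂ (Y, 0) = L₂ (I₂ X, 0) - L₂ (I₁ X, 0) := by
      rw [← map_sub, ← hX]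
      simp
    convert h4 using 1
    ext1
    · simp
    · simp [e3]
  have w₁ : ∀ Y : E, (L₁ (Y, 0), (0 : W₂)) ∈ S := by
    intro Y
    have h := S.sub_mem (hS Y 0 0) (w₂ Y)
    simpa using h
  rw [eq_top_iff]
  rintro ⟨a, b⟩ -
  obtain ⟨⟨X, x⟩, rfl⟩ := s₁ a
  obtain ⟨⟨Y, y⟩, rfl⟩ := s₂ b
  rw [split₁, split₂]
  have h := S.add_mem (S.add_mem (w₁ X) (v₁ x)) (S.add_mem (w₂ Y) (v₂ y))
  simpa using h

/-- `I_t - I_s` is surjective for `s ≠ t` -/
theorem Iw_sub_surj {E : Type*} [NormedAddCommGroup E] [NormedSpace ℝ E]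
    (Jo : E → Fin 3 → (E →L[ℝ] E)) (x : E) (hQ : QT (Jo x)) {s t : ℂ} (hst : s ≠ t) (Y : E) :
    ∃ X, Iw Jo (x, t) X - Iw Jo (x, s) X = Y := by
  set δ : Fin 3 → ℝ := fun a => xx t a - xx s a with hδ
  have hne : δ 0 ^ 2 + δ 1 ^ 2 + δ 2 ^ 2 ≠ 0 := by
    intro h0
    have h1 : xx t = xx s := by
      funext a
      have h2 : δ 0 = 0 ∧ δ 1 = 0 ∧ δ 2 = 0 := by
        refine ⟨?_, ?_, ?_⟩ <;> nlinarith [sq_nonneg (δ 0), sq_nonneg (δ 1), sq_nonneg (δ 2)]
      have h3 : ∀ a, δ a = 0 := by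
        intro a
        fin_cases a
        · exact h2.1
        · exact h2.2.1
        · exact h2.2.2
      have := h3 a
      simp only [hδ] at this
      linarith
    apply hst
    rw [← st_xx s, ← st_xx t, h1]
  let Dl : E →L[ℝ] E := ∑ a, δ a • Jo x a
  have hDl : ∀ X, Iw Jo (x, t) X - Iw Jo (x, s) X = Dl X := by
    intro X
    simp only [Iw, Dl, hδ, Fin.sum_univ_three, _root_.add_apply, _root_.smul_apply]
    module
  have hsq : Dl * Dl = -(δ 0 ^ 2 + δ 1 ^ 2 + δ 2 ^ 2) • (1 : E →L[ℝ] E) := by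
    have e0 := hQ.sq 0
    have e1 := hQ.sq 1
    have e2 := hQ.sq 2
    have e01 := hQ.m01
    have e10 := hQ.m10
    have e12 := hQ.m12
    have e21 := hQ.m21
    have e20 := hQ.m20
    have e02 := hQ.m02
    simp only [Dl, Fin.sum_univ_three, add_mul, mul_add, smul_mul_assoc, mul_smul_comm, e0, e1, e2,
      e01, e10, e12, e21, e20, e02]
    module
  refine ⟨(-(δ 0 ^ 2 + δ 1 ^ 2 + δ 2 ^ 2))⁻¹ • Dl Y, ?_⟩
  rw [hDl, map_smul]
  have h5 : Dl (Dl Y) = -(δ 0 ^ 2 + δ 1 ^ 2 + δ 2 ^ 2) • Y := by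
    have := congrArg (fun T : E →L[ℝ] E => T Y) hsq
    simpa using this
  rw [h5, smul_smul, inv_mul_cancel₀ (neg_ne_zero.2 hne), one_smul]

/-! ### the differentials of the charts -/

theorem JCh.surj {V Z : Type} [NormedAddCommGroup V] [NormedSpace ℝ V] [TopologicalSpace Z]
    {C : ACM V Z} {d : ℕ} {φ : OpenPartialHomeomorph Z (EuclideanSpace ℂ (Fin d))} (h : JCh C φ)
    {i : C.ι} {z : V} (hz : z ∈ ovr C i φ) :
    Function.Surjective (fderiv ℝ (fun z => φ ((C.e i).symm z)) z) := by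
  intro u
  have hz' := JCh.swap' hz
  have h1 := h.inv_left hz' u
  rw [φ.left_inv hz.2, (C.e i).right_inv hz.1] at h1
  exact ⟨_, h1⟩

/-- **producer of `TwAlg.gen`** -/
theorem gen_of_acm {n d : ℕ} {Z : Type} [TopologicalSpace Z] [PreconnectedSpace Z]
    (C : ACM (EuclideanSpace ℝ (Fin n) × ℂ) Z) (A : Atl d Z) (hcp : Cp C A)
    {I : Type} {Jt : I → Type}
    (v : A.ι → Z → ∀ i, Jt i → ℂ) (hv : ∀ c i a, HolAt A c univ (fun x => v c x i a))
    (tr : ∀ c c', ∀ x ∈ (A.e c).source ∩ (A.e c').source, ∃ l : I → ℂ, v c x = scT l (v c' x))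
    (Eq : Set (MvPolynomial (Σ i, Jt i) ℂ))
    (hpt : ∀ a, Main_803.Pt Eq a → ∃ c x, x ∈ (A.e c).source ∧ ∃ l : I → ℂ, a = scT l (v c x))
    (k : C.ι) (Jo : EuclideanSpace ℝ (Fin n) → Fin 3 →
      (EuclideanSpace ℝ (Fin n) →L[ℝ] EuclideanSpace ℝ (Fin n)))
    (Th : EuclideanSpace ℝ (Fin n) → Fin 3 → (EuclideanSpace ℝ (Fin n) →L[ℝ] ℝ))
    (U : Set (EuclideanSpace ℝ (Fin n))) (hU : U ×ˢ univ ⊆ (C.e k).target)
    (hJ : ∀ y ∈ U, ∀ w, C.J k (y, w) = JZ Jo Th (y, w)) (hQ : ∀ y ∈ U, QT (Jo y))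
    (F : EuclideanSpace ℝ (Fin n) → ∀ i, Jt i → Polynomial ℂ)
    (hF : ∀ x ∈ U, ∀ w c, (C.e k).symm (x, w) ∈ (A.e c).source →
      ∃ l : I → ℂ, v c ((C.e k).symm (x, w)) = scT l (evT (F x) w)) :
    ∀ Δ : MvPolynomial ((Σ i, Jt i) ⊕ (Σ i, Jt i)) ℂ, BHom Δ →
      (∃ a b, Main_803.Pt Eq a ∧ Main_803.Pt Eq b ∧ val2 Δ a b ≠ 0) →
      ∀ V ⊆ U, IsOpen V → V.Nonempty →
        ∃ x ∈ V, ∃ s t : ℂ, s ≠ t ∧ val2 Δ (evT (F x) s) (evT (F x) t) ≠ 0 := by
  classical
  intro Δ hΔ hne V hVU hV hVne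
  obtain ⟨dd, hdd⟩ := hΔ
  by_contra hcon
  have hcon' : ∀ x ∈ V, ∀ s t : ℂ, s ≠ t → val2 Δ (evT (F x) s) (evT (F x) t) = 0 := by
    intro x hx s t hst
    by_contra h0
    exact hcon ⟨x, hx, s, t, hst, h0⟩
  -- scaling
  have hscale : ∀ (l m : I → ℂ) (a b : ∀ i, Jt i → ℂ), val2 Δ a b = 0 →
      val2 Δ (scT l a) (scT m b) = 0 := by
    intro l m a b h0
    have := scale_blocks (R := ℂ) (Sum.map Sigma.fst Sigma.fst) hdd (Sum.elim l m)
      (Sum.elim (unc a) (unc b)) h0
    have h2 : (fun x : (Σ i, Jt i) ⊕ (Σ i, Jt i) =>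
        Sum.elim l m (Sum.map Sigma.fst Sigma.fst x) * Sum.elim (unc a) (unc b) x) =
        Sum.elim (unc (scT l a)) (unc (scT m b)) := by
      funext x
      rcases x with x | x
      · simp [scT, unc]
      · simp [scT, unc]
    rw [h2] at this
    exact this
  obtain ⟨a, b, ha, hb, hab⟩ := hne
  obtain ⟨c, x, hx, l, rfl⟩ := hpt a ha
  obtain ⟨c', y, hy, m, rfl⟩ := hpt b hb
  apply hab
  apply hscale
  -- the CR-generic family
  have hv' : ∀ c i a, DifferentiableOn ℂ (fun z => v c ((A.e c).symm z) i a) (A.e c).target := by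
    intro c i a
    exact DifferentiableOn.mono (hv c i a) (fun z hz => ⟨hz, trivial⟩)
  let E := EuclideanSpace ℝ (Fin n)
  let O : Set (E × ℂ × ℂ) := {q | q.1 ∈ V ∧ q.2.1 ≠ q.2.2}
  have hO : IsOpen O := by
    apply IsOpen.inter
    · exact hV.preimage continuous_fst
    · exact isOpen_ne_fun (continuous_fst.comp continuous_snd) (continuous_snd.comp continuous_snd)
  have hOne : O.Nonempty := by
    obtain ⟨p, hp⟩ := hVne
    exact ⟨(p, 0, 1), hp, zero_ne_one⟩
  let ζ₁ : E × ℂ × ℂ → Z := fun q => (C.e k).symm (q.1, q.2.1)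
  let ζ₂ : E × ℂ × ℂ → Z := fun q => (C.e k).symm (q.1, q.2.2)
  have hm₁ : ∀ q ∈ O, (q.1, q.2.1) ∈ (C.e k).target := fun q hq => hU ⟨hVU hq.1, trivial⟩
  have hm₂ : ∀ q ∈ O, (q.1, q.2.2) ∈ (C.e k).target := fun q hq => hU ⟨hVU hq.1, trivial⟩
  let π₁ : E × ℂ × ℂ →L[ℝ] E × ℂ := (ContinuousLinearMap.fst ℝ E (ℂ × ℂ)).prod
    ((ContinuousLinearMap.fst ℝ ℂ ℂ).comp (ContinuousLinearMap.snd ℝ E (ℂ × ℂ)))
  let π₂ : E × ℂ × ℂ →L[ℝ] E × ℂ := (ContinuousLinearMap.fst ℝ E (ℂ × ℂ)).prod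
    ((ContinuousLinearMap.snd ℝ ℂ ℂ).comp (ContinuousLinearMap.snd ℝ E (ℂ × ℂ)))
  have hπ₁ : ∀ q, π₁ q = (q.1, q.2.1) := fun q => rfl
  have hπ₂ : ∀ q, π₂ q = (q.1, q.2.2) := fun q => rfl
  have key := cr_manifold (A := A) (Γ := Unit)
    (fun c c' _ x y => val2 Δ (v c x) (v c' y)) ?_ ?_ O hO hOne ζ₁ ζ₂ ?_ ?_ ?_ ?_ x y c c' ()
    hx hy
  · exact key
  · -- holomorphy
    intro c c' _
    refine aeval_differentiableOn (v := fun q : Cn d × Cn d =>
      Sum.elim (unc (v c ((A.e c).symm q.1))) (unc (v c' ((A.e c').symm q.2)))) ?_ Δ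
    rintro (t | t)
    · exact (hv' c t.1 t.2).comp differentiableOn_fst (fun q hq => hq.1)
    · exact (hv' c' t.1 t.2).comp differentiableOn_snd (fun q hq => hq.2)
  · -- chart independence
    intro i i' j j' x y hx hx' hy hy' h0 _
    obtain ⟨l, hl⟩ := tr i' i x ⟨hx', hx⟩
    obtain ⟨m, hm⟩ := tr j' j y ⟨hy', hy⟩
    show val2 Δ (v i' x) (v j' y) = 0
    rw [hl, hm]
    exact hscale _ _ _ _ (h0 ())
  · exact (C.e k).continuousOn_symm.comp π₁.continuous.continuousOn hm₁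
  · exact (C.e k).continuousOn_symm.comp π₂.continuous.continuousOn hm₂
  · -- CR-genericity
    intro q hq i j hi hj
    have hz₁ : (q.1, q.2.1) ∈ ovr C k (A.e i) := ⟨hm₁ q hq, hi⟩
    have hz₂ : (q.1, q.2.2) ∈ ovr C k (A.e j) := ⟨hm₂ q hq, hj⟩
    set L₁ := fderiv ℝ (fun z => A.e i ((C.e k).symm z)) (q.1, q.2.1) with hL₁
    set L₂ := fderiv ℝ (fun z => A.e j ((C.e k).symm z)) (q.1, q.2.2) with hL₂
    have hd₁ : HasFDerivAt (fun z => A.e i ((C.e k).symm z)) L₁ (π₁ q) :=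
      ((hcp i).diffAt hz₁).hasFDerivAt
    have hd₂ : HasFDerivAt (fun z => A.e j ((C.e k).symm z)) L₂ (π₂ q) :=
      ((hcp j).diffAt hz₂).hasFDerivAt
    have hG : HasFDerivAt (fun y => (A.e i (ζ₁ y), A.e j (ζ₂ y)))
        ((L₁.comp π₁).prod (L₂.comp π₂)) q :=
      (hd₁.comp q π₁.hasFDerivAt).prodMk (hd₂.comp q π₂.hasFDerivAt)
    refine ⟨hG.differentiableAt, ?_⟩
    rw [hG.fderiv]
    refine span_top L₁ L₂ (C.J k (q.1, q.2.1)) (C.J k (q.1, q.2.2)) (Iw Jo (q.1, q.2.1))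
      (Iw Jo (q.1, q.2.2)) ((hcp i).lin k _ hz₁) ((hcp j).lin k _ hz₂) (JCh.surj (hcp i) hz₁)
      (JCh.surj (hcp j) hz₂) ?_ ?_ ?_ _ ?_
    · intro u
      rw [hJ _ (hVU hq.1)]
      rfl
    · intro u
      rw [hJ _ (hVU hq.1)]
      rfl
    · exact fun Y => Iw_sub_surj Jo q.1 (hQ _ (hVU hq.1)) hq.2 Y
    · intro X a b
      apply Submodule.subset_span
      exact ⟨(X, a, b), rfl⟩
  · -- vanishing on the family
    intro q hq i j _ hi hj
    obtain ⟨l, hl⟩ := hF q.1 (hVU hq.1) q.2.1 i hi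
    obtain ⟨m, hm⟩ := hF q.1 (hVU hq.1) q.2.2 j hj
    show val2 Δ (v i (ζ₁ q)) (v j (ζ₂ q)) = 0
    rw [show v i (ζ₁ q) = scT l (evT (F q.1) q.2.1) from hl,
      show v j (ζ₂ q) = scT m (evT (F q.1) q.2.2) from hm]
    exact hscale _ _ _ _ (hcon' q.1 hq.1 _ _ hq.2)

end Crest.Agent.R260.Pair_764
end

-- ▼ part R260/Tup3_45
section

/-!
Row 260, leaf TUP (helper45), part 3: a smooth family of twistor tuples (`TwFam`) gives the input
`TwIn` of AG-OUT (helper516).

* `euler_of_hom` : Euler's identity for a function of weight `w` near a point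
* `TwFam.twIn`
-/

set_option autoImplicit false
set_option linter.unusedSectionVars false

open Complex Matrix Set Filter
open scoped ContDiff Topology
open Crest.GeometryTopology.CoordMetric Crest.GeometryTopology.ChartRiem
open Crest.Agent.R260.Tw_979 Crest.Agent.R260.TwPen_389 Crest.Agent.R260.Out_516
open Crest.Agent.R270.BM_360

noncomputable section

namespace Crest.Agent.R260.Tup_45

variable {n : ℕ} {I : Type} [Fintype I] {Jt : I → Type} [∀ i, Fintype (Jt i)]

/-- Euler's identity -/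
theorem euler_of_hom {β : I → ℕ} {w : I → ℤ} (hw : ∑ i, w i * (β i : ℤ) = 1) {Ψ : Pt Jt → ℂ}
    {v : Pt Jt} (hΨ : DifferentiableAt ℂ Ψ v)
    (hh : ∀ᶠ l in 𝓝 (1 : I → ℂ), Ψ (scl l v) = (∏ i, l i ^ w i) * Ψ v) :
    fderiv ℂ Ψ v (fun y => (β y.1 : ℂ) * v y) = Ψ v := by
  -- the curve `t ↦ exp (t β)`
  set l : ℂ → I → ℂ := fun t i => Complex.exp (t * β i) with hl
  have hl0 : l 0 = 1 := by funext i; simp [hl]
  have hlc : Continuous l := by
    refine continuous_pi fun i => ?_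
    exact Complex.continuous_exp.comp (continuous_id.mul continuous_const)
  have hev : ∀ᶠ t in 𝓝 (0 : ℂ), Ψ (scl (l t) v) = Complex.exp t * Ψ v := by
    have h1 : Tendsto l (𝓝 0) (𝓝 (1 : I → ℂ)) := by
      have := hlc.tendsto 0
      rwa [hl0] at this
    filter_upwards [h1.eventually hh] with t ht
    rw [ht]
    congr 1
    have h2 : ∀ i, l t i ^ w i = Complex.exp (t * ((w i * (β i : ℤ) : ℤ) : ℂ)) := by
      intro i
      simp only [hl]
      rw [← Complex.exp_int_mul]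
      congr 1
      push_cast
      ring
    rw [Finset.prod_congr rfl fun i _ => h2 i, ← Complex.exp_sum, ← Finset.mul_sum]
    congr 1
    have h3 : (∑ i, ((w i * (β i : ℤ) : ℤ) : ℂ)) = 1 := by
      rw [← Int.cast_sum, hw, Int.cast_one]
    rw [h3, mul_one]
  have hd1 : HasDerivAt (fun t => scl (l t) v) (fun y => (β y.1 : ℂ) * v y) 0 := by
    rw [hasDerivAt_pi]
    intro y
    have h1 : HasDerivAt (fun t : ℂ => Complex.exp (t * β y.1)) (β y.1 : ℂ) 0 := by
      have h2 : HasDerivAt (fun t : ℂ => t * (β y.1 : ℂ)) (β y.1 : ℂ) 0 := by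
        simpa using (hasDerivAt_id (0 : ℂ)).mul_const (β y.1 : ℂ)
      have h3 := h2.cexp
      simpa using h3
    exact h1.mul_const (v y)
  have h0 : scl (l 0) v = v := by
    funext y; simp [scl, hl0]
  have hd2 : HasDerivAt (fun t => Ψ (scl (l t) v)) (fderiv ℂ Ψ v (fun y => (β y.1 : ℂ) * v y)) 0 := by
    have h4 : HasFDerivAt Ψ (fderiv ℂ Ψ v) (scl (l 0) v) := by
      rw [h0]; exact hΨ.hasFDerivAt
    exact h4.comp_hasDerivAt 0 hd1
  have hd3 : HasDerivAt (fun t => Complex.exp t * Ψ v) (Ψ v) 0 := by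
    have := (Complex.hasDerivAt_exp 0).mul_const (Ψ v)
    simpa using this
  exact hd2.unique (hd3.congr_of_eventuallyEq hev)

variable {g : MetricField n} {J : Fin 3 → EuclideanSpace ℝ (Fin n) → Matrix (Fin n) (Fin n) ℝ}
  {c : EuclideanSpace ℝ (Fin n) → Fin n → Fin 3 → Fin 3 → ℝ}
  {U : Set (EuclideanSpace ℝ (Fin n))} {E : Set (MvPolynomial (Σ i, Jt i) ℂ)} {β : I → ℕ}
  {F : EuclideanSpace ℝ (Fin n) → ∀ i, Jt i → Polynomial ℂ}

theorem TwFam.deg (h : TwFam J c U E β F) {x : EuclideanSpace ℝ (Fin n)} (hx : x ∈ U) (i : I)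
    (a : Jt i) : (F x i a).natDegree ≤ 2 * β i := by
  have h1 : vdeg (F x i) = 2 * β i := congrFun (h.cls x hx) i
  rw [← h1]
  exact Finset.le_sup (f := fun a => (F x i a).natDegree) (Finset.mem_univ a)

theorem TwFam.evt_eq (h : TwFam J c U E β F) {x : EuclideanSpace ℝ (Fin n)} (hx : x ∈ U) (u : ℂ)
    (y : Σ i, Jt i) : evt (F x) u y =
      ∑ k ∈ Finset.range (2 * β y.1 + 1), (F x y.1 y.2).coeff k * u ^ k := by
  show (F x y.1 y.2).eval u = _
  exact Polynomial.eval_eq_sum_range' (Nat.lt_succ_of_le (h.deg hx y.1 y.2)) u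

theorem TwFam.smooth (h : TwFam J c U E β F) (y : Σ i, Jt i) :
    ContDiffOn ℝ ∞ (fun z : EuclideanSpace ℝ (Fin n) × ℂ => evt (F z.1) z.2 y) (U ×ˢ univ) := by
  have h1 : ContDiffOn ℝ ∞ (fun z : EuclideanSpace ℝ (Fin n) × ℂ =>
      ∑ k ∈ Finset.range (2 * β y.1 + 1), (F z.1 y.1 y.2).coeff k * z.2 ^ k) (U ×ˢ univ) := by
    refine ContDiffOn.sum fun k _ => ?_
    refine ContDiffOn.mul ?_ (contDiff_snd.pow k).contDiffOn
    exact (h.sm y.1 y.2 k).comp contDiff_fst.contDiffOn (fun z hz => hz.1)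
  exact h1.congr fun z hz => h.evt_eq hz.1 z.2 y

theorem TwFam.twIn (hq : QH g J c U) (h : TwFam J c U E β F) {w : I → ℤ}
    (hw : ∑ i, w i * (β i : ℤ) = 1) : TwIn g J c U w (fun x => evt (F x)) where
  qh := hq
  sm := h.smooth
  hol x _ y := (F x y.1 y.2).differentiable
  cr := by
    intro x hx u Ψ hΨ hh j
    have hΨd : DifferentiableAt ℂ Ψ (evt (F x) u) := hΨ.differentiableAt (by simp)
    set S : EuclideanSpace ℝ (Fin n) → ℂ → Pt Jt := fun x => evt (F x) with hS
    set D := fderiv ℂ Ψ (S x u) with hD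
    have hU := hq.isOpen
    -- derivative in the base direction
    have hsx : ∀ y, DifferentiableAt ℝ (fun z => S z u y) x := by
      intro y
      have h1 : ContDiffAt ℝ ∞ (fun z : EuclideanSpace ℝ (Fin n) × ℂ => evt (F z.1) z.2 y) (x, u) :=
        (h.smooth y).contDiffAt ((hU.prod isOpen_univ).mem_nhds ⟨hx, mem_univ _⟩)
      have h2 : DifferentiableAt ℝ (fun z : EuclideanSpace ℝ (Fin n) × ℂ => evt (F z.1) z.2 y)
        (x, u) := h1.differentiableAt (by simp)
      have h3 : DifferentiableAt ℝ (fun z : EuclideanSpace ℝ (Fin n) => (z, u)) x :=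
        differentiableAt_id.prodMk (differentiableAt_const u)
      exact DifferentiableAt.comp (g := fun z : EuclideanSpace ℝ (Fin n) × ℂ => evt (F z.1) z.2 y)
        x h2 h3
    have h1 : ∀ i, cpd i (fun z => Ψ (S z u)) x = D (fun y => cpd i (fun z => S z u y) x) := by
      intro i
      have h2 : HasFDerivAt (fun z => S z u)
          (ContinuousLinearMap.pi fun y => fderiv ℝ (fun z => S z u y) x) x := by
        rw [hasFDerivAt_pi]
        exact fun y => (hsx y).hasFDerivAt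
      have h3 := (hΨd.hasFDerivAt.restrictScalars ℝ).comp x h2
      unfold cpd
      have h4 : (fun z => Ψ (S z u)) = Ψ ∘ fun z => S z u := rfl
      rw [h4, h3.fderiv]
      rfl
    -- derivative in the fibre direction
    have h5 : deriv (fun v => Ψ (S x v)) u = D (fun y => deriv (fun v => S x v y) u) := by
      have h6 : HasDerivAt (fun v => S x v) (fun y => deriv (fun v => S x v y) u) u := by
        rw [hasDerivAt_pi]
        intro y
        exact ((F x y.1 y.2).differentiable u).hasDerivAt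
      have h7 : HasFDerivAt Ψ D (S x u) := hΨd.hasFDerivAt
      exact (h7.comp_hasDerivAt u h6).deriv
    have h8 : D (fun y => (β y.1 : ℂ) * S x u y) = Ψ (S x u) := euler_of_hom hw hΨd hh
    set N := Nq (fun a => cm (J a x)) (nn u) with hN
    have h9 : ∀ y, ∑ i, N i j * (cpd i (fun z => S z u y) x - mu (c x i) u *
        deriv (fun v => S x v y) u) =
        (∑ i, N i j * lam (c x i) u) * ((β y.1 : ℂ) * S x u y) := by
      intro y
      have h10 := h.hol x hx u y.1 y.2 j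
      unfold horK at h10
      have h11 : ∑ i, N i j * (cpd i (fun z => S z u y) x - mu (c x i) u *
          deriv (fun v => S x v y) u - (β y.1 : ℂ) * lam (c x i) u * S x u y) = 0 := h10
      have h12 : ∑ i, N i j * (cpd i (fun z => S z u y) x - mu (c x i) u *
          deriv (fun v => S x v y) u - (β y.1 : ℂ) * lam (c x i) u * S x u y) =
          ∑ i, N i j * (cpd i (fun z => S z u y) x - mu (c x i) u *
            deriv (fun v => S x v y) u) -
          (∑ i, N i j * lam (c x i) u) * ((β y.1 : ℂ) * S x u y) := by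
        rw [Finset.sum_mul, ← Finset.sum_sub_distrib]
        exact Finset.sum_congr rfl fun i _ => by ring
      rw [h12] at h11
      exact sub_eq_zero.1 h11
    -- conclusion
    have h13 : D (fun y => ∑ i, N i j * (cpd i (fun z => S z u y) x - mu (c x i) u *
        deriv (fun v => S x v y) u)) = (∑ i, N i j * lam (c x i) u) * Ψ (S x u) := by
      have e1 : (fun y => ∑ i, N i j * (cpd i (fun z => S z u y) x - mu (c x i) u *
          deriv (fun v => S x v y) u)) =
          (∑ i, N i j * lam (c x i) u) • (fun y => (β y.1 : ℂ) * S x u y) := by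
        funext y
        rw [h9 y]
        rfl
      rw [e1, map_smul, h8, smul_eq_mul]
    have h14 : (fun y => ∑ i, N i j * (cpd i (fun z => S z u y) x - mu (c x i) u *
        deriv (fun v => S x v y) u)) = ∑ i, N i j • ((fun y => cpd i (fun z => S z u y) x) -
          mu (c x i) u • (fun y => deriv (fun v => S x v y) u)) := by
      funext y
      rw [Finset.sum_apply]
      rfl
    rw [h14, map_sum] at h13
    have h15 : ∀ i, hor c (fun y v => Ψ (S y v)) x u i =
        D (fun y => cpd i (fun z => S z u y) x) - mu (c x i) u *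
          D (fun y => deriv (fun v => S x v y) u) - lam (c x i) u * Ψ (S x u) := by
      intro i
      unfold hor
      rw [h1 i]
      show _ - mu (c x i) u * deriv (fun v => Ψ (S x v)) u - _ = _
      rw [h5]
    rw [Finset.sum_congr rfl fun i _ => by rw [h15 i]]
    rw [← sub_eq_zero] at h13
    rw [← h13, Finset.sum_mul, ← Finset.sum_sub_distrib]
    refine Finset.sum_congr rfl fun i _ => ?_
    rw [map_smul, map_sub, map_smul]
    simp only [smul_eq_mul]
    ring


end Crest.Agent.R260.Tup_45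
end
end

-- ▼ part R260/MainG_803
section

/-!
# Row 260 (S0398), MAIN (helper803): the geometric side over one chart

`geoOut_of` : `GeoOut` over one chart of `M` from the output of the bridge (`Out`), the comparison
functions of `L` (`FLink`) and the description of the two charts of the twistor space (`TwCh`).
-/

set_option autoImplicit false
set_option linter.unusedSectionVars false

open Set Filter Topology Complex
open scoped ContDiff Matrix
open Crest.GeometryTopology.CoordMetric Crest.GeometryTopology.ChartRiem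
open Crest.Agent.R270.BM_360 Crest.Agent.R260.Lin_678 Crest.Agent.R260.TwPen_389
open Crest.Agent.R260.Tw_979 Crest.Agent.R260.Out_516 Crest.Agent.R260.Tup_45
open Crest.Agent.R260.ACM_580 Crest.Agent.R260.NNB_580 Crest.Agent.R260.BrDefs_592
open Crest.Agent.R260.BrIf_592 Crest.Agent.R275.Geo Crest.Agent.R275.Core144
open Crest.Agent.R260.Ga_323 (OneForm Contact)

noncomputable section

namespace Crest.Agent.R260.MainC_803

variable {n d m : ℕ} {Z : Type} [TopologicalSpace Z] {I : Type} [Fintype I]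

theorem geoOut_of [PreconnectedSpace Z] {C : ACM (EuclideanSpace ℝ (Fin n) × ℂ) Z}
    (cd : Nn_254.CD C) {A : Atl d Z} {L : LB A} {θ : OneForm L} (hC : Cp C A)
    (K : FLink C A L cd.lam cd.α)
    (hTh : ∀ a i x, x ∈ (A.e a).source → x ∈ (C.e i).source → ∀ v, cd.θ i (C.e i x) v =
      K.κ a i (C.e i x) * θ.app a x (fderiv ℝ (fun y => A.e a ((C.e i).symm y)) (C.e i x) v))
    {S : MSys A L I} {w : I → ℤ} (O : Out S θ m w)
    {g : MetricField n} {J : Fin 3 → EuclideanSpace ℝ (Fin n) → Matrix (Fin n) (Fin n) ℝ}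
    {c : EuclideanSpace ℝ (Fin n) → Fin n → Fin 3 → Fin 3 → ℝ}
    {Jo : EuclideanSpace ℝ (Fin n) → Fin 3 →
      (EuclideanSpace ℝ (Fin n) →L[ℝ] EuclideanSpace ℝ (Fin n))}
    {Th : EuclideanSpace ℝ (Fin n) → Fin 3 → (EuclideanSpace ℝ (Fin n) →L[ℝ] ℝ)}
    {U : Set (EuclideanSpace ℝ (Fin n))} {ip im : C.ι}
    (ch : TwCh C cd.lam cd.α J c Jo Th U ip im) (hQH : QH g J c U) (hQT : ∀ y ∈ U, QT (Jo y))
    (hθ : ∀ x ∈ U, ∀ w, cd.θ ip (x, w) (0, 1) = 1) :
    ∃ F : EuclideanSpace ℝ (Fin n) → ∀ i, S.J i → Polynomial ℂ, GeoOut g J c U O.D F 1 := by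
  obtain ⟨F, hF, hF1, -, -⟩ := (rawFam_of_link ch hC S K).exists_fam ch.isOpen
  -- the link
  have hlink : ∀ x ∈ U, ∀ w' a, (C.e ip).symm (x, w') ∈ (A.e a).source → ∀ i b,
      (F x i b).eval w' = K.κ a ip (C.e ip ((C.e ip).symm (x, w'))) ^ S.β i *
        S.pt a ((C.e ip).symm (x, w')) i b := by
    intro x hx w' a ha i b
    rw [hF1 x hx w' i b]
    have ht : (x, w') ∈ (C.e ip).target := by rw [ch.tp]; exact ⟨hx, mem_univ _⟩
    rw [(C.e ip).right_inv ht]
    exact sec_eq' S K ht ha i b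
  have hfam : TwFam J c U O.D.E O.D.β F := by
    rw [O.hE, O.hβ]
    exact hF
  have hw' : ∑ i, O.D.w i * (O.D.β i : ℤ) = 1 := O.D.wβ
  refine ⟨F, ?_, TwFam.twIn hQH hfam hw', hfam, one_ne_zero, ?_, ?_⟩
  · rw [O.hE]
    exact O.prime.1
  · -- the contact constant
    intro x hx
    refine Con_803.con_of_link (C := C) O.link (by rw [← O.hβ]; exact hw') cd hC
      (fun a i x => K.κ a i (C.e i x)) (fun a i x ha hi => K.ne a i x ha hi) ?_ hTh ip
      (fun w' => by rw [ch.tp]; exact ⟨hx, mem_univ _⟩) (hlink x hx) (hθ x hx)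
    intro a i y hy
    have h1 : ContDiffAt ℝ ∞ (K.κ a i) y := by
      have h2 := K.sm a i ((C.e i).symm y) hy.2 ((C.e i).map_target hy.1)
      rwa [(C.e i).right_inv hy.1] at h2
    have h3 : (fun y => K.κ a i (C.e i ((C.e i).symm y))) =ᶠ[𝓝 y] K.κ a i := by
      filter_upwards [(C.e i).open_target.mem_nhds hy.1] with z hz
      rw [(C.e i).right_inv hz]
    exact (h1.congr_of_eventuallyEq h3).contDiffWithinAt
  · -- density
    intro Dn hB hN W hW hWn hWU
    have hgen := Pair_764.gen_of_acm C A hC (fun c x => S.pt c x)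
      (fun a i b => pt_holAt S a i b)
      (fun a a' x hx => ⟨fun i => L.g a a' x ^ S.β i, by
        funext i b
        exact S.pt_chg hx i b⟩) S.E
      (fun v hv => by
        obtain ⟨a, x, hx, l, -, h⟩ := O.pt v hv.on hv.ne
        exact ⟨a, x, hx, l, h⟩)
      ip Jo Th U (by rw [ch.tp]) ch.hJ hQT F
      (fun x hx w' a ha => by
        have hne : ∀ i, K.κ a ip (C.e ip ((C.e ip).symm (x, w'))) ^ S.β i ≠ 0 := fun i =>
          pow_ne_zero _ (K.ne a ip _ ha ((C.e ip).map_target (by rw [ch.tp]; exact ⟨hx, mem_univ _⟩)))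
        refine ⟨fun i => (K.κ a ip (C.e ip ((C.e ip).symm (x, w'))) ^ S.β i)⁻¹, ?_⟩
        funext i b
        show _ = _ * (F x i b).eval w'
        rw [hlink x hx w' a ha i b, ← mul_assoc, inv_mul_cancel₀ (hne i), one_mul])
      Dn hB ?_ W hWU hW hWn
    · obtain ⟨x, hx, s, t, hst, h⟩ := hgen
      exact ⟨x, hx, s, t, hst, h⟩
    · obtain ⟨a, b, ha, hb, h⟩ := hN
      rw [O.hE] at ha hb
      refine ⟨fun i j => a ⟨i, j⟩, fun i j => b ⟨i, j⟩, ⟨ha.1, fun i h0 => ?_⟩,
        ⟨hb.1, fun i h0 => ?_⟩, h⟩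
      · obtain ⟨j, hj⟩ := ha.2 i
        exact hj (congrFun h0 j)
      · obtain ⟨j, hj⟩ := hb.2 i
        exact hj (congrFun h0 j)

end Crest.Agent.R260.MainC_803
end
end

-- ▼ part R260/MainH_803

/-!
# Row 260 (S0398), MAIN (helper803): `Geo` from the twistor space, Newlander-Nirenberg, `L`,
Kodaira's embedding theorem and the bridge
-/

set_option autoImplicit false
set_option linter.unusedSectionVars false

open Set Filter Topology Complex
open scoped ContDiff Matrix Manifold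
open Crest.GeometryTopology.CoordMetric Crest.GeometryTopology.ChartRiem
open Crest.Agent.R270.BM_360 Crest.Agent.R260.Lin_678 Crest.Agent.R260.TwPen_389
open Crest.Agent.R260.Tw_979 Crest.Agent.R260.Out_516 Crest.Agent.R260.Tup_45
open Crest.Agent.R260.ACM_580 Crest.Agent.R260.NNB_580 Crest.Agent.R260.BrDefs_592
open Crest.Agent.R260.BrIf_592 Crest.Agent.R275 Crest.Agent.R275.Geo Crest.Agent.R275.Core144
open Crest.Agent.R260.Nn_254 Crest.Agent.R273.SerA_945 Crest.Agent.R273.Defs_333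
open Crest.Agent.R260.Ga_323 (OneForm Contact)

noncomputable section

namespace Crest.Agent.R260.MainC_803

/-- **(NN)** (900) -/
def NNP : Prop := ∀ m : ℕ, 2 ≤ m → NNat (EuclideanSpace ℝ (Fin (4 * m)) × ℂ) (2 * m + 1)

/-- **(TW)** (979, 847) -/
def TwP : Prop :=
  ∀ (m : ℕ), 2 ≤ m → ∀ (M : Type) [TopologicalSpace M] [T2Space M] [CompactSpace M]
    [ConnectedSpace M] [ChartedSpace (EuclideanSpace ℝ (Fin (4 * m))) M]
    [IsManifold 𝓘(ℝ, EuclideanSpace ℝ (Fin (4 * m))) ∞ M] (G : ChartMetric (4 * m) M)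
    (Q : QuaternionicStructure (4 * m) M G),
    (∀ e ∈ atlas (EuclideanSpace ℝ (Fin (4 * m))) M, ∀ x ∈ e.target, 0 < scalarCurv (G.g e) x) →
    ∀ hn : 4 * m ≠ 0, Nonempty (TwCD Q hn)

/-- **(CX)** (254): the complex structure, the line bundle, the contact form, the metric -/
def CxP : Prop :=
  ∀ (V Z : Type) [NormedAddCommGroup V] [NormedSpace ℝ V] [FiniteDimensional ℝ V]
    [TopologicalSpace Z] [CompactSpace Z] [T2Space Z] (d : ℕ) (C : ACM V Z), C.Int →
    ∀ cd : CD C, NNat V d → ∃ (A : Atl d Z) (L : LB A) (θ : OneForm L) (h : HM L)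
      (K : FLink C A L cd.lam cd.α), Finite A.ι ∧ Nonempty (Part A) ∧ Cp C A ∧ Contact θ ∧ h.Pos ∧
      ∀ a i x, x ∈ (A.e a).source → x ∈ (C.e i).source → ∀ v, cd.θ i (C.e i x) v =
        K.κ a i (C.e i x) * θ.app a x (fderiv ℝ (fun y => A.e a ((C.e i).symm y)) (C.e i x) v)

/-- **Geo** -/
theorem geo_of (hNN : NNP) (hTW : TwP) (hCX : CxP) (hBR : Bridge) : Geo := by
  intro m hm M _ _ _ _ _ _ G Q hpos e he
  have hn : 4 * m ≠ 0 := by omega
  obtain ⟨T⟩ := hTW m hm M G Q hpos hn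
  obtain ⟨A, L, θ, h, K, hfin, hPart, hCp, hcon, hp, hTh⟩ :=
    hCX (EuclideanSpace ℝ (Fin (4 * m)) × ℂ) (coc Q hn).Z (2 * m + 1) (acm Q hn) T.int T.cd
      (hNN m hm)
  obtain ⟨PA⟩ := hPart
  obtain ⟨k, hk, P, hP⟩ := Crest.Agent.R272.Kod8_410.exists_projD PA hp
  obtain ⟨k0, hk0⟩ := hBR m (coc Q hn).Z A ⟨PA⟩ L h hp P θ hcon
  obtain ⟨S, hS, ⟨O⟩⟩ := hk0 k0 le_rfl
  have hqh : QH (G.g e) (Q.J e) (Qk4_151.cf (G.g e) (Q.J e)) e.target :=
    qh_of (Qk4_151.qkOn G Q he)
  obtain ⟨F, hF⟩ := geoOut_of T.cd hCp K hTh O (twCh Q hn he T) hqh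
    (fun y hy => qt_Jop (Qk4_151.qkOn G Q he) hy) (fun x hx w => T.th1 ⟨e, he, true⟩ x hx w)
  exact ⟨Fin 2, inferInstance, S.J, inferInstance, O.D, F, 1, Fintype.card_fin 2, O.hm, hF⟩

end Crest.Agent.R260.MainC_803
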