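import Crest.Agent.R260.GaDefs_323
import Crest.Agent.R260.NnDefs_254
import Crest.Agent.R260.NNB3_580
import Crest.Agent.R260.NNB2_580
import Crest.Agent.R273.ChowI_313

-- ▼ part R260/NnLb2_254
section

/-!
# R260, NN-LB, part 2 (helper254): a holomorphic hyperplane field gives a line bundle and a form

`HypF A` : in each chart a holomorphic form `th a` with `th a (q a) = 1`, proportional on the
overlaps. `HypF.lb` : the line bundle `T / ker`, `HypF.form : OneForm H.lb`.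
-/

set_option autoImplicit false

open Set Filter Topology Complex
open scoped ContDiff Matrix

namespace Crest.Agent.R260.Nn_254

open Crest.Agent.R275.Geo Crest.Agent.R275.Core144 Crest.Agent.R260.Ga_323

noncomputable section

variable {d : ℕ} {Z : Type} [TopologicalSpace Z]

/-- a hyperplane field given by normalised holomorphic forms -/
structure HypF (A : Atl d Z) where
  q : A.ι → Fin d → ℂ
  th : A.ι → Z → Fin d → ℂ
  hol : ∀ a c, HolAt A a univ (fun x => th a x c)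
  nrm : ∀ a, ∀ x ∈ (A.e a).source, th a x ⬝ᵥ q a = 1
  cov : ∀ a b, ∀ x ∈ (A.e a).source ∩ (A.e b).source, ∃ κ : ℂ,
    th a x = κ • (th b x ᵥ* Jm A a b x)

variable {A : Atl d Z}

theorem holAt_J' (a b : A.ι) (c e : Fin d) :
    HolAt A a (A.e b).source (fun x => A.J b a x c e) := by
  have h1 := (holAt_J (A := A) b a c e).chg (A.e a).open_source a
  refine DifferentiableOn.mono h1 fun z hz => ⟨hz.1, ?_, hz.2⟩
  exact (A.e a).map_target hz.1

namespace HypF

variable (H : HypF A)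

/-- the cocycle -/
def gg (a b : A.ι) (x : Z) : ℂ := H.th a x ⬝ᵥ (Jm A b a x *ᵥ H.q b)

theorem kap {a b : A.ι} {x : Z} (hx : x ∈ (A.e a).source ∩ (A.e b).source) {κ : ℂ}
    (h : H.th a x = κ • (H.th b x ᵥ* Jm A a b x)) : H.gg a b x = κ := by
  unfold gg
  rw [h, smul_dotProduct, ← Matrix.dotProduct_mulVec, Matrix.mulVec_mulVec,
    J_mul b a b ⟨⟨hx.2, hx.1⟩, hx.2⟩, J_self b hx.2, Matrix.one_mulVec, H.nrm b x hx.2,
    smul_eq_mul, mul_one]

theorem cov' {a b : A.ι} {x : Z} (hx : x ∈ (A.e a).source ∩ (A.e b).source) :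
    H.th a x = H.gg a b x • (H.th b x ᵥ* Jm A a b x) := by
  obtain ⟨κ, hκ⟩ := H.cov a b x hx
  rw [H.kap hx hκ]
  exact hκ

theorem gg_mul {a b c : A.ι} {x : Z}
    (hx : x ∈ (A.e a).source ∩ (A.e b).source ∩ (A.e c).source) :
    H.gg a b x * H.gg b c x = H.gg a c x := by
  symm
  apply H.kap ⟨hx.1.1, hx.2⟩
  nth_rewrite 1 [H.cov' hx.1]
  rw [H.cov' (a := b) (b := c) ⟨hx.1.2, hx.2⟩, Matrix.smul_vecMul, Matrix.vecMul_vecMul,
    J_mul a b c hx, smul_smul]

/-- the line bundle -/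
def lb : LB A where
  g a b x := open Classical in
    if x ∈ (A.e a).source ∩ (A.e b).source then H.gg a b x else 1
  hol a b := by
    have h1 : HolAt A a (A.e b).source (H.gg a b) := by
      have h2 : HolAt A a (A.e b).source
          (fun x => ∑ c, H.th a x c * ∑ e, A.J b a x c e * H.q b e) := by
        refine HolAt.sum _ fun c _ => ((H.hol a c).mono (subset_univ _)).mul ?_
        exact HolAt.sum _ fun e _ => (holAt_J' a b c e).mul (holAt_const _)
      refine h2.congr fun x _ _ => ?_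
      simp [gg, dotProduct, Matrix.mulVec, Jm]
    refine h1.congr fun x hx hx' => ?_
    rw [if_pos ⟨hx, hx'⟩]
  off a b x hx := if_neg hx
  self a x := by
    split_ifs with hx
    · unfold gg
      rw [J_self a hx.1, Matrix.one_mulVec, H.nrm a x hx.1]
    · rfl
  mul a b c x hx := by
    rw [if_pos hx.1, if_pos ⟨hx.1.2, hx.2⟩, if_pos ⟨hx.1.1, hx.2⟩, H.gg_mul hx]

theorem lb_g {a b : A.ι} {x : Z} (hx : x ∈ (A.e a).source ∩ (A.e b).source) :
    H.lb.g a b x = H.gg a b x := by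
  classical
  exact if_pos hx

/-- the form -/
def form : OneForm H.lb where
  th := H.th
  hol := H.hol
  tr a b x hx c := by
    rw [H.lb_g hx]
    have h1 := congrFun (H.cov' hx) c
    rw [h1]
    simp [Matrix.vecMul, dotProduct, Jm, mul_comm]

@[simp] theorem form_th (a : A.ι) (x : Z) : H.form.th a x = H.th a x := rfl


end HypF

end

end Crest.Agent.R260.Nn_254
end

-- ▼ part R260/NnLb1_254
section

/-!
# R260, NN-LB, part 1 (helper254): local contact data in a complex chart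

`pb Ψ β`  : pull-back of the one-form `β`; `dd_pb` : `d` commutes with the pull-back
`LC U T A h` : the data of `CD` read in a complex chart (`J = i`)
`LC.holo` : `T v / T q` is complex differentiable
`LC.lev_pos` : `- log (h |T q|²)` is strictly plurisubharmonic
`LC.nd_app` : `d (T / T q)` is non-degenerate on the kernel
-/

set_option autoImplicit false

open Set Filter Topology Complex
open scoped ContDiff

namespace Crest.Agent.R260.Nn_254

open Crest.Agent.R260.ACM_580 Crest.Agent.R260.NNB_580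
open Crest.Agent.R275.Geo Crest.Agent.R273.Defs_333

noncomputable section

section pull

variable {V W F : Type*} [NormedAddCommGroup V] [NormedSpace ℝ V] [NormedAddCommGroup W]
  [NormedSpace ℝ W] [NormedAddCommGroup F] [NormedSpace ℝ F]

/-- pull-back of a one-form -/
def pb (Ψ : W → V) (β : V → V →L[ℝ] F) (z : W) : W →L[ℝ] F := (β (Ψ z)).comp (fderiv ℝ Ψ z)

@[simp] theorem pb_apply (Ψ : W → V) (β : V → V →L[ℝ] F) (z v : W) :
    pb Ψ β z v = β (Ψ z) (fderiv ℝ Ψ z v) := rfl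

theorem fderiv_pb {Ψ : W → V} {β : V → V →L[ℝ] F} {z : W} (hΨ : ContDiffAt ℝ 2 Ψ z)
    (hβ : DifferentiableAt ℝ β (Ψ z)) (u v : W) :
    fderiv ℝ (pb Ψ β) z u v = fderiv ℝ β (Ψ z) (fderiv ℝ Ψ z u) (fderiv ℝ Ψ z v) +
      β (Ψ z) (fderiv ℝ (fderiv ℝ Ψ) z u v) := by
  have h1 : HasFDerivAt Ψ (fderiv ℝ Ψ z) z := (hΨ.differentiableAt (by simp)).hasFDerivAt
  have h2 : HasFDerivAt (fun z => β (Ψ z)) ((fderiv ℝ β (Ψ z)).comp (fderiv ℝ Ψ z)) z :=
    hβ.hasFDerivAt.comp z h1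
  have h3 : HasFDerivAt (fderiv ℝ Ψ) (fderiv ℝ (fderiv ℝ Ψ) z) z :=
    ((hΨ.fderiv_right (m := 1) (by norm_num)).differentiableAt (by simp)).hasFDerivAt
  have h4 := h2.clm_comp h3
  have h5 : HasFDerivAt (pb Ψ β) _ z := h4
  rw [h5.fderiv]
  simp [add_comm]

theorem dd_pb {Ψ : W → V} {β : V → V →L[ℝ] F} {z : W} (hΨ : ContDiffAt ℝ 2 Ψ z)
    (hβ : DifferentiableAt ℝ β (Ψ z)) (u v : W) :
    dd (pb Ψ β) z u v = dd β (Ψ z) (fderiv ℝ Ψ z u) (fderiv ℝ Ψ z v) := by
  have h1 : IsSymmSndFDerivAt ℝ Ψ z := hΨ.isSymmSndFDerivAt (by simp)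
  unfold dd
  rw [fderiv_pb hΨ hβ, fderiv_pb hΨ hβ, h1.eq u v]
  abel

theorem contDiffOn_pb {Ψ : W → V} {β : V → V →L[ℝ] F} {U : Set W} {S : Set V} (hU : IsOpen U)
    (hΨ : ContDiffOn ℝ ∞ Ψ U) (hβ : ContDiffOn ℝ ∞ β S) (hS : MapsTo Ψ U S) :
    ContDiffOn ℝ ∞ (pb Ψ β) U :=
  (hβ.comp hΨ hS).clm_comp (hΨ.fderiv_of_isOpen hU (by simp))

end pull

/-- derivative of `z ↦ T z v` -/
theorem fderiv_apply' {W F G : Type*} [NormedAddCommGroup W] [NormedSpace ℝ W]
    [NormedAddCommGroup F] [NormedSpace ℝ F] [NormedAddCommGroup G] [NormedSpace ℝ G]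
    {T : W → F →L[ℝ] G} {z : W} (hT : DifferentiableAt ℝ T z) (v : F) (u : W) :
    fderiv ℝ (fun z => T z v) z u = fderiv ℝ T z u v := by
  have h1 := hT.hasFDerivAt.clm_apply (hasFDerivAt_const v z)
  rw [h1.fderiv]
  simp

variable {d : ℕ}

/-- complex linearity is inherited by the derivative -/
theorem fderiv_I_of {T : Cn d → Cn d →L[ℝ] ℂ} {U : Set (Cn d)} (hU : IsOpen U)
    (hT : ∀ z ∈ U, DifferentiableAt ℝ T z) (hI : ∀ z ∈ U, ∀ v, T z (I • v) = I * T z v)
    {z : Cn d} (hz : z ∈ U) (u v : Cn d) :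
    fderiv ℝ T z u (I • v) = I * fderiv ℝ T z u v := by
  have h1 : (fun z => T z (I • v)) =ᶠ[𝓝 z] fun z => I * T z v := by
    filter_upwards [hU.mem_nhds hz] with w hw
    exact hI w hw v
  have h2 := fderiv_apply' (hT z hz) (I • v) u
  rw [h1.fderiv_eq] at h2
  rw [← h2]
  have h3 : HasFDerivAt (fun z => T z v) (fderiv ℝ (fun z => T z v) z) z :=
    ((hT z hz).clm_apply (differentiableAt_const v)).hasFDerivAt
  rw [(h3.const_mul I).fderiv]
  simp only [_root_.smul_apply, smul_eq_mul]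
  rw [fderiv_apply' (hT z hz)]

theorem inv_aux {E : Type*} [NormedAddCommGroup E] [NormedSpace ℝ E] {g : E → ℂ}
    {g' : E →L[ℝ] ℂ} {z : E} (hg : HasFDerivAt g g' z) (h0 : g z ≠ 0) :
    HasFDerivAt (fun z => (g z)⁻¹) (-(g z ^ 2)⁻¹ • g') z := by
  have h1 : HasFDerivAt (𝕜 := ℝ) (Inv.inv : ℂ → ℂ)
      (-ContinuousLinearMap.mulLeftRight ℝ ℂ (g z)⁻¹ (g z)⁻¹) (g z) := hasFDerivAt_inv' h0
  refine (h1.comp z hg).congr_fderiv ?_
  ext v
  simp
  field_simp

theorem div_aux {E : Type*} [NormedAddCommGroup E] [NormedSpace ℝ E] {f g : E → ℂ}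
    {f' g' : E →L[ℝ] ℂ} {z : E} (hf : HasFDerivAt f f' z) (hg : HasFDerivAt g g' z)
    (h0 : g z ≠ 0) :
    HasFDerivAt (fun z => f z / g z) ((g z ^ 2)⁻¹ • (g z • f' - f z • g')) z := by
  have h1 := hf.mul (inv_aux hg h0)
  have h2 : HasFDerivAt (fun z => f z / g z) _ z := h1
  refine h2.congr_fderiv ?_
  ext v
  simp
  field_simp
  ring

theorem holo_ratio {f g : Cn d → ℂ} {z : Cn d} {c : Cn d → ℂ} (hf : DifferentiableAt ℝ f z)
    (hg : DifferentiableAt ℝ g z)
    (h1 : ∀ u, fderiv ℝ f z u + I * fderiv ℝ f z (I • u) = -c u * f z)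
    (h2 : ∀ u, fderiv ℝ g z u + I * fderiv ℝ g z (I • u) = -c u * g z) (h0 : g z ≠ 0) :
    DifferentiableAt ℂ (fun z => f z / g z) z := by
  have h3 : HasFDerivAt (fun z => f z / g z)
      ((g z ^ 2)⁻¹ • (g z • fderiv ℝ f z - f z • fderiv ℝ g z)) z :=
    div_aux hf.hasFDerivAt hg.hasFDerivAt h0
  refine differentiableAt_of_real h3.differentiableAt fun u => ?_
  rw [h3.fderiv]
  simp only [_root_.smul_apply, _root_.sub_apply, smul_eq_mul]
  have e1 := h1 u
  have e2 := h2 u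
  have e3 : fderiv ℝ f z (I • u) = I * (fderiv ℝ f z u + c u * f z) := by
    linear_combination (-I) * e1 + fderiv ℝ f z (I • u) * I_mul_I
  have e4 : fderiv ℝ g z (I • u) = I * (fderiv ℝ g z u + c u * g z) := by
    linear_combination (-I) * e2 + fderiv ℝ g z (I • u) * I_mul_I
  rw [e3, e4]
  ring

/-- local contact data in a complex chart -/
structure LC (U : Set (Cn d)) (T A : Cn d → Cn d →L[ℝ] ℂ) (h : Cn d → ℝ) : Prop where
  isOpen : IsOpen U
  T_sm : ContDiffOn ℝ ∞ T U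
  T_I : ∀ z ∈ U, ∀ v, T z (I • v) = I * T z v
  T_db : ∀ z ∈ U, ∀ u v, fderiv ℝ T z u v + I * fderiv ℝ T z (I • u) v =
    -(A z u + I * A z (I • u)) * T z v
  A_sm : ContDiffOn ℝ ∞ A U
  h_sm : ContDiffOn ℝ ∞ h U
  h_pos : ∀ z ∈ U, 0 < h z
  h_A : ∀ z ∈ U, ∀ v, fderiv ℝ h z v = 2 * (A z v).re * h z
  pos : ∀ z ∈ U, ∀ v, v ≠ 0 → 0 < (I * dd A z v (I • v)).re
  nd : ∀ z ∈ U, ∀ v, T z v = 0 → (∀ w, T z w = 0 → dd T z v w = 0) → v = 0

namespace LC

variable {U : Set (Cn d)} {T A : Cn d → Cn d →L[ℝ] ℂ} {h : Cn d → ℝ}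

theorem T_diff (H : LC U T A h) {z : Cn d} (hz : z ∈ U) : DifferentiableAt ℝ T z :=
  (H.T_sm.contDiffAt (H.isOpen.mem_nhds hz)).differentiableAt (by simp)

theorem A_diff (H : LC U T A h) {z : Cn d} (hz : z ∈ U) : DifferentiableAt ℝ A z :=
  (H.A_sm.contDiffAt (H.isOpen.mem_nhds hz)).differentiableAt (by simp)

theorem h_diff (H : LC U T A h) {z : Cn d} (hz : z ∈ U) : DifferentiableAt ℝ h z :=
  (H.h_sm.contDiffAt (H.isOpen.mem_nhds hz)).differentiableAt (by simp)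

theorem Tv_diff (H : LC U T A h) {z : Cn d} (hz : z ∈ U) (v : Cn d) :
    DifferentiableAt ℝ (fun z => T z v) z := (H.T_diff hz).clm_apply (differentiableAt_const v)

/-- ratios are holomorphic -/
theorem holo (H : LC U T A h) {z : Cn d} (hz : z ∈ U) (v : Cn d) {q : Cn d} (hq : T z q ≠ 0) :
    DifferentiableAt ℂ (fun z => T z v / T z q) z := by
  refine holo_ratio (c := fun u => A z u + I * A z (I • u)) (H.Tv_diff hz v) (H.Tv_diff hz q)
    (fun u => ?_) (fun u => ?_) hq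
  · rw [fderiv_apply' (H.T_diff hz), fderiv_apply' (H.T_diff hz)]
    exact H.T_db z hz u v
  · rw [fderiv_apply' (H.T_diff hz), fderiv_apply' (H.T_diff hz)]
    exact H.T_db z hz u q

/-- derivative of the ratio -/
theorem fderiv_ratio (H : LC U T A h) {z : Cn d} (hz : z ∈ U) (v : Cn d) {q : Cn d}
    (hq : T z q ≠ 0) (u : Cn d) :
    fderiv ℝ (fun z => T z v / T z q) z u =
      (fderiv ℝ T z u v * T z q - T z v * fderiv ℝ T z u q) / T z q ^ 2 := by
  have h3 : HasFDerivAt (fun z => T z v / T z q)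
      ((T z q ^ 2)⁻¹ • (T z q • fderiv ℝ (fun z => T z v) z - T z v • fderiv ℝ (fun z => T z q) z))
      z := div_aux (H.Tv_diff hz v).hasFDerivAt (H.Tv_diff hz q).hasFDerivAt hq
  rw [h3.fderiv]
  simp only [_root_.smul_apply, _root_.sub_apply, smul_eq_mul]
  rw [fderiv_apply' (H.T_diff hz), fderiv_apply' (H.T_diff hz)]
  ring

/-- `γ = A + dG / G`, `G = T q`: the `(1,0)` connection form in the holomorphic frame -/
def gam (T A : Cn d → Cn d →L[ℝ] ℂ) (q z : Cn d) : Cn d →L[ℝ] ℂ :=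
  A z + (T z q)⁻¹ • fderiv ℝ (fun z => T z q) z

theorem G_sm (H : LC U T A h) (q : Cn d) : ContDiffOn ℝ ∞ (fun z => T z q) U :=
  H.T_sm.clm_apply contDiffOn_const

theorem gam_sm (H : LC U T A h) {q : Cn d} (hq : ∀ z ∈ U, T z q ≠ 0) :
    ContDiffOn ℝ ∞ (gam T A q) U := by
  have h1 := H.G_sm q
  have h2 : ContDiffOn ℝ ∞ (fderiv ℝ (fun z => T z q)) U :=
    h1.fderiv_of_isOpen H.isOpen (by simp)
  exact H.A_sm.add ((h1.inv hq).smul h2)

theorem gam_diff (H : LC U T A h) {q : Cn d} (hq : ∀ z ∈ U, T z q ≠ 0) {z : Cn d} (hz : z ∈ U) :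
    DifferentiableAt ℝ (gam T A q) z :=
  ((H.gam_sm hq).contDiffAt (H.isOpen.mem_nhds hz)).differentiableAt (by simp)

theorem gam_apply (H : LC U T A h) {q : Cn d} {z : Cn d} (hz : z ∈ U) (v : Cn d) :
    gam T A q z v = A z v + (T z q)⁻¹ * fderiv ℝ T z v q := by
  unfold gam
  simp only [_root_.add_apply, _root_.smul_apply, smul_eq_mul]
  rw [fderiv_apply' (H.T_diff hz)]

theorem gam_I (H : LC U T A h) {q : Cn d} (hq : ∀ z ∈ U, T z q ≠ 0) {z : Cn d} (hz : z ∈ U)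
    (v : Cn d) : gam T A q z (I • v) = I * gam T A q z v := by
  rw [H.gam_apply hz, H.gam_apply hz]
  have h1 := H.T_db z hz v q
  have h0 := hq z hz
  have e3 : fderiv ℝ T z (I • v) q =
      I * (fderiv ℝ T z v q + (A z v + I * A z (I • v)) * T z q) := by
    linear_combination (-I) * h1 + fderiv ℝ T z (I • v) q * I_mul_I
  rw [e3]
  field_simp
  linear_combination (A z (I • v)) * T z q * I_sq

/-- `dγ = dA` -/
theorem dd_gam (H : LC U T A h) {q : Cn d} (hq : ∀ z ∈ U, T z q ≠ 0) {z : Cn d} (hz : z ∈ U)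
    (v w : Cn d) : dd (gam T A q) z v w = dd A z v w := by
  have hG := (H.G_sm q).contDiffAt (H.isOpen.mem_nhds hz)
  have hs : IsSymmSndFDerivAt ℝ (fun z => T z q) z := hG.isSymmSndFDerivAt (by
    rw [minSmoothness_of_isRCLikeNormedField]; exact WithTop.coe_le_coe.2 (le_top : (2 : ℕ∞) ≤ ⊤))
  have h1 : HasFDerivAt (fun z => T z q) (fderiv ℝ (fun z => T z q) z) z :=
    (hG.differentiableAt (by simp)).hasFDerivAt
  have h2 : HasFDerivAt (fderiv ℝ (fun z => T z q)) (fderiv ℝ (fderiv ℝ (fun z => T z q)) z) z :=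
    ((hG.fderiv_right (m := 1) (by norm_cast)).differentiableAt (by simp)).hasFDerivAt
  have h3 : HasFDerivAt (fun z => (T z q)⁻¹) (-(T z q ^ 2)⁻¹ • fderiv ℝ (fun z => T z q) z) z :=
    inv_aux h1 (hq z hz)
  have h4 := (H.A_diff hz).hasFDerivAt.add (h3.smul h2)
  have h5 : HasFDerivAt (gam T A q) _ z := h4
  unfold dd
  rw [h5.fderiv]
  simp only [_root_.add_apply, _root_.smul_apply, smul_eq_mul,
    ContinuousLinearMap.smulRight_apply]
  rw [hs.eq v w]
  ring

theorem hasFDerivAt_log (H : LC U T A h) {q : Cn d} (hq : ∀ z ∈ U, T z q ≠ 0) {z : Cn d}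
    (hz : z ∈ U) : HasFDerivAt (fun z => - Real.log (h z * ‖T z q‖ ^ 2))
      ((-2 : ℝ) • reCLM.comp (gam T A q z)) z := by
  have h1 : HasFDerivAt h (fderiv ℝ h z) z := (H.h_diff hz).hasFDerivAt
  have h2 := (H.Tv_diff hz q).hasFDerivAt
  have h3 : HasFDerivAt (fun z => ‖T z q‖ ^ 2)
      (2 • (innerSL ℝ (T z q)).comp (fderiv ℝ (fun z => T z q) z)) z := h2.norm_sq
  have hp := H.h_pos z hz
  have h0 := hq z hz
  have hn : 0 < ‖T z q‖ ^ 2 := by positivity
  have h4 := ((h1.mul h3).log (mul_pos hp hn).ne').neg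
  refine h4.congr_fderiv ?_
  ext v
  have hr : (gam T A q z v).re =
      (A z v).re + inner ℝ (T z q) (fderiv ℝ T z v q) / ‖T z q‖ ^ 2 := by
    rw [H.gam_apply hz, add_re]
    congr 1
    rw [Complex.inner, ← Complex.normSq_eq_norm_sq, mul_comm, ← div_eq_mul_inv, Complex.div_re]
    simp only [mul_re, conj_re, conj_im]
    ring
  simp only [_root_.neg_apply, _root_.smul_apply,
    _root_.add_apply, ContinuousLinearMap.comp_apply, reCLM_apply, smul_eq_mul,
    innerSL_apply_apply, nsmul_eq_mul, Pi.mul_apply]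
  rw [hr, H.h_A z hz, fderiv_apply' (H.T_diff hz)]
  have hh : h z ≠ 0 := hp.ne'
  have hnn : ‖T z q‖ ≠ 0 := by positivity
  field_simp
  push_cast
  ring

/-- the curvature is positive -/
theorem lev_pos (H : LC U T A h) {q : Cn d} (hq : ∀ z ∈ U, T z q ≠ 0) {z : Cn d} (hz : z ∈ U)
    {v : Cn d} (hv : v ≠ 0) : 0 < lev (fun z => - Real.log (h z * ‖T z q‖ ^ 2)) z v := by
  have h1 : fderiv ℝ (fun z => - Real.log (h z * ‖T z q‖ ^ 2)) =ᶠ[𝓝 z]
      fun z => (-2 : ℝ) • reCLM.comp (gam T A q z) := by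
    filter_upwards [H.isOpen.mem_nhds hz] with w hw
    exact (H.hasFDerivAt_log hq hw).fderiv
  have h2 : HasFDerivAt (gam T A q) (fderiv ℝ (gam T A q) z) z := (H.gam_diff hq hz).hasFDerivAt
  have h3 : ∀ a b, fderiv ℝ (fun z => (-2 : ℝ) • reCLM.comp (gam T A q z)) z a b =
      -2 * (fderiv ℝ (gam T A q) z a b).re := by
    intro a b
    have h4 : HasFDerivAt (fun z => (-2 : ℝ) • reCLM.comp (gam T A q z)) _ z :=
      ((hasFDerivAt_const reCLM z).clm_comp h2).const_smul (-2 : ℝ)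
    rw [h4.fderiv]
    simp
  have h5 : ∀ a b, fderiv ℝ (fderiv ℝ (fun z => - Real.log (h z * ‖T z q‖ ^ 2))) z a b =
      -2 * (fderiv ℝ (gam T A q) z a b).re := by
    intro a b
    rw [h1.fderiv_eq, h3]
  unfold lev
  simp only [iteratedFDeriv_two_apply, Matrix.cons_val_zero, Matrix.cons_val_one]
  rw [h5, h5]
  have e1 := fderiv_I_of H.isOpen (fun z hz => H.gam_diff hq hz) (fun z hz v => H.gam_I hq hz v)
    hz v v
  have e2 := fderiv_I_of H.isOpen (fun z hz => H.gam_diff hq hz) (fun z hz v => H.gam_I hq hz v)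
    hz (I • v) v
  have e3 := H.dd_gam hq hz v (I • v)
  unfold dd at e3
  have hp := H.pos z hz v hv
  have e4 : fderiv ℝ (gam T A q) z v v + fderiv ℝ (gam T A q) z (I • v) (I • v) =
      -(I * dd A z v (I • v)) := by
    unfold dd
    rw [← e3, e1, e2]
    linear_combination fderiv ℝ (gam T A q) z v v * I_mul_I
  have e5 := congrArg Complex.re e4
  rw [add_re, neg_re] at e5
  linarith

/-- nondegeneracy for the normalised form -/
theorem nd_app (H : LC U T A h) {q z : Cn d} (hz : z ∈ U) (hq : T z q ≠ 0) {u : Cn d}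
    (hu : T z u = 0)
    (h0 : ∀ w, T z w = 0 → (fderiv ℝ T z u w * T z q - T z w * fderiv ℝ T z u q) / T z q ^ 2 -
      (fderiv ℝ T z w u * T z q - T z u * fderiv ℝ T z w q) / T z q ^ 2 = 0) : u = 0 := by
  refine H.nd z hz u hu fun w hw => ?_
  have h1 := h0 w hw
  rw [hw, hu] at h1
  unfold dd
  field_simp at h1
  apply mul_left_cancel₀ hq
  linear_combination h1

end LC

end

end Crest.Agent.R260.Nn_254
end

-- ▼ part R260/NnLb3_254
section

/-!
# R260, NN-LB, part 3 (helper254): the contact data in the holomorphic charts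

`Gf D φ i x v = θ_i (∂_v)` in the holomorphic chart `φ`; `lc_of` : `LC` of `CD`;
`Gf_lam` (change of the real chart), `Gf_chg` (change of the holomorphic chart),
`Gf_sum` (complex linearity), `Gf_db` (`∂̄`-equation in the real chart).
-/

set_option autoImplicit false

open Set Filter Topology Complex
open scoped ContDiff

namespace Crest.Agent.R260.Nn_254

open Crest.Agent.R260.ACM_580 Crest.Agent.R260.NNB_580
open Crest.Agent.R275.Geo Crest.Agent.R273.Defs_333

noncomputable section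

variable {V Z : Type} [NormedAddCommGroup V] [NormedSpace ℝ V] [TopologicalSpace Z]
  {C : ACM V Z} {d : ℕ}

/-- inverse of the chart `φ` read in the real chart `i` -/
def Ps (C : ACM V Z) (i : C.ι) (φ : OpenPartialHomeomorph Z (Cn d)) (z : Cn d) : V :=
  C.e i (φ.symm z)

theorem Ps_apply {i : C.ι} {φ : OpenPartialHomeomorph Z (Cn d)} {x : Z} (hx : x ∈ φ.source) :
    Ps C i φ (φ x) = C.e i x := by
  unfold Ps
  rw [φ.left_inv hx]

/-- the value of `θ_i` on the coordinate vectors of `φ` -/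
def Gf (D : CD C) (φ : OpenPartialHomeomorph Z (Cn d)) (i : C.ι) (x : Z) : Cn d →L[ℝ] ℂ :=
  pb (Ps C i φ) (D.θ i) (φ x)

theorem Gf_apply (D : CD C) {φ : OpenPartialHomeomorph Z (Cn d)} {i : C.ι} {x : Z}
    (hx : x ∈ φ.source) (v : Cn d) :
    Gf D φ i x v = D.θ i (C.e i x) (fderiv ℝ (Ps C i φ) (φ x) v) := by
  unfold Gf
  rw [pb_apply, Ps_apply hx]

variable {φ ψ : OpenPartialHomeomorph Z (Cn d)}

theorem Ps_contDiffOn (h : JCh C φ) (i : C.ι) : ContDiffOn ℝ ∞ (Ps C i φ) (ovc C i φ) := h.sm' i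

theorem Ps_contDiffAt (h : JCh C φ) {i : C.ι} {z : Cn d} (hz : z ∈ ovc C i φ) :
    ContDiffAt ℝ ∞ (Ps C i φ) z := (h.sm' i).contDiffAt ((isOpen_ovc i φ).mem_nhds hz)

theorem two_le_inf : (2 : WithTop ℕ∞) ≤ ∞ := WithTop.coe_le_coe.2 (le_top : (2 : ℕ∞) ≤ ⊤)

theorem Ps_lin (h : JCh C φ) {i : C.ι} {z : Cn d} (hz : z ∈ ovc C i φ) (v : Cn d) :
    fderiv ℝ (Ps C i φ) z (I • v) = C.J i (Ps C i φ z) (fderiv ℝ (Ps C i φ) z v) := h.lin' hz v

theorem Ps_mem {i : C.ι} {z : Cn d} (hz : z ∈ ovc C i φ) : Ps C i φ z ∈ (C.e i).target :=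
  (C.e i).map_source hz.2

/-- the data in a holomorphic chart -/
theorem lc_of (D : CD C) (h : JCh C φ) (i : C.ι) :
    LC (ovc C i φ) (pb (Ps C i φ) (D.θ i)) (pb (Ps C i φ) (D.α i))
      (fun z => D.h i (Ps C i φ z)) := by
  have hmt : MapsTo (Ps C i φ) (ovc C i φ) (C.e i).target := fun z hz => Ps_mem hz
  have hT : ContDiffOn ℝ ∞ (pb (Ps C i φ) (D.θ i)) (ovc C i φ) :=
    contDiffOn_pb (isOpen_ovc i φ) (Ps_contDiffOn h i) (D.θ_sm i) hmt
  have hTI : ∀ z ∈ ovc C i φ, ∀ v, pb (Ps C i φ) (D.θ i) z (I • v) =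
      I * pb (Ps C i φ) (D.θ i) z v := by
    intro z hz v
    rw [pb_apply, pb_apply, Ps_lin h hz, D.θ_J i _ (Ps_mem hz)]
  have hTd : ∀ z ∈ ovc C i φ, DifferentiableAt ℝ (pb (Ps C i φ) (D.θ i)) z := fun z hz =>
    (hT.contDiffAt ((isOpen_ovc i φ).mem_nhds hz)).differentiableAt (by simp)
  have hP2 : ∀ z ∈ ovc C i φ, ContDiffAt ℝ 2 (Ps C i φ) z := fun z hz =>
    (Ps_contDiffAt h hz).of_le two_le_inf
  have hθd : ∀ z ∈ ovc C i φ, DifferentiableAt ℝ (D.θ i) (Ps C i φ z) := fun z hz =>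
    ((D.θ_sm i).contDiffAt ((C.e i).open_target.mem_nhds (Ps_mem hz))).differentiableAt (by simp)
  have hαd : ∀ z ∈ ovc C i φ, DifferentiableAt ℝ (D.α i) (Ps C i φ z) := fun z hz =>
    ((D.α_sm i).contDiffAt ((C.e i).open_target.mem_nhds (Ps_mem hz))).differentiableAt (by simp)
  have hinj : ∀ z ∈ ovc C i φ, ∀ v, fderiv ℝ (Ps C i φ) z v = 0 → v = 0 := by
    intro z hz v hv
    have h1 := h.inv_left hz v
    have h2 : fderiv ℝ (fun z => C.e i (φ.symm z)) z v = 0 := hv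
    rw [h2, map_zero] at h1
    exact h1.symm
  have hsurj : ∀ z ∈ ovc C i φ, ∀ w : V, ∃ v, fderiv ℝ (Ps C i φ) z v = w := by
    intro z hz w
    refine ⟨fderiv ℝ (fun z => φ ((C.e i).symm z)) (C.e i (φ.symm z)) w, ?_⟩
    have h1 := h.inv_right (JCh.swap hz) w
    rw [(C.e i).left_inv hz.2, φ.right_inv hz.1] at h1
    exact h1
  refine ⟨isOpen_ovc i φ, hT, hTI, fun z hz u v => ?_, ?_, ?_, fun z hz => D.h_pos i _ (Ps_mem hz),
    fun z hz v => ?_, fun z hz v hv => ?_, fun z hz v hv h0 => ?_⟩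
  · have e1 : fderiv ℝ (pb (Ps C i φ) (D.θ i)) z v (I • u) =
        I * fderiv ℝ (pb (Ps C i φ) (D.θ i)) z v u := fderiv_I_of (isOpen_ovc i φ) hTd hTI hz v u
    have e2 := dd_pb (hP2 z hz) (hθd z hz) u v
    have e3 := dd_pb (hP2 z hz) (hθd z hz) (I • u) v
    have e4 := D.θ_db i _ (Ps_mem hz) (fderiv ℝ (Ps C i φ) z u) (fderiv ℝ (Ps C i φ) z v)
    rw [← Ps_lin h hz, ← e2, ← e3] at e4
    unfold dd at e4
    rw [e1] at e4
    simp only [pb_apply]
    linear_combination e4 + fderiv ℝ (pb (Ps C i φ) (D.θ i)) z v u * I_mul_I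
  · exact contDiffOn_pb (isOpen_ovc i φ) (Ps_contDiffOn h i) (D.α_sm i) hmt
  · exact (D.h_sm i).comp (Ps_contDiffOn h i) hmt
  · have h1 : DifferentiableAt ℝ (D.h i) (Ps C i φ z) :=
      ((D.h_sm i).contDiffAt ((C.e i).open_target.mem_nhds (Ps_mem hz))).differentiableAt (by simp)
    have h2 : HasFDerivAt (fun z => D.h i (Ps C i φ z))
        ((fderiv ℝ (D.h i) (Ps C i φ z)).comp (fderiv ℝ (Ps C i φ) z)) z :=
      h1.hasFDerivAt.comp z ((Ps_contDiffAt h hz).differentiableAt (by simp)).hasFDerivAt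
    rw [h2.fderiv]
    exact D.α_h i _ (Ps_mem hz) _
  · rw [dd_pb (hP2 z hz) (hαd z hz), Ps_lin h hz]
    exact D.pos i _ (Ps_mem hz) _ fun h0 => hv (hinj z hz v h0)
  · refine hinj z hz v (D.nondeg i _ (Ps_mem hz) _ hv fun w hw => ?_)
    obtain ⟨w', rfl⟩ := hsurj z hz w
    rw [← dd_pb (hP2 z hz) (hθd z hz)]
    exact h0 w' hw

/-- complex linearity -/
theorem lin_sum {T : Cn d →L[ℝ] ℂ} (hT : ∀ v, T (I • v) = I * T v) (v : Cn d) :
    T v = ∑ c, T (EuclideanSpace.single c (1 : ℂ)) * v c := by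
  have hv : v = ∑ c, v c • (EuclideanSpace.single c (1 : ℂ) : Cn d) := by
    ext e
    simp [Pi.single_apply]
  have h1 : ∀ v, T v = cl T hT v := fun v => rfl
  rw [h1 v]
  conv_lhs => rw [hv]
  rw [map_sum]
  refine Finset.sum_congr rfl fun c _ => ?_
  rw [map_smul, smul_eq_mul, mul_comm]
  rfl

theorem Gf_I (D : CD C) (h : JCh C φ) {i : C.ι} {x : Z} (hx : x ∈ φ.source)
    (hi : x ∈ (C.e i).source) (v : Cn d) : Gf D φ i x (I • v) = I * Gf D φ i x v :=
  (lc_of D h i).T_I _ (mem_ovc_of_source hx hi) v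

theorem Gf_sum (D : CD C) (h : JCh C φ) {i : C.ι} {x : Z} (hx : x ∈ φ.source)
    (hi : x ∈ (C.e i).source) (v : Cn d) :
    Gf D φ i x v = ∑ c, Gf D φ i x (EuclideanSpace.single c (1 : ℂ)) * v c :=
  lin_sum (Gf_I D h hx hi) v

/-- change of the real chart -/
theorem Gf_lam (D : CD C) (h : JCh C φ) {i j : C.ι} {x : Z} (hx : x ∈ φ.source)
    (hi : x ∈ (C.e i).source) (hj : x ∈ (C.e j).source) (v : Cn d) :
    Gf D φ i x v = D.lam i j (C.e i x) * Gf D φ j x v := by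
  have hov : C.e i x ∈ C.ov i j :=
    ⟨(C.e i).map_source hi, by rw [(C.e i).left_inv hi]; exact hj⟩
  rw [Gf_apply D hx, Gf_apply D hx, D.θ_tr i j _ hov, (C.e i).left_inv hi]
  congr 2
  have h1 : DifferentiableAt ℝ (fun y => C.e j ((C.e i).symm y)) (C.e i x) :=
    ((C.sm i j).contDiffAt ((C.isOpen_ov i j).mem_nhds hov)).differentiableAt (by simp)
  have hc : φ x ∈ ovc C i φ := mem_ovc_of_source hx hi
  have h2 : HasFDerivAt (Ps C i φ) (fderiv ℝ (Ps C i φ) (φ x)) (φ x) :=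
    ((Ps_contDiffAt h hc).differentiableAt (by simp)).hasFDerivAt
  have h3 : HasFDerivAt (fun z => C.e j ((C.e i).symm (Ps C i φ z)))
      ((fderiv ℝ (fun y => C.e j ((C.e i).symm y)) (C.e i x)).comp (fderiv ℝ (Ps C i φ) (φ x)))
      (φ x) := by
    refine HasFDerivAt.comp (φ x) (g := fun y => C.e j ((C.e i).symm y)) ?_ h2
    rw [Ps_apply hx]
    exact h1.hasFDerivAt
  have h4 : Ps C j φ =ᶠ[𝓝 (φ x)] fun z => C.e j ((C.e i).symm (Ps C i φ z)) := by
    filter_upwards [(isOpen_ovc i φ).mem_nhds hc] with w hw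
    unfold Ps
    rw [(C.e i).left_inv hw.2]
  rw [h4.fderiv_eq, h3.fderiv]
  rfl

/-- change of the holomorphic chart -/
theorem Gf_chg (D : CD C) (hφ : JCh C φ) (hψ : JCh C ψ) {i : C.ι} {x : Z} (hx : x ∈ φ.source)
    (hx' : x ∈ ψ.source) (hi : x ∈ (C.e i).source) (v : Cn d) :
    Gf D ψ i x v = Gf D φ i x (fderiv ℂ (fun z => φ (ψ.symm z)) (ψ x) v) := by
  rw [Gf_apply D hx', Gf_apply D hx]
  congr 1
  have hc : φ x ∈ ovc C i φ := mem_ovc_of_source hx hi
  have h2 : HasFDerivAt (Ps C i φ) (fderiv ℝ (Ps C i φ) (φ x)) (φ x) :=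
    ((Ps_contDiffAt hφ hc).differentiableAt (by simp)).hasFDerivAt
  have ho : IsOpen {z | z ∈ ψ.target ∧ ψ.symm z ∈ φ.source} :=
    ψ.isOpen_inter_preimage_symm φ.open_source
  have hm : ψ x ∈ {z | z ∈ ψ.target ∧ ψ.symm z ∈ φ.source} :=
    ⟨ψ.map_source hx', by rw [ψ.left_inv hx']; exact hx⟩
  have h1 : DifferentiableAt ℂ (fun z => φ (ψ.symm z)) (ψ x) :=
    (hψ.holo hφ).differentiableAt (ho.mem_nhds hm)
  have h5 : HasFDerivAt (fun z => φ (ψ.symm z))
      ((fderiv ℂ (fun z => φ (ψ.symm z)) (ψ x)).restrictScalars ℝ) (ψ x) :=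
    h1.hasFDerivAt.restrictScalars ℝ
  have h3 : HasFDerivAt (fun z => Ps C i φ (φ (ψ.symm z)))
      ((fderiv ℝ (Ps C i φ) (φ x)).comp
        ((fderiv ℂ (fun z => φ (ψ.symm z)) (ψ x)).restrictScalars ℝ)) (ψ x) := by
    refine HasFDerivAt.comp (ψ x) (g := Ps C i φ) ?_ h5
    rw [ψ.left_inv hx']
    exact h2
  have h4 : Ps C i ψ =ᶠ[𝓝 (ψ x)] fun z => Ps C i φ (φ (ψ.symm z)) := by
    filter_upwards [ho.mem_nhds hm] with w hw
    unfold Ps
    rw [φ.left_inv hw.2]
  rw [h4.fderiv_eq, h3.fderiv]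
  rfl

/-- the function `y ↦ Gf D φ i ((C.e i).symm y) v` in the real chart -/
theorem Gf_real_contDiffOn (D : CD C) (h : JCh C φ) (i : C.ι) (v : Cn d) :
    ContDiffOn ℝ ∞ (fun y => Gf D φ i ((C.e i).symm y) v) (ovr C i φ) := by
  have h1 := (lc_of D h i).G_sm v
  exact h1.comp (h.sm i) fun y hy => JCh.swap' hy

theorem Gf_real_hasFDerivAt (D : CD C) (h : JCh C φ) {i : C.ι} {x : Z} (hx : x ∈ φ.source)
    (hi : x ∈ (C.e i).source) (v : Cn d) :
    HasFDerivAt (fun y => Gf D φ i ((C.e i).symm y) v)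
      ((fderiv ℝ (fun z => pb (Ps C i φ) (D.θ i) z v) (φ x)).comp
        (fderiv ℝ (fun y => φ ((C.e i).symm y)) (C.e i x))) (C.e i x) := by
  have hc : φ x ∈ ovc C i φ := mem_ovc_of_source hx hi
  have hr : C.e i x ∈ ovr C i φ := mem_ovr_of_source hx hi
  have h1 : DifferentiableAt ℝ (fun z => pb (Ps C i φ) (D.θ i) z v) (φ x) :=
    (lc_of D h i).Tv_diff hc v
  refine HasFDerivAt.comp (C.e i x) (g := fun z => pb (Ps C i φ) (D.θ i) z v)
    (f := fun y => φ ((C.e i).symm y)) ?_ (h.diffAt hr).hasFDerivAt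
  rw [(C.e i).left_inv hi]
  exact h1.hasFDerivAt

/-- the `∂̄`-equation in the real chart -/
theorem Gf_db (D : CD C) (h : JCh C φ) {i : C.ι} {x : Z} (hx : x ∈ φ.source)
    (hi : x ∈ (C.e i).source) (q : Cn d) (v : V) :
    fderiv ℝ (fun y => Gf D φ i ((C.e i).symm y) q) (C.e i x) v +
      I * fderiv ℝ (fun y => Gf D φ i ((C.e i).symm y) q) (C.e i x) (C.J i (C.e i x) v) =
      -(D.α i (C.e i x) v + I * D.α i (C.e i x) (C.J i (C.e i x) v)) * Gf D φ i x q := by
  have hc : φ x ∈ ovc C i φ := mem_ovc_of_source hx hi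
  have hr : C.e i x ∈ ovr C i φ := mem_ovr_of_source hx hi
  have H := lc_of D h i
  rw [(Gf_real_hasFDerivAt D h hx hi q).fderiv]
  simp only [ContinuousLinearMap.comp_apply]
  rw [h.lin i _ hr, fderiv_apply' (H.T_diff hc), fderiv_apply' (H.T_diff hc)]
  have h1 := H.T_db _ hc (fderiv ℝ (fun z => φ ((C.e i).symm z)) (C.e i x) v) q
  rw [h1]
  have h2 : ∀ w : V, pb (Ps C i φ) (D.α i) (φ x)
      (fderiv ℝ (fun z => φ ((C.e i).symm z)) (C.e i x) w) = D.α i (C.e i x) w := by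
    intro w
    rw [pb_apply, Ps_apply hx]
    congr 1
    have h3 := h.inv_right hr w
    rw [(C.e i).left_inv hi] at h3
    exact h3
  rw [← h.lin i _ hr, h2, h2]
  rfl

/-- `θ_i (v)` through the holomorphic coordinates of `v` -/
theorem theta_eq (D : CD C) (h : JCh C φ) {i : C.ι} {x : Z} (hx : x ∈ φ.source)
    (hi : x ∈ (C.e i).source) (v : V) :
    D.θ i (C.e i x) v = Gf D φ i x (fderiv ℝ (fun y => φ ((C.e i).symm y)) (C.e i x) v) := by
  rw [Gf_apply D hx]
  congr 1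
  have h3 := h.inv_right (mem_ovr_of_source hx hi) v
  rw [(C.e i).left_inv hi] at h3
  exact h3.symm

end

end Crest.Agent.R260.Nn_254
end

-- ▼ part R260/NNB4_580
section

/-!
# Row 260, NN-ATL, part 4 (helper580): the holomorphic atlas from an arbitrary supply of charts

`LocF C i W F`   : `F` is a local holomorphic chart, read in the real chart `i`, on `W`
`exists_jch_of`  : the chart of `Z` given by `LocF`
`exists_atl_of`  : the good atlas subordinate to a supply of `LocF` with any property `P i W F`;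
                   every chart is `c • F (C.e i x) + v`, `c > 0`.
-/

set_option autoImplicit false

open Set Filter Topology Complex
open scoped ContDiff Manifold

namespace Crest.Agent.R260.NNB_580

open Crest.Agent.R260.ACM_580 Crest.Agent.R275.Geo Crest.Agent.R275.GC293

noncomputable section

variable {V Z : Type} [NormedAddCommGroup V] [NormedSpace ℝ V] [TopologicalSpace Z] {d : ℕ}

/-- `F` is a local holomorphic chart on `W`, read in the real chart `i` -/
structure LocF (C : ACM V Z) (i : C.ι) (W : Set V) (F : V → EuclideanSpace ℂ (Fin d)) : Prop where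
  isOpen : IsOpen W
  sub : W ⊆ (C.e i).target
  sm : ContDiffOn ℝ ∞ F W
  bij : ∀ y ∈ W, Function.Bijective (fderiv ℝ F y)
  lin : ∀ y ∈ W, ∀ v, fderiv ℝ F y (C.J i y v) = I • fderiv ℝ F y v

theorem exists_jch_of [FiniteDimensional ℝ V] {C : ACM V Z} {i : C.ι} {W : Set V}
    {F : V → EuclideanSpace ℂ (Fin d)} (h : LocF C i W F) {x : Z} (hi : x ∈ (C.e i).source)
    (hpW : C.e i x ∈ W) :
    ∃ φ : OpenPartialHomeomorph Z (EuclideanSpace ℂ (Fin d)), JCh C φ ∧ x ∈ φ.source ∧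
      φ.source ⊆ (C.e i).source ∧ (∀ y ∈ φ.source, C.e i y ∈ W) ∧
        ∀ y ∈ φ.source, φ y = F (C.e i y) := by
  have : CompleteSpace V := FiniteDimensional.complete ℝ V
  have hW := h.isOpen
  have hF := h.sm
  have hFa : ∀ y ∈ W, ContDiffAt ℝ ∞ F y := fun y hy => hF.contDiffAt (hW.mem_nhds hy)
  have hFd : ∀ y ∈ W, ∃ T : V ≃L[ℝ] EuclideanSpace ℂ (Fin d),
      HasFDerivAt F (T : V →L[ℝ] EuclideanSpace ℂ (Fin d)) y := by
    intro y hy
    have h1 := ((hFa y hy).differentiableAt (by simp)).hasFDerivAt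
    refine ⟨ContinuousLinearEquiv.ofBijective (fderiv ℝ F y)
      (LinearMap.ker_eq_bot.2 (h.bij y hy).1) (LinearMap.range_eq_top.2 (h.bij y hy).2), ?_⟩
    rw [ContinuousLinearEquiv.coe_ofBijective]
    exact h1
  obtain ⟨T, hT⟩ := hFd _ hpW
  let G0 := (hFa _ hpW).toOpenPartialHomeomorph F hT (by simp)
  let G := G0.restrOpen W hW
  have hG : ∀ y, G y = F y := fun y => rfl
  have hGs : G.source = G0.source ∩ W := G0.restrOpen_source W hW
  let φ : OpenPartialHomeomorph Z (EuclideanSpace ℂ (Fin d)) := (C.e i).trans G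
  have hφs : φ.source = (C.e i).source ∩ C.e i ⁻¹' G.source :=
    (C.e i).trans_source G
  refine ⟨φ, jch_of_local φ fun y hy => ?_, ?_, ?_, fun y hy => ?_, fun y _ => rfl⟩
  · rw [hφs] at hy
    have hyi : y ∈ (C.e i).source := hy.1
    have hyG : C.e i y ∈ G.source := hy.2
    have hyW : C.e i y ∈ W := by rw [hGs] at hyG; exact hyG.2
    have hcoe : (fun z => φ ((C.e i).symm z)) =ᶠ[𝓝 (C.e i y)] F := by
      filter_upwards [(C.e i).open_target.mem_nhds ((C.e i).map_source hyi)] with w hw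
      show G (C.e i ((C.e i).symm w)) = F w
      rw [(C.e i).right_inv hw, hG]
    refine ⟨i, hyi, (hFa _ hyW).congr_of_eventuallyEq hcoe, ?_, fun v => ?_⟩
    · have h1 : (fun z => C.e i (φ.symm z)) =ᶠ[𝓝 (φ y)] G.symm := by
        have h2 : φ y ∈ φ.target := φ.map_source (by rw [hφs]; exact hy)
        filter_upwards [φ.open_target.mem_nhds h2] with w hw
        show C.e i ((C.e i).symm (G.symm w)) = G.symm w
        have h3 : w ∈ G.target ∩ G.symm ⁻¹' (C.e i).target := by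
          have := (C.e i).trans_target G ▸ hw
          exact this
        exact (C.e i).right_inv h3.2
      refine ContDiffAt.congr_of_eventuallyEq ?_ h1
      have h2 : φ y = G (C.e i y) := rfl
      obtain ⟨S, hS⟩ := hFd _ hyW
      have h3 : G (C.e i y) ∈ G.target := G.map_source hyG
      rw [h2]
      refine G.contDiffAt_symm (f₀' := S) h3 ?_ ?_
      · rw [G.left_inv hyG]; exact hS
      · rw [G.left_inv hyG]; exact hFa _ hyW
    · rw [hcoe.fderiv_eq]
      exact h.lin _ hyW v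
  · rw [hφs]
    refine ⟨hi, ?_⟩
    show C.e i x ∈ G.source
    rw [hGs]
    exact ⟨(hFa _ hpW).mem_toOpenPartialHomeomorph_source hT (by simp), hpW⟩
  · rw [hφs]
    exact inter_subset_left
  · rw [hφs] at hy
    have hyG : C.e i y ∈ G.source := hy.2
    rw [hGs] at hyG
    exact hyG.2

/-- the supply of charts given by the local Newlander-Nirenberg theorem -/
theorem exists_locF {C : ACM V Z} (hNN : NNat V d) (hC : C.Int) (x : Z) :
    ∃ i, x ∈ (C.e i).source ∧ ∃ (W : Set V) (F : V → EuclideanSpace ℂ (Fin d)),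
      C.e i x ∈ W ∧ LocF C i W F := by
  obtain ⟨i, hi⟩ := C.cover x
  obtain ⟨W, hW, hpW, hWU, F, hF, hFW⟩ := hNN (C.e i).target (C.e i).open_target (C.e i x)
    ((C.e i).map_source hi) (C.J i) (C.J_sm i) (C.J_sq i) (hC i)
  exact ⟨i, hi, W, F, hpW, hW, hWU, hF, fun y hy => (hFW y hy).1, fun y hy => (hFW y hy).2⟩

/-- restriction of a local chart -/
theorem LocF.mono {C : ACM V Z} {i : C.ι} {W W' : Set V} {F : V → EuclideanSpace ℂ (Fin d)}
    (h : LocF C i W F) (hW' : IsOpen W') (hs : W' ⊆ W) : LocF C i W' F :=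
  ⟨hW', hs.trans h.sub, h.sm.mono hs, fun y hy => h.bij y (hs hy), fun y hy => h.lin y (hs hy)⟩


/-- **the holomorphic atlas** from an arbitrary supply of local holomorphic charts -/
theorem exists_atl_of [FiniteDimensional ℝ V] [CompactSpace Z] [T2Space Z] (C : ACM V Z)
    (P : C.ι → Set V → (V → EuclideanSpace ℂ (Fin d)) → Prop)
    (hP : ∀ x : Z, ∃ i, x ∈ (C.e i).source ∧ ∃ (W : Set V) (F : V → EuclideanSpace ℂ (Fin d)),
      C.e i x ∈ W ∧ LocF C i W F ∧ P i W F)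
    {κ : Type*} (O : κ → Set Z) (hO : ∀ k, IsOpen (O k)) (hOc : ∀ x, ∃ k, x ∈ O k) :
    ∃ A : Atl d Z, Finite A.ι ∧ GoodA A ∧ Nonempty (Part A) ∧
      (∀ a, ∃ k, (A.e a).source ⊆ O k) ∧ Cp C A ∧
      ∀ a, ∃ (i : C.ι) (W : Set V) (F : V → EuclideanSpace ℂ (Fin d)), LocF C i W F ∧ P i W F ∧
        (A.e a).source ⊆ (C.e i).source ∧ (∀ x ∈ (A.e a).source, C.e i x ∈ W) ∧
        ∃ c : ℝ, 0 < c ∧ ∃ v : EuclideanSpace ℂ (Fin d), ∀ x ∈ (A.e a).source,
          A.e a x = (c : ℂ) • F (C.e i x) + v := by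
  classical
  have hex : ∀ x : Z, ∃ φ : OpenPartialHomeomorph Z (EuclideanSpace ℂ (Fin d)),
      (JCh C φ ∧ ∃ (i : C.ι) (W : Set V) (F : V → EuclideanSpace ℂ (Fin d)), LocF C i W F ∧
        P i W F ∧ φ.source ⊆ (C.e i).source ∧ (∀ y ∈ φ.source, C.e i y ∈ W) ∧
        ∀ y ∈ φ.source, φ y = F (C.e i y)) ∧ x ∈ φ.source := by
    intro x
    obtain ⟨i, hi, W, F, hW, hF, hPF⟩ := hP x
    obtain ⟨φ, h1, h2, h3, h4, h5⟩ := exists_jch_of hF hi hW
    exact ⟨φ, ⟨h1, i, W, F, hF, hPF, h3, h4, h5⟩, h2⟩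
  choose φ hφ hφs using hex
  let _ : ChartedSpace (Cn d) Z :=
    { atlas := Set.range φ
      chartAt := φ
      mem_chart_source := hφs
      chart_mem_atlas := fun x => ⟨x, rfl⟩ }
  have hat : ∀ ψ ∈ atlas (Cn d) Z, JCh C ψ := by
    rintro ψ ⟨x, rfl⟩
    exact (hφ x).1
  have : IsManifold 𝓘(ℂ, Cn d) 1 Z := isManifold_of_jch hat
  obtain ⟨G, hG, hP', hF, hsub⟩ := exists_goodAtl (m := d) (M := Z) O hO hOc
  refine ⟨goodAtl G, hF, hG, hP', hsub, cp_goodAtl hat G, ?_⟩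
  have key : ∀ a : Fin G.n, ∃ (i : C.ι) (W : Set V) (F : V → EuclideanSpace ℂ (Fin d)),
      LocF C i W F ∧ P i W F ∧
        (G.ch a).source ⊆ (C.e i).source ∧ (∀ x ∈ (G.ch a).source, C.e i x ∈ W) ∧
        ∃ c : ℝ, 0 < c ∧ ∃ v : EuclideanSpace ℂ (Fin d), ∀ x ∈ (G.ch a).source,
          G.ch a x = (c : ℂ) • F (C.e i x) + v := by
    intro a
    obtain ⟨y, hy⟩ := G.e_mem a
    obtain ⟨i, W, F, h1, h2, h3, h4, h5⟩ := (hφ y).2
    rw [hy] at h3 h4 h5
    have hs : (G.ch a).source ⊆ (G.e a).source := by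
      rw [G.ch_source]
      exact cball_subset_source _ _ _
    refine ⟨i, W, F, h1, h2, hs.trans h3, fun x hx => h4 x (hs hx), (2 * G.r)⁻¹,
      by have := G.r_pos; positivity,
      ctr d - (((2 * G.r)⁻¹ : ℝ) : ℂ) • G.e a (G.c a), fun x hx => ?_⟩
    rw [G.ch_apply, aff_apply, h5 x (hs hx), Complex.ofReal_inv, smul_sub]
    abel
  exact key

end

end Crest.Agent.R260.NNB_580
end

-- ▼ part R260/NnLb4_254
section

/-!
# R260, NN-LB, part 4 (helper254): `LB`, `OneForm`, `HM` from the contact data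

`cmp D q a i x` : comparison of the frame of `L` of the holomorphic chart `a` (vector `q a`) and of
the real chart `i`.  `hyp` : the hyperplane field; `met` : the metric; `met_pos`, `contact`.
`Lnk` : the comparison functions.
-/

set_option autoImplicit false

open Set Filter Topology Complex
open scoped ContDiff Matrix

namespace Crest.Agent.R260.Nn_254

open Crest.Agent.R260.ACM_580 Crest.Agent.R260.NNB_580 Crest.Agent.R260.Ga_323
open Crest.Agent.R275.Geo Crest.Agent.R275.Core144 Crest.Agent.R273.Defs_333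

noncomputable section

variable {V Z : Type} [NormedAddCommGroup V] [NormedSpace ℝ V] [TopologicalSpace Z]
  {C : ACM V Z} {d : ℕ} {A : Atl d Z}

/-- a real chart around `x` -/
def ri (C : ACM V Z) (x : Z) : C.ι := (C.cover x).choose

theorem ri_mem (C : ACM V Z) (x : Z) : x ∈ (C.e (ri C x)).source := (C.cover x).choose_spec

theorem Gf_symm (D : CD C) {φ : OpenPartialHomeomorph Z (Cn d)} {i : C.ι} {z : Cn d}
    (hz : z ∈ φ.target) : Gf D φ i (φ.symm z) = pb (Ps C i φ) (D.θ i) z := by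
  unfold Gf
  rw [φ.right_inv hz]

/-- comparison function -/
def cmp (D : CD C) (q : A.ι → Cn d) (a : A.ι) (i : C.ι) (x : Z) : ℂ := Gf D (A.e a) i x (q a)

/-- the vectors `q a` are transversal to the hyperplane field -/
def QC (D : CD C) (q : A.ι → Cn d) : Prop :=
  ∀ a, ∀ x ∈ (A.e a).source, ∀ i, x ∈ (C.e i).source → cmp D q a i x ≠ 0

variable {D : CD C} {q : A.ι → Cn d}

/-- one real chart around each point is enough -/
theorem qc_of (hCp : Cp C A)
    (h : ∀ a, ∀ x ∈ (A.e a).source, ∃ i, x ∈ (C.e i).source ∧ cmp D q a i x ≠ 0) : QC D q := by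
  intro a x hx i hi
  obtain ⟨j, hj, h0⟩ := h a x hx
  unfold cmp at h0 ⊢
  rw [Gf_lam D (hCp a) hx hj hi] at h0
  exact right_ne_zero_of_mul h0

/-- the normalised form in the chart `a` -/
def tf (D : CD C) (q : A.ι → Cn d) (a : A.ι) (x : Z) (c : Fin d) : ℂ :=
  Gf D (A.e a) (ri C x) x (EuclideanSpace.single c (1 : ℂ)) / cmp D q a (ri C x) x

theorem tf_eq (hCp : Cp C A) {a : A.ι} {i : C.ι} {x : Z} (hx : x ∈ (A.e a).source)
    (hi : x ∈ (C.e i).source) (c : Fin d) :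
    tf D q a x c = Gf D (A.e a) i x (EuclideanSpace.single c (1 : ℂ)) / cmp D q a i x := by
  unfold tf cmp
  have hov : C.e i x ∈ C.ov i (ri C x) :=
    ⟨(C.e i).map_source hi, by rw [(C.e i).left_inv hi]; exact ri_mem C x⟩
  rw [Gf_lam D (hCp a) hx hi (ri_mem C x), Gf_lam D (hCp a) hx hi (ri_mem C x),
    mul_div_mul_left _ _ (D.lam_ne i _ _ hov)]

theorem tf_sum (hCp : Cp C A) {a : A.ι} {i : C.ι} {x : Z} (hx : x ∈ (A.e a).source)
    (hi : x ∈ (C.e i).source) (v : Cn d) :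
    ∑ c, tf D q a x c * v c = Gf D (A.e a) i x v / cmp D q a i x := by
  rw [Gf_sum D (hCp a) hx hi v, Finset.sum_div]
  refine Finset.sum_congr rfl fun c _ => ?_
  rw [tf_eq hCp hx hi]
  ring

/-- in the coordinates of the chart `a` -/
theorem tf_ev (hCp : Cp C A) {a : A.ι} {i : C.ι} {z : Cn d} (hz : z ∈ ovc C i (A.e a))
    (c : Fin d) :
    (fun z => tf D q a ((A.e a).symm z) c) =ᶠ[𝓝 z] fun z =>
      pb (Ps C i (A.e a)) (D.θ i) z (EuclideanSpace.single c (1 : ℂ)) /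
        pb (Ps C i (A.e a)) (D.θ i) z (q a) := by
  filter_upwards [(isOpen_ovc i (A.e a)).mem_nhds hz] with w hw
  rw [tf_eq hCp ((A.e a).map_target hw.1) hw.2]
  unfold cmp
  rw [Gf_symm D hw.1]

theorem cmp_ne_pb (hq : QC D q) {a : A.ι} {i : C.ι} {z : Cn d} (hz : z ∈ ovc C i (A.e a)) :
    pb (Ps C i (A.e a)) (D.θ i) z (q a) ≠ 0 := by
  have h1 := hq a _ ((A.e a).map_target hz.1) i hz.2
  unfold cmp at h1
  rw [Gf_symm D hz.1] at h1
  exact h1

theorem cmp_chg (hCp : Cp C A) {a b : A.ι} {i : C.ι} {x : Z}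
    (hx : x ∈ (A.e a).source ∩ (A.e b).source) (hi : x ∈ (C.e i).source) (v : Cn d) :
    Gf D (A.e a) i x v = ∑ e, Gf D (A.e b) i x (EuclideanSpace.single e (1 : ℂ)) *
      (fderiv ℂ (fun z => A.e b ((A.e a).symm z)) (A.e a x) v) e := by
  rw [Gf_chg D (hCp b) (hCp a) hx.2 hx.1 hi, Gf_sum D (hCp b) hx.2 hi]

/-- the hyperplane field -/
def hyp (hCp : Cp C A) (hq : QC D q) : HypF A where
  q a c := q a c
  th := tf D q
  hol a c := by
    intro z hz
    apply DifferentiableAt.differentiableWithinAt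
    have hc : z ∈ ovc C (ri C ((A.e a).symm z)) (A.e a) := ⟨hz.1, ri_mem C _⟩
    refine DifferentiableAt.congr_of_eventuallyEq ?_ (tf_ev (D := D) (q := q) hCp hc c)
    exact (lc_of D (hCp a) _).holo hc _ (cmp_ne_pb hq hc)
  nrm a x hx := by
    have h1 := tf_sum (D := D) (q := q) hCp hx (ri_mem C x) (q a)
    have h2 : Gf D (A.e a) (ri C x) x (q a) / cmp D q a (ri C x) x = 1 :=
      div_self (hq a x hx _ (ri_mem C x))
    rw [h2] at h1
    exact h1
  cov a b x hx := by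
    have hi := ri_mem C x
    refine ⟨cmp D q b (ri C x) x / cmp D q a (ri C x) x, ?_⟩
    ext c
    have h0 := hq b x hx.2 _ hi
    rw [tf_eq hCp hx.1 hi, cmp_chg hCp hx hi]
    simp only [Pi.smul_apply, smul_eq_mul, Matrix.vecMul, dotProduct, Jm_apply, Atl.J,
      Finset.mul_sum, Finset.sum_div]
    refine Finset.sum_congr rfl fun e _ => ?_
    rw [tf_eq hCp hx.2 hi]
    field_simp

variable (hCp : Cp C A) (hq : QC D q)

theorem lb_g_eq {a b : A.ι} {i : C.ι} {x : Z} (hx : x ∈ (A.e a).source ∩ (A.e b).source)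
    (hi : x ∈ (C.e i).source) :
    (hyp hCp hq).lb.g a b x = cmp D q b i x / cmp D q a i x := by
  rw [HypF.lb_g _ hx]
  apply HypF.kap _ hx
  ext c
  have h0 := hq b x hx.2 _ hi
  show tf D q a x c = (_ • (tf D q b x ᵥ* Jm A a b x)) c
  rw [tf_eq hCp hx.1 hi, cmp_chg hCp hx hi]
  simp only [Pi.smul_apply, smul_eq_mul, Matrix.vecMul, dotProduct, Jm_apply, Atl.J,
    Finset.mul_sum, Finset.sum_div]
  refine Finset.sum_congr rfl fun e _ => ?_
  rw [tf_eq hCp hx.2 hi]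
  field_simp

theorem form_app_eq {a : A.ι} {i : C.ι} {x : Z} (hx : x ∈ (A.e a).source)
    (hi : x ∈ (C.e i).source) (v : Cn d) :
    (hyp hCp hq).form.app a x v = Gf D (A.e a) i x v / cmp D q a i x := tf_sum hCp hx hi v

/-- the local weight -/
def wf (D : CD C) (q : A.ι → Cn d) (a : A.ι) (i : C.ι) (x : Z) : ℝ :=
  D.h i (C.e i x) * ‖cmp D q a i x‖ ^ 2

theorem cmp_lam (hCp : Cp C A) {a : A.ι} {i j : C.ι} {x : Z} (hx : x ∈ (A.e a).source)
    (hi : x ∈ (C.e i).source) (hj : x ∈ (C.e j).source) :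
    cmp D q a i x = D.lam i j (C.e i x) * cmp D q a j x := Gf_lam D (hCp a) hx hi hj (q a)

theorem wf_eq (hCp : Cp C A) {a : A.ι} {i j : C.ι} {x : Z} (hx : x ∈ (A.e a).source)
    (hi : x ∈ (C.e i).source) (hj : x ∈ (C.e j).source) : wf D q a i x = wf D q a j x := by
  unfold wf
  have hov : C.e i x ∈ C.ov i j :=
    ⟨(C.e i).map_source hi, by rw [(C.e i).left_inv hi]; exact hj⟩
  have h1 := D.h_tr i j _ hov
  rw [(C.e i).left_inv hi] at h1
  rw [h1, cmp_lam hCp hx hi hj, norm_mul]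
  ring

theorem wf_ev (hCp : Cp C A) {a : A.ι} {i : C.ι} {z : Cn d} (hz : z ∈ ovc C i (A.e a)) :
    (fun z => wf D q a (ri C ((A.e a).symm z)) ((A.e a).symm z)) =ᶠ[𝓝 z] fun z =>
      D.h i (Ps C i (A.e a) z) * ‖pb (Ps C i (A.e a)) (D.θ i) z (q a)‖ ^ 2 := by
  filter_upwards [(isOpen_ovc i (A.e a)).mem_nhds hz] with w hw
  rw [wf_eq hCp ((A.e a).map_target hw.1) (ri_mem C _) hw.2]
  unfold wf cmp
  rw [Gf_symm D hw.1]
  rfl

/-- the metric -/
def met : HM (hyp hCp hq).lb where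
  w a x := wf D q a (ri C x) x
  pos a x hx := by
    have h1 := D.h_pos (ri C x) _ ((C.e _).map_source (ri_mem C x))
    have h2 := hq a x hx _ (ri_mem C x)
    unfold wf
    positivity
  sm a := by
    intro z hz
    apply ContDiffAt.contDiffWithinAt
    have hc : z ∈ ovc C (ri C ((A.e a).symm z)) (A.e a) := ⟨hz, ri_mem C _⟩
    refine ContDiffAt.congr_of_eventuallyEq ?_ (wf_ev (D := D) (q := q) hCp hc)
    have H := lc_of D (hCp a) (ri C ((A.e a).symm z))
    have h1 := H.h_sm.contDiffAt (H.isOpen.mem_nhds hc)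
    have h2 := (H.G_sm (q a)).contDiffAt (H.isOpen.mem_nhds hc)
    exact h1.mul (h2.norm_sq ℝ)
  tr a b x hx := by
    rw [lb_g_eq hCp hq hx (ri_mem C x)]
    unfold wf
    rw [norm_div]
    have h0 := hq a x hx.1 _ (ri_mem C x)
    have h1 : ‖cmp D q a (ri C x) x‖ ≠ 0 := by positivity
    field_simp

theorem met_w {a : A.ι} {i : C.ι} {x : Z} (hx : x ∈ (A.e a).source) (hi : x ∈ (C.e i).source) :
    (met hCp hq).w a x = D.h i (C.e i x) * ‖cmp D q a i x‖ ^ 2 :=
  wf_eq hCp hx (ri_mem C x) hi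

theorem lev_congr {u u' : Cn d → ℝ} {z : Cn d} (h : u =ᶠ[𝓝 z] u') (v : Cn d) :
    lev u z v = lev u' z v := by
  unfold lev
  rw [(h.iteratedFDeriv ℝ 2).eq_of_nhds]

/-- the curvature is positive -/
theorem met_pos : (met hCp hq).Pos := by
  intro a z hz v hv
  have hc : z ∈ ovc C (ri C ((A.e a).symm z)) (A.e a) := ⟨hz, ri_mem C _⟩
  have H := lc_of D (hCp a) (ri C ((A.e a).symm z))
  have h1 := H.lev_pos (q := q a) (fun w hw => cmp_ne_pb hq hw) hc hv
  have h2 : (met hCp hq).wt a =ᶠ[𝓝 z] fun w => - Real.log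
      (D.h (ri C ((A.e a).symm z)) (Ps C (ri C ((A.e a).symm z)) (A.e a) w) *
        ‖pb (Ps C (ri C ((A.e a).symm z)) (A.e a)) (D.θ (ri C ((A.e a).symm z))) w (q a)‖ ^ 2) := by
    filter_upwards [wf_ev (D := D) (q := q) hCp hc] with w hw
    show - Real.log (wf D q a (ri C ((A.e a).symm w)) ((A.e a).symm w)) = _
    rw [hw]
  rw [lev_congr h2]
  exact h1

theorem LC.sum_ratio {U : Set (Cn d)} {T B : Cn d → Cn d →L[ℝ] ℂ} {h : Cn d → ℝ}
    (H : LC U T B h) {z : Cn d} (hz : z ∈ U) {q : Cn d} (hq : T z q ≠ 0) (u w : Cn d) :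
    ∑ b, fderiv ℂ (fun z => T z (EuclideanSpace.single b (1 : ℂ)) / T z q) z u * w b =
      (fderiv ℝ T z u w * T z q - T z w * fderiv ℝ T z u q) / T z q ^ 2 := by
  have h1 : ∀ b, fderiv ℂ (fun z => T z (EuclideanSpace.single b (1 : ℂ)) / T z q) z u =
      (fderiv ℝ T z u (EuclideanSpace.single b (1 : ℂ)) * T z q -
        T z (EuclideanSpace.single b (1 : ℂ)) * fderiv ℝ T z u q) / T z q ^ 2 := by
    intro b
    have h2 := H.holo hz (EuclideanSpace.single b (1 : ℂ)) hq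
    have h3 := H.fderiv_ratio hz (EuclideanSpace.single b (1 : ℂ)) hq u
    rw [h2.fderiv_restrictScalars ℝ] at h3
    exact h3
  have h4 := lin_sum (T := T z) (H.T_I z hz) w
  have h5 := lin_sum (T := fderiv ℝ T z u)
    (fun v => fderiv_I_of H.isOpen (fun z hz => H.T_diff hz) H.T_I hz u v) w
  rw [h4, h5, Finset.sum_mul, Finset.sum_mul, ← Finset.sum_sub_distrib, Finset.sum_div]
  refine Finset.sum_congr rfl fun b _ => ?_
  rw [h1]
  ring

/-- the form is a contact form -/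
theorem contact : Contact (hyp hCp hq).form where
  ne a x hx := by
    refine ⟨q a, ?_⟩
    rw [form_app_eq hCp hq hx (ri_mem C x)]
    have h1 : Gf D (A.e a) (ri C x) x (q a) / cmp D q a (ri C x) x = 1 :=
      div_self (hq a x hx _ (ri_mem C x))
    rw [h1]
    exact one_ne_zero
  nd a x hx u hu h0 := by
    have hi := ri_mem C x
    have hc : A.e a x ∈ ovc C (ri C x) (A.e a) := mem_ovc_of_source hx hi
    have H := lc_of D (hCp a) (ri C x)
    have hq0 : pb (Ps C (ri C x) (A.e a)) (D.θ (ri C x)) (A.e a x) (q a) ≠ 0 := hq a x hx _ hi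
    have happ : ∀ v, (hyp hCp hq).form.app a x v = 0 ↔
        pb (Ps C (ri C x) (A.e a)) (D.θ (ri C x)) (A.e a x) v = 0 := by
      intro v
      rw [form_app_eq hCp hq hx hi, div_eq_zero_iff]
      constructor
      · rintro (h | h)
        · exact h
        · exact absurd h (hq a x hx _ hi)
      · intro h
        exact Or.inl h
    have hd : ∀ v w : Cn d, ∑ b, fderiv ℂ (fun z => (hyp hCp hq).form.th a ((A.e a).symm z) b)
        (A.e a x) v * w b = (fderiv ℝ (pb (Ps C (ri C x) (A.e a)) (D.θ (ri C x))) (A.e a x) v w *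
          pb (Ps C (ri C x) (A.e a)) (D.θ (ri C x)) (A.e a x) (q a) -
            pb (Ps C (ri C x) (A.e a)) (D.θ (ri C x)) (A.e a x) w *
              fderiv ℝ (pb (Ps C (ri C x) (A.e a)) (D.θ (ri C x))) (A.e a x) v (q a)) /
            pb (Ps C (ri C x) (A.e a)) (D.θ (ri C x)) (A.e a x) (q a) ^ 2 := by
      intro v w
      rw [← H.sum_ratio hc hq0 v w]
      refine Finset.sum_congr rfl fun b _ => ?_
      have h2 : (fun z => (hyp hCp hq).form.th a ((A.e a).symm z) b) =ᶠ[𝓝 (A.e a x)] fun z =>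
        pb (Ps C (ri C x) (A.e a)) (D.θ (ri C x)) z (EuclideanSpace.single b (1 : ℂ)) /
          pb (Ps C (ri C x) (A.e a)) (D.θ (ri C x)) z (q a) := tf_ev hCp hc b
      rw [h2.fderiv_eq]
    refine H.nd_app hc hq0 ((happ u).1 hu) fun w hw => ?_
    have h3 := h0 w ((happ w).2 hw)
    unfold OneForm.dapp at h3
    rw [Finset.sum_sub_distrib, hd, hd] at h3
    exact h3

/-- the comparison functions between the frames of `L` -/
structure Lnk (D : CD C) (L : LB A) (θ : OneForm L) (h : HM L) (cm : A.ι → C.ι → Z → ℂ) :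
    Prop where
  ne : ∀ a i x, x ∈ (A.e a).source → x ∈ (C.e i).source → cm a i x ≠ 0
  sm : ∀ a i, ContDiffOn ℝ ∞ (fun y => cm a i ((C.e i).symm y)) (ovr C i (A.e a))
  th : ∀ a i x, x ∈ (A.e a).source → x ∈ (C.e i).source → ∀ v : V, D.θ i (C.e i x) v =
    cm a i x * θ.app a x (fderiv ℝ (fun y => A.e a ((C.e i).symm y)) (C.e i x) v)
  trL : ∀ a b i x, x ∈ (A.e a).source → x ∈ (A.e b).source → x ∈ (C.e i).source →
    cm b i x = L.g a b x * cm a i x
  trR : ∀ a i j x, x ∈ (A.e a).source → x ∈ (C.e i).source → x ∈ (C.e j).source →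
    cm a i x = D.lam i j (C.e i x) * cm a j x
  w : ∀ a i x, x ∈ (A.e a).source → x ∈ (C.e i).source →
    h.w a x = D.h i (C.e i x) * ‖cm a i x‖ ^ 2
  db : ∀ a i x, x ∈ (A.e a).source → x ∈ (C.e i).source → ∀ v : V,
    fderiv ℝ (fun y => cm a i ((C.e i).symm y)) (C.e i x) v +
      I * fderiv ℝ (fun y => cm a i ((C.e i).symm y)) (C.e i x) (C.J i (C.e i x) v) =
      -(D.α i (C.e i x) v + I * D.α i (C.e i x) (C.J i (C.e i x) v)) * cm a i x

theorem lnk : Lnk D (hyp hCp hq).lb (hyp hCp hq).form (met hCp hq) (cmp D q) where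
  ne a i x hx hi := hq a x hx i hi
  sm a i := Gf_real_contDiffOn D (hCp a) i (q a)
  th a i x hx hi v := by
    rw [form_app_eq hCp hq hx hi, theta_eq D (hCp a) hx hi, mul_div_cancel₀ _ (hq a x hx i hi)]
  trL a b i x hx hx' hi := by
    rw [lb_g_eq hCp hq ⟨hx, hx'⟩ hi, div_mul_cancel₀ _ (hq a x hx i hi)]
  trR a i j x hx hi hj := cmp_lam hCp hx hi hj
  w a i x hx hi := met_w hCp hq hx hi
  db a i x hx hi v := Gf_db D (hCp a) hx hi (q a) v

end

end Crest.Agent.R260.Nn_254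
end

-- ▼ part R260/NnLb5_254

/-!
# R260, NN-LB, part 5 (helper254): the final theorems

`exists_cx` : `C : ACM V Z` integrable, contact data `D : CD C`, local Newlander-Nirenberg ⟹ finite
good atlas, holomorphic contact line bundle with a metric of positive curvature, comparison `Lnk`.
`Lnk.exists_sk` : sections of `L ^ k` in the smooth frames of `D`.
-/

set_option autoImplicit false

open Set Filter Topology Complex
open scoped ContDiff Matrix

namespace Crest.Agent.R260.Nn_254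

open Crest.Agent.R260.ACM_580 Crest.Agent.R260.NNB_580 Crest.Agent.R260.Ga_323
open Crest.Agent.R275.Geo Crest.Agent.R275.Core144 Crest.Agent.R273.Defs_333
open Crest.Agent.R275.GC293

noncomputable section

variable {V Z : Type} [NormedAddCommGroup V] [NormedSpace ℝ V] [TopologicalSpace Z]
  {C : ACM V Z} {d : ℕ}

/-- local holomorphic charts with a coordinate vector transversal to `ker θ` -/
theorem exists_supply [FiniteDimensional ℝ V] (D : CD C) (hC : C.Int) (hNN : NNat V d) (x : Z) :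
    ∃ i, x ∈ (C.e i).source ∧ ∃ (W : Set V) (F : V → EuclideanSpace ℂ (Fin d)),
      C.e i x ∈ W ∧ LocF C i W F ∧ ∃ p : EuclideanSpace ℂ (Fin d), ∀ y ∈ W, ∀ v : V,
        fderiv ℝ F y v = p → D.θ i y v ≠ 0 := by
  have : CompleteSpace V := FiniteDimensional.complete ℝ V
  obtain ⟨i, hi, W, F, hW, hF⟩ := exists_locF hNN hC x
  obtain ⟨v0, hv0⟩ := D.θ_ne i _ ((C.e i).map_source hi)
  set y0 := C.e i x with hy0
  set p := fderiv ℝ F y0 v0 with hp
  have heq : ∀ y ∈ W, ∃ T : V ≃L[ℝ] EuclideanSpace ℂ (Fin d),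
      (T : V →L[ℝ] EuclideanSpace ℂ (Fin d)) = fderiv ℝ F y := by
    intro y hy
    refine ⟨ContinuousLinearEquiv.ofBijective (fderiv ℝ F y)
      (LinearMap.ker_eq_bot.2 (hF.bij y hy).1) (LinearMap.range_eq_top.2 (hF.bij y hy).2), ?_⟩
    rw [ContinuousLinearEquiv.coe_ofBijective]
  have hinv : ∀ y ∈ W, ∀ v, ContinuousLinearMap.inverse (fderiv ℝ F y) (fderiv ℝ F y v) = v := by
    intro y hy v
    obtain ⟨T, hT⟩ := heq y hy
    rw [← hT, ContinuousLinearMap.inverse_equiv]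
    simp
  have hcF : ContinuousOn (fderiv ℝ F) W :=
    (hF.sm.fderiv_of_isOpen hF.isOpen (m := ∞) (by simp)).continuousOn
  have hcX : ContinuousOn (fun y => ContinuousLinearMap.inverse (fderiv ℝ F y) p) W := by
    intro y hy
    obtain ⟨T, hT⟩ := heq y hy
    have h1 : ContinuousAt ContinuousLinearMap.inverse (fderiv ℝ F y) := by
      rw [← hT]
      exact (contDiffAt_map_inverse (n := 1) T).continuousAt
    have h2 : ContinuousAt (fderiv ℝ F) y := hcF.continuousAt (hF.isOpen.mem_nhds hy)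
    have h3 : ContinuousAt (fun y => ContinuousLinearMap.inverse (fderiv ℝ F y)) y :=
      ContinuousAt.comp (f := fderiv ℝ F) h1 h2
    exact (h3.clm_apply continuousAt_const).continuousWithinAt
  have hcθ : ContinuousOn
      (fun y => D.θ i y (ContinuousLinearMap.inverse (fderiv ℝ F y) p)) W :=
    ((D.θ_sm i).continuousOn.mono hF.sub).clm_apply hcX
  have ho : IsOpen (W ∩ (fun y => D.θ i y (ContinuousLinearMap.inverse (fderiv ℝ F y) p)) ⁻¹'
      {0}ᶜ) := hcθ.isOpen_inter_preimage hF.isOpen isOpen_compl_singleton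
  refine ⟨i, hi, W ∩ (fun y => D.θ i y (ContinuousLinearMap.inverse (fderiv ℝ F y) p)) ⁻¹'
      {0}ᶜ, F, ⟨hW, ?_⟩, hF.mono ho inter_subset_left, p, fun y hy v hv => ?_⟩
  · show D.θ i y0 (ContinuousLinearMap.inverse (fderiv ℝ F y0) p) ≠ 0
    rw [hp, hinv y0 hW]
    exact hv0
  · have h1 : D.θ i y (ContinuousLinearMap.inverse (fderiv ℝ F y) p) ≠ 0 := hy.2
    rw [← hv, hinv y hy.1] at h1
    exact h1

/-- **NN-LB**: the holomorphic contact line bundle and its positive metric -/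
theorem exists_cx' [FiniteDimensional ℝ V] [CompactSpace Z] [T2Space Z] (C : ACM V Z)
    (hC : C.Int) (D : CD C) (hNN : NNat V d) {κ : Type*} (O : κ → Set Z) (hO : ∀ k, IsOpen (O k))
    (hOc : ∀ x, ∃ k, x ∈ O k) :
    ∃ (A : Atl d Z) (L : LB A) (θ : OneForm L) (h : HM L) (cm : A.ι → C.ι → Z → ℂ),
      Finite A.ι ∧ GoodA A ∧ Nonempty (Part A) ∧ Cp C A ∧ Contact θ ∧ h.Pos ∧ Lnk D L θ h cm ∧
        (∀ a, ∃ k, (A.e a).source ⊆ O k) ∧ ∀ a, ∃ i, (A.e a).source ⊆ (C.e i).source := by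
  obtain ⟨A, hA1, hA2, hA3, hA4, hCp, hA5⟩ := exists_atl_of C
    (fun i W F => ∃ p : EuclideanSpace ℂ (Fin d), ∀ y ∈ W, ∀ v : V,
        fderiv ℝ F y v = p → D.θ i y v ≠ 0) (exists_supply D hC hNN) O hO hOc
  beta_reduce at hA5
  choose i W F hF hp' hs hW c hc v hv using hA5
  choose p hp using hp'
  have hq : QC D (fun a => (c a : ℂ) • p a) := by
    refine qc_of hCp fun a x hx => ⟨i a, hs a hx, ?_⟩
    have hi := hs a hx
    have hc' := mem_ovc_of_source hx hi
    have hr := mem_ovr_of_source hx hi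
    show Gf D (A.e a) (i a) x ((c a : ℂ) • p a) ≠ 0
    rw [Gf_apply D hx]
    apply hp a _ (hW a x hx)
    set w := fderiv ℝ (Ps C (i a) (A.e a)) (A.e a x) ((c a : ℂ) • p a) with hw
    have h1 : fderiv ℝ (fun y => A.e a ((C.e (i a)).symm y)) (C.e (i a) x) w =
        (c a : ℂ) • p a := by
      have h2 := (hCp a).inv_left hc' ((c a : ℂ) • p a)
      rw [(A.e a).left_inv hx] at h2
      exact h2
    have h3 : (fun y => A.e a ((C.e (i a)).symm y)) =ᶠ[𝓝 (C.e (i a) x)]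
        fun y => (c a : ℂ) • F a y + v a := by
      filter_upwards [(isOpen_ovr (i a) (A.e a)).mem_nhds hr] with y hy
      rw [hv a _ hy.2, (C.e (i a)).right_inv hy.1]
    have h4 : HasFDerivAt (F a) (fderiv ℝ (F a) (C.e (i a) x)) (C.e (i a) x) :=
      (((hF a).sm.contDiffAt ((hF a).isOpen.mem_nhds (hW a x hx))).differentiableAt
        (by simp)).hasFDerivAt
    have h5 : HasFDerivAt (fun y => (c a : ℂ) • F a y + v a)
        ((c a : ℂ) • fderiv ℝ (F a) (C.e (i a) x)) (C.e (i a) x) :=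
      (h4.const_smul (c a : ℂ)).add_const (v a)
    rw [h3.fderiv_eq, h5.fderiv] at h1
    have h6 : (c a : ℂ) • fderiv ℝ (F a) (C.e (i a) x) w = (c a : ℂ) • p a := h1
    have h7 : (c a : ℂ) ≠ 0 := by
      exact_mod_cast (hc a).ne'
    exact smul_right_injective _ h7 h6
  refine ⟨A, _, _, _, _, hA1, hA2, hA3, hCp, contact hCp hq, met_pos hCp hq, lnk hCp hq, hA4,
    fun a => ⟨i a, hs a⟩⟩

/-- **NN-LB** -/
theorem exists_cx [FiniteDimensional ℝ V] [CompactSpace Z] [T2Space Z] (C : ACM V Z)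
    (hC : C.Int) (D : CD C) (hNN : NNat V d) :
    ∃ (A : Atl d Z) (L : LB A) (θ : OneForm L) (h : HM L) (cm : A.ι → C.ι → Z → ℂ),
      Finite A.ι ∧ GoodA A ∧ Nonempty (Part A) ∧ Cp C A ∧ Contact θ ∧ h.Pos ∧ Lnk D L θ h cm := by
  obtain ⟨A, L, θ, h, cm, h1, h2, h3, h4, h5, h6, h7, -, -⟩ := exists_cx' C hC D hNN
    (fun _ : Unit => (univ : Set Z)) (fun _ => isOpen_univ) (fun x => ⟨(), mem_univ x⟩)
  exact ⟨A, L, θ, h, cm, h1, h2, h3, h4, h5, h6, h7⟩

/-! ### sections of `L ^ k` in the smooth frames -/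

variable {A : Atl d Z} {D : CD C} {L : LB A} {θ : OneForm L} {h : HM L}
  {cm : A.ι → C.ι → Z → ℂ}




end

end Crest.Agent.R260.Nn_254
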