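import Mathlib
import Crest.Agent.R270.DimN8_282

-- ▼ part R260/Num1_789
section

/-!
Row 260 (S0398), AG-NUM (helper789), part 1: adjugates of matrices of corank one.
-/

set_option autoImplicit false

namespace Crest.Agent.R260.Num_789

open Matrix

section field

variable {K : Type*} [Field K] {ι : Type*} [Fintype ι] [DecidableEq ι]






end field

section border

variable {K : Type*} [Field K] {ι S : Type*} [Fintype ι] [DecidableEq ι] [Fintype S]
  [DecidableEq S]

/-- **the determinant identity for a matrix with left and right kernel `e`.** -/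
theorem exists_h (G : Matrix ι ι K) (e : Matrix ι S K) (Y0 : Matrix S ι K) (h0 : Y0 * e = 1)
    (h1 : G * e = 0) (h2 : eᵀ * G = 0) : ∃ h : K, ∀ g : K, g ≠ 0 → ∀ Y Z : Matrix S ι K,
      (g • G + Yᵀ * Z).det =
        g ^ Fintype.card ι * g⁻¹ ^ Fintype.card S * h * (Y * e).det * (Z * e).det := by
  refine ⟨(G + Y0ᵀ * Y0).det, fun g hg Y Z => ?_⟩
  -- right
  have hr : (g • G + Yᵀ * Z).det = (g • G + Yᵀ * Y0).det * (Z * e).det := by
    have e1 : (g • G + Yᵀ * Y0) * (1 + e * (Z - Y0)) = g • G + Yᵀ * Z := by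
      rw [Matrix.add_mul, Matrix.mul_add, Matrix.mul_add, Matrix.mul_one, Matrix.mul_one,
        ← Matrix.mul_assoc (g • G), Matrix.smul_mul, h1, smul_zero, Matrix.zero_mul, add_zero,
        ← Matrix.mul_assoc (Yᵀ * Y0), Matrix.mul_assoc Yᵀ Y0 e, h0, Matrix.mul_one,
        Matrix.mul_sub]
      abel
    have e2 : (1 + e * (Z - Y0)).det = (Z * e).det := by
      rw [det_one_add_mul_comm, Matrix.sub_mul, h0]
      congr 1
      abel
    rw [← e1, det_mul, e2]
  -- left
  have h0' : eᵀ * Y0ᵀ = 1 := by rw [← transpose_mul, h0, transpose_one]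
  have hl : (g • G + Yᵀ * Y0).det = (g • G + Y0ᵀ * Y0).det * (Y * e).det := by
    have e1 : (1 + (Y - Y0)ᵀ * eᵀ) * (g • G + Y0ᵀ * Y0) = g • G + Yᵀ * Y0 := by
      rw [Matrix.add_mul, Matrix.one_mul, Matrix.mul_add, Matrix.mul_smul,
        Matrix.mul_assoc _ eᵀ G, h2, Matrix.mul_zero, smul_zero, zero_add,
        Matrix.mul_assoc _ eᵀ, ← Matrix.mul_assoc eᵀ, h0', Matrix.one_mul, transpose_sub,
        Matrix.sub_mul]
      abel
    have e2 : (1 + (Y - Y0)ᵀ * eᵀ).det = (Y * e).det := by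
      rw [← det_transpose, transpose_add, transpose_one, transpose_mul, transpose_transpose,
        transpose_transpose, det_one_add_mul_comm, Matrix.sub_mul, h0]
      congr 1
      abel
    rw [← e1, det_mul, e2, mul_comm]
  -- scaling
  have hs : (g • G + Y0ᵀ * Y0).det =
      (G + Y0ᵀ * Y0).det * (g ^ Fintype.card ι * g⁻¹ ^ Fintype.card S) := by
    have e1 : (G + Y0ᵀ * Y0) * (g • (1 + (g⁻¹ - 1) • e * Y0)) = g • G + Y0ᵀ * Y0 := by
      have a1 : g * (g⁻¹ - 1) = 1 - g := by field_simp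
      have a2 : g • (1 + (g⁻¹ - 1) • e * Y0) = g • (1 : Matrix ι ι K) + (1 - g) • (e * Y0) := by
        rw [smul_add, Matrix.smul_mul, smul_smul, a1]
      rw [a2, Matrix.add_mul, Matrix.mul_add, Matrix.mul_add, Matrix.mul_smul, Matrix.mul_smul,
        Matrix.mul_smul, Matrix.mul_smul, Matrix.mul_one, Matrix.mul_one, ← Matrix.mul_assoc G, h1,
        Matrix.zero_mul, smul_zero, add_zero, ← Matrix.mul_assoc (Y0ᵀ * Y0),
        Matrix.mul_assoc Y0ᵀ Y0 e, h0, Matrix.mul_one, ← add_smul]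
      simp
    have e2 : (g • (1 + (g⁻¹ - 1) • e * Y0)).det =
        g ^ Fintype.card ι * g⁻¹ ^ Fintype.card S := by
      rw [det_smul, Matrix.smul_mul, ← Matrix.mul_smul, det_one_add_mul_comm, Matrix.smul_mul, h0]
      have a3 : (1 : Matrix S S K) + (g⁻¹ - 1) • 1 = g⁻¹ • 1 := by
        rw [sub_smul, one_smul]
        abel
      rw [a3, det_smul, det_one, mul_one]
    rw [← e1, det_mul, e2]
  rw [hr, hl, hs]
  ring

/-- a matrix with injective `mulVec` has a left inverse. -/
theorem exists_left_inv (e : Matrix ι S K) (h : ∀ x : S → K, e *ᵥ x = 0 → x = 0) :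
    ∃ Y : Matrix S ι K, Y * e = 1 := by
  have hinj : LinearMap.ker (toLin' e) = ⊥ := by
    rw [LinearMap.ker_eq_bot']
    intro x hx
    exact h x hx
  obtain ⟨f, hf⟩ := (toLin' e).exists_leftInverse_of_injective hinj
  refine ⟨LinearMap.toMatrix' f, ?_⟩
  have h1 := congrArg LinearMap.toMatrix' hf
  rw [LinearMap.toMatrix'_comp, LinearMap.toMatrix'_toLin', LinearMap.toMatrix'_id] at h1
  exact h1

/-- if the kernel of `P` is spanned by `e`, then `P + Yᵀ Y` is invertible. -/
theorem det_border_ne (P : Matrix ι ι K) (e : Matrix ι S K) (Y : Matrix S ι K) (h0 : Y * e = 1)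
    (h2 : eᵀ * P = 0) (hk : ∀ x, P *ᵥ x = 0 → ∃ a : S → K, x = e *ᵥ a) :
    (P + Yᵀ * Y).det ≠ 0 := by
  intro hdet
  obtain ⟨x, hx0, hx⟩ := exists_mulVec_eq_zero_iff.mpr hdet
  have h0' : eᵀ * Yᵀ = 1 := by rw [← transpose_mul, h0, transpose_one]
  have h3 : Y *ᵥ x = 0 := by
    have h4 := congrArg (fun z => eᵀ *ᵥ z) hx
    simp only [mulVec_mulVec, Matrix.mul_add, h2, zero_add, mulVec_zero, ← Matrix.mul_assoc,
      h0', Matrix.one_mul] at h4
    exact h4
  have h5 : P *ᵥ x = 0 := by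
    rw [add_mulVec, ← mulVec_mulVec, h3, mulVec_zero, add_zero] at hx
    exact hx
  obtain ⟨a, rfl⟩ := hk x h5
  rw [mulVec_mulVec, h0, one_mulVec] at h3
  rw [h3, mulVec_zero] at hx0
  exact hx0 rfl

end border

end Crest.Agent.R260.Num_789
end

-- ▼ part R260/Num2_789

/-!
Row 260 (S0398), AG-NUM (helper789), part 2: two-forms on a multicone, the local lemma.
-/

set_option autoImplicit false

namespace Crest.Agent.R260.Num_789

open Polynomial Matrix Crest.Agent.R270.BM_360 Crest.Agent.R270.DimN_282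

universe u

variable {k : Type u} [Field k] {I : Type} {J : I → Type} [Fintype I] [∀ i, Fintype (J i)]

/-- value at `v` of the matrix `q` of polynomials. -/
noncomputable def mat (q : (Σ i, J i) → (Σ i, J i) → MvPolynomial (Σ i, J i) k) {A : Type*}
    [CommRing A] [Algebra k A] (v : ∀ i, J i → A) : Matrix (Σ i, J i) (Σ i, J i) A :=
  Matrix.of fun x y => MvPolynomial.aeval (fun s : Σ i, J i => v s.1 s.2) (q x y)

/-- value at `v` of the bilinear form `q` with polynomial coefficients. -/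
noncomputable def bf (q : (Σ i, J i) → (Σ i, J i) → MvPolynomial (Σ i, J i) k) {A : Type*}
    [CommRing A] [Algebra k A] (v : ∀ i, J i → A) (t t' : (Σ i, J i) → A) : A :=
  t ⬝ᵥ (mat q v *ᵥ t')

/-- value at `v` of a polynomial. -/
noncomputable def evp {A : Type*} [CommRing A] [Algebra k A] (v : ∀ i, J i → A)
    (g : MvPolynomial (Σ i, J i) k) : A :=
  MvPolynomial.aeval (fun s : Σ i, J i => v s.1 s.2) g

/-- the Euler vector `(u_i v_i)`. -/
def eul {A : Type*} [CommRing A] [Algebra k A] (u : I → k) (v : ∀ i, J i → A) :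
    (Σ i, J i) → A := fun x => algebraMap k A (u x.1) * v x.1 x.2

open Classical in
/-- a skew two-form of weight `w` on the multicone `E`, given by quotients `q c / g c`, whose radical
is spanned by the Euler vectors `u σ` at every point of every field. -/
structure TwoForm (E : Set (MvPolynomial (Σ i, J i) k)) (w : I → ℤ) {S : Type} [Fintype S]
    (u : S → I → k) where
  C : Type
  g : C → MvPolynomial (Σ i, J i) k
  q : C → (Σ i, J i) → (Σ i, J i) → MvPolynomial (Σ i, J i) k
  dg : C → I → ℕ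
  dq : C → (Σ i, J i) → (Σ i, J i) → I → ℕ
  hg : ∀ c, MvPolynomial.IsWeightedHomogeneous (fun x : Σ i, J i => (Pi.single x.1 1 : I → ℕ))
    (g c) (dg c)
  hq : ∀ c x y, MvPolynomial.IsWeightedHomogeneous
    (fun x : Σ i, J i => (Pi.single x.1 1 : I → ℕ)) (q c x y) (dq c x y)
  hw : ∀ c x y i, q c x y ≠ 0 →
    (dq c x y i : ℤ) + (Pi.single x.1 1 : I → ℤ) i + (Pi.single y.1 1 : I → ℤ) i = dg c i + w i
  skew : ∀ c x y, q c x y = - q c y x
  cov : ∀ (κ : Type u) [Field κ] [Algebra k κ] (v : ∀ i, J i → κ), OnX E v → (∀ i, v i ≠ 0) →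
    ∃ c, evp v (g c) ≠ 0
  compat : ∀ (κ : Type u) [Field κ] [Algebra k κ] (v : ∀ i, J i → κ) (t t' : (Σ i, J i) → κ),
    OnX E v → (∀ i, v i ≠ 0) → jac E v t = 0 → jac E v t' = 0 → ∀ c c',
      evp v (g c) * bf (q c') v t t' = evp v (g c') * bf (q c) v t t'
  hu : ∀ (κ : Type u) [Field κ] [Algebra k κ] (a : S → κ),
    (∀ i, ∑ σ, a σ * algebraMap k κ (u σ i) = 0) → a = 0
  rad : ∀ (κ : Type u) [Field κ] [Algebra k κ] (v : ∀ i, J i → κ) (t : (Σ i, J i) → κ),
    OnX E v → (∀ i, v i ≠ 0) → jac E v t = 0 → ∀ c, evp v (g c) ≠ 0 →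
      (∀ t', jac E v t' = 0 → bf (q c) v t t' = 0) → ∃ a : S → κ, t = ∑ σ, a σ • eul (u σ) v
  eul_tan : ∀ (κ : Type u) [Field κ] [Algebra k κ] (v : ∀ i, J i → κ), OnX E v →
    ∀ σ, jac E v (eul (u σ) v) = 0
  eul_rad : ∀ (κ : Type u) [Field κ] [Algebra k κ] (v : ∀ i, J i → κ) (t : (Σ i, J i) → κ),
    OnX E v → (∀ i, v i ≠ 0) → jac E v t = 0 → ∀ c σ, bf (q c) v (eul (u σ) v) t = 0

section basic

variable {A B : Type*} [CommRing A] [Algebra k A] [CommRing B] [Algebra k B]

omit [Fintype I] [∀ i, Fintype (J i)] in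
theorem evp_map (φ : A →ₐ[k] B) (v : ∀ i, J i → A) (g : MvPolynomial (Σ i, J i) k) :
    evp (fun i a => φ (v i a)) g = φ (evp v g) :=
  (MvPolynomial.comp_aeval_apply (fun y : Σ i, J i => v y.1 y.2) φ g).symm

theorem bf_map (φ : A →ₐ[k] B) (q : (Σ i, J i) → (Σ i, J i) → MvPolynomial (Σ i, J i) k)
    (v : ∀ i, J i → A) (t t' : (Σ i, J i) → A) :
    bf q (fun i a => φ (v i a)) (fun x => φ (t x)) (fun x => φ (t' x)) = φ (bf q v t t') := by
  unfold bf mat dotProduct Matrix.mulVec dotProduct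
  simp only [map_sum, map_mul, Matrix.of_apply]
  refine Finset.sum_congr rfl fun x _ => ?_
  congr 1
  refine Finset.sum_congr rfl fun y _ => ?_
  congr 1
  exact evp_map φ v _

theorem jac_map (E : Set (MvPolynomial (Σ i, J i) k)) (φ : A →ₐ[k] B) (v : ∀ i, J i → A)
    (t : (Σ i, J i) → A) (p : E) :
    jac E (fun i a => φ (v i a)) (fun x => φ (t x)) p = φ (jac E v t p) := by
  rw [jac_apply, jac_apply, map_sum]
  exact Finset.sum_congr rfl fun x _ => by rw [jacE_map, map_mul]

theorem jac_map_eq_zero (E : Set (MvPolynomial (Σ i, J i) k)) (φ : A →ₐ[k] B) (v : ∀ i, J i → A)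
    {t : (Σ i, J i) → A} (h : jac E v t = 0) :
    jac E (fun i a => φ (v i a)) (fun x => φ (t x)) = 0 := by
  funext p
  rw [jac_map, h, Pi.zero_apply, map_zero, Pi.zero_apply]

omit [Fintype I] [∀ i, Fintype (J i)] in
theorem onX_map {E : Set (MvPolynomial (Σ i, J i) k)} (φ : A →ₐ[k] B) {v : ∀ i, J i → A}
    (h : OnX E v) : OnX E (fun i a => φ (v i a)) := by
  intro p hp
  have := evp_map φ v p
  unfold evp at this
  rw [this, h p hp, map_zero]

omit [Fintype I] [∀ i, Fintype (J i)] in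
theorem eul_map (φ : A →ₐ[k] B) (u : I → k) (v : ∀ i, J i → A) :
    eul u (fun i a => φ (v i a)) = fun x => φ (eul u v x) := by
  funext x
  unfold eul
  rw [map_mul, φ.commutes]

theorem bf_skew {q : (Σ i, J i) → (Σ i, J i) → MvPolynomial (Σ i, J i) k}
    (h : ∀ x y, q x y = - q y x) (v : ∀ i, J i → A) (t t' : (Σ i, J i) → A) :
    bf q v t t' = - bf q v t' t := by
  have h1 : mat q v = - (mat q v)ᵀ := by
    ext x y
    show MvPolynomial.aeval _ (q x y) = - MvPolynomial.aeval _ (q y x)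
    rw [h x y, map_neg]
  unfold bf
  conv_lhs => rw [h1]
  rw [neg_mulVec, dotProduct_neg, mulVec_transpose, dotProduct_mulVec t', dotProduct_comm]

theorem bf_sum {ι : Type*} (s : Finset ι)
    (q : (Σ i, J i) → (Σ i, J i) → MvPolynomial (Σ i, J i) k) (v : ∀ i, J i → A)
    (t : (Σ i, J i) → A) (a : ι → A) (t' : ι → (Σ i, J i) → A) :
    bf q v t (∑ l ∈ s, a l • t' l) = ∑ l ∈ s, a l * bf q v t (t' l) := by
  unfold bf
  have h1 : mat q v *ᵥ (∑ l ∈ s, a l • t' l) = ∑ l ∈ s, a l • (mat q v *ᵥ t' l) := by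
    have := map_sum (mat q v).mulVecLin (fun l => a l • t' l) s
    simp only [mulVecLin_apply, mulVec_smul] at this
    exact this
  rw [h1, dotProduct_sum]
  exact Finset.sum_congr rfl fun l _ => by rw [dotProduct_smul, smul_eq_mul]

end basic

section loc

variable {E : Set (MvPolynomial (Σ i, J i) k)} {w : I → ℤ} {S : Type} [Fintype S]
  [DecidableEq S] {u : S → I → k}

/-- the tangent space of the multicone has dimension `r` at all points. -/
def D7r (E : Set (MvPolynomial (Σ i, J i) k)) (r : ℕ) : Prop :=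
  ∀ (κ : Type u) [Field κ] [Algebra k κ] (v : ∀ i, J i → κ), OnX E v → (∀ i, v i ≠ 0) →
    Module.finrank κ (LinearMap.ker (jac E v)) = r

omit [DecidableEq S] in
/-- the Euler vectors are independent. -/
theorem TwoForm.eul_li (W : TwoForm E w u) {κ : Type u} [Field κ] [Algebra k κ]
    {v : ∀ i, J i → κ} (hv : ∀ i, v i ≠ 0) {a : S → κ} (h : ∑ σ, a σ • eul (u σ) v = 0) :
    a = 0 := by
  apply W.hu κ
  intro i
  obtain ⟨b, hb⟩ := Function.ne_iff.mp (hv i)
  have h1 := congrFun h ⟨i, b⟩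
  rw [Finset.sum_apply, Pi.zero_apply] at h1
  simp only [Pi.smul_apply, smul_eq_mul, eul] at h1
  have h2 : (∑ σ, a σ * algebraMap k κ (u σ i)) * v i b = 0 := by
    rw [Finset.sum_mul, ← h1]
    exact Finset.sum_congr rfl fun σ _ => by ring
  exact (mul_eq_zero.mp h2).resolve_right hb

/-- **local lemma**. -/
theorem TwoForm.local (W : TwoForm E w u) {r : ℕ} (h7 : D7r E r) {A : Type u} [CommRing A]
    [Algebra k A] {κ' : Type u} [Field κ'] [Algebra k κ'] (φ : A →ₐ[k] κ')
    (hφ : Function.Surjective φ) {ι : Type} [Fintype ι]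
    [DecidableEq ι] (hι : Fintype.card ι = r) (v : ∀ i, J i → A) (hv : OnX E v)
    (hv0 : ∀ i, ∃ a, φ (v i a) ≠ 0) (t : ι → (Σ i, J i) → A) (ht : ∀ j, jac E v (t j) = 0)
    (hli : LinearIndependent κ' fun j x => φ (t j x)) (e : Matrix ι S A)
    (he : ∀ σ, ∑ j, e j σ • t j = eul (u σ) v) :
    ∃ Y : Matrix S ι A, φ (Y * e).det ≠ 0 ∧ (∃ c, φ (evp v (W.g c)) ≠ 0) ∧
      ∀ c, φ (evp v (W.g c)) ≠ 0 →
        φ ((Matrix.of fun j l => bf (W.q c) v (t j) (t l)) + Yᵀ * Y).det ≠ 0 := by
  classical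
  set vb : ∀ i, J i → κ' := fun i a => φ (v i a) with hvb
  set tb : ι → (Σ i, J i) → κ' := fun j x => φ (t j x) with htb
  have hvbX : OnX E vb := onX_map φ hv
  have hvb0 : ∀ i, vb i ≠ 0 := by
    intro i h0
    obtain ⟨a, ha⟩ := hv0 i
    exact ha (congrFun h0 a)
  have htb0 : ∀ j, jac E vb (tb j) = 0 := fun j => jac_map_eq_zero E φ v (ht j)
  have heb : ∀ σ, ∑ j, φ (e j σ) • tb j = eul (u σ) vb := by
    intro σ
    rw [hvb, eul_map, ← he]
    funext x
    simp only [Finset.sum_apply, Pi.smul_apply, smul_eq_mul, map_sum, map_mul, htb]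
  -- the reduction of `e` is injective
  have heinj : ∀ x : S → κ', (e.map φ) *ᵥ x = 0 → x = 0 := by
    intro x hx
    apply W.eul_li hvb0
    have h1 : ∑ σ, x σ • eul (u σ) vb = ∑ j, ((e.map φ) *ᵥ x) j • tb j := by
      simp only [← heb, Finset.smul_sum, smul_smul, mulVec, dotProduct, Finset.sum_smul,
        Matrix.map_apply]
      rw [Finset.sum_comm]
      refine Finset.sum_congr rfl fun j _ => Finset.sum_congr rfl fun σ _ => ?_
      rw [mul_comm]
    rw [h1, hx]
    exact Finset.sum_eq_zero fun j _ => by rw [Pi.zero_apply, zero_smul]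
  obtain ⟨Yb, hYb⟩ := exists_left_inv (e.map φ) heinj
  choose sec hsec using hφ
  set Y : Matrix S ι A := Matrix.of fun σ j => sec (Yb σ j) with hY
  have hYmap : Y.map φ = Yb := by
    ext σ j
    exact hsec _
  have hYe : φ (Y * e).det = 1 := by
    have h1 : φ (Y * e).det = ((Y * e).map φ).det := RingHom.map_det (φ : A →+* κ') (Y * e)
    have h2 : (Y * e).map φ = Y.map φ * e.map φ := by
      rw [← Matrix.map_mul]
    rw [h1, h2, hYmap, hYb, det_one]
  refine ⟨Y, by rw [hYe]; exact one_ne_zero, ?_, ?_⟩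
  · obtain ⟨c, hc⟩ := W.cov κ' vb hvbX hvb0
    exact ⟨c, by rwa [← evp_map]⟩
  · intro c hc
    have hspan : ∀ t', jac E vb t' = 0 → ∃ x : ι → κ', t' = ∑ j, x j • tb j := by
      intro t' ht'
      have hli' : LinearIndependent κ' (fun j => (⟨tb j, htb0 j⟩ : LinearMap.ker (jac E vb))) := by
        rw [← LinearMap.linearIndependent_iff (LinearMap.ker (jac E vb)).subtype
          (Submodule.ker_subtype _)]
        exact hli
      have hsp := hli'.span_eq_top_of_card_eq_finrank' (by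
        rw [hι]; exact (h7 κ' vb hvbX hvb0).symm)
      have hmem : (⟨t', ht'⟩ : LinearMap.ker (jac E vb)) ∈
          Submodule.span κ' (Set.range (fun j => (⟨tb j, htb0 j⟩ : LinearMap.ker (jac E vb)))) := by
        rw [hsp]; trivial
      obtain ⟨x, hx⟩ := (Submodule.mem_span_range_iff_exists_fun κ').mp hmem
      refine ⟨x, ?_⟩
      have h1 := congrArg Subtype.val hx
      simp only [Submodule.coe_sum, Submodule.coe_smul] at h1
      exact h1.symm
    set P : Matrix ι ι A := Matrix.of fun j l => bf (W.q c) v (t j) (t l) with hP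
    have hPb : ∀ j l, (P.map φ) j l = bf (W.q c) vb (tb j) (tb l) := by
      intro j l
      exact (bf_map φ (W.q c) v (t j) (t l)).symm
    have h6 : φ (P + Yᵀ * Y).det = (P.map φ + Ybᵀ * Yb).det := by
      have h7 : φ (P + Yᵀ * Y).det = ((P + Yᵀ * Y).map φ).det :=
        RingHom.map_det (φ : A →+* κ') (P + Yᵀ * Y)
      have h8 : (P + Yᵀ * Y).map φ = P.map φ + Ybᵀ * Yb := by
        rw [← hYmap, ← Matrix.transpose_map, ← Matrix.map_mul]
        ext a b
        exact map_add φ _ _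
      rw [h7, h8]
    rw [h6]
    refine det_border_ne (P.map φ) (e.map φ) Yb hYb ?_ ?_
    · -- the Euler vectors are in the radical
      ext σ l
      rw [Matrix.mul_apply, Matrix.zero_apply]
      have h1 := W.eul_rad κ' vb (tb l) hvbX hvb0 (htb0 l) c σ
      rw [← heb, bf_skew (W.skew c), bf_sum, neg_eq_zero] at h1
      rw [← neg_eq_zero, ← Finset.sum_neg_distrib, ← h1]
      refine Finset.sum_congr rfl fun j _ => ?_
      rw [bf_skew (W.skew c), transpose_apply, Matrix.map_apply, hPb]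
      ring
    · intro x hx
      have h1 : ∀ j, bf (W.q c) vb (tb j) (∑ l, x l • tb l) = 0 := by
        intro j
        rw [bf_sum]
        have h2 := congrFun hx j
        rw [Pi.zero_apply] at h2
        rw [← h2]
        simp only [mulVec, dotProduct]
        exact Finset.sum_congr rfl fun l _ => by rw [hPb, mul_comm]
      have h3 : jac E vb (∑ l, x l • tb l) = 0 := by
        rw [map_sum]
        exact Finset.sum_eq_zero fun l _ => by rw [map_smul, htb0 l, smul_zero]
      obtain ⟨a, ha⟩ := W.rad κ' vb (∑ l, x l • tb l) hvbX hvb0 h3 c (by rwa [evp_map]) (by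
        intro t' ht'
        obtain ⟨y, rfl⟩ := hspan t' ht'
        rw [bf_skew (W.skew c), neg_eq_zero]
        rw [bf_skew (W.skew c), bf_sum, neg_eq_zero]
        refine Finset.sum_eq_zero fun j _ => ?_
        rw [bf_skew (W.skew c), h1 j, neg_zero, mul_zero])
      refine ⟨a, ?_⟩
      have h4 : ∑ l, (x l - ((e.map φ) *ᵥ a) l) • tb l = 0 := by
        have h5 : ∑ σ, a σ • eul (u σ) vb = ∑ j, ((e.map φ) *ᵥ a) j • tb j := by
          simp only [← heb, Finset.smul_sum, smul_smul, mulVec, dotProduct, Finset.sum_smul,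
            Matrix.map_apply]
          rw [Finset.sum_comm]
          refine Finset.sum_congr rfl fun j _ => Finset.sum_congr rfl fun σ _ => ?_
          rw [mul_comm]
        simp only [sub_smul, Finset.sum_sub_distrib, ha, h5, sub_self]
      funext l
      have h5 := (Fintype.linearIndependent_iff.mp hli) _ h4 l
      exact sub_eq_zero.mp h5

end loc

end Crest.Agent.R260.Num_789
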