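import Mathlib
import Crest.Agent.R260.LinDefs_678

-- ▼ part R260/Om1_997
section

/-!
Row 260 (S0398), helper997: the pairing `dθ(s, t)` in tuple language.

`num c v s t` is the numerator of `dθ_v(s, t)` in the chart `c` (denominator `den c v ^ (N + 1)`).
Chart independence along a two-parameter family, contraction with the Euler fields, weight.
-/

set_option autoImplicit false

namespace Crest.Agent.R260.Om_997

open Crest.Agent.R270.BM_360 Crest.Agent.R260.Lin_678

universe u

variable {I : Type} {J : I → Type} [Fintype I] [∀ i, Fintype (J i)]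

/-- derivative of `den c` at `v` in the direction `s`. -/
def dden {A : Type*} [CommRing A] [DecidableEq I] (c : ∀ i, J i) (v s : ∀ i, J i → A) : A :=
  ∑ i, (∏ j ∈ Finset.univ.erase i, v j (c j)) * s i (c i)

section defs

variable {k : Type u} [Field k] [DecidableEq I]

/-- numerator of `dθ_v(s, t)` for `θ = form p / den c ^ N`. -/
noncomputable def num (N : ℕ) (p : (Σ i, J i) → MvPolynomial (Σ i, J i) k) (c : ∀ i, J i)
    {A : Type*} [CommRing A] [Algebra k A] (v s t : ∀ i, J i → A) : A :=
  den c v * dform p v s t - N * (dden c v s * form p v t - dden c v t * form p v s)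

end defs

section clc

variable {k : Type u} [Field k] {A : Type*} [CommRing A] [Algebra k A]

omit [Fintype I] [∀ i, Fintype (J i)] in
/-- chain rule -/
theorem der_aeval {σ : Type*} [Fintype σ] (d : Derivation k A A) (v : σ → A)
    (p : MvPolynomial σ k) :
    d (MvPolynomial.aeval v p) =
      ∑ x, MvPolynomial.aeval v (MvPolynomial.pderiv x p) * d (v x) := by
  classical
  induction p using MvPolynomial.induction_on with
  | C a => simp
  | add p q hp hq =>
    simp only [map_add, hp, hq, add_mul, Finset.sum_add_distrib]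
  | mul_X p n hp =>
    rw [map_mul, MvPolynomial.aeval_X, Derivation.leibniz, hp]
    simp only [MvPolynomial.pderiv_mul, MvPolynomial.pderiv_X, map_add, map_mul,
      MvPolynomial.aeval_X, add_mul, Finset.sum_add_distrib, smul_eq_mul]
    have h1 : ∑ x, MvPolynomial.aeval v p * MvPolynomial.aeval v
        (Pi.single (M := fun _ => MvPolynomial σ k) x 1 n) * d (v x) =
        MvPolynomial.aeval v p * d (v n) := by
      rw [Finset.sum_eq_single n]
      · rw [Pi.single_eq_same, map_one, mul_one]
      · intro b _ hb
        rw [Pi.single_eq_of_ne (Ne.symm hb), map_zero, mul_zero, zero_mul]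
      · intro h
        exact absurd (Finset.mem_univ n) h
    rw [h1, add_comm, Finset.mul_sum]
    congr 1
    refine Finset.sum_congr rfl fun x _ => ?_
    ring

/-- the tuple of derivatives -/
def dv (d : Derivation k A A) (F : ∀ i, J i → A) : ∀ i, J i → A := fun i a => d (F i a)

theorem tan_dv {E : Set (MvPolynomial (Σ i, J i) k)} {F : ∀ i, J i → A} (hF : OnX E F)
    (d : Derivation k A A) : Tan E F (dv d F) := by
  intro p hp
  have h1 := congrArg d (hF p hp)
  rw [der_aeval, map_zero] at h1
  exact h1

omit [∀ i, Fintype (J i)] in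
theorem der_den [DecidableEq I] (d : Derivation k A A) (c : ∀ i, J i) (F : ∀ i, J i → A) :
    d (den c F) = dden c F (dv d F) := by
  unfold den dden dv
  have h1 : ∀ S : Finset I, d (∏ i ∈ S, F i (c i)) =
      ∑ i ∈ S, (∏ j ∈ S.erase i, F j (c j)) * d (F i (c i)) := by
    intro S
    induction S using Finset.induction_on with
    | empty => simp
    | insert a S ha ih =>
      rw [Finset.prod_insert ha, Derivation.leibniz, ih, Finset.sum_insert ha,
        Finset.erase_insert ha, smul_eq_mul, smul_eq_mul, Finset.mul_sum, add_comm]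
      congr 1
      refine Finset.sum_congr rfl fun i hi => ?_
      have hia : i ≠ a := fun h => ha (h ▸ hi)
      rw [Finset.erase_insert_of_ne (Ne.symm hia), Finset.prod_insert (by
        rw [Finset.mem_erase]
        exact fun h => ha h.2)]
      ring
  exact h1 Finset.univ

theorem der_form (d : Derivation k A A) (p : (Σ i, J i) → MvPolynomial (Σ i, J i) k)
    (F t : ∀ i, J i → A) :
    d (form p F t) = ∑ x : Σ i, J i, ∑ y : Σ i, J i,
      MvPolynomial.aeval (fun y : Σ i, J i => F y.1 y.2) (MvPolynomial.pderiv y (p x)) *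
        (dv d F y.1 y.2 * t x.1 x.2) + form p F (dv d t) := by
  unfold form
  rw [map_sum, ← Finset.sum_add_distrib]
  refine Finset.sum_congr rfl fun x _ => ?_
  rw [Derivation.leibniz, der_aeval, smul_eq_mul, smul_eq_mul, add_comm, Finset.mul_sum]
  congr 1
  refine Finset.sum_congr rfl fun y _ => ?_
  unfold dv
  ring


omit [Fintype I] [∀ i, Fintype (J i)] in
theorem mul_der_pow (d : Derivation k A A) (x : A) (n : ℕ) : x * d (x ^ n) = n * x ^ n * d x := by
  rw [Derivation.leibniz_pow]
  rcases Nat.eq_zero_or_pos n with h | h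
  · subst h; simp
  · rw [nsmul_eq_mul, smul_eq_mul]
    have h1 : x ^ n = x * x ^ (n - 1) := by
      rw [← pow_succ', Nat.sub_add_cancel h]
    rw [h1]
    ring


/-! ### Euler fields -/

omit [Fintype I] in
/-- Euler's formula in one block -/
theorem euler_block {p : MvPolynomial (Σ i, J i) k} (i : I) (d : ℕ)
    (hp : ∀ m ∈ p.support, ∑ a, m ⟨i, a⟩ = d) (v : (Σ i, J i) → A) :
    ∑ a, MvPolynomial.aeval v (MvPolynomial.pderiv ⟨i, a⟩ p) * v ⟨i, a⟩ =
      d * MvPolynomial.aeval v p := by
  classical
  have h1 : ∀ m ∈ p.support, ∑ a, MvPolynomial.aeval v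
      (MvPolynomial.pderiv ⟨i, a⟩ (MvPolynomial.monomial m (p.coeff m))) * v ⟨i, a⟩ =
      d * MvPolynomial.aeval v (MvPolynomial.monomial m (p.coeff m)) := by
    intro m hm
    rw [← hp m hm, Nat.cast_sum, Finset.sum_mul]
    refine Finset.sum_congr rfl fun a _ => ?_
    rw [MvPolynomial.pderiv_monomial]
    rcases Nat.eq_zero_or_pos (m ⟨i, a⟩) with h0 | h0
    · rw [h0]
      simp
    · have h2 : m = (m - Finsupp.single ⟨i, a⟩ 1) + Finsupp.single ⟨i, a⟩ 1 := by
        ext y
        rw [Finsupp.add_apply, Finsupp.tsub_apply]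
        by_cases hy : y = ⟨i, a⟩
        · subst hy
          rw [Finsupp.single_eq_same]
          omega
        · rw [Finsupp.single_eq_of_ne hy]
          omega
      have h3 : MvPolynomial.aeval v (MvPolynomial.monomial m (p.coeff m)) =
          MvPolynomial.aeval v (MvPolynomial.monomial (m - Finsupp.single ⟨i, a⟩ 1) (p.coeff m)) *
            v ⟨i, a⟩ := by
        have h4 : MvPolynomial.monomial m (p.coeff m) =
            MvPolynomial.monomial (m - Finsupp.single ⟨i, a⟩ 1) (p.coeff m) *
              MvPolynomial.X ⟨i, a⟩ := by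
          rw [MvPolynomial.X, MvPolynomial.monomial_mul, ← h2, mul_one]
        rw [h4, map_mul, MvPolynomial.aeval_X]
      rw [h3, MvPolynomial.aeval_monomial, MvPolynomial.aeval_monomial, map_mul, map_natCast]
      ring
  have hsum : ∑ m ∈ p.support, MvPolynomial.monomial m (p.coeff m) = p :=
    p.support_sum_monomial_coeff
  calc ∑ a, MvPolynomial.aeval v (MvPolynomial.pderiv ⟨i, a⟩ p) * v ⟨i, a⟩
      = ∑ a, ∑ m ∈ p.support, (MvPolynomial.aeval v
          (MvPolynomial.pderiv ⟨i, a⟩ (MvPolynomial.monomial m (p.coeff m))) * v ⟨i, a⟩) := by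
        refine Finset.sum_congr rfl fun a _ => ?_
        conv_lhs => rw [← hsum]
        rw [map_sum, map_sum, Finset.sum_mul]
    _ = ∑ m ∈ p.support, d * MvPolynomial.aeval v (MvPolynomial.monomial m (p.coeff m)) := by
        rw [Finset.sum_comm]
        exact Finset.sum_congr rfl h1
    _ = d * MvPolynomial.aeval v p := by
        rw [← Finset.mul_sum, ← map_sum, hsum]

/-- the combination `∑ a_i E_i` of the Euler fields -/
def eul (a : I → A) (v : ∀ i, J i → A) : ∀ i, J i → A := fun i b => a i * v i b

omit [∀ i, Fintype (J i)] in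
theorem dden_eul [DecidableEq I] (c : ∀ i, J i) (v : ∀ i, J i → A) (a : I → A) :
    dden c v (eul a v) = (∑ i, a i) * den c v := by
  unfold dden eul den
  rw [Finset.sum_mul]
  refine Finset.sum_congr rfl fun i _ => ?_
  rw [← Finset.mul_prod_erase Finset.univ (fun j => v j (c j)) (Finset.mem_univ i)]
  ring

theorem form_eul {A : Type u} [CommRing A] [IsDomain A] [Algebra k A] {E : Set (MvPolynomial (Σ i, J i) k)}
    {w : I → ℤ} (th : CForm E w) {v : ∀ i, J i → A} (hv : OnX E v) (c : ∀ i, J i) (a : I → A) :
    form (th.p c) v (eul a v) = 0 := by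
  unfold form eul
  rw [Fintype.sum_sigma]
  refine Finset.sum_eq_zero fun i _ => ?_
  have h1 := th.euler A v hv c i
  calc _ = a i * ∑ b, MvPolynomial.aeval (fun y : Σ i, J i => v y.1 y.2) (th.p c ⟨i, b⟩) * v i b := by
        rw [Finset.mul_sum]
        refine Finset.sum_congr rfl fun b _ => ?_
        ring
    _ = 0 := by rw [h1, mul_zero]

/-- **contraction with the Euler fields**, along a one-parameter family. -/
theorem num_eul [DecidableEq I] {A : Type u} [CommRing A] [IsDomain A] [Algebra k A]
    {E : Set (MvPolynomial (Σ i, J i) k)} {w : I → ℤ} (th : CForm E w)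
    (d : Derivation k A A) {F : ∀ i, J i → A} (hF : OnX E F) (c : ∀ i, J i) (a : I → A) :
    num th.N (th.p c) c F (eul a F) (dv d F) =
      (∑ i, a i * (w i : A)) * (den c F * form (th.p c) F (dv d F)) := by
  classical
  -- derivative of the Euler identity
  have h1 : ∀ i, ∑ b, d (MvPolynomial.aeval (fun y : Σ i, J i => F y.1 y.2) (th.p c ⟨i, b⟩)) *
      F i b = - ∑ b, MvPolynomial.aeval (fun y : Σ i, J i => F y.1 y.2) (th.p c ⟨i, b⟩) *
        dv d F i b := by
    intro i
    have h2 := congrArg d (th.euler A F hF c i)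
    rw [map_sum, map_zero] at h2
    rw [eq_neg_iff_add_eq_zero, ← Finset.sum_add_distrib, ← h2]
    refine Finset.sum_congr rfl fun b _ => ?_
    rw [Derivation.leibniz, smul_eq_mul, smul_eq_mul]
    unfold dv
    ring
  -- degrees
  have hdeg : ∀ (x : Σ i, J i) (i : I),
      ((∑ b, MvPolynomial.aeval (fun y : Σ i, J i => F y.1 y.2)
        (MvPolynomial.pderiv ⟨i, b⟩ (th.p c x)) * F i b : A)) =
      ((th.N : A) + (w i : A) - (if x.1 = i then 1 else 0)) *
        MvPolynomial.aeval (fun y : Σ i, J i => F y.1 y.2) (th.p c x) := by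
    intro x i
    by_cases h0 : th.p c x = 0
    · rw [h0]
      simp
    · obtain ⟨m₀, hm₀⟩ := MvPolynomial.support_nonempty.mpr h0
      have h2 := th.hom c x m₀ hm₀ i
      have h3 : ∀ m ∈ (th.p c x).support, ∑ b, m ⟨i, b⟩ = ∑ b, m₀ ⟨i, b⟩ := by
        intro m hm
        have h4 := th.hom c x m hm i
        have h5 : ((∑ b, m ⟨i, b⟩ : ℕ) : ℤ) = ((∑ b, m₀ ⟨i, b⟩ : ℕ) : ℤ) := by
          linarith
        exact_mod_cast h5
      have h6 := euler_block (A := A) i _ h3 (fun y : Σ i, J i => F y.1 y.2)
      rw [h6]
      congr 1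
      have h7 : ((∑ b, m₀ ⟨i, b⟩ : ℕ) : ℤ) =
          (th.N : ℤ) + w i - (if x.1 = i then 1 else 0) := by
        split_ifs at h2 ⊢ <;> linarith
      have h8 := congrArg (Int.cast : ℤ → A) h7
      push_cast at h8
      rw [Nat.cast_sum, h8]
  have hdf : dform (th.p c) F (eul a F) (dv d F) =
      (∑ i, a i * ((th.N : A) + (w i : A))) * form (th.p c) F (dv d F) := by
    have e1 : dform (th.p c) F (eul a F) (dv d F) =
        (∑ x : Σ i, J i, (∑ y : Σ i, J i,
          MvPolynomial.aeval (fun y : Σ i, J i => F y.1 y.2) (MvPolynomial.pderiv y (th.p c x)) *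
            (a y.1 * F y.1 y.2)) * dv d F x.1 x.2) -
        ∑ x : Σ i, J i, d (MvPolynomial.aeval (fun y : Σ i, J i => F y.1 y.2) (th.p c x)) *
          (a x.1 * F x.1 x.2) := by
      unfold dform
      rw [← Finset.sum_sub_distrib]
      refine Finset.sum_congr rfl fun x _ => ?_
      rw [der_aeval, Finset.sum_mul, Finset.sum_mul, ← Finset.sum_sub_distrib]
      refine Finset.sum_congr rfl fun y _ => ?_
      unfold eul dv
      ring
    have e2 : ∑ x : Σ i, J i, d (MvPolynomial.aeval (fun y : Σ i, J i => F y.1 y.2) (th.p c x)) *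
          (a x.1 * F x.1 x.2) = - ∑ x : Σ i, J i, a x.1 *
            (MvPolynomial.aeval (fun y : Σ i, J i => F y.1 y.2) (th.p c x) * dv d F x.1 x.2) := by
      rw [Fintype.sum_sigma, Fintype.sum_sigma, ← Finset.sum_neg_distrib]
      refine Finset.sum_congr rfl fun i _ => ?_
      simp only
      rw [← Finset.mul_sum, ← mul_neg, ← h1 i, Finset.mul_sum]
      refine Finset.sum_congr rfl fun b _ => ?_
      ring
    have e3 : ∀ x : Σ i, J i, ∑ y : Σ i, J i,
          MvPolynomial.aeval (fun y : Σ i, J i => F y.1 y.2) (MvPolynomial.pderiv y (th.p c x)) *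
            (a y.1 * F y.1 y.2) = (∑ i, a i * ((th.N : A) + (w i : A)) - a x.1) *
        MvPolynomial.aeval (fun y : Σ i, J i => F y.1 y.2) (th.p c x) := by
      intro x
      rw [Fintype.sum_sigma]
      have e4 : ∀ i, ∑ b, MvPolynomial.aeval (fun y : Σ i, J i => F y.1 y.2)
          (MvPolynomial.pderiv (⟨i, b⟩ : Σ i, J i) (th.p c x)) * (a i * F i b) =
          a i * (((th.N : A) + (w i : A) - (if x.1 = i then 1 else 0)) *
            MvPolynomial.aeval (fun y : Σ i, J i => F y.1 y.2) (th.p c x)) := by
        intro i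
        rw [← hdeg x i, Finset.mul_sum]
        refine Finset.sum_congr rfl fun b _ => ?_
        ring
      simp only [e4]
      have e5 : a x.1 = ∑ i, a i * (if x.1 = i then 1 else 0) := by
        simp
      rw [e5, ← Finset.sum_sub_distrib, Finset.sum_mul]
      refine Finset.sum_congr rfl fun i _ => ?_
      ring
    rw [e1, e2, sub_neg_eq_add, ← Finset.sum_add_distrib]
    unfold form
    rw [Finset.mul_sum]
    refine Finset.sum_congr rfl fun x _ => ?_
    rw [e3 x]
    ring
  unfold num
  rw [hdf, dden_eul, form_eul th hF, mul_zero, sub_zero]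
  have e6 : ∑ i, a i * ((th.N : A) + (w i : A)) =
      (th.N : A) * ∑ i, a i + ∑ i, a i * (w i : A) := by
    simp only [mul_add, Finset.sum_add_distrib]
    rw [← Finset.sum_mul]
    ring
  rw [e6]
  ring

end clc

end Crest.Agent.R260.Om_997
end

-- ▼ part R260/Om2_997

/-!
Row 260 (S0398), helper997: the pairing `dθ(s, t)`, part 2: weight and integrality.
-/

set_option autoImplicit false

namespace Crest.Agent.R260.Om_997

open Crest.Agent.R270.BM_360 Crest.Agent.R260.Lin_678

universe u

variable {I : Type} {J : I → Type} [Fintype I] [∀ i, Fintype (J i)]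

section scale

variable {k : Type u} [Field k] {K : Type u} [Field K] [Algebra k K]


variable {E : Set (MvPolynomial (Σ i, J i) k)} {w : I → ℤ} (th : CForm E w)










end scale

section bil

variable {k : Type u} [Field k] {A : Type*} [CommRing A] [Algebra k A]
  (p : (Σ i, J i) → MvPolynomial (Σ i, J i) k)

theorem form_add (v s t : ∀ i, J i → A) :
    form p v (fun i a => s i a + t i a) = form p v s + form p v t := by
  unfold form
  rw [← Finset.sum_add_distrib]
  exact Finset.sum_congr rfl fun x _ => by ring

theorem form_smul (r : A) (v t : ∀ i, J i → A) :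
    form p v (fun i a => r * t i a) = r * form p v t := by
  unfold form
  rw [Finset.mul_sum]
  exact Finset.sum_congr rfl fun x _ => by ring

theorem num_add [DecidableEq I] (N : ℕ) (c : ∀ i, J i) (v s s' t : ∀ i, J i → A) :
    num N p c v (fun i a => s i a + s' i a) t = num N p c v s t + num N p c v s' t := by
  have h1 : dform p v (fun i a => s i a + s' i a) t = dform p v s t + dform p v s' t := by
    unfold dform
    simp only [← Finset.sum_add_distrib]
    exact Finset.sum_congr rfl fun x _ => Finset.sum_congr rfl fun y _ => by ring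
  have h2 : dden c v (fun i a => s i a + s' i a) = dden c v s + dden c v s' := by
    unfold dden
    rw [← Finset.sum_add_distrib]
    exact Finset.sum_congr rfl fun i _ => by ring
  unfold num
  rw [h1, h2, form_add]
  ring

theorem num_smul [DecidableEq I] (N : ℕ) (c : ∀ i, J i) (r : A) (v s t : ∀ i, J i → A) :
    num N p c v (fun i a => r * s i a) t = r * num N p c v s t := by
  have h1 : dform p v (fun i a => r * s i a) t = r * dform p v s t := by
    unfold dform
    simp only [Finset.mul_sum]
    exact Finset.sum_congr rfl fun x _ => Finset.sum_congr rfl fun y _ => by ring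
  have h2 : dden c v (fun i a => r * s i a) = r * dden c v s := by
    unfold dden
    rw [Finset.mul_sum]
    exact Finset.sum_congr rfl fun i _ => by ring
  unfold num
  rw [h1, h2, form_smul]
  ring

end bil

section int

variable {k : Type u} [Field k] {K : Type u} [Field K] [Algebra k K] (O : ValuationSubring K)






end int

end Crest.Agent.R260.Om_997
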