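import Mathlib
import Crest.Agent.R260.TwL1_847
import Crest.Agent.R260.Tw7_979
import Crest.Agent.R260.Qk7_151
import Crest.Agent.R260.QKk_838
import Crest.Agent.R260.NnDefs_254
import Crest.Agent.R260.MainT_803

-- ▼ part R260/TwL2_847
section

/-!
Row 260, leaf TW-LOC (helper847), part 2: connection of the line bundle `L` and the contact form in
the local model `E × ℂ` of the twistor space.

* `tau p v = v.2 - beta(v.1)`  : the contact form `theta = tau ⊗ e*` (type `(1,0)`);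
* `au`  : `∇ e = au e` for the frame `e` of `L⁻¹`;  `A = im au` (unitary frame);
* `dA_eq` : curvature, `dA_J` : type `(1,1)`, `dA_pos` : positivity;
* `dtau_eq` : `d^∇ theta = -(i/2) nu nn·omega`, `gn_nondeg` : nondegeneracy.
-/

set_option autoImplicit false
set_option linter.unusedSimpArgs false

open Complex Matrix
open scoped ContDiff Topology

noncomputable section

namespace Crest.Agent.R260.TwL_847

open Crest.Agent.R260.Tw_979

variable {E : Type*} [NormedAddCommGroup E] [NormedSpace ℝ E]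
variable {J : Fin 3 → E → E →L[ℝ] E} {Th : Fin 3 → E → E →L[ℝ] ℝ}
  {Ga : E → E →L[ℝ] E →L[ℝ] E} {g : E → E →L[ℝ] E →L[ℝ] ℝ} {nu : ℝ} {U : Set E}

/-! ## The contact form -/

/-- the contact form in the frame `e*`: `tau(X,eta) = eta - beta(X)` -/
def tau (Th : Fin 3 → E → E →L[ℝ] ℝ) (p : E × ℂ) : (E × ℂ) →L[ℝ] ℂ :=
  ContinuousLinearMap.snd ℝ E ℂ - (bt Th p).comp (ContinuousLinearMap.fst ℝ E ℂ)

lemma tau_apply (p v : E × ℂ) : tau Th p v = v.2 - bt Th p v.1 := rfl

lemma tau_J (p v : E × ℂ) : tau Th p (JZ J Th p v) = I * tau Th p v := by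
  rw [tau_apply, tau_apply, JZ_apply]; ring

lemma JZ_fst (p v : E × ℂ) : (JZ J Th p v).1 = Iw J p v.1 := by rw [JZ_apply]

lemma tau_smooth (hT : ∀ a, ContDiffOn ℝ ∞ (Th a) U) :
    ContDiffOn ℝ ∞ (tau Th) (U ×ˢ (Set.univ : Set ℂ)) := by
  unfold tau
  exact contDiffOn_const.sub ((bt_smooth hT).clm_comp contDiffOn_const)

/-- the connection form: `∇ e = au e` for the tautological frame `e` of `L⁻¹` -/
def au (Th : Fin 3 → E → E →L[ℝ] ℝ) (p : E × ℂ) : (E × ℂ) →L[ℝ] ℂ :=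
  (2 * (starRingEnd ℂ) p.2 / (den p.2 : ℂ)) • ContinuousLinearMap.snd ℝ E ℂ +
    (I • zt Th p.1 (cx (xx p.2))).comp (ContinuousLinearMap.fst ℝ E ℂ)

lemma au_apply (p v : E × ℂ) : au Th p v = 2 * (starRingEnd ℂ) p.2 / (den p.2 : ℂ) * v.2 +
    I * (xx p.2 0 * Th 0 p.1 v.1 + xx p.2 1 * Th 1 p.1 v.1 + xx p.2 2 * Th 2 p.1 v.1) := by
  simp [au, zt_apply, cx]

/-- `au = 2 w̄ tau / (1+|w|²) + beta'` -/
lemma au_eq (p v : E × ℂ) : au Th p v =
    2 * (starRingEnd ℂ) p.2 / (den p.2 : ℂ) * tau Th p v + bp Th p v.1 := by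
  have h0 := congrFun (xx_sub p.2) 0
  have h1 := congrFun (xx_sub p.2) 1
  have h2 := congrFun (xx_sub p.2) 2
  rw [← cx_den] at h0 h1 h2
  simp only [Pi.sub_apply, Pi.smul_apply, smul_eq_mul, cx] at h0 h1 h2
  rw [au_apply, tau_apply, bt_apply, bp_apply]
  linear_combination I * (h0 * Th 0 p.1 v.1 + h1 * Th 1 p.1 v.1 + h2 * Th 2 p.1 v.1)


lemma au_re (p v : E × ℂ) : (au Th p v).re =
    (den p.2)⁻¹ * (2 * p.2.re * v.2.re + 2 * p.2.im * v.2.im) := by
  have hd := den_ne p.2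
  rw [au_apply]
  have e : 2 * (starRingEnd ℂ) p.2 / (den p.2 : ℂ) * v.2 =
      (((den p.2)⁻¹ : ℝ) : ℂ) * (2 * (starRingEnd ℂ) p.2 * v.2) := by
    push_cast; ring
  rw [e, add_re, re_ofReal_mul]
  simp

/-- the real part of `au` is `d log (1+|w|²)` -/
lemma hasFDerivAt_log_den (p : E × ℂ) : HasFDerivAt (fun q : E × ℂ => Real.log (den q.2))
    (reCLM.comp (au Th p)) p := by
  have h := ((hasFDerivAt_den p.2).comp p hasFDerivAt_snd).log (den_ne p.2)
  refine h.congr_fderiv ?_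
  ext v
  · simp [au_re]
  · simp [au_re]
    ring

/-- the real connection form in the unitary frame -/
def A (Th : Fin 3 → E → E →L[ℝ] ℝ) (p : E × ℂ) : (E × ℂ) →L[ℝ] ℝ :=
  (2 * (den p.2)⁻¹) • ((imCLM.comp (ContinuousLinearMap.mul ℝ ℂ ((starRingEnd ℂ) p.2))).comp
    (ContinuousLinearMap.snd ℝ E ℂ)) +
  ∑ a, xx p.2 a • (Th a p.1).comp (ContinuousLinearMap.fst ℝ E ℂ)

lemma A_apply (p v : E × ℂ) : A Th p v = 2 * (den p.2)⁻¹ * ((starRingEnd ℂ) p.2 * v.2).im +
    (xx p.2 0 * Th 0 p.1 v.1 + xx p.2 1 * Th 1 p.1 v.1 + xx p.2 2 * Th 2 p.1 v.1) := by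
  simp [A, Fin.sum_univ_three]

lemma au_im (p v : E × ℂ) : (au Th p v).im = A Th p v := by
  rw [au_apply, A_apply]
  have e : 2 * (starRingEnd ℂ) p.2 / (den p.2 : ℂ) * v.2 =
      ((2 * (den p.2)⁻¹ : ℝ) : ℂ) * ((starRingEnd ℂ) p.2 * v.2) := by
    push_cast; ring
  rw [e, add_im, im_ofReal_mul]
  simp


lemma fderiv_A {p : E × ℂ} (hT : ∀ a, DifferentiableAt ℝ (Th a) p.1) (v v' : E × ℂ) :
    fderiv ℝ (A Th) p v v' =
      2 * (den p.2)⁻¹ * ((starRingEnd ℂ) v.2 * v'.2).im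
      - 2 * (den p.2 ^ 2)⁻¹ * (2 * p.2.re * v.2.re + 2 * p.2.im * v.2.im) *
        ((starRingEnd ℂ) p.2 * v'.2).im
      + ((xx p.2 0 * fderiv ℝ (Th 0) p.1 v.1 v'.1 + dxx p.2 0 v.2 * Th 0 p.1 v'.1) +
        (xx p.2 1 * fderiv ℝ (Th 1) p.1 v.1 v'.1 + dxx p.2 1 v.2 * Th 1 p.1 v'.1) +
        (xx p.2 2 * fderiv ℝ (Th 2) p.1 v.1 v'.1 + dxx p.2 2 v.2 * Th 2 p.1 v'.1)) := by
  have h1 : HasFDerivAt (fun q : E × ℂ => ((starRingEnd ℂ) q.2 : ℂ))
      ((conjCLE : ℂ →L[ℝ] ℂ).comp (ContinuousLinearMap.snd ℝ E ℂ)) p :=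
    (conjCLE : ℂ →L[ℝ] ℂ).hasFDerivAt.comp p hasFDerivAt_snd
  have h2 := (ContinuousLinearMap.mul ℝ ℂ).hasFDerivAt.comp p h1
  have h3 := ((hasFDerivAt_const imCLM p).clm_comp h2).clm_comp
    (hasFDerivAt_const (ContinuousLinearMap.snd ℝ E ℂ) p)
  have h4 := (((hasFDerivAt_den_inv p.2).comp p hasFDerivAt_snd).const_mul 2).fun_smul h3
  have h5 : ∀ a, HasFDerivAt (fun q : E × ℂ => xx q.2 a • (Th a q.1).comp
      (ContinuousLinearMap.fst ℝ E ℂ)) _ p := fun a =>
    ((hasFDerivAt_xx p.2 a).comp p hasFDerivAt_snd).fun_smul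
      ((((hT a).hasFDerivAt.comp p hasFDerivAt_fst)).clm_comp
        (hasFDerivAt_const (ContinuousLinearMap.fst ℝ E ℂ) p))
  have h6 := HasFDerivAt.fun_sum (u := Finset.univ) fun a _ => h5 a
  have h7 : HasFDerivAt (A Th) _ p := h4.fun_add h6
  rw [h7.fderiv]
  simp [Fin.sum_univ_three]
  ring

/-- Fubini-Study part -/
lemma fs_eq (w e e' : ℂ) :
    (2 * (den w)⁻¹ * ((starRingEnd ℂ) e * e').im
      - 2 * (den w ^ 2)⁻¹ * (2 * w.re * e.re + 2 * w.im * e.im) * ((starRingEnd ℂ) w * e').im)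
    - (2 * (den w)⁻¹ * ((starRingEnd ℂ) e' * e).im
      - 2 * (den w ^ 2)⁻¹ * (2 * w.re * e'.re + 2 * w.im * e'.im) * ((starRingEnd ℂ) w * e).im) =
    4 * ((starRingEnd ℂ) e * e').im / den w ^ 2 := by
  have hd := den_ne w
  simp only [mul_im, conj_re, conj_im]
  field_simp
  simp only [den, normSq_apply]
  ring

/-- the fibre identity behind the curvature formula -/
lemma fib_eq (w e e' : ℂ) (T T' : Fin 3 → ℝ) :
    4 * ((starRingEnd ℂ) e * e').im / den w ^ 2 +
      ((dxx w 0 e * T' 0 - dxx w 0 e' * T 0) + (dxx w 1 e * T' 1 - dxx w 1 e' * T 1) +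
        (dxx w 2 e * T' 2 - dxx w 2 e' * T 2)) +
      (xx w 0 * cr T T' 0 + xx w 1 * cr T T' 1 + xx w 2 * cr T T' 2) =
    4 * ((starRingEnd ℂ) (e - -(I / 2) * (nn w 0 * T 0 + nn w 1 * T 1 + nn w 2 * T 2)) *
      (e' - -(I / 2) * (nn w 0 * T' 0 + nn w 1 * T' 1 + nn w 2 * T' 2))).im / den w ^ 2 := by
  have hd := den_ne w
  simp only [cr, Matrix.cons_val_zero, Matrix.cons_val_one, Matrix.cons_val]
  simp only [dxx_apply, nn_0, nn_1, nn_2, xx_0, xx_1, xx_2]
  simp only [mul_im, mul_re, conj_re, conj_im]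
  simp [pow_two]
  field_simp
  simp only [den, normSq_apply]
  ring

/-- the curvature form `i F_L = dA` -/
def dA (Th : Fin 3 → E → E →L[ℝ] ℝ) (p v v' : E × ℂ) : ℝ :=
  fderiv ℝ (A Th) p v v' - fderiv ℝ (A Th) p v' v

theorem dA_eq (h : TwData J Th Ga g nu U) {p : E × ℂ} (hp : p.1 ∈ U) (v v' : E × ℂ) :
    dA Th p v v' = 4 * ((starRingEnd ℂ) (tau Th p v) * tau Th p v').im / den p.2 ^ 2
      - nu * g p.1 v.1 (Iw J p v'.1) := by
  have hT' : ∀ a, DifferentiableAt ℝ (Th a) p.1 := fun a =>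
    ((h.Tsm a).contDiffAt (h.isOpen.mem_nhds hp)).differentiableAt (by simp)
  unfold dA
  rw [fderiv_A hT', fderiv_A hT']
  have m0 := h.main p.1 hp v.1 v'.1 0
  have m1 := h.main p.1 hp v.1 v'.1 1
  have m2 := h.main p.1 hp v.1 v'.1 2
  have e1 := fs_eq p.2 v.2 v'.2
  have e2 := fib_eq p.2 v.2 v'.2 (fun a => Th a p.1 v.1) (fun a => Th a p.1 v'.1)
  rw [tau_apply, tau_apply, bt_apply, bt_apply, ← e2, Iw_apply]
  simp only [map_add, map_smul, smul_eq_mul]
  linear_combination e1 + xx p.2 0 * m0 + xx p.2 1 * m1 + xx p.2 2 * m2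



theorem dA_self_J (h : TwData J Th Ga g nu U) {p : E × ℂ} (hp : p.1 ∈ U) (v : E × ℂ) :
    dA Th p v (JZ J Th p v) = 4 * normSq (tau Th p v) / den p.2 ^ 2 + nu * g p.1 v.1 v.1 := by
  rw [dA_eq h hp, tau_J, JZ_fst, Iw_sq (h.quat p.1 hp), map_neg]
  have e : ((starRingEnd ℂ) (tau Th p v) * (I * tau Th p v)).im = normSq (tau Th p v) := by
    simp [normSq_apply]
  rw [e]; ring

/-- **positivity of `i F_L`** -/
theorem dA_pos (h : TwData J Th Ga g nu U) (hnu : 0 < nu) {p : E × ℂ} (hp : p.1 ∈ U) {v : E × ℂ}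
    (hv : v ≠ 0) : 0 < dA Th p v (JZ J Th p v) := by
  rw [dA_self_J h hp]
  have h1 : 0 ≤ 4 * normSq (tau Th p v) / den p.2 ^ 2 := by
    have := normSq_nonneg (tau Th p v)
    positivity
  by_cases hX : v.1 = 0
  · have h2 : tau Th p v = v.2 := by rw [tau_apply, hX]; simp
    have h3 : v.2 ≠ 0 := fun h0 => hv (Prod.ext hX h0)
    rw [h2, hX]
    have h4 : 0 < normSq v.2 := normSq_pos.2 h3
    have h5 := den_pos p.2
    simp only [map_zero, mul_zero, add_zero]
    positivity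
  · have := h.gpos p.1 hp v.1 hX
    have := mul_pos hnu this
    linarith

/-! ## The derivative of the contact form -/

/-- `d^∇ theta = -(i/2) nu nn·omega` : no `(1,1)`-part and no `(0,2)`-part -/
theorem dtau_eq (h : TwData J Th Ga g nu U) {p : E × ℂ} (hp : p.1 ∈ U) (v v' : E × ℂ) :
    fderiv ℝ (tau Th) p v v' - fderiv ℝ (tau Th) p v' v =
      (au Th p v * tau Th p v' - au Th p v' * tau Th p v) -
        (I / 2) * nu * gn J g p v.1 v'.1 := by
  obtain ⟨Db, hDb, eb⟩ := Db_form h.Tsm h.isOpen hp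
  have h1 := (hasFDerivAt_const (ContinuousLinearMap.snd ℝ E ℂ) p).fun_sub
    (hDb.clm_comp (hasFDerivAt_const (ContinuousLinearMap.fst ℝ E ℂ) p))
  have h2 : HasFDerivAt (tau Th) _ p := h1
  have e : ∀ u u', fderiv ℝ (tau Th) p u u' = - Db u u'.1 := by
    intro u u'
    rw [h2.fderiv]
    simp
  rw [e, e, eb, eb, au_eq, au_eq]
  have R := Bf_sub h hp v.1 v'.1
  simp only [tau_apply]
  linear_combination -R

/-- nondegeneracy of `d^∇ theta` on `ker theta` -/
theorem gn_nondeg (h : TwData J Th Ga g nu U) {p : E × ℂ} (hp : p.1 ∈ U) {X : E}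
    (hX : ∀ Y, gn J g p X Y = 0) : X = 0 := by
  by_contra hne
  have hpos := h.gpos p.1 hp X hne
  obtain ⟨h00, h11, h22, h01, h10, h12, h21, h20, h02⟩ := qt_app (h.quat p.1 hp)
  have key := congrArg Complex.re (hX ((nn p.2 0).re • J 0 p.1 X + (nn p.2 1).re • J 1 p.1 X +
    (nn p.2 2).re • J 2 p.1 X))
  unfold gn at key
  simp only [map_add, map_smul, smul_eq_mul, map_neg, h00, h11, h22, h01, h10, h12, h21,
    h20, h02] at key
  simp at key
  have e : ((nn p.2 0).re ^ 2 + (nn p.2 1).re ^ 2 + (nn p.2 2).re ^ 2) * g p.1 X X = 0 := by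
    linear_combination -key
  have e2 : (nn p.2 0).re ^ 2 + (nn p.2 1).re ^ 2 + (nn p.2 2).re ^ 2 = den p.2 ^ 2 := by
    simp only [nn_0, nn_1, nn_2]
    simp [pow_two]
    simp only [den, normSq_apply]
    ring
  rw [e2] at e
  have := den_pos p.2
  have h3 : 0 < den p.2 ^ 2 * g p.1 X X := by positivity
  linarith

end Crest.Agent.R260.TwL_847
end
end

-- ▼ part R260/Tw8_979
section

/-!
Row 260, leaf TW-Z (helper979), part 8: the cocycle `lam` of the contact line bundle `L`, the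
transformation of the contact form and of the Hermitian metric.

`lamq q w * nn w' = q (nn w)`, `w' = st (q (xx w))`.
-/

set_option autoImplicit false

open scoped Manifold ContDiff Topology
open Filter Set Complex Matrix
open Crest.GeometryTopology.CoordMetric
open Crest.GeometryTopology.ChartRiem

noncomputable section

namespace Crest.Agent.R260.Tw_979

/-! ### complexification of a real matrix -/

/-- action of a real matrix on `ℂ³` -/
def cmv (q : Matrix (Fin 3) (Fin 3) ℝ) (u : Fin 3 → ℂ) : Fin 3 → ℂ :=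
  fun a => ∑ b, (q a b : ℂ) * u b

lemma cmv_cx (q : Matrix (Fin 3) (Fin 3) ℝ) (x : Fin 3 → ℝ) : cmv q (cx x) = cx (q *ᵥ x) := by
  funext a
  simp [cmv, cx, Matrix.mulVec, dotProduct]

lemma cmv_smul (q : Matrix (Fin 3) (Fin 3) ℝ) (c : ℂ) (u : Fin 3 → ℂ) :
    cmv q (c • u) = c • cmv q u := by
  funext a
  simp only [cmv, Pi.smul_apply, smul_eq_mul, Finset.mul_sum]
  exact Finset.sum_congr rfl fun b _ => by ring

/-- the value of the cocycle of `L` -/
def lamq (q : Matrix (Fin 3) (Fin 3) ℝ) (w : ℂ) : ℂ := (cmv q (nn w) 1 - I * cmv q (nn w) 2) / 2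

/-- a vector with `x × n = - i n` is a multiple of `nn w`, `x = xx w` -/
lemma null_eq {w : ℂ} {n : Fin 3 → ℂ} (h : cr (cx (xx w)) n = (-I) • n) :
    n = ((n 1 - I * n 2) / 2) • nn w := by
  have hd := cden_ne w
  have e0 : cx (xx w) 1 * n 2 - cx (xx w) 2 * n 1 = -I * n 0 := congrFun h 0
  have e1 : cx (xx w) 2 * n 0 - cx (xx w) 0 * n 2 = -I * n 1 := congrFun h 1
  have e2 : cx (xx w) 0 * n 1 - cx (xx w) 1 * n 0 = -I * n 2 := congrFun h 2
  rw [xx_c] at e0 e1 e2
  simp only [Pi.smul_apply, smul_eq_mul, Matrix.cons_val_zero, Matrix.cons_val_one,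
    Matrix.cons_val] at e0 e1 e2
  set c := (starRingEnd ℂ) w with hc
  have hI := I_sq
  have k1 : (w + c) * n 0 - (1 - w * c) * n 1 - I * (1 + w * c) * n 2 = 0 := by
    field_simp at e2
    linear_combination -e2
  have k2 : -I * (w - c) * n 0 - (1 - w * c) * n 2 + I * (1 + w * c) * n 1 = 0 := by
    field_simp at e1
    linear_combination e1
  have k3 : (w + c) * n 2 + I * (w - c) * n 1 + I * (1 + w * c) * n 0 = 0 := by
    field_simp at e0
    linear_combination e0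
  have b1 : n 0 = -w * (n 1 - I * n 2) := by
    linear_combination (-I) * k3 + ((w - c) * n 1 + (1 + w * c) * n 0) * hI -
      (c / 2) * (k1 + I * k2) + (c / 2) * (-(w - c) * n 0 + (1 + w * c) * n 1) * hI
  have b2 : n 1 + I * n 2 = w * n 0 := by
    linear_combination (-1 / 2 : ℂ) * (k1 + I * k2) +
      (1 / 2) * (-(w - c) * n 0 + (1 + w * c) * n 1) * hI
  funext a
  fin_cases a
  · simp [nn]; linear_combination b1
  · simp [nn]
    rw [b1] at b2
    linear_combination b2 / 2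
  · simp [nn]
    rw [b1] at b2
    linear_combination (-I / 2) * b2 + n 2 * hI

lemma cmv_re (q : Matrix (Fin 3) (Fin 3) ℝ) (u : Fin 3 → ℂ) (a : Fin 3) :
    (cmv q u a).re = (q *ᵥ fun a => (u a).re) a := by simp [cmv, Matrix.mulVec, dotProduct]

lemma cmv_im (q : Matrix (Fin 3) (Fin 3) ℝ) (u : Fin 3 → ℂ) (a : Fin 3) :
    (cmv q u a).im = (q *ᵥ fun a => (u a).im) a := by simp [cmv, Matrix.mulVec, dotProduct]

lemma cr_cx_re (x : Fin 3 → ℝ) (u : Fin 3 → ℂ) (a : Fin 3) :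
    (cr (cx x) u a).re = cr x (fun a => (u a).re) a := by
  fin_cases a <;> simp [cr, cx]

lemma cr_cx_im (x : Fin 3 → ℝ) (u : Fin 3 → ℂ) (a : Fin 3) :
    (cr (cx x) u a).im = cr x (fun a => (u a).im) a := by
  fin_cases a <;> simp [cr, cx]

lemma cr_cmv {q : Matrix (Fin 3) (Fin 3) ℝ} (hq : SO q) (x : Fin 3 → ℝ) (u : Fin 3 → ℂ) :
    cr (cx (q *ᵥ x)) (cmv q u) = cmv q (cr (cx x) u) := by
  have hr := hq.cr x (fun a => (u a).re)
  have hi := hq.cr x (fun a => (u a).im)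
  funext a
  apply Complex.ext
  · simp only [cr_cx_re, cmv_re]
    exact congrFun hr a
  · simp only [cr_cx_im, cmv_im]
    exact congrFun hi a

/-- **the defining property of the cocycle** -/
theorem lamq_spec {q : Matrix (Fin 3) (Fin 3) ℝ} (hq : SO q) {w : ℂ}
    (h : 1 + (q *ᵥ xx w) 0 ≠ 0) : cmv q (nn w) = lamq q w • nn (st (q *ᵥ xx w)) := by
  refine null_eq ?_
  rw [xx_trn hq.orth h, cr_cmv hq, cr_xx_nn, cmv_smul]

/-- the Hermitian square norm on `ℂ³` -/
def hn3 (u : Fin 3 → ℂ) : ℝ := ∑ a, normSq (u a)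

lemma hn3_cmv {q : Matrix (Fin 3) (Fin 3) ℝ} (hq : qᵀ * q = 1) (u : Fin 3 → ℂ) :
    hn3 (cmv q u) = hn3 u := by
  have h1 := Coc.norm_mulVec hq (fun a => (u a).re)
  have h2 := Coc.norm_mulVec hq (fun a => (u a).im)
  simp only [hn3, Fin.sum_univ_three, normSq_eq, cmv_re, cmv_im]
  linarith

lemma hn3_smul (c : ℂ) (u : Fin 3 → ℂ) : hn3 (c • u) = ‖c‖ ^ 2 * hn3 u := by
  simp only [hn3, Pi.smul_apply, smul_eq_mul, normSq_mul, Finset.mul_sum]
  rw [Complex.sq_norm]

lemma hn3_nn (w : ℂ) : hn3 (nn w) = 2 * den w ^ 2 := by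
  have hden : den w = 1 + (w.re ^ 2 + w.im ^ 2) := by rw [den, normSq_eq]
  rw [hden]
  simp [hn3, Fin.sum_univ_three, nn, normSq_apply, pow_two]
  ring

/-- Hermitian weights transform by `|lam|²` -/
theorem den_trn {q : Matrix (Fin 3) (Fin 3) ℝ} (hq : SO q) {w : ℂ}
    (h : 1 + (q *ᵥ xx w) 0 ≠ 0) : den w ^ 2 = ‖lamq q w‖ ^ 2 * den (st (q *ᵥ xx w)) ^ 2 := by
  have h1 := hn3_cmv hq.orth (nn w)
  rw [lamq_spec hq h, hn3_smul, hn3_nn, hn3_nn] at h1
  linarith

theorem lamq_ne {q : Matrix (Fin 3) (Fin 3) ℝ} (hq : SO q) {w : ℂ}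
    (h : 1 + (q *ᵥ xx w) 0 ≠ 0) : lamq q w ≠ 0 := by
  intro h0
  have h1 := den_trn hq h
  rw [h0] at h1
  have := den_pos w
  simp at h1
  exact den_ne w h1

lemma dt_cmv {q : Matrix (Fin 3) (Fin 3) ℝ} (hq : qᵀ * q = 1) (u v : Fin 3 → ℂ) :
    dt (cmv q u) (cmv q v) = dt u v := by
  have h : ∀ a b, ∑ c, q c a * q c b = if a = b then 1 else 0 := by
    intro a b
    have := congrFun (congrFun hq a) b
    rw [Matrix.mul_apply, Matrix.one_apply] at this
    exact this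
  have hc : ∀ a b, ∑ c, (q c a : ℂ) * (q c b : ℂ) = if a = b then 1 else 0 := by
    intro a b
    have := congrArg (fun r : ℝ => (r : ℂ)) (h a b)
    push_cast at this
    rw [this]
    split_ifs <;> simp
  have h00 := hc 0 0
  have h01 := hc 0 1
  have h02 := hc 0 2
  have h11 := hc 1 1
  have h12 := hc 1 2
  have h22 := hc 2 2
  simp only [Fin.sum_univ_three] at h00 h01 h02 h11 h12 h22
  simp at h00 h01 h02 h11 h12 h22
  simp only [dt, cmv, Fin.sum_univ_three]
  linear_combination (u 0 * v 0) * h00 + (u 1 * v 1) * h11 + (u 2 * v 2) * h22 +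
    (u 0 * v 1 + u 1 * v 0) * h01 + (u 0 * v 2 + u 2 * v 0) * h02 + (u 1 * v 2 + u 2 * v 1) * h12

/-! ### the contact form -/

open Crest.Agent.R202.Tens
open Crest.Agent.R260.Qk3_151 Crest.Agent.R260.Qk4_151 Crest.Agent.R260.Qk7_151

variable {n : ℕ}

local notation "𝔼" => EuclideanSpace ℝ (Fin n)

/-- the contact form in the frame `e*` of `L`: `tauT (X, η) = η - β_w(X)` -/
def tauT (g : MetricField n) (J : Fin 3 → EuclideanSpace ℝ (Fin n) → Matrix (Fin n) (Fin n) ℝ) :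
    EuclideanSpace ℝ (Fin n) × ℂ → (EuclideanSpace ℝ (Fin n) × ℂ →L[ℝ] ℂ) :=
  TwL_847.tau (fun a y => Th g J y a)

lemma tauT_apply (g : MetricField n) (J : Fin 3 → 𝔼 → Matrix (Fin n) (Fin n) ℝ) (z v : 𝔼 × ℂ) :
    tauT g J z v = v.2 - be z.2 (thv (Th g J) z.1 v.1) := by
  rw [tauT, TwL_847.tau_apply, TwL_847.bt_apply]
  rfl


section manifold

variable {M : Type} [TopologicalSpace M] [ChartedSpace (EuclideanSpace ℝ (Fin n)) M]
  [IsManifold 𝓘(ℝ, EuclideanSpace ℝ (Fin n)) ∞ M]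
  {G : ChartMetric n M} (Q : QuaternionicStructure n M G) (hn : n ≠ 0)

include hn in
/-- **the contact form transforms by `lam`** -/
theorem tau_trn (i j : Idx n M) {z : 𝔼 × ℂ} (hz : z.1 ∈ dom i.e j.e)
    (hd : tdom (qc Q i j) z) (v : 𝔼 × ℂ) :
    tauT (G.g i.e) (fr Q i) z v = lamq (qc Q i j z.1) z.2 *
      tauT (G.g j.e) (fr Q j) (trn (chg i.e j.e) (qc Q i j) z)
        (fderiv ℝ (trn (chg i.e j.e) (qc Q i j)) z v) := by
  have hso := qc_so Q hn i j hz
  have hev : ∀ᶠ y in 𝓝 z.1, (qc Q i j y)ᵀ * qc Q i j y = 1 := by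
    filter_upwards [(isOpen_dom i.e j.e).mem_nhds hz] with y hy using (qc_so Q hn i j hy).orth
  obtain ⟨h1, h2⟩ := fderiv_trn (chg_diff i.he j.he hz) (fun a b => qc_diff Q i j hz a b) hev hd v
  have hx : xx (trn (chg i.e j.e) (qc Q i j) z).2 = qc Q i j z.1 *ᵥ xx z.2 := xx_trn hso.orth hd
  have key : dxx (trn (chg i.e j.e) (qc Q i j) z).2 (tauT (G.g j.e) (fr Q j)
      (trn (chg i.e j.e) (qc Q i j) z) (fderiv ℝ (trn (chg i.e j.e) (qc Q i j)) z v)) =
      qc Q i j z.1 *ᵥ dxx z.2 (tauT (G.g i.e) (fr Q i) z v) := by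
    rw [tauT_apply, tauT_apply, map_sub, map_sub, dxx_be, dxx_be, h2, hx, h1]
    have e1 : (trn (chg i.e j.e) (qc Q i j) z).1 = chg i.e j.e z.1 := rfl
    rw [e1, hT Q hn i j hz, dqx, Matrix.mulVec_sub]
    abel
  have h3 := eta_eq (trn (chg i.e j.e) (qc Q i j) z).2 (tauT (G.g j.e) (fr Q j)
      (trn (chg i.e j.e) (qc Q i j) z) (fderiv ℝ (trn (chg i.e j.e) (qc Q i j)) z v))
  rw [key, ← cmv_cx] at h3
  have h4 := eta_eq z.2 (tauT (G.g i.e) (fr Q i) z v)
  rw [← dt_cmv hso.orth, lamq_spec hso hd] at h4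
  have h5 : ∀ (c : ℂ) (a b : Fin 3 → ℂ), dt (c • a) b = c * dt a b := by
    intro c a b; simp only [dt, Pi.smul_apply, smul_eq_mul]; ring
  rw [h5] at h4
  have h6 : (trn (chg i.e j.e) (qc Q i j) z).2 = st (qc Q i j z.1 *ᵥ xx z.2) := rfl
  rw [h6] at h3
  rw [h3] at h4
  have h7 : (2 : ℂ) ≠ 0 := two_ne_zero
  have h8 : (2 : ℂ) * tauT (G.g i.e) (fr Q i) z v = 2 * (lamq (qc Q i j z.1) z.2 *
      tauT (G.g j.e) (fr Q j) (trn (chg i.e j.e) (qc Q i j) z)
        (fderiv ℝ (trn (chg i.e j.e) (qc Q i j)) z v)) := by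
    rw [← h4]
    have : trn (chg i.e j.e) (qc Q i j) z = (chg i.e j.e z.1, st (qc Q i j z.1 *ᵥ xx z.2)) := rfl
    ring
  exact mul_left_cancel₀ h7 h8

end manifold

end Crest.Agent.R260.Tw_979
end
end

-- ▼ part R260/TwL3_847
section

/-!
Row 260, leaf TW-LOC (helper847), part 3: the operator data `TwData` from helper151's chart data
`QKOn g J U` (matrices, `cf`, `Fc`).
-/

set_option autoImplicit false
set_option linter.unusedSimpArgs false

open Complex
open scoped ContDiff Topology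
open Crest.GeometryTopology.CoordMetric Crest.GeometryTopology.ChartRiem

noncomputable section

namespace Crest.Agent.R260.TwL_847

open Crest.Agent.R260.Tw_979 Crest.Agent.R260.Qk3_151 Crest.Agent.R260.Qk4_151
open Crest.Agent.R202.Tens

variable {n : ℕ}

local notation "𝔼" => EuclideanSpace ℝ (Fin n)

/-! ## matrices as operators -/

/-- the operator of a matrix -/
def mc (A : Matrix (Fin n) (Fin n) ℝ) : 𝔼 →L[ℝ] 𝔼 :=
  ∑ i, ∑ k, A i k • ((EuclideanSpace.proj k : 𝔼 →L[ℝ] ℝ).smulRight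
    (EuclideanSpace.single i (1:ℝ)))

lemma mc_apply (A : Matrix (Fin n) (Fin n) ℝ) (X : 𝔼) (i : Fin n) :
    mc A X i = ∑ k, A i k * X k := by
  simp only [mc, _root_.sum_apply, _root_.smul_apply,
    ContinuousLinearMap.smulRight_apply, PiLp.smul_apply, smul_eq_mul, WithLp.ofLp_sum,
    Finset.sum_apply, prj_apply, PiLp.single_apply]
  rw [Finset.sum_eq_single i]
  · simp
  · intro b _ hb
    simp [hb.symm]
  · simp

lemma mc_eq_mL (A : Matrix (Fin n) (Fin n) ℝ) (X : 𝔼) : mc A X = mL A X := by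
  ext i; rw [mc_apply, mL_apply]

lemma mc_mul (A B : Matrix (Fin n) (Fin n) ℝ) : mc A * mc B = mc (A * B) := by
  refine ContinuousLinearMap.ext fun X => ?_
  show mc A (mc B X) = mc (A * B) X
  rw [mc_eq_mL, mc_eq_mL, mc_eq_mL, mL_mul]

lemma mc_neg (A : Matrix (Fin n) (Fin n) ℝ) : mc (-A) = - mc A := by
  refine ContinuousLinearMap.ext fun X => ?_
  show mc (-A) X = -(mc A X)
  rw [mc_eq_mL, mc_eq_mL, mL_neg]; rfl

lemma mc_one : mc (1 : Matrix (Fin n) (Fin n) ℝ) = 1 := by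
  refine ContinuousLinearMap.ext fun X => ?_
  rw [mc_eq_mL, mL_one]; rfl

lemma hasFDerivAt_mc {A : 𝔼 → Matrix (Fin n) (Fin n) ℝ} {x : 𝔼} (hA : DM A x) :
    HasFDerivAt (fun y => mc (A y)) (∑ i, ∑ k, (fderiv ℝ (fun y => A y i k) x).smulRight
      ((EuclideanSpace.proj k : 𝔼 →L[ℝ] ℝ).smulRight (EuclideanSpace.single i (1:ℝ)))) x :=
  hasFDerivAt_sum2 (F := 𝔼 →L[ℝ] 𝔼) (fun i j => (hA i j).hasFDerivAt) _

lemma fderiv_mc {A : 𝔼 → Matrix (Fin n) (Fin n) ℝ} {x : 𝔼} (hA : DM A x) (X Y : 𝔼) (l : Fin n) :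
    fderiv ℝ (fun y => mc (A y)) x X Y l = ∑ i, ∑ k, X i * (pd i A x l k * Y k) := by
  rw [(hasFDerivAt_mc hA).fderiv]
  simp only [_root_.sum_apply, ContinuousLinearMap.smulRight_apply,
    _root_.smul_apply, PiLp.smul_apply, smul_eq_mul, WithLp.ofLp_sum,
    Finset.sum_apply, prj_apply, PiLp.single_apply]
  rw [Finset.sum_eq_single l]
  · simp only [if_true, mul_one, fderiv_eq_sum, pd_apply]
    rw [Finset.sum_comm' (s := Finset.univ) (t := fun _ => Finset.univ) (t' := Finset.univ)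
      (s' := fun _ => Finset.univ) (by simp)]
    refine Finset.sum_congr rfl fun k _ => ?_
    rw [Finset.sum_mul]
    exact Finset.sum_congr rfl fun i _ => by ring
  · intro b _ hb
    simp [hb.symm]
  · simp

lemma mc_smooth {A : 𝔼 → Matrix (Fin n) (Fin n) ℝ} {U : Set 𝔼}
    (hA : ∀ i k, ContDiffOn ℝ ∞ (fun y => A y i k) U) : ContDiffOn ℝ ∞ (fun y => mc (A y)) U := by
  unfold mc
  exact ContDiffOn.sum fun i _ => ContDiffOn.sum fun k _ => (hA i k).smul_const _

/-! ## the connection form -/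

/-- `Theta_a(i)` in terms of `cf` : `(cf 2 1, cf 0 2, cf 1 0)` -/
def tc (c : Fin 3 → Fin 3 → ℝ) : Fin 3 → ℝ := ![c 2 1, c 0 2, c 1 0]

/-- the connection form `Theta_a` as a field of linear forms -/
def Tv (g : MetricField n) (J : Fin 3 → EuclideanSpace ℝ (Fin n) → Matrix (Fin n) (Fin n) ℝ)
    (a : Fin 3) (x : EuclideanSpace ℝ (Fin n)) : EuclideanSpace ℝ (Fin n) →L[ℝ] ℝ :=
  ∑ i, tc (cf g J x i) a • (EuclideanSpace.proj i : EuclideanSpace ℝ (Fin n) →L[ℝ] ℝ)

variable {g : MetricField n} {J : Fin 3 → EuclideanSpace ℝ (Fin n) → Matrix (Fin n) (Fin n) ℝ}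
  {U : Set (EuclideanSpace ℝ (Fin n))}

lemma Tv_apply (a : Fin 3) (x X : 𝔼) : Tv g J a x X = ∑ i, tc (cf g J x i) a * X i := by
  simp only [Tv, _root_.sum_apply, _root_.smul_apply, smul_eq_mul, prj_apply]

lemma tc_smooth (h : QKOn g J U) (i : Fin n) (a : Fin 3) :
    ContDiffOn ℝ ∞ (fun y => tc (cf g J y i) a) U := by
  fin_cases a
  · exact h.cf_smooth i 2 1
  · exact h.cf_smooth i 0 2
  · exact h.cf_smooth i 1 0

lemma Tv_smooth (h : QKOn g J U) (a : Fin 3) : ContDiffOn ℝ ∞ (Tv g J a) U := by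
  unfold Tv
  exact ContDiffOn.sum fun i _ => (tc_smooth h i a).smul_const _

lemma fderiv_Tv (h : QKOn g J U) {x : 𝔼} (hx : x ∈ U) (a : Fin 3) (X Y : 𝔼) :
    fderiv ℝ (Tv g J a) x X Y =
      ∑ i, ∑ j, pderiv i (fun y => tc (cf g J y j) a) x * (X i * Y j) := by
  have hd : ∀ i, DifferentiableAt ℝ (fun y => tc (cf g J y i) a) x := fun i =>
    ((tc_smooth h i a).contDiffAt (h.isOpen.mem_nhds hx)).differentiableAt (by simp)
  have h1 : HasFDerivAt (Tv g J a) (∑ j, (fderiv ℝ (fun y => tc (cf g J y j) a) x).smulRight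
      (EuclideanSpace.proj j : 𝔼 →L[ℝ] ℝ)) x :=
    HasFDerivAt.fun_sum fun j _ => (hd j).hasFDerivAt.smul_const
      (EuclideanSpace.proj j : EuclideanSpace ℝ (Fin n) →L[ℝ] ℝ)
  rw [h1.fderiv]
  simp only [_root_.sum_apply, ContinuousLinearMap.smulRight_apply,
    _root_.smul_apply, smul_eq_mul, prj_apply, fderiv_eq_sum, Finset.sum_mul]
  rw [Finset.sum_comm]
  exact Finset.sum_congr rfl fun i _ => Finset.sum_congr rfl fun j _ => by ring

/-- `Σ_b cf i a b J_b = (Theta(i) × J)_a` -/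
lemma cf_cross (h : QKOn g J U) {x : 𝔼} (hx : x ∈ U) (i : Fin n) :
    (∑ b, cf g J x i 0 b • J b x = tc (cf g J x i) 1 • J 2 x - tc (cf g J x i) 2 • J 1 x) ∧
    (∑ b, cf g J x i 1 b • J b x = tc (cf g J x i) 2 • J 0 x - tc (cf g J x i) 0 • J 2 x) ∧
    (∑ b, cf g J x i 2 b • J b x = tc (cf g J x i) 0 • J 1 x - tc (cf g J x i) 1 • J 0 x) := by
  have t0 : tc (cf g J x i) 0 = cf g J x i 2 1 := rfl
  have t1 : tc (cf g J x i) 1 = cf g J x i 0 2 := rfl
  have t2 : tc (cf g J x i) 2 = cf g J x i 1 0 := rfl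
  have a1 := h.cf_antisymm hx i 0 1
  have a2 := h.cf_antisymm hx i 1 2
  have a3 := h.cf_antisymm hx i 2 0
  refine ⟨?_, ?_, ?_⟩
  · rw [Fin.sum_univ_three, h.cf_self hx, t1, t2, a1]; module
  · rw [Fin.sum_univ_three, h.cf_self hx, t0, t2, a2]; module
  · rw [Fin.sum_univ_three, h.cf_self hx, t0, t1, a3]; module

/-- the curvature equation for `Theta`, in coordinates -/
lemma tc_main {m : ℕ} (hm : 2 ≤ m) (hnm : n = 4 * m) (h : QKOn g J U) {x : 𝔼} (hx : x ∈ U)
    (i j : Fin n) (c : Fin 3) :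
    pderiv i (fun y => tc (cf g J y j) c) x - pderiv j (fun y => tc (cf g J y i) c) x =
      cr (tc (cf g J x i)) (tc (cf g J x j)) c -
        Crest.Agent.R260.Qk5_151.nu g m x * (g x * J c x) i j := by
  have F := fun a b => Crest.Agent.R260.Qk5_151.Fc_eq hm hnm h hx i j a b
  have a01 := h.cf_antisymm hx i 0 1
  have a12 := h.cf_antisymm hx i 1 2
  have a20 := h.cf_antisymm hx i 2 0
  have b01 := h.cf_antisymm hx j 0 1
  have b12 := h.cf_antisymm hx j 1 2
  have b20 := h.cf_antisymm hx j 2 0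
  have s := fun a => h.cf_self hx i a
  have s' := fun a => h.cf_self hx j a
  fin_cases c
  · have := F 2 1
    simp only [Fc, Fin.sum_univ_three, eps] at this
    simp [s, s'] at this
    show pderiv i (fun y => cf g J y j 2 1) x - pderiv j (fun y => cf g J y i 2 1) x = _
    simp only [cr, tc, Matrix.cons_val_zero, Matrix.cons_val_one, Matrix.cons_val, Fin.zero_eta]
    rw [a20, b20, a01, b01] at this
    linarith
  · have := F 0 2
    simp only [Fc, Fin.sum_univ_three, eps] at this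
    simp [s, s'] at this
    show pderiv i (fun y => cf g J y j 0 2) x - pderiv j (fun y => cf g J y i 0 2) x = _
    simp only [cr, tc, Matrix.cons_val_zero, Matrix.cons_val_one, Matrix.cons_val, Fin.mk_one]
    rw [a12, b12, a01, b01] at this
    linarith
  · have := F 1 0
    simp only [Fc, Fin.sum_univ_three, eps] at this
    simp [s, s'] at this
    show pderiv i (fun y => cf g J y j 1 0) x - pderiv j (fun y => cf g J y i 1 0) x = _
    simp only [cr, tc, Matrix.cons_val_zero, Matrix.cons_val_one, Matrix.cons_val,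
      Fin.reduceFinMk]
    rw [a12, b12, a20, b20] at this
    linarith

/-! ## `TwData` -/

lemma bil_neg (M : Matrix (Fin n) (Fin n) ℝ) (X Y : EuclideanSpace ℝ (Fin n)) :
    bil (-M) X Y = - bil M X Y := by
  rw [bil_apply, bil_apply]
  simp [Finset.sum_neg_distrib]

lemma mc_sub (A B : Matrix (Fin n) (Fin n) ℝ) (Y : EuclideanSpace ℝ (Fin n)) :
    mc (A - B) Y = mc A Y - mc B Y := by
  rw [mc_eq_mL, mc_eq_mL, mc_eq_mL, mL_sub]; rfl

lemma mc_smul (c : ℝ) (A : Matrix (Fin n) (Fin n) ℝ) (Y : EuclideanSpace ℝ (Fin n)) :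
    mc (c • A) Y = c • mc A Y := by
  rw [mc_eq_mL, mc_eq_mL, mL_smul]; rfl

lemma mc_mul_apply (A B : Matrix (Fin n) (Fin n) ℝ) (Y : EuclideanSpace ℝ (Fin n)) :
    mc (A * B) Y = mc A (mc B Y) := by
  rw [← mc_mul]; rfl

lemma fderiv_mc' {A : EuclideanSpace ℝ (Fin n) → Matrix (Fin n) (Fin n) ℝ}
    {x : EuclideanSpace ℝ (Fin n)} (hA : DM A x) (X Y : EuclideanSpace ℝ (Fin n)) :
    fderiv ℝ (fun y => mc (A y)) x X Y = ∑ i, X i • mc (pd i A x) Y := by
  ext l
  rw [fderiv_mc hA]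
  simp only [WithLp.ofLp_sum, Finset.sum_apply, PiLp.smul_apply, smul_eq_mul, mc_apply,
    Finset.mul_sum]

lemma mc_chr (g : MetricField n) (x Y : EuclideanSpace ℝ (Fin n)) (i : Fin n) :
    mc (christoffelMatrix g x i) Y = Gam g x (EuclideanSpace.single i 1) Y := by
  ext l
  rw [mc_apply, Gam_single_left]
  rfl

lemma Gam_sum (g : MetricField n) (x X Y : EuclideanSpace ℝ (Fin n)) :
    Gam g x X Y = ∑ i, X i • Gam g x (EuclideanSpace.single i 1) Y := by
  conv_lhs => rw [eq_sum_single X]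
  simp only [map_sum, map_smul, _root_.sum_apply, _root_.smul_apply]

lemma par_aux (h : QKOn g J U) {x : EuclideanSpace ℝ (Fin n)} (hx : x ∈ U) (a b c : Fin 3)
    (hc : ∀ i, ∑ d, cf g J x i a d • J d x = tc (cf g J x i) b • J c x - tc (cf g J x i) c • J b x)
    (X Y : EuclideanSpace ℝ (Fin n)) :
    fderiv ℝ (fun y => mc (J a y)) x X Y = mc (J a x) (Gam g x X Y) - Gam g x X (mc (J a x) Y) +
      (Tv g J b x X • mc (J c x) Y - Tv g J c x X • mc (J b x) Y) := by
  rw [fderiv_mc' (h.DM_J hx a)]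
  have e : ∀ i, pd i (J a) x = tc (cf g J x i) b • J c x - tc (cf g J x i) c • J b x -
      (christoffelMatrix g x i * J a x - J a x * christoffelMatrix g x i) := by
    intro i
    rw [← hc, ← h.cf_spec hx, covDerivEndo_eq]
    abel
  simp only [e, mc_sub, mc_smul, mc_mul_apply, mc_chr]
  rw [Gam_sum g x X Y, Gam_sum g x X (mc (J a x) Y), Tv_apply, Tv_apply, map_sum, Finset.sum_smul,
    Finset.sum_smul, ← Finset.sum_sub_distrib, ← Finset.sum_sub_distrib, ← Finset.sum_add_distrib]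
  refine Finset.sum_congr rfl fun i _ => ?_
  rw [map_smul]
  module

lemma cd_sum2 {ι κ E F : Type*} [Fintype ι] [Fintype κ] [NormedAddCommGroup E]
    [NormedSpace ℝ E] [NormedAddCommGroup F] [NormedSpace ℝ F] {f : ι → κ → E → ℝ} {U : Set E}
    (hf : ∀ i j, ContDiffOn ℝ ∞ (f i j) U) (L : ι → κ → F) :
    ContDiffOn ℝ ∞ (fun y => ∑ i, ∑ j, f i j y • L i j) U :=
  ContDiffOn.sum fun i _ => ContDiffOn.sum fun j _ =>
    ContDiffOn.fun_smul (hf i j) contDiffOn_const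

/-- **the operator data of a quaternion-Kähler chart** -/
theorem twData {m : ℕ} (hm : 2 ≤ m) (hnm : n = 4 * m) {ν : ℝ} (h : QKOn g J U)
    (hν : ∀ x ∈ U, Crest.Agent.R260.Qk5_151.nu g m x = ν) :
    TwData (fun a x => mc (J a x)) (Tv g J) (Gam g) (Gf g) ν U where
  isOpen := h.isOpen
  Jsm a := mc_smooth (h.smooth a)
  Tsm := Tv_smooth h
  gsm := by
    unfold Gf bil
    exact cd_sum2 (F := EuclideanSpace ℝ (Fin n) →L[ℝ] EuclideanSpace ℝ (Fin n) →L[ℝ] ℝ)
      (fun i j => h.riem.contDiffOn i j) eij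
  quat x hx :=
    { sq := fun a => by rw [mc_mul, h.sq x hx, mc_neg, mc_one]
      m01 := by rw [mc_mul, h.mul01 hx]
      m10 := by rw [mc_mul, h.mul10 hx, mc_neg] }
  gsymm x hx X Y := bil_symm h.riem hx X Y
  gJ x hx a X Y := by
    show bil (g x) (mc (J a x) X) Y = - bil (g x) X (mc (J a x) Y)
    rw [mc_eq_mL, mc_eq_mL, Crest.Agent.R260.Qk5_151.bil_mL_left,
      Crest.Agent.R260.Qk5_151.bil_mL_right,
      Crest.Agent.R260.QKk_838.orth_skew (h.sq x hx a) (h.orth x hx a), bil_neg]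
  gpos x hx X hX := bil_pos h.riem hx hX
  Gsymm x hx X Y := by
    ext l
    rw [Gam_apply, Gam_apply, Finset.sum_comm]
    refine Finset.sum_congr rfl fun i _ => Finset.sum_congr rfl fun j _ => ?_
    rw [christoffel_symm h.riem hx l j i]; ring
  par x hx X Y := by
    have hc := fun i => cf_cross h hx i
    refine ⟨?_, ?_, ?_⟩
    · exact par_aux h hx 0 1 2 (fun i => (hc i).1) X Y
    · exact par_aux h hx 1 2 0 (fun i => (hc i).2.1) X Y
    · exact par_aux h hx 2 0 1 (fun i => (hc i).2.2) X Y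
  main x hx X Y c := by
    rw [fderiv_Tv h hx, fderiv_Tv h hx]
    have e1 : Gf g x X (mc (J c x) Y) = ∑ i, ∑ j, (g x * J c x) i j * (X i * Y j) := by
      show bil (g x) X (mc (J c x) Y) = _
      rw [mc_eq_mL, Crest.Agent.R260.Qk5_151.bil_mL_right, bil_apply]
      exact Finset.sum_congr rfl fun i _ => Finset.sum_congr rfl fun j _ => by ring
    have e2 : cr (fun a => Tv g J a x X) (fun a => Tv g J a x Y) c =
        ∑ i, ∑ j, cr (tc (cf g J x i)) (tc (cf g J x j)) c * (X i * Y j) := by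
      have key : ∀ a b : Fin 3, Tv g J a x X * Tv g J b x Y =
          ∑ i, ∑ j, tc (cf g J x i) a * tc (cf g J x j) b * (X i * Y j) := by
        intro a b
        rw [Tv_apply, Tv_apply, Finset.sum_mul_sum]
        exact Finset.sum_congr rfl fun i _ => Finset.sum_congr rfl fun j _ => by ring
      fin_cases c
      all_goals
        simp only [cr, Matrix.cons_val_zero, Matrix.cons_val_one, Matrix.cons_val, Fin.zero_eta,
          Fin.mk_one, Fin.reduceFinMk, key, ← Finset.sum_sub_distrib, sub_mul]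
    have e3 : ∑ i, ∑ j, pderiv i (fun y => tc (cf g J y j) c) x * (Y i * X j) =
        ∑ i, ∑ j, pderiv j (fun y => tc (cf g J y i) c) x * (X i * Y j) := by
      rw [Finset.sum_comm]
      exact Finset.sum_congr rfl fun i _ => Finset.sum_congr rfl fun j _ => by ring
    rw [e1, e2, e3, Finset.mul_sum, ← Finset.sum_sub_distrib, ← Finset.sum_sub_distrib]
    refine Finset.sum_congr rfl fun i _ => ?_
    rw [Finset.mul_sum, ← Finset.sum_sub_distrib, ← Finset.sum_sub_distrib]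
    refine Finset.sum_congr rfl fun j _ => ?_
    have := tc_main hm hnm h hx i j c
    rw [hν x hx] at this
    linear_combination (X i * Y j) * this

end Crest.Agent.R260.TwL_847
end
end

-- ▼ part R260/Tw9_979
section

/-!
Row 260, leaf TW-Z (helper979), part 9: integrability of the twistor space.
-/

set_option autoImplicit false

open scoped Manifold ContDiff Topology
open Filter Set Complex Matrix
open Crest.GeometryTopology.CoordMetric
open Crest.GeometryTopology.ChartRiem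

noncomputable section

namespace Crest.Agent.R260.Tw_979

open Crest.Agent.R202.Tens
open Crest.Agent.R260.Qk3_151 Crest.Agent.R260.Qk4_151 Crest.Agent.R260.Qk7_151

variable {n : ℕ}

local notation "𝔼" => EuclideanSpace ℝ (Fin n)

lemma mc_eq' (A : Matrix (Fin n) (Fin n) ℝ) : mc A = TwL_847.mc A := by
  refine ContinuousLinearMap.ext fun X => ?_
  rw [TwL_847.mc_eq_mL]
  rfl

lemma Jop_eq' (J : Fin 3 → 𝔼 → Matrix (Fin n) (Fin n) ℝ) :
    (fun a y => Jop J y a) = fun a x => TwL_847.mc (J a x) := by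
  funext a y
  exact mc_eq' _

lemma Th_eq' (g : MetricField n) (J : Fin 3 → 𝔼 → Matrix (Fin n) (Fin n) ℝ) :
    (fun a y => Th g J y a) = TwL_847.Tv g J := by
  funext a y
  fin_cases a <;> rfl

section loc

variable {g : MetricField n} {J : Fin 3 → EuclideanSpace ℝ (Fin n) → Matrix (Fin n) (Fin n) ℝ}
  {U : Set (EuclideanSpace ℝ (Fin n))}

/-- 847's operator data in my notation -/
theorem twd {m : ℕ} (hm : 2 ≤ m) (hnm : n = 4 * m) {ν : ℝ} (h : QKOn g J U)
    (hν : ∀ x ∈ U, Qk5_151.nu g m x = ν) :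
    TwL_847.TwData (fun a y => Jop J y a) (fun a y => Th g J y a) (Gam g) (Gf g) ν U := by
  rw [Jop_eq', Th_eq']
  exact TwL_847.twData hm hnm h hν

end loc

section manifold

variable {M : Type} [TopologicalSpace M] [ChartedSpace (EuclideanSpace ℝ (Fin n)) M]
  [IsManifold 𝓘(ℝ, EuclideanSpace ℝ (Fin n)) ∞ M]
  {G : ChartMetric n M} (Q : QuaternionicStructure n M G) (hn : n ≠ 0)

/-- **the twistor space is integrable** -/
theorem acm_int {m : ℕ} (hm : 2 ≤ m) (hnm : n = 4 * m) {ν : ℝ}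
    (hν : ∀ e ∈ atlas (EuclideanSpace ℝ (Fin n)) M, ∀ x ∈ e.target, Qk5_151.nu (G.g e) m x = ν) :
    (acm Q hn).Int := by
  intro k z hz v w
  have hz1 : z.1 ∈ k.e.target := (mem_ch_target Q hn k z).1 hz
  have h := TwL_847.Nij_JZ (twd hm hnm (qk Q k) (hν k.e k.he)) hz1 v w
  show ACM_580.Nij (JT (G.g k.e) (fr Q k)) z v w = 0
  rw [JT_eq]
  exact h

end manifold

end Crest.Agent.R260.Tw_979
end
end

-- ▼ part R260/TwL4_847
section

/-!
Row 260, leaf TW-LOC (helper847), part 4: the local fields of helper254's contact data `CD` in one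
chart of the twistor space, for helper979's structure `JT g J`.

* `thL`, `hL`, `alL` : contact form, weight and connection form in the frame `e*` of `L`;
* `JT_int`, `thL_*`, `hL_*`, `alL_*`.
-/

set_option autoImplicit false
set_option linter.unusedSimpArgs false

open Complex
open scoped ContDiff Topology
open Crest.GeometryTopology.CoordMetric Crest.GeometryTopology.ChartRiem

noncomputable section

namespace Crest.Agent.R260.TwL_847

open Crest.Agent.R260.Tw_979 Crest.Agent.R260.Qk3_151 Crest.Agent.R260.Qk4_151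
open Crest.Agent.R202.Tens

/-! ## Complements on `TwData` -/

section abs

variable {E : Type*} [NormedAddCommGroup E] [NormedSpace ℝ E]
variable {J : Fin 3 → E → E →L[ℝ] E} {Th : Fin 3 → E → E →L[ℝ] ℝ}
  {Ga : E → E →L[ℝ] E →L[ℝ] E} {g : E → E →L[ℝ] E →L[ℝ] ℝ} {nu : ℝ} {U : Set E}

lemma contDiff_cden : ContDiff ℝ ∞ (fun w : ℂ => (den w : ℂ)) :=
  ofRealCLM.contDiff.comp contDiff_den

lemma cden_ne' (w : ℂ) : (den w : ℂ) ≠ 0 := ofReal_ne_zero.2 (den_ne w)

lemma au_smooth (hT : ∀ a, ContDiffOn ℝ ∞ (Th a) U) :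
    ContDiffOn ℝ ∞ (au Th) (U ×ˢ (Set.univ : Set ℂ)) := by
  have e : au Th = fun p : E × ℂ =>
      (2 * (starRingEnd ℂ) p.2 * (den p.2 : ℂ)⁻¹) • tau Th p +
        (bp Th p).comp (ContinuousLinearMap.fst ℝ E ℂ) := by
    funext p
    refine ContinuousLinearMap.ext fun v => ?_
    rw [au_eq]
    simp [div_eq_mul_inv]
  rw [e]
  refine ContDiffOn.add (ContDiffOn.fun_smul ?_ (tau_smooth hT)) ?_
  · refine ContDiff.contDiffOn ?_
    refine (contDiff_const.mul (conjCLE.contDiff.comp contDiff_snd)).mul ?_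
    exact (contDiff_cden.comp contDiff_snd).inv fun p => cden_ne' p.2
  · exact (bp_smooth hT).clm_comp contDiffOn_const

/-- the exterior derivative of `au` is `i dA` -/
lemma dau_eq (hT : ∀ a, ContDiffOn ℝ ∞ (Th a) U) (hU : IsOpen U) {p : E × ℂ} (hp : p.1 ∈ U)
    (v v' : E × ℂ) :
    fderiv ℝ (au Th) p v v' - fderiv ℝ (au Th) p v' v = I * dA Th p v v' := by
  have ho : IsOpen (U ×ˢ (Set.univ : Set ℂ)) := hU.prod isOpen_univ
  have hm : U ×ˢ (Set.univ : Set ℂ) ∈ 𝓝 p := ho.mem_nhds ⟨hp, Set.mem_univ _⟩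
  have hd : DifferentiableAt ℝ (au Th) p :=
    ((au_smooth hT).contDiffAt hm).differentiableAt (by simp)
  have ev : ∀ u u', fderiv ℝ (fun q => au Th q u') p u = fderiv ℝ (au Th) p u u' := by
    intro u u'
    rw [fderiv_clm_apply hd (differentiableAt_const _)]
    simp
  have hre : ∀ u u', (fderiv ℝ (au Th) p u u').re =
      fderiv ℝ (fun q => reCLM.comp (au Th q)) p u u' := by
    intro u u'
    have h1 := ((ContinuousLinearMap.compL ℝ (E × ℂ) ℂ ℝ reCLM).hasFDerivAt.comp p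
      hd.hasFDerivAt).fderiv
    have h2 : ((ContinuousLinearMap.compL ℝ (E × ℂ) ℂ ℝ reCLM) ∘ au Th) =
      fun q => reCLM.comp (au Th q) := rfl
    rw [h2] at h1
    rw [h1]
    simp
  have him : ∀ u u', (fderiv ℝ (au Th) p u u').im = fderiv ℝ (A Th) p u u' := by
    intro u u'
    have h1 := ((ContinuousLinearMap.compL ℝ (E × ℂ) ℂ ℝ imCLM).hasFDerivAt.comp p
      hd.hasFDerivAt).fderiv
    have h2 : ((ContinuousLinearMap.compL ℝ (E × ℂ) ℂ ℝ imCLM) ∘ au Th) = A Th := by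
      funext q
      refine ContinuousLinearMap.ext fun v => ?_
      exact au_im q v
    rw [h2] at h1
    rw [h1]
    simp
  have hclosed : (fun q : E × ℂ => reCLM.comp (au Th q)) =
      fderiv ℝ (fun q : E × ℂ => Real.log (den q.2)) := by
    funext q
    exact (hasFDerivAt_log_den q).fderiv.symm
  have hs : ContDiffAt ℝ 2 (fun q : E × ℂ => Real.log (den q.2)) p := by
    have h1 : ContDiff ℝ 2 (fun q : E × ℂ => den q.2) :=
      (contDiff_den.comp contDiff_snd).of_le (WithTop.coe_le_coe.2 le_top)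
    exact h1.contDiffAt.log (den_ne p.2)
  have hsymm : ∀ u u', fderiv ℝ (fderiv ℝ (fun q : E × ℂ => Real.log (den q.2))) p u u' =
      fderiv ℝ (fderiv ℝ (fun q : E × ℂ => Real.log (den q.2))) p u' u :=
    (hs.isSymmSndFDerivAt (by simp)).eq
  apply Complex.ext
  · rw [sub_re, hre, hre, hclosed, hsymm v v']
    simp
  · rw [sub_im, him, him]
    simp [dA]

/-- the weight `|e*|²` -/
def hw (p : E × ℂ) : ℝ := (2 * den p.2 ^ 2)⁻¹

omit [NormedAddCommGroup E] [NormedSpace ℝ E] in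
lemma hw_pos (p : E × ℂ) : 0 < hw p := by
  have := den_pos p.2
  unfold hw; positivity

lemma hw_smooth (U : Set (E × ℂ)) : ContDiffOn ℝ ∞ (hw : E × ℂ → ℝ) U := by
  refine ContDiff.contDiffOn ?_
  unfold hw
  refine ContDiff.inv ?_ fun p => ?_
  · exact contDiff_const.mul ((contDiff_den.comp contDiff_snd).pow 2)
  · have := den_pos p.2
    positivity

lemma hw_deriv (p v : E × ℂ) : fderiv ℝ hw p v = 2 * (-(au Th p v)).re * hw p := by
  have hd := den_ne p.2
  have h1 : HasFDerivAt (fun q : E × ℂ => 2 * den q.2 ^ 2) _ p :=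
    (((hasFDerivAt_den p.2).comp p hasFDerivAt_snd).pow 2).const_mul 2
  have h2 : HasFDerivAt (hw : E × ℂ → ℝ) _ p :=
    (hasDerivAt_inv (by positivity : (2 * den p.2 ^ 2) ≠ 0)).comp_hasFDerivAt p h1
  rw [h2.fderiv, neg_re, au_re, hw]
  simp
  field_simp
  ring

/-- `∂̄ theta = 0` -/
lemma tau_db (h : TwData J Th Ga g nu U) {p : E × ℂ} (hp : p.1 ∈ U) (v v' : E × ℂ) :
    (fderiv ℝ (tau Th) p v v' - fderiv ℝ (tau Th) p v' v) +
      I * (fderiv ℝ (tau Th) p (JZ J Th p v) v' - fderiv ℝ (tau Th) p v' (JZ J Th p v)) =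
    (au Th p v + I * au Th p (JZ J Th p v)) * tau Th p v' := by
  rw [dtau_eq h hp, dtau_eq h hp, tau_J, JZ_fst, gn_I' h hp]
  linear_combination (-(au Th p v' * tau Th p v) - (I / 2) * nu * gn J g p v.1 v'.1) * I_sq

lemma tau_nondeg (h : TwData J Th Ga g nu U) (hnu : nu ≠ 0) {p : E × ℂ} (hp : p.1 ∈ U)
    {v : E × ℂ} (hv : tau Th p v = 0)
    (hd : ∀ w, tau Th p w = 0 → fderiv ℝ (tau Th) p v w - fderiv ℝ (tau Th) p w v = 0) :
    v = 0 := by
  have hX : v.1 = 0 := by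
    refine gn_nondeg h hp fun Y => ?_
    have h1 : tau Th p (Y, bt Th p Y) = 0 := by rw [tau_apply]; simp
    have h2 := hd _ h1
    rw [dtau_eq h hp, hv, h1] at h2
    have h3 : (I / 2) * nu * gn J g p v.1 Y = 0 := by
      linear_combination -h2
    have h4 : (I / 2) * (nu : ℂ) ≠ 0 := by
      refine mul_ne_zero (div_ne_zero I_ne_zero two_ne_zero) ?_
      exact_mod_cast hnu
    exact (mul_eq_zero.1 h3).resolve_left h4
  have h2 : v.2 = 0 := by
    rw [tau_apply, hX] at hv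
    simpa using hv
  exact Prod.ext hX h2

end abs

/-! ## The fields for `JT g J` -/

variable {n : ℕ}

/-- the contact form in the frame `e*` -/
def thL (g : MetricField n) (J : Fin 3 → EuclideanSpace ℝ (Fin n) → Matrix (Fin n) (Fin n) ℝ)
    (z : EuclideanSpace ℝ (Fin n) × ℂ) : (EuclideanSpace ℝ (Fin n) × ℂ) →L[ℝ] ℂ :=
  tau (fun a y => Th g J y a) z

/-- the weight `|e*|²` -/
def hL (z : EuclideanSpace ℝ (Fin n) × ℂ) : ℝ := hw z

/-- the connection form of `L` in the frame `e*` -/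
def alL (g : MetricField n) (J : Fin 3 → EuclideanSpace ℝ (Fin n) → Matrix (Fin n) (Fin n) ℝ)
    (z : EuclideanSpace ℝ (Fin n) × ℂ) : (EuclideanSpace ℝ (Fin n) × ℂ) →L[ℝ] ℂ :=
  -(au (fun a y => Th g J y a) z)

variable {g : MetricField n} {J : Fin 3 → EuclideanSpace ℝ (Fin n) → Matrix (Fin n) (Fin n) ℝ}
  {U : Set (EuclideanSpace ℝ (Fin n))}

lemma Jop_eq : (fun (a : Fin 3) (y : EuclideanSpace ℝ (Fin n)) => Jop J y a) =
    fun a y => mc (J a y) := by
  funext a y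
  refine ContinuousLinearMap.ext fun X => ?_
  show Tw_979.mc (J a y) X = mc (J a y) X
  rw [mc_eq_mL, Tw_979.mc_apply]

lemma Th_eq : (fun (a : Fin 3) (y : EuclideanSpace ℝ (Fin n)) => Th g J y a) = Tv g J := by
  funext a y
  refine ContinuousLinearMap.ext fun X => ?_
  rw [Tv_apply]
  simp only [Th, _root_.sum_apply, _root_.smul_apply, smul_eq_mul]
  refine Finset.sum_congr rfl fun i _ => ?_
  fin_cases a <;> rfl

/-- **the operator data in helper979's notation** -/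
theorem twData' {m : ℕ} (hm : 2 ≤ m) (hnm : n = 4 * m) {ν : ℝ} (h : QKOn g J U)
    (hν : ∀ x ∈ U, Crest.Agent.R260.Qk5_151.nu g m x = ν) :
    TwData (fun a y => Jop J y a) (fun a y => Th g J y a) (Gam g) (Gf g) ν U := by
  rw [Jop_eq, Th_eq]
  exact twData hm hnm h hν

section fields

variable {m : ℕ} (hm : 2 ≤ m) (hnm : n = 4 * m) {ν : ℝ} (h : QKOn g J U)
  (hν : ∀ x ∈ U, Crest.Agent.R260.Qk5_151.nu g m x = ν)


include h in
theorem thL_sm : ContDiffOn ℝ ∞ (thL g J) (U ×ˢ Set.univ) :=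
  tau_smooth fun a => Th_smooth h a

theorem thL_J (z v : EuclideanSpace ℝ (Fin n) × ℂ) :
    thL g J z (JT g J z v) = I * thL g J z v := by
  rw [JT_eq]
  exact tau_J z v

theorem thL_ne (z : EuclideanSpace ℝ (Fin n) × ℂ) : ∃ v, thL g J z v ≠ 0 :=
  ⟨(0, 1), by rw [thL, tau_apply]; simp⟩

theorem hL_sm (V : Set (EuclideanSpace ℝ (Fin n) × ℂ)) : ContDiffOn ℝ ∞ hL V := hw_smooth V

theorem hL_pos (z : EuclideanSpace ℝ (Fin n) × ℂ) : 0 < hL z := hw_pos z

include h in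
theorem alL_sm : ContDiffOn ℝ ∞ (alL g J) (U ×ˢ Set.univ) :=
  (au_smooth fun a => Th_smooth h a).neg

theorem alL_h (z v : EuclideanSpace ℝ (Fin n) × ℂ) :
    fderiv ℝ hL z v = 2 * (alL g J z v).re * hL z := hw_deriv z v

include hm hnm h hν in
theorem thL_db {z : EuclideanSpace ℝ (Fin n) × ℂ} (hz : z.1 ∈ U)
    (v w : EuclideanSpace ℝ (Fin n) × ℂ) :
    (fderiv ℝ (thL g J) z v w - fderiv ℝ (thL g J) z w v) +
      I * (fderiv ℝ (thL g J) z (JT g J z v) w - fderiv ℝ (thL g J) z w (JT g J z v)) =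
    -(alL g J z v + I * alL g J z (JT g J z v)) * thL g J z w := by
  rw [JT_eq]
  refine (tau_db (twData' hm hnm h hν) hz v w).trans ?_
  simp only [alL, thL, _root_.neg_apply]
  ring

lemma dd_alL (h : QKOn g J U) {z : EuclideanSpace ℝ (Fin n) × ℂ} (hz : z.1 ∈ U)
    (v w : EuclideanSpace ℝ (Fin n) × ℂ) :
    I * (fderiv ℝ (alL g J) z v w - fderiv ℝ (alL g J) z w v) =
      dA (fun a y => Th g J y a) z v w := by
  have e : ∀ u u', fderiv ℝ (alL g J) z u u' =
      -(fderiv ℝ (au (fun a y => Th g J y a)) z u u') := by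
    intro u u'
    have : alL g J = -(au (fun a y => Th g J y a)) := rfl
    rw [this, fderiv_neg]
    rfl
  rw [e, e]
  have h1 := dau_eq (Th := fun a y => Th g J y a) (fun a => Th_smooth h a) h.isOpen hz v w
  linear_combination (-I) * h1 - (dA (fun a y => Th g J y a) z v w : ℂ) * I_sq

include hm hnm h hν in
/-- **positivity of the curvature** -/
theorem alL_pos (hν0 : 0 < ν) {z : EuclideanSpace ℝ (Fin n) × ℂ} (hz : z.1 ∈ U)
    {v : EuclideanSpace ℝ (Fin n) × ℂ} (hv : v ≠ 0) :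
    0 < (I * (fderiv ℝ (alL g J) z v (JT g J z v) - fderiv ℝ (alL g J) z (JT g J z v) v)).re := by
  rw [dd_alL h hz, JT_eq, ofReal_re]
  exact dA_pos (twData' hm hnm h hν) hν0 hz hv

include hm hnm h hν in
theorem thL_nondeg (hν0 : 0 < ν) {z : EuclideanSpace ℝ (Fin n) × ℂ} (hz : z.1 ∈ U)
    {v : EuclideanSpace ℝ (Fin n) × ℂ} (hv : thL g J z v = 0)
    (hd : ∀ w, thL g J z w = 0 →
      fderiv ℝ (thL g J) z v w - fderiv ℝ (thL g J) z w v = 0) : v = 0 :=
  tau_nondeg (twData' hm hnm h hν) hν0.ne' hz hv hd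



end fields

end Crest.Agent.R260.TwL_847
end
end

-- ▼ part R260/Tw10_979
section

/-!
Row 260, leaf TW-Z (helper979), part 10: the contact data `cd : CD (acm Q hn)` of the twistor space
in the sense of helper254 (`NnDefs_254`), from helper847's local fields.
-/

set_option autoImplicit false

open scoped Manifold ContDiff Topology
open Filter Set Complex Matrix
open Crest.GeometryTopology.CoordMetric
open Crest.GeometryTopology.ChartRiem

noncomputable section

namespace Crest.Agent.R260.Tw_979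

open Crest.Agent.R202.Tens
open Crest.Agent.R260.Qk3_151 Crest.Agent.R260.Qk4_151 Crest.Agent.R260.Qk7_151

variable {n : ℕ}

local notation "𝔼" => EuclideanSpace ℝ (Fin n)

section manifold

variable {M : Type} [TopologicalSpace M] [ChartedSpace (EuclideanSpace ℝ (Fin n)) M]
  [IsManifold 𝓘(ℝ, EuclideanSpace ℝ (Fin n)) ∞ M]
  {G : ChartMetric n M} (Q : QuaternionicStructure n M G) (hn : n ≠ 0)

/-- the cocycle of `L` in the charts of the twistor space -/
def lam (i j : Idx n M) (z : EuclideanSpace ℝ (Fin n) × ℂ) : ℂ := lamq (qc Q i j z.1) z.2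


include hn in
lemma ev_ch {i j : Idx n M} {z : 𝔼 × ℂ} (h1 : z.1 ∈ dom i.e j.e) (h2 : tdom (qc Q i j) z) :
    (fun z => ch Q hn j ((ch Q hn i).symm z)) =ᶠ[𝓝 z] trn (chg i.e j.e) (qc Q i j) := by
  filter_upwards [(isOpen_ov Q hn i j).mem_nhds ⟨h1, h2⟩] with y hy using ch_ch Q hn hy.1

lemma thL_sm' (k : Idx n M) :
    ContDiffOn ℝ ∞ (TwL_847.thL (G.g k.e) (fr Q k)) (ch Q hn k).target := by
  rw [ch_target]
  exact TwL_847.thL_sm (qk Q k)

lemma alL_sm' (k : Idx n M) :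
    ContDiffOn ℝ ∞ (TwL_847.alL (G.g k.e) (fr Q k)) (ch Q hn k).target := by
  rw [ch_target]
  exact TwL_847.alL_sm (qk Q k)

/-- **the contact data of the twistor space** -/
def cdZ {m : ℕ} (hm : 2 ≤ m) (hnm : n = 4 * m) {ν : ℝ} (hν0 : 0 < ν)
    (hν : ∀ e ∈ atlas (EuclideanSpace ℝ (Fin n)) M, ∀ x ∈ e.target,
      Qk5_151.nu (G.g e) m x = ν) : Nn_254.CD (acm Q hn) where
  θ k := TwL_847.thL (G.g k.e) (fr Q k)
  θ_sm := thL_sm' Q hn
  θ_J k z _ v := TwL_847.thL_J z v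
  θ_ne k z _ := TwL_847.thL_ne z
  lam i j := lam Q i j
  lam_ne i j z hz := by
    obtain ⟨h1, h2⟩ := (mem_ov Q hn).1 hz
    exact lamq_ne (qc_so Q hn i j h1) h2
  θ_tr i j z hz v := by
    obtain ⟨h1, h2⟩ := (mem_ov Q hn).1 hz
    have h := tau_trn Q hn i j h1 h2 v
    rw [← (ev_ch Q hn h1 h2).fderiv_eq, ← ch_ch Q hn h1] at h
    exact h
  h _ := TwL_847.hL
  h_sm k := TwL_847.hL_sm _
  h_pos k z _ := TwL_847.hL_pos z
  h_tr i j z hz := by
    obtain ⟨h1, h2⟩ := (mem_ov Q hn).1 hz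
    have h := den_trn (qc_so Q hn i j h1) h2
    have e : (acm Q hn).e j (((acm Q hn).e i).symm z) = trn (chg i.e j.e) (qc Q i j) z :=
      ch_ch Q hn h1
    rw [e]
    show (2 * den (st (qc Q i j z.1 *ᵥ xx z.2)) ^ 2)⁻¹ =
      ‖lamq (qc Q i j z.1) z.2‖ ^ 2 * (2 * den z.2 ^ 2)⁻¹
    have hne : ‖lamq (qc Q i j z.1) z.2‖ ≠ 0 :=
      norm_ne_zero_iff.2 (lamq_ne (qc_so Q hn i j h1) h2)
    have hd := den_ne (st (qc Q i j z.1 *ᵥ xx z.2))
    rw [h]
    field_simp
  α k := TwL_847.alL (G.g k.e) (fr Q k)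
  α_sm := alL_sm' Q hn
  α_h k z _ v := TwL_847.alL_h z v
  θ_db k z hz v w :=
    TwL_847.thL_db hm hnm (qk Q k) (hν k.e k.he) ((mem_ch_target Q hn k z).1 hz) v w
  pos k z hz v hv :=
    TwL_847.alL_pos hm hnm (qk Q k) (hν k.e k.he) hν0 ((mem_ch_target Q hn k z).1 hz) hv
  nondeg k z hz v hv hd :=
    TwL_847.thL_nondeg hm hnm (qk Q k) (hν k.e k.he) hν0 ((mem_ch_target Q hn k z).1 hz) hv hd


end manifold

end Crest.Agent.R260.Tw_979
end
end

-- ▼ part R260/TwR_847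

/-!
Row 260, helper847: the record `TwCD` of helper803 for the twistor space of S0398.
-/

set_option autoImplicit false

open scoped Manifold ContDiff Topology
open Set Complex
open Crest.GeometryTopology.CoordMetric Crest.GeometryTopology.ChartRiem

noncomputable section

namespace Crest.Agent.R260.TwL_847

open Crest.Agent.R260.Tw_979 Crest.Agent.R260.Qk3_151 Crest.Agent.R260.Qk4_151
  Crest.Agent.R260.Qk7_151 Crest.Agent.R260.Tup_45

/-- the matrix `diag (-1, 1, -1)` -/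
def qf : Matrix (Fin 3) (Fin 3) ℝ := Matrix.diagonal ![-1, 1, -1]

lemma lamq_qf (w : ℂ) : lamq qf w = -w ^ 2 := by
  have h : ∀ a, cmv qf (nn w) a = ![-nn w 0, nn w 1, -nn w 2] a := by
    intro a
    simp only [cmv, qf, Fin.sum_univ_three]
    fin_cases a <;> simp [Matrix.diagonal]
  rw [lamq, h, h]
  simp only [Matrix.cons_val_one, Matrix.cons_val_zero, Matrix.cons_val, nn_1, nn_2]
  linear_combination ((1 + w ^ 2) / 2) * I_sq

variable {n : ℕ} {M : Type} [TopologicalSpace M] [ChartedSpace (EuclideanSpace ℝ (Fin n)) M]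
  [IsManifold 𝓘(ℝ, EuclideanSpace ℝ (Fin n)) ∞ M]
  {G : ChartMetric n M} (Q : QuaternionicStructure n M G) (hn : n ≠ 0)
  {e : OpenPartialHomeomorph M (EuclideanSpace ℝ (Fin n))}
  (he : e ∈ atlas (EuclideanSpace ℝ (Fin n)) M)

include hn in
lemma qc_flip {x : EuclideanSpace ℝ (Fin n)} (hx : x ∈ e.target) :
    qc Q ⟨e, he, true⟩ ⟨e, he, false⟩ x = qf := by
  have hp : e.symm x ∈ e.source := e.map_target hx
  ext b a
  refine qm_unique Q hn (k := ⟨e, he, true⟩) (k' := ⟨e, he, false⟩) hp hp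
    (c := fun b => qf b a) ?_ b
  simp only [jac_self he hp, Matrix.one_mul, Matrix.mul_one, fr, Tw_979.flip, Fin.sum_univ_three]
  fin_cases a <;> simp [qf, sg, Matrix.diagonal]

lemma alSpec_alL {g : MetricField n} {J : Fin 3 → EuclideanSpace ℝ (Fin n) → Matrix (Fin n) (Fin n) ℝ}
    (z : EuclideanSpace ℝ (Fin n) × ℂ) : AlSpec (Th g J) z (alL g J z) := by
  refine ⟨fun η => ?_, fun X => ?_⟩
  · show -(au (fun a y => Th g J y a) z (0, η)) + I * -(au (fun a y => Th g J y a) z (0, I * η)) = 0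
    rw [au_eq, au_eq, tau_apply, tau_apply]
    simp only [map_zero, sub_zero, add_zero]
    linear_combination (-(2 * (starRingEnd ℂ) z.2 / (den z.2 : ℂ) * η)) * I_sq
  · show -(au (fun a y => Th g J y a) z (X, bec (Th g J) z X)) = _
    rw [au_eq, tau_apply]
    have h1 : bec (Th g J) z X = bt (fun a y => Th g J y a) z X := by
      rw [bec_apply, bt_apply]
      rfl
    rw [h1, sub_self, mul_zero, zero_add, bp_apply]
    rfl

/-- **helper803's record** -/
def twCD' {m : ℕ} (hm : 2 ≤ m) (hnm : n = 4 * m) {ν : ℝ} (hν0 : 0 < ν)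
    (hν : ∀ e ∈ atlas (EuclideanSpace ℝ (Fin n)) M, ∀ x ∈ e.target,
      Qk5_151.nu (G.g e) m x = ν) : MainC_803.TwCD Q hn where
  int := acm_int Q hn hm hnm hν
  cd := cdZ Q hn hm hnm hν0 hν
  th1 k x _ w := by
    show tau (fun a y => Th (G.g k.e) (fr Q k) y a) (x, w) (0, 1) = 1
    rw [tau_apply]
    simp
  lam e he x hx w _ := by
    show lamq (qc Q ⟨e, he, true⟩ ⟨e, he, false⟩ x) w = -w ^ 2
    rw [qc_flip Q hn he hx, lamq_qf]
  al k x _ w := alSpec_alL (x, w)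

/-- the record under the hypotheses of S0398 -/
theorem twCD {m : ℕ} (hm : 2 ≤ m) (hnm : n = 4 * m) [ConnectedSpace M]
    (hpos : ∀ e ∈ atlas (EuclideanSpace ℝ (Fin n)) M, ∀ x ∈ e.target, 0 < scalarCurv (G.g e) x) :
    Nonempty (MainC_803.TwCD Q hn) := by
  obtain ⟨ν, hν0, hν⟩ := nu_const hm hnm G Q hpos
  exact ⟨twCD' Q hn hm hnm hν0 hν⟩

end Crest.Agent.R260.TwL_847
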