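import Crest.Agent.R260.MainD_803
import Crest.Agent.R260.MainH_803
import Crest.Agent.R260.NnLb5_254
import Crest.Agent.R260.TwR_847
import Crest.Agent.R260.Ga6_323_Mg
import Mathlib
import Crest.Agent.R260.Num3_789
import Crest.Agent.R260.Frm3_428
import Crest.Agent.R260.Om2_997
import Crest.Agent.R270.Fr3_928
import Crest.Agent.R260.Ga6a_186
import Crest.Agent.R260.Num13_789
import Crest.Agent.R260.Gp5_169
import Crest.Agent.R260.Der3_169

-- ▼ part R260/MainX_803
section

/-!
# Row 260 (S0398), MAIN (helper803): `CxP` from 254's `exists_cx`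
-/

set_option autoImplicit false

open Set Filter Topology Complex
open scoped ContDiff Manifold
open Crest.Agent.R260.ACM_580 Crest.Agent.R260.NNB_580 Crest.Agent.R260.Tup_45
open Crest.Agent.R275.Geo Crest.Agent.R275.Core144 Crest.Agent.R273.Defs_333
open Crest.Agent.R260.Nn_254
open Crest.Agent.R260.Ga_323 (OneForm Contact)

noncomputable section

namespace Crest.Agent.R260.MainC_803

variable {V Z : Type} [NormedAddCommGroup V] [NormedSpace ℝ V] [TopologicalSpace Z] {d : ℕ}
  {C : ACM V Z} {A : Atl d Z} {D : CD C} {L : LB A} {θ : OneForm L} {h : HM L}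
  {cm : A.ι → C.ι → Z → ℂ}

/-- near a point of the real chart the two readings of the comparison function coincide -/
theorem flink_of (H : Lnk D L θ h cm) : ∃ K : FLink C A L D.lam D.α,
    ∀ a i, K.κ a i = fun y => cm a i ((C.e i).symm y) := by
  have hc : ∀ a i x, x ∈ (A.e a).source → x ∈ (C.e i).source →
      cm a i ((C.e i).symm (C.e i x)) = cm a i x := fun a i x _ hi => by
    rw [(C.e i).left_inv hi]
  refine ⟨⟨fun a i y => cm a i ((C.e i).symm y), ?_, ?_, ?_, ?_, ?_⟩, fun a i => rfl⟩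
  · intro a i x ha hi
    show cm a i ((C.e i).symm (C.e i x)) ≠ 0
    rw [hc a i x ha hi]
    exact H.ne a i x ha hi
  · intro a i x ha hi
    exact (H.sm a i).contDiffAt ((isOpen_ovr i (A.e a)).mem_nhds (mem_ovr_of_source ha hi))
  · intro a i x ha hi v
    have h1 := H.db a i x ha hi v
    show _ + _ + _ * cm a i ((C.e i).symm (C.e i x)) = 0
    rw [hc a i x ha hi, h1]
    ring
  · intro a b i x ha hb hi
    show cm b i ((C.e i).symm (C.e i x)) = L.g a b x * cm a i ((C.e i).symm (C.e i x))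
    rw [hc a i x ha hi, hc b i x hb hi]
    exact H.trL a b i x ha hb hi
  · intro a i j x ha hi hj
    show cm a i ((C.e i).symm (C.e i x)) = _ * cm a j ((C.e j).symm (C.e j x))
    rw [hc a i x ha hi, hc a j x ha hj]
    exact H.trR a i j x ha hi hj

theorem cxp : CxP := by
  intro V Z _ _ _ _ _ _ d C hC cd hNN
  obtain ⟨A, L, θ, h, cm, h1, -, h3, h4, h5, h6, h7⟩ := exists_cx C hC cd hNN
  obtain ⟨K, hK⟩ := flink_of h7
  refine ⟨A, L, θ, h, K, h1, h3, h4, h5, h6, fun a i x ha hi v => ?_⟩
  rw [hK a i]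
  show _ = cm a i ((C.e i).symm (C.e i x)) * _
  rw [(C.e i).left_inv hi]
  exact h7.th a i x ha hi v

end Crest.Agent.R260.MainC_803
end
end

-- ▼ part R260/TwP_847
section

/-!
Row 260, helper847: the named input `TwP` of the assembly (helper803).
-/

set_option autoImplicit false

namespace Crest.Agent.R260.TwL_847

/-- **the twistor space of a positive quaternion-Kähler manifold** -/
theorem twp : MainC_803.TwP := by
  intro m hm M _ _ _ _ _ _ G Q hpos hn
  exact twCD Q hn hm rfl hpos

end Crest.Agent.R260.TwL_847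
end

-- ▼ part R260/MainY_803
section

/-!
# Row 260 (S0398), MAIN (helper803): the analytic side is complete; S0398 from `AGCore`
-/

set_option autoImplicit false

open scoped Manifold ContDiff
open Crest.GeometryTopology.CoordMetric Crest.GeometryTopology.ChartRiem

namespace Crest.Agent.R260.MainC_803

/-- **the geometric side** -/
theorem geo : Geo := geo_of nnp TwL_847.twp cxp Ga_323.bridge

/-- **S0398** from the algebraic core -/
theorem s0398_of_ag (hAG : AGCore)
    (m : ℕ) (hm : 2 ≤ m) (M : Type) [TopologicalSpace M] [T2Space M] [CompactSpace M]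
    [ConnectedSpace M] [ChartedSpace (EuclideanSpace ℝ (Fin (4 * m))) M]
    [IsManifold 𝓘(ℝ, EuclideanSpace ℝ (Fin (4 * m))) ∞ M] (G : ChartMetric (4 * m) M)
    (Q : QuaternionicStructure (4 * m) M G)
    (hpos : ∀ e ∈ atlas (EuclideanSpace ℝ (Fin (4 * m))) M, ∀ x ∈ e.target,
      0 < scalarCurv (G.g e) x) :
    ∀ e ∈ atlas (EuclideanSpace ℝ (Fin (4 * m))) M, ∀ x ∈ e.target,
      ∀ a l i j k : Fin (4 * m), covDerivRiemann (G.g e) x a l i j k = 0 :=
  main_of datAll geo hAG outT m hm M G Q hpos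

end Crest.Agent.R260.MainC_803
end

-- ▼ part R260/Num4_789
section

/-!
Row 260 (S0398), AG-NUM (helper789), part 4: places of the projective line.
-/

set_option autoImplicit false

namespace Crest.Agent.R260.Num_789

open Module Polynomial Matrix WithZero Crest.Agent.R270.BM_360 Crest.Agent.R270.DimN_282
open Crest.Agent.R013.RR2_948

universe u

section ratfunc

variable {κ : Type u} [Field κ]

theorem mul_num_eq {f : RatFunc κ} {g a : κ[X]}
    (h : algebraMap κ[X] (RatFunc κ) g * f = algebraMap κ[X] (RatFunc κ) a) :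
    g * f.num = a * f.denom := by
  have h8 : algebraMap κ[X] (RatFunc κ) f.denom ≠ 0 :=
    RatFunc.algebraMap_ne_zero (RatFunc.denom_ne_zero _)
  have h9 : f = algebraMap κ[X] (RatFunc κ) f.num / algebraMap κ[X] (RatFunc κ) f.denom :=
    (RatFunc.num_div_denom _).symm
  apply IsFractionRing.injective κ[X] (RatFunc κ)
  rw [map_mul, map_mul, ← h]
  have h10 : algebraMap κ[X] (RatFunc κ) f.num = f * algebraMap κ[X] (RatFunc κ) f.denom := by
    rw [eq_comm, ← eq_div_iff h8]; exact h9
  rw [h10]; ring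

theorem not_dvd_denom {p : κ[X]} (hp : Irreducible p) {f : RatFunc κ} {g a : κ[X]} (hg : ¬ p ∣ g)
    (h : algebraMap κ[X] (RatFunc κ) g * f = algebraMap κ[X] (RatFunc κ) a) : ¬ p ∣ f.denom := by
  intro hd
  have h1 := mul_num_eq h
  have h2 : p ∣ g * f.num := by rw [h1]; exact Dvd.dvd.mul_left hd _
  rcases hp.prime.dvd_or_dvd h2 with h3 | h3
  · exact hg h3
  · exact hp.not_isUnit ((RatFunc.isCoprime_num_denom f).isUnit_of_dvd' h3 hd)


theorem isUnit_of_not_dvd {f : κ[X]} (hf : f ≠ 0) (h : ∀ p : κ[X], Irreducible p → ¬ p ∣ f) :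
    IsUnit f := by
  by_contra hu
  obtain ⟨p, hp, hpf⟩ := WfDvdMonoid.exists_irreducible_factor hu hf
  exact h p hp hpf

/-- regular at all finite places. -/
theorem exists_poly_of {f : RatFunc κ} (h : ∀ p : κ[X], Irreducible p → ∃ g a : κ[X], ¬ p ∣ g ∧
    algebraMap κ[X] (RatFunc κ) g * f = algebraMap κ[X] (RatFunc κ) a) :
    ∃ q : κ[X], algebraMap κ[X] (RatFunc κ) q = f := by
  have hu : IsUnit f.denom := isUnit_of_not_dvd (RatFunc.denom_ne_zero _) fun p hp => by
    obtain ⟨g, a, hg, ha⟩ := h p hp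
    exact not_dvd_denom hp hg ha
  obtain ⟨v, hv⟩ := hu
  refine ⟨f.num * (↑v⁻¹ : κ[X]), ?_⟩
  have h8 : algebraMap κ[X] (RatFunc κ) f.denom ≠ 0 :=
    RatFunc.algebraMap_ne_zero (RatFunc.denom_ne_zero _)
  rw [eq_comm]
  conv_lhs => rw [← RatFunc.num_div_denom f]
  rw [div_eq_iff h8, ← map_mul, ← hv, mul_assoc, Units.inv_mul, mul_one]

/-- unit at all finite places. -/
theorem exists_C_of {f : RatFunc κ} (h : ∀ p : κ[X], Irreducible p → ∃ g a : κ[X], ¬ p ∣ g ∧
    algebraMap κ[X] (RatFunc κ) g * f = algebraMap κ[X] (RatFunc κ) a)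
    (h' : ∀ p : κ[X], Irreducible p → ∃ g a : κ[X], ¬ p ∣ a ∧
    algebraMap κ[X] (RatFunc κ) g * f = algebraMap κ[X] (RatFunc κ) a) (hf : f ≠ 0) :
    ∃ c : κ, c ≠ 0 ∧ algebraMap κ[X] (RatFunc κ) (C c) = f := by
  obtain ⟨q, hq⟩ := exists_poly_of h
  have hq0 : q ≠ 0 := by
    rintro rfl
    rw [map_zero] at hq
    exact hf hq.symm
  have hu : IsUnit q := isUnit_of_not_dvd hq0 fun p hp hd => by
    obtain ⟨g, a, ha, hga⟩ := h' p hp
    rw [← hq, ← map_mul] at hga
    have h1 := IsFractionRing.injective κ[X] (RatFunc κ) hga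
    exact ha (by rw [← h1]; exact Dvd.dvd.mul_left hd _)
  obtain ⟨c, hc, rfl⟩ := Polynomial.isUnit_iff.mp hu
  exact ⟨c, hc.ne_zero, hq⟩

end ratfunc

variable {k : Type u} [Field k] {I : Type} {J : I → Type} [Fintype I] [∀ i, Fintype (J i)]
  {E : Set (MvPolynomial (Σ i, J i) k)} {w : I → ℤ} {S : Type} [Fintype S] [DecidableEq S]
  {u : S → I → k}

/-- the determinant identity with constant `h`. -/
def HasH {K : Type*} [Field K] {ι : Type*} [Fintype ι] [DecidableEq ι] (G : Matrix ι ι K)
    (e : Matrix ι S K) (h : K) : Prop :=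
  ∀ g : K, g ≠ 0 → ∀ Y Z : Matrix S ι K, (g • G + Yᵀ * Z).det =
    g ^ Fintype.card ι * g⁻¹ ^ Fintype.card S * h * (Y * e).det * (Z * e).det

theorem TwoForm.place (W : TwoForm E w u) {r : ℕ} (h7 : D7r E r) {A : Type u} [CommRing A]
    [Algebra k A] {κ' : Type u} [Field κ'] [Algebra k κ'] (φ : A →ₐ[k] κ')
    (hφ : Function.Surjective φ) {K : Type u} [Field K]
    [Algebra k K] (ψ : A →ₐ[k] K) (hψ : Function.Injective ψ) {ι : Type} [Fintype ι]
    [DecidableEq ι] (hι : Fintype.card ι = r) (v : ∀ i, J i → A) (hv : OnX E v)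
    (hv0 : ∀ i, ∃ a, φ (v i a) ≠ 0) (t : ι → (Σ i, J i) → A) (ht : ∀ j, jac E v (t j) = 0)
    (hli : LinearIndependent κ' fun j x => φ (t j x)) (e : Matrix ι S A)
    (he : ∀ σ, ∑ j, e j σ • t j = eul (u σ) v) (G : Matrix ι ι K)
    (hG : ∀ c j l, evp (fun i a => ψ (v i a)) (W.g c) * G j l =
      bf (W.q c) (fun i a => ψ (v i a)) (fun x => ψ (t j x)) (fun x => ψ (t l x)))
    (h : K) (hh : HasH G (e.map ψ) h) :
    (∃ Y : Matrix S ι A, φ (Y * e).det ≠ 0) ∧
      (∃ g : A, φ g ≠ 0 ∧ ∀ j l, ∃ a, ψ g * G j l = ψ a) ∧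
      (∃ g a : A, φ g ≠ 0 ∧ φ a ≠ 0 ∧ ψ g * h = ψ a) := by
  obtain ⟨Y, hY, ⟨c, hc⟩, hP⟩ := W.local h7 φ hφ hι v hv hv0 t ht hli e he
  have hPc := hP c hc
  set g : A := evp v (W.g c) with hg
  set P : Matrix ι ι A := Matrix.of fun j l => bf (W.q c) v (t j) (t l) with hPdef
  have h1 : ∀ j l, ψ (P j l) = ψ g * G j l := by
    intro j l
    have h2 := hG c j l
    rw [evp_map, bf_map] at h2
    exact h2.symm
  have h3 : P.map ψ = ψ g • G := by
    ext j l
    rw [Matrix.map_apply, h1]
    rfl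
  have hg0 : g ≠ 0 := by rintro h0; rw [h0, map_zero] at hc; exact hc rfl
  have hψg : ψ g ≠ 0 := fun h0 => hg0 (hψ (by rw [h0, map_zero]))
  have h4 : ψ (P + Yᵀ * Y).det = (ψ g • G + (Y.map ψ)ᵀ * Y.map ψ).det := by
    have h5 : ψ (P + Yᵀ * Y).det = ((P + Yᵀ * Y).map ψ).det :=
      RingHom.map_det (ψ : A →+* K) (P + Yᵀ * Y)
    have h6 : (P + Yᵀ * Y).map ψ = P.map ψ + (Y.map ψ)ᵀ * Y.map ψ := by
      rw [← Matrix.transpose_map, ← Matrix.map_mul]
      ext a b
      exact map_add ψ _ _
    rw [h5, h6, h3]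
  have h7 : (Y.map ψ * e.map ψ).det = ψ (Y * e).det := by
    rw [← Matrix.map_mul]
    exact (RingHom.map_det (ψ : A →+* K) (Y * e)).symm
  rw [hh (ψ g) hψg, h7] at h4
  refine ⟨⟨Y, hY⟩, ⟨g, hc, fun j l => ⟨P j l, (h1 j l).symm⟩⟩,
    ⟨g ^ Fintype.card ι * ((Y * e).det * (Y * e).det), g ^ Fintype.card S * (P + Yᵀ * Y).det,
      ?_, ?_, ?_⟩⟩
  · rw [map_mul, map_mul, map_pow]
    exact mul_ne_zero (pow_ne_zero _ hc) (mul_ne_zero hY hY)
  · rw [map_mul, map_pow]
    exact mul_ne_zero (pow_ne_zero _ hc) hPc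
  · rw [map_mul, map_mul, map_mul, map_pow, map_pow, h4]
    have h8 : ψ g ^ Fintype.card S * (ψ g)⁻¹ ^ Fintype.card S = 1 := by
      rw [← mul_pow, mul_inv_cancel₀ hψg, one_pow]
    calc _ = (ψ g ^ Fintype.card S * (ψ g)⁻¹ ^ Fintype.card S) * (ψ g ^ Fintype.card ι * h *
          ψ (Y * e).det * ψ (Y * e).det) := by rw [h8]; ring
      _ = _ := by ring

end Crest.Agent.R260.Num_789
end

-- ▼ part R260/Num5_789
section

/-!
Row 260 (S0398), AG-NUM (helper789), part 5: finite places and infinity for a splitting basis.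
-/

set_option autoImplicit false

namespace Crest.Agent.R260.Num_789

open Module Polynomial Matrix WithZero Crest.Agent.R270.BM_360 Crest.Agent.R270.DimN_282
open Crest.Agent.R013.RR2_948

universe u

variable {k : Type u} [Field k] {I : Type} {J : I → Type} [Fintype I] [∀ i, Fintype (J i)]
  {E : Set (MvPolynomial (Σ i, J i) k)} {w : I → ℤ} {S : Type} [Fintype S]
  {u : S → I → k} {κ : Type u} [Field κ] [Algebra k κ] {F : ∀ i, J i → κ[X]}

/-- the contact degree. -/
noncomputable def wdeg (w : I → ℤ) (F : ∀ i, J i → κ[X]) : ℤ := ∑ i, w i * (cls F i : ℤ)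

/-- the classes as a twist. -/
noncomputable def tw (F : ∀ i, J i → κ[X]) : (Σ i, J i) → ℤ := fun x => (cls F x.1 : ℤ)

/-- `κ[X] → κ(X)` over `k`. -/
noncomputable def ψX (k : Type u) [Field k] (κ : Type u) [Field κ] [Algebra k κ] :
    κ[X] →ₐ[k] RatFunc κ := IsScalarTower.toAlgHom k κ[X] (RatFunc κ)


theorem ψX_inj : Function.Injective (ψX k κ) := IsFractionRing.injective κ[X] (RatFunc κ)

omit [Fintype I] [∀ i, Fintype (J i)] in
theorem onX_toR (hF : IsMap E F) : OnX E (toR F) := onX_map (ψX k κ) hF.on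

omit [Fintype I] [∀ i, Fintype (J i)] in
theorem toR_ne_zero (hF : IsMap E F) (i : I) : toR F i ≠ 0 := by
  intro h
  have h1 : (1 : κ[X]) ∈ Ideal.span (Set.range (F i)) := by
    have := hF.cop i
    rw [Cop] at this
    rw [this]; trivial
  have h2 : Ideal.span (Set.range (F i)) ≤ ⊥ := by
    rw [Ideal.span_le]
    rintro _ ⟨b, rfl⟩
    exact ψX_inj (k := k) (κ := κ) (by
      have := congrFun h b
      rw [map_zero]
      exact this)
  exact one_ne_zero ((Submodule.mem_bot _).mp (h2 h1))

variable {ι : Type} [Fintype ι]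

omit [Fintype ι] in
/-- polynomial coordinates of a splitting basis. -/
theorem exists_t {b : Basis ι (RatFunc κ) (TK E F)} {e : (Σ i, J i) → ℤ} {d : ι → ℤ}
    (hs : Split (TK E F).subtype e b d) :
    ∃ t : ι → (Σ i, J i) → κ[X], ∀ j x, ψX k κ (t j x) = (b j : (Σ i, J i) → RatFunc κ) x := by
  classical
  have h : ∀ j x, ∃ q : κ[X], ψX k κ q = (b j : (Σ i, J i) → RatFunc κ) x := by
    intro j x
    have h2 := (hs.poly (b j)).mpr (fun l => by
      rw [b.repr_self, Finsupp.single_apply]
      split_ifs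
      · exact (mem_polyS κ).mpr ⟨1, by simp⟩
      · exact Submodule.zero_mem _) x
    exact (mem_polyS κ).mp h2
  choose t ht using h
  exact ⟨t, ht⟩

omit [Fintype ι] in
theorem jac_t {b : Basis ι (RatFunc κ) (TK E F)} {t : ι → (Σ i, J i) → κ[X]}
    (ht : ∀ j x, ψX k κ (t j x) = (b j : (Σ i, J i) → RatFunc κ) x) (j : ι) :
    jac E F (t j) = 0 := by
  have h1 := jac_map E (ψX k κ) F (t j)
  funext p
  apply ψX_inj (k := k)
  rw [← h1 p]
  have h2 : (fun x => ψX k κ (t j x)) = (b j : (Σ i, J i) → RatFunc κ) := funext (ht j)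
  have h3 : jac E (toR F) (b j : (Σ i, J i) → RatFunc κ) = 0 := (b j).2
  rw [h2]
  have h4 := congrFun h3 p
  rw [Pi.zero_apply, map_zero]
  exact h4

/-- reductions of a splitting basis at a finite place are independent. -/
theorem fin_li {b : Basis ι (RatFunc κ) (TK E F)} {e : (Σ i, J i) → ℤ} {d : ι → ℤ}
    (hs : Split (TK E F).subtype e b d) {t : ι → (Σ i, J i) → κ[X]}
    (ht : ∀ j x, ψX k κ (t j x) = (b j : (Σ i, J i) → RatFunc κ) x) {p : κ[X]} (hp : p ≠ 0)
    (y : ι → κ[X]) (hy : ∀ x, p ∣ ∑ j, y j * t j x) (j : ι) : p ∣ y j := by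
  have hp' : ψX k κ p ≠ 0 := by
    intro h
    exact hp (ψX_inj (by rw [h, map_zero]))
  set z : TK E F := ∑ j, ((ψX k κ p)⁻¹ * ψX k κ (y j)) • b j with hz
  have h1 : ∀ x, (TK E F).subtype z x = (ψX k κ p)⁻¹ * ψX k κ (∑ j, y j * t j x) := by
    intro x
    rw [hz, map_sum, Finset.sum_apply, map_sum, Finset.mul_sum]
    refine Finset.sum_congr rfl fun j _ => ?_
    rw [map_smul, Pi.smul_apply, smul_eq_mul, map_mul, ht]
    show _ * (b j : (Σ i, J i) → RatFunc κ) x = _
    ring
  have h2 := (hs.poly z).mp (fun x => by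
    rw [h1 x, mem_polyS]
    obtain ⟨q, hq⟩ := hy x
    refine ⟨q, ?_⟩
    rw [hq, map_mul, ← mul_assoc, inv_mul_cancel₀ hp', one_mul]
    rfl) j
  rw [hz, b.repr_sum_self] at h2
  obtain ⟨q, hq⟩ := (mem_polyS κ).mp h2
  refine ⟨q, ψX_inj (k := k) ?_⟩
  rw [map_mul]
  have h3 : ψX k κ q = (ψX k κ p)⁻¹ * ψX k κ (y j) := hq
  rw [h3, ← mul_assoc, mul_inv_cancel₀ hp', one_mul]

/-- coordinates of the Euler vectors. -/
theorem exists_e1 (W : TwoForm E w u) (hF : IsMap E F) {b : Basis ι (RatFunc κ) (TK E F)}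
    {d : ι → ℤ} (hs : Split (TK E F).subtype (tw F) b d) {t : ι → (Σ i, J i) → κ[X]}
    (ht : ∀ j x, ψX k κ (t j x) = (b j : (Σ i, J i) → RatFunc κ) x) (σ : S) :
    ∃ e : ι → κ[X], ∑ j, e j • t j = eul (u σ) F ∧ ∀ j, vinf κ (ψX k κ (e j)) ≤ exp (d j) := by
  have hmem : eul (u σ) (toR F) ∈ TK E F := W.eul_tan (RatFunc κ) (toR F) (onX_toR hF) σ
  have heq : eul (u σ) (toR F) = fun x => ψX k κ (eul (u σ) F x) := eul_map (ψX k κ) (u σ) F
  have h1 := (hs.poly ⟨eul (u σ) (toR F), hmem⟩).mp (fun x => by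
    rw [mem_polyS]
    refine ⟨eul (u σ) F x, ?_⟩
    show _ = eul (u σ) (toR F) x
    rw [heq]
    rfl)
  have h2 := (hs.inf ⟨eul (u σ) (toR F), hmem⟩).mp (fun x => by
    show vinf κ (eul (u σ) (toR F) x) ≤ exp (tw F x)
    rw [heq]
    show vinf κ (algebraMap κ[X] (RatFunc κ) (eul (u σ) F x)) ≤ exp ((cls F x.1 : ℕ) : ℤ)
    rw [vinf_le_iff]
    unfold eul
    refine (natDegree_mul_le).trans ?_
    have h3 : (algebraMap k κ[X] (u σ x.1)).natDegree = 0 := natDegree_C _
    rw [h3, zero_add]
    exact natDegree_le_cls' F x.1 x.2)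
  choose e he using fun j => (mem_polyS κ).mp (h1 j)
  refine ⟨e, ?_, fun j => ?_⟩
  · funext x
    apply ψX_inj (k := k)
    have h3 : (∑ j, e j • t j) x = ∑ j, e j * t j x := by
      rw [Finset.sum_apply]
      rfl
    have h4 : eul (u σ) (toR F) x = ψX k κ (eul (u σ) F x) := congrFun heq x
    rw [h3, map_sum, ← h4]
    have h5 := congrArg (fun z : TK E F => (z : (Σ i, J i) → RatFunc κ) x)
      (b.sum_repr ⟨eul (u σ) (toR F), hmem⟩)
    refine Eq.trans ?_ h5
    simp only [Submodule.coe_sum, Submodule.coe_smul, Finset.sum_apply, Pi.smul_apply, smul_eq_mul]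
    refine Finset.sum_congr rfl fun j _ => ?_
    rw [map_mul, ht]
    congr 1
    exact he j
  · have h3 : ψX k κ (e j) = b.repr ⟨eul (u σ) (toR F), hmem⟩ j := he j
    rw [h3]
    exact h2 j

/-- coordinates of the Euler vectors. -/
theorem exists_e (W : TwoForm E w u) (hF : IsMap E F) {b : Basis ι (RatFunc κ) (TK E F)}
    {d : ι → ℤ} (hs : Split (TK E F).subtype (tw F) b d) {t : ι → (Σ i, J i) → κ[X]}
    (ht : ∀ j x, ψX k κ (t j x) = (b j : (Σ i, J i) → RatFunc κ) x) :
    ∃ e : Matrix ι S κ[X], (∀ σ, ∑ j, e j σ • t j = eul (u σ) F) ∧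
      ∀ j σ, vinf κ (ψX k κ (e j σ)) ≤ exp (d j) := by
  choose e he hd using exists_e1 W hF hs ht
  exact ⟨Matrix.of fun j σ => e σ j, he, fun j σ => hd σ j⟩

end Crest.Agent.R260.Num_789
end

-- ▼ part R260/Num6_789
section

/-!
Row 260 (S0398), AG-NUM (helper789), part 6: the Gram matrix of the two-form in a splitting basis.
-/

set_option autoImplicit false

namespace Crest.Agent.R260.Num_789

open Module Polynomial Matrix WithZero Crest.Agent.R270.BM_360 Crest.Agent.R270.DimN_282
open Crest.Agent.R013.RR2_948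

universe u

variable {k : Type u} [Field k] {I : Type} {J : I → Type} [Fintype I] [∀ i, Fintype (J i)]
  {E : Set (MvPolynomial (Σ i, J i) k)} {w : I → ℤ} {S : Type} [Fintype S] [DecidableEq S]
  {u : S → I → k} {κ : Type u} [Field κ]
  [Algebra k κ] {F : ∀ i, J i → κ[X]} {ι : Type} [Fintype ι] [DecidableEq ι]

/-- finite places. -/
theorem TwoForm.fin_place (W : TwoForm E w u) {r : ℕ} (h7 : D7r E r) (hF : IsMap E F)
    (hι : Fintype.card ι = r) {b : Basis ι (RatFunc κ) (TK E F)}
    {d : ι → ℤ} (hs : Split (TK E F).subtype (tw F) b d) {t : ι → (Σ i, J i) → κ[X]}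
    (ht : ∀ j x, ψX k κ (t j x) = (b j : (Σ i, J i) → RatFunc κ) x) {e : Matrix ι S κ[X]}
    (he : ∀ σ, ∑ j, e j σ • t j = eul (u σ) F) (G : Matrix ι ι (RatFunc κ))
    (hG : ∀ c j l, evp (toR F) (W.g c) * G j l =
      bf (W.q c) (toR F) (b j : (Σ i, J i) → RatFunc κ) (b l : (Σ i, J i) → RatFunc κ))
    (h : RatFunc κ) (hh : HasH G (e.map (ψX k κ)) h)
    {p : κ[X]} (hp : Irreducible p) :
    (∃ Y : Matrix S ι κ[X], ¬ p ∣ (Y * e).det) ∧
      (∃ g : κ[X], ¬ p ∣ g ∧ ∀ j l, ∃ a, ψX k κ g * G j l = ψX k κ a) ∧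
      (∃ g a : κ[X], ¬ p ∣ g ∧ ¬ p ∣ a ∧ ψX k κ g * h = ψX k κ a) := by
  have hm : (Ideal.span {p}).IsMaximal :=
    PrincipalIdealRing.isMaximal_of_irreducible hp
  let _ : Field (κ[X] ⧸ Ideal.span {p}) := Ideal.Quotient.field _
  let φ : κ[X] →ₐ[k] (κ[X] ⧸ Ideal.span {p}) := Ideal.Quotient.mkₐ k (Ideal.span {p})
  have hφ : ∀ a : κ[X], φ a = 0 ↔ p ∣ a := by
    intro a
    show (Ideal.Quotient.mk (Ideal.span {p})) a = 0 ↔ _
    rw [Ideal.Quotient.eq_zero_iff_mem, Ideal.mem_span_singleton]
  have hφ' : ∀ a : κ[X], φ a ≠ 0 ↔ ¬ p ∣ a := fun a => not_congr (hφ a)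
  have h0 : ∀ i, ∃ a, φ (F i a) ≠ 0 := by
    intro i
    by_contra hcon
    push Not at hcon
    have h1 : (1 : κ[X]) ∈ Ideal.span (Set.range (F i)) := by
      have := hF.cop i
      rw [Cop] at this
      rw [this]; trivial
    have h2 : Ideal.span (Set.range (F i)) ≤ Ideal.span {p} := by
      rw [Ideal.span_le]
      rintro _ ⟨a, rfl⟩
      exact Ideal.mem_span_singleton.mpr ((hφ _).mp (hcon a))
    exact hm.ne_top ((Ideal.eq_top_iff_one _).mpr (h2 h1))
  have hli : LinearIndependent (κ[X] ⧸ Ideal.span {p}) fun j x => φ (t j x) := by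
    rw [Fintype.linearIndependent_iff]
    intro x hx j
    choose y hy using fun j => Ideal.Quotient.mk_surjective (I := Ideal.span {p}) (x j)
    have h1 : ∀ s, p ∣ ∑ j, y j * t j s := by
      intro s
      rw [← hφ, map_sum]
      have h2 := congrFun hx s
      rw [Finset.sum_apply, Pi.zero_apply] at h2
      rw [← h2]
      refine Finset.sum_congr rfl fun j _ => ?_
      rw [map_mul, Pi.smul_apply, smul_eq_mul, ← hy j]
      rfl
    have h2 := fin_li hs ht hp.ne_zero y h1 j
    rw [← hy j]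
    exact (hφ _).mpr h2
  have hv : (fun i a => ψX k κ (F i a)) = toR F := rfl
  have htb : ∀ j, (fun x => ψX k κ (t j x)) = (b j : (Σ i, J i) → RatFunc κ) :=
    fun j => funext (ht j)
  have := W.place h7 φ (Ideal.Quotient.mkₐ_surjective k _) (ψX k κ) ψX_inj hι F hF.on h0 t
    (jac_t ht) hli e he G (fun c j l => by
    rw [hv, htb, htb]
    exact hG c j l) h hh
  simp only [hφ'] at this
  exact this

omit [Fintype S] [DecidableEq S] [Fintype ι] [DecidableEq ι] in
/-- the classes at infinity. -/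
theorem exists_vinf_one (hF : IsMap E F) (i : I) : ∃ a, vinf κ
    ((RatFunc.X : RatFunc κ) ^ (-(cls F i : ℤ)) * toR F i a) = 1 := by
  have h1 := evI_ne_zero hF i
  obtain ⟨a, ha⟩ := Function.ne_iff.mp h1
  refine ⟨a, ?_⟩
  have ha' : (F i a).coeff (cls F i) ≠ 0 := ha
  have h2 : (F i a).natDegree = cls F i :=
    le_antisymm (natDegree_le_cls' F i a) (le_natDegree_of_ne_zero ha')
  have h3 : F i a ≠ 0 := by rintro h; rw [h, coeff_zero] at ha'; exact ha' rfl
  rw [map_mul, vinf_X_zpow]
  show _ * vinf κ (algebraMap κ[X] (RatFunc κ) (F i a)) = 1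
  rw [vinf_poly κ h3, ← exp_add, h2]
  simp

end Crest.Agent.R260.Num_789
end

-- ▼ part R260/Num7_789
section

/-!
Row 260 (S0398), AG-NUM (helper789), part 7: infinity.
-/

set_option autoImplicit false

namespace Crest.Agent.R260.Num_789

open Module Polynomial Matrix WithZero Crest.Agent.R270.BM_360 Crest.Agent.R270.DimN_282
open Crest.Agent.R013.RR2_948

universe u

section alg

variable (k : Type u) [Field k] (κ : Type u) [Field κ] [Algebra k κ]

theorem mem_Rinf_algebraMap (a : k) : algebraMap k (RatFunc κ) a ∈ Rinf κ := by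
  rw [mem_Rinf]
  have h1 : algebraMap k (RatFunc κ) a = RatFunc.C (algebraMap k κ a) := by
    rw [← algebraMap_eq_C]
    exact IsScalarTower.algebraMap_apply k κ (RatFunc κ) a
  rw [h1]
  exact vinf_C_le κ _

/-- the local ring at infinity as a `k`-algebra. -/
@[reducible] noncomputable def algRinf : Algebra k (Rinf κ) :=
  ((algebraMap k (RatFunc κ)).codRestrict (Rinf κ) (mem_Rinf_algebraMap k κ)).toAlgebra

end alg

variable {k : Type u} [Field k] {I : Type} {J : I → Type} [Fintype I] [∀ i, Fintype (J i)]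
  {E : Set (MvPolynomial (Σ i, J i) k)} {κ : Type u} [Field κ]
  [Algebra k κ] {F : ∀ i, J i → κ[X]} {ι : Type} [Fintype ι] [DecidableEq ι]

theorem isUnit_Rinf_iff (a : Rinf κ) : IsUnit a ↔ vinf κ (a : RatFunc κ) = 1 := by
  constructor
  · rintro ⟨v, rfl⟩
    have h1 : vinf κ ((v : Rinf κ) : RatFunc κ) ≤ 1 := (v : Rinf κ).2
    have h2 : vinf κ (((v⁻¹ : (Rinf κ)ˣ) : Rinf κ) : RatFunc κ) ≤ 1 := ((v⁻¹ : (Rinf κ)ˣ) : Rinf κ).2
    have h3 : ((v : Rinf κ) : RatFunc κ) * (((v⁻¹ : (Rinf κ)ˣ) : Rinf κ) : RatFunc κ) = 1 := by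
      have h4 := v.mul_inv
      have h5 := congrArg (Subtype.val : Rinf κ → RatFunc κ) h4
      exact h5
    have h6 := congrArg (vinf κ) h3
    rw [map_mul, map_one] at h6
    refine le_antisymm h1 ?_
    rw [← h6]
    exact mul_le_of_le_one_right' h2
  · intro h
    have h0 : (a : RatFunc κ) ≠ 0 := by
      intro h0
      rw [h0, map_zero] at h
      exact zero_ne_one h
    refine IsUnit.of_mul_eq_one ⟨(a : RatFunc κ)⁻¹, ?_⟩ ?_
    · rw [mem_Rinf, map_inv₀, h, inv_one]
    · apply Subtype.ext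
      exact mul_inv_cancel₀ h0

omit [Fintype ι] in
theorem zpow_prod (s : Finset ι) (d : ι → ℤ) :
    ∏ j ∈ s, (RatFunc.X : RatFunc κ) ^ d j = RatFunc.X ^ (∑ j ∈ s, d j) := by
  have hX : (RatFunc.X : RatFunc κ) ≠ 0 := RatFunc.X_ne_zero
  induction s using Finset.induction_on with
  | empty => simp
  | insert a s ha ih => rw [Finset.prod_insert ha, Finset.sum_insert ha, zpow_add₀ hX, ih]

/-- rescaling in the determinant identity. -/
theorem hasH_scale {S : Type} [Fintype S] [DecidableEq S] {G : Matrix ι ι (RatFunc κ)}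
    {e : Matrix ι S (RatFunc κ)} {h : RatFunc κ} (hh : HasH G e h) (m : ℤ) (d : ι → ℤ) :
    HasH (Matrix.of fun j l => (RatFunc.X : RatFunc κ) ^ (-m) *
      ((RatFunc.X : RatFunc κ) ^ d j * (RatFunc.X : RatFunc κ) ^ d l * G j l))
      (Matrix.of fun j σ => (RatFunc.X : RatFunc κ) ^ (-d j) * e j σ)
      ((RatFunc.X : RatFunc κ) ^ (2 * ∑ j, d j - m * ((Fintype.card ι : ℤ) - Fintype.card S)) *
        h) := by
  have hX : (RatFunc.X : RatFunc κ) ≠ 0 := RatFunc.X_ne_zero
  intro g hg Y Z
  set x : RatFunc κ := (RatFunc.X : RatFunc κ) ^ (-m) with hx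
  have hx0 : x ≠ 0 := zpow_ne_zero _ hX
  set D : ι → RatFunc κ := fun j => (RatFunc.X : RatFunc κ) ^ d j with hD
  set D' : ι → RatFunc κ := fun j => (RatFunc.X : RatFunc κ) ^ (-d j) with hD'
  have hDD : ∀ j, D' j * D j = 1 := by
    intro j
    rw [hD, hD']
    simp only
    rw [← zpow_add₀ hX]
    simp
  have h1 : g • (Matrix.of fun j l => x *
      ((RatFunc.X : RatFunc κ) ^ d j * (RatFunc.X : RatFunc κ) ^ d l * G j l)) + Yᵀ * Z =
      diagonal D * ((g * x) • G + (Y * diagonal D')ᵀ * (Z * diagonal D')) * diagonal D := by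
    ext a b
    rw [mul_diagonal, diagonal_mul, Matrix.add_apply, Matrix.add_apply, Matrix.smul_apply,
      Matrix.smul_apply, of_apply, smul_eq_mul, smul_eq_mul, Matrix.mul_apply, Matrix.mul_apply]
    simp only [transpose_apply, mul_diagonal]
    have h2 : D a * (∑ σ, Y σ a * D' a * (Z σ b * D' b)) * D b = ∑ σ, Y σ a * Z σ b := by
      rw [Finset.mul_sum, Finset.sum_mul]
      refine Finset.sum_congr rfl fun σ _ => ?_
      calc _ = Y σ a * Z σ b * (D' a * D a) * (D' b * D b) := by ring
        _ = _ := by rw [hDD, hDD, mul_one, mul_one]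
    rw [mul_add, add_mul, h2]
    congr 1
    rw [hD]
    ring
  have h3 : (Y * Matrix.of fun j σ => (RatFunc.X : RatFunc κ) ^ (-d j) * e j σ) =
      Y * diagonal D' * e := by
    rw [Matrix.mul_assoc]
    congr 1
    ext a b
    rw [diagonal_mul]
    rfl
  have h3' : (Z * Matrix.of fun j σ => (RatFunc.X : RatFunc κ) ^ (-d j) * e j σ) =
      Z * diagonal D' * e := by
    rw [Matrix.mul_assoc]
    congr 1
    ext a b
    rw [diagonal_mul]
    rfl
  rw [h1, det_mul, det_mul, det_diagonal, hh (g * x) (mul_ne_zero hg hx0), h3, h3']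
  have h4 : ∏ j, D j = (RatFunc.X : RatFunc κ) ^ (∑ j, d j) := zpow_prod _ _
  have h5 : (RatFunc.X : RatFunc κ) ^ (2 * ∑ j, d j -
      m * ((Fintype.card ι : ℤ) - Fintype.card S)) =
      (RatFunc.X : RatFunc κ) ^ (∑ j, d j) * (RatFunc.X : RatFunc κ) ^ (∑ j, d j) *
        (x ^ Fintype.card ι * x⁻¹ ^ Fintype.card S) := by
    rw [hx, ← zpow_natCast, ← zpow_natCast, ← _root_.zpow_neg, ← _root_.zpow_mul, ← _root_.zpow_mul,
      ← zpow_add₀ hX, ← zpow_add₀ hX, ← zpow_add₀ hX]
    congr 1
    ring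
  rw [h4, h5, mul_inv, mul_pow, mul_pow]
  ring

theorem vinf_mul_zpow_le {f : RatFunc κ} {m n : ℤ} :
    vinf κ ((RatFunc.X : RatFunc κ) ^ m * f) ≤ exp n ↔ vinf κ f ≤ exp (n - m) := by
  rw [map_mul, vinf_X_zpow]
  constructor
  · intro h
    calc vinf κ f = exp (-m) * (exp m * vinf κ f) := by rw [← mul_assoc, ← exp_add]; simp
      _ ≤ exp (-m) * exp n := mul_le_mul_right h _
      _ = _ := by rw [← exp_add]; congr 1; ring
  · intro h
    calc _ ≤ exp m * exp (n - m) := mul_le_mul_right h _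
      _ = _ := by rw [← exp_add]; congr 1; ring

omit [DecidableEq ι] in
/-- reductions of a splitting basis at infinity are independent. -/
theorem inf_li {b : Basis ι (RatFunc κ) (TK E F)} {d : ι → ℤ}
    (hs : Split (TK E F).subtype (tw F) b d) (y : ι → RatFunc κ)
    (hy : ∀ x, vinf κ (∑ j, y j * ((RatFunc.X : RatFunc κ) ^ d j *
      ((RatFunc.X : RatFunc κ) ^ (-(cls F x.1 : ℤ)) * (b j : (Σ i, J i) → RatFunc κ) x))) < 1)
    (j : ι) : vinf κ (y j) < 1 := by
  have hX : (RatFunc.X : RatFunc κ) ≠ 0 := RatFunc.X_ne_zero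
  set z : TK E F := ∑ j, ((RatFunc.X : RatFunc κ) ^ (d j + 1) * y j) • b j with hz
  have h1 : ∀ x, (TK E F).subtype z x = (RatFunc.X : RatFunc κ) ^ ((cls F x.1 : ℤ) + 1) *
      ∑ j, y j * ((RatFunc.X : RatFunc κ) ^ d j *
        ((RatFunc.X : RatFunc κ) ^ (-(cls F x.1 : ℤ)) * (b j : (Σ i, J i) → RatFunc κ) x)) := by
    intro x
    rw [hz, map_sum, Finset.sum_apply, Finset.mul_sum]
    refine Finset.sum_congr rfl fun j _ => ?_
    rw [map_smul, Pi.smul_apply, smul_eq_mul]
    show _ * (b j : (Σ i, J i) → RatFunc κ) x = _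
    have h3 : (RatFunc.X : RatFunc κ) ^ ((cls F x.1 : ℤ) + 1) *
        (RatFunc.X : RatFunc κ) ^ (-(cls F x.1 : ℤ)) = RatFunc.X := by
      rw [← zpow_add₀ hX]
      have : (cls F x.1 : ℤ) + 1 + -(cls F x.1 : ℤ) = 1 := by ring
      rw [this, zpow_one]
    rw [zpow_add₀ hX, zpow_one]
    calc _ = (RatFunc.X : RatFunc κ) * (y j * (RatFunc.X ^ d j *
          (b j : (Σ i, J i) → RatFunc κ) x)) := by ring
      _ = ((RatFunc.X : RatFunc κ) ^ ((cls F x.1 : ℤ) + 1) *
        (RatFunc.X : RatFunc κ) ^ (-(cls F x.1 : ℤ))) * (y j * (RatFunc.X ^ d j *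
          (b j : (Σ i, J i) → RatFunc κ) x)) := by rw [h3]
      _ = _ := by ring
  have h2 := (hs.inf z).mp (fun x => by
    rw [h1 x, vinf_mul_zpow_le]
    have h4 := hy x
    rw [lt_one_iff] at h4
    refine h4.trans ?_
    rw [exp_le_exp]
    unfold tw
    omega) j
  rw [hz, b.repr_sum_self, vinf_mul_zpow_le] at h2
  rw [lt_one_iff]
  refine h2.trans ?_
  rw [exp_le_exp]
  omega

end Crest.Agent.R260.Num_789
end

-- ▼ part R260/Num8_789
section

/-!
Row 260 (S0398), AG-NUM (helper789), part 8: the place at infinity; the Gram matrix theorem.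
-/

set_option autoImplicit false

namespace Crest.Agent.R260.Num_789

open Module Polynomial Matrix WithZero Crest.Agent.R270.BM_360 Crest.Agent.R270.DimN_282
open Crest.Agent.R013.RR2_948

universe u

variable {k : Type u} [Field k] {I : Type} {J : I → Type} [Fintype I] [∀ i, Fintype (J i)]
  {E : Set (MvPolynomial (Σ i, J i) k)} {w : I → ℤ} {S : Type} [Fintype S] [DecidableEq S]
  {u : S → I → k} {κ : Type u} [Field κ] [Algebra k κ] {F : ∀ i, J i → κ[X]} {ι : Type} [Fintype ι] [DecidableEq ι]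

theorem TwoForm.inf_place (W : TwoForm E w u) {r : ℕ} (h7 : D7r E r) (hE : MHom E)
    (hF : IsMap E F) (hι : Fintype.card ι = r) {b : Basis ι (RatFunc κ) (TK E F)}
    {d : ι → ℤ} (hs : Split (TK E F).subtype (tw F) b d) {t : ι → (Σ i, J i) → κ[X]}
    (ht : ∀ j x, ψX k κ (t j x) = (b j : (Σ i, J i) → RatFunc κ) x) {e : Matrix ι S κ[X]}
    (he : ∀ σ, ∑ j, e j σ • t j = eul (u σ) F) (hed : ∀ j σ, vinf κ (ψX k κ (e j σ)) ≤ exp (d j))
    (G : Matrix ι ι (RatFunc κ))
    (hG : ∀ c j l, evp (toR F) (W.g c) * G j l =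
      bf (W.q c) (toR F) (b j : (Σ i, J i) → RatFunc κ) (b l : (Σ i, J i) → RatFunc κ))
    (h : RatFunc κ) (hh : HasH G (e.map (ψX k κ)) h)
    (hv : vinf κ h = 1) :
    (∃ Y : Matrix S ι (RatFunc κ), (∀ σ j, vinf κ (Y σ j) ≤ 1) ∧ vinf κ (Y * Matrix.of fun j σ =>
        (RatFunc.X : RatFunc κ) ^ (-d j) * ψX k κ (e j σ)).det = 1) ∧
      (∀ j l, vinf κ (G j l) ≤ exp (wdeg w F - d j - d l)) ∧
      2 * ∑ j, d j = ((Fintype.card ι : ℤ) - Fintype.card S) * wdeg w F := by
  have hX : (RatFunc.X : RatFunc κ) ≠ 0 := RatFunc.X_ne_zero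
  let _ : Algebra k (Rinf κ) := algRinf k κ
  let ψ : Rinf κ →ₐ[k] RatFunc κ := { (Rinf κ).subtype with commutes' := fun _ => rfl }
  let φ : Rinf κ →ₐ[k] IsLocalRing.ResidueField (Rinf κ) :=
    { IsLocalRing.residue (Rinf κ) with commutes' := fun _ => rfl }
  have hψ : ∀ a : Rinf κ, ψ a = (a : RatFunc κ) := fun _ => rfl
  have hψi : Function.Injective ψ := Subtype.val_injective
  have hφ : ∀ a : Rinf κ, φ a ≠ 0 ↔ vinf κ (a : RatFunc κ) = 1 := by
    intro a
    rw [← isUnit_Rinf_iff]
    exact IsLocalRing.residue_ne_zero_iff_isUnit a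
  have hφ0 : ∀ a : Rinf κ, φ a = 0 ↔ vinf κ (a : RatFunc κ) < 1 := by
    intro a
    have h1 : vinf κ (a : RatFunc κ) ≤ 1 := a.2
    rw [← not_iff_not, ← ne_eq, hφ, not_lt]
    exact ⟨fun h => h.ge, fun h => le_antisymm h1 h⟩
  -- the scaled point
  set c : I → RatFunc κ := fun i => (RatFunc.X : RatFunc κ) ^ (-(cls F i : ℤ)) with hc
  have hc0 : ∀ i, c i ≠ 0 := fun i => zpow_ne_zero _ hX
  let vt : ∀ i, J i → Rinf κ := fun i a => ⟨c i * toR F i a, by
    rw [mem_Rinf, ← exp_zero, hc]
    simp only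
    rw [vinf_mul_zpow_le]
    have h1 : (0 : ℤ) - -(cls F i : ℤ) = ((cls F i : ℕ) : ℤ) := by ring
    rw [h1]
    exact vinf_le_iff.mpr (natDegree_le_cls' F i a)⟩
  have hvt : (fun i a => ψ (vt i a)) = fun i a => c i * toR F i a := rfl
  have hon : OnX E vt := by
    intro p hp
    apply hψi
    rw [map_zero]
    have h1 := onX_scale hE c (toR F) (onX_toR hF) p hp
    rw [← h1]
    exact (evp_map ψ vt p).symm
  have h0 : ∀ i, ∃ a, φ (vt i a) ≠ 0 := by
    intro i
    obtain ⟨a, ha⟩ := exists_vinf_one hF i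
    exact ⟨a, (hφ _).mpr ha⟩
  -- the scaled basis
  have hb1 : ∀ j x, vinf κ ((RatFunc.X : RatFunc κ) ^ d j * (b j : (Σ i, J i) → RatFunc κ) x) ≤
      exp (tw F x) := by
    intro j x
    have h1 := (hs.inf ((RatFunc.X : RatFunc κ) ^ d j • b j)).mpr (fun l => by
      rw [map_smul, b.repr_self, Finsupp.smul_apply, Finsupp.single_apply, smul_eq_mul]
      split_ifs with hjl
      · rw [mul_one, vinf_X_zpow, hjl]
      · rw [mul_zero, map_zero]
        exact zero_le) x
    rw [map_smul, Pi.smul_apply, smul_eq_mul] at h1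
    exact h1
  let tt : ι → (Σ i, J i) → Rinf κ := fun j x =>
    ⟨(RatFunc.X : RatFunc κ) ^ d j * (c x.1 * (b j : (Σ i, J i) → RatFunc κ) x), by
      rw [mem_Rinf, ← exp_zero]
      have h1 : (RatFunc.X : RatFunc κ) ^ d j * (c x.1 * (b j : (Σ i, J i) → RatFunc κ) x) =
        (RatFunc.X : RatFunc κ) ^ (-(cls F x.1 : ℤ)) *
          ((RatFunc.X : RatFunc κ) ^ d j * (b j : (Σ i, J i) → RatFunc κ) x) := by
        rw [hc]; ring
      rw [h1, vinf_mul_zpow_le]
      have h2 : (0 : ℤ) - -(cls F x.1 : ℤ) = tw F x := by unfold tw; ring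
      rw [h2]
      exact hb1 j x⟩
  have htt : ∀ j, (fun x => ψ (tt j x)) = fun x => (RatFunc.X : RatFunc κ) ^ d j *
    ((fun x => c x.1 * (b j : (Σ i, J i) → RatFunc κ) x) x) := fun j => rfl
  have hjt : ∀ j, jac E vt (tt j) = 0 := by
    intro j
    have h1 : jac E (toR F) (b j : (Σ i, J i) → RatFunc κ) = 0 := (b j).2
    have h2 := jac_smul_eq_zero _ _ ((RatFunc.X : RatFunc κ) ^ d j)
      (jac_scale_eq_zero hE c (toR F) _ h1)
    funext p
    apply hψi
    rw [← jac_map E ψ vt (tt j), Pi.zero_apply, map_zero]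
    exact congrFun h2 p
  have hli : LinearIndependent (IsLocalRing.ResidueField (Rinf κ)) fun j x => φ (tt j x) := by
    rw [Fintype.linearIndependent_iff]
    intro x hx j
    choose y hy using fun j => IsLocalRing.residue_surjective (R := Rinf κ) (x j)
    have h2 := inf_li hs (fun j => (y j : RatFunc κ)) (fun s => by
      have h3 : φ (∑ j, y j * tt j s) = 0 := by
        rw [map_sum]
        have h4 := congrFun hx s
        rw [Finset.sum_apply, Pi.zero_apply] at h4
        rw [← h4]
        refine Finset.sum_congr rfl fun j _ => ?_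
        rw [map_mul, Pi.smul_apply, smul_eq_mul, ← hy j]
        rfl
      rw [hφ0] at h3
      have h5 : ((∑ j, y j * tt j s : Rinf κ) : RatFunc κ) = ∑ j, (y j : RatFunc κ) *
        ((RatFunc.X : RatFunc κ) ^ d j * ((RatFunc.X : RatFunc κ) ^ (-(cls F s.1 : ℤ)) *
          (b j : (Σ i, J i) → RatFunc κ) s)) := by
        have h6 := map_sum ψ (fun j => y j * tt j s) Finset.univ
        simp only [map_mul] at h6
        exact h6
      rw [h5] at h3
      exact h3) j
    rw [← hy j]
    exact (hφ0 (y j)).mpr h2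
  -- the scaled Euler coordinates
  let et : Matrix ι S (Rinf κ) := Matrix.of fun j σ =>
    ⟨(RatFunc.X : RatFunc κ) ^ (-d j) * ψX k κ (e j σ), by
      rw [mem_Rinf, ← exp_zero, vinf_mul_zpow_le]
      have h1 : (0 : ℤ) - -d j = d j := by ring
      rw [h1]
      exact hed j σ⟩
  have het : ∀ σ, ∑ j, et j σ • tt j = eul (u σ) vt := by
    intro σ
    funext x
    apply hψi
    have h1 : ψ ((∑ j, et j σ • tt j) x) = ∑ j, ψ (et j σ) * ψ (tt j x) := by
      rw [Finset.sum_apply, map_sum]
      exact Finset.sum_congr rfl fun j _ => by rw [Pi.smul_apply, smul_eq_mul, map_mul]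
    have h2 : ψ (eul (u σ) vt x) = c x.1 * eul (u σ) (toR F) x := by
      have h3 := congrFun (eul_map ψ (u σ) vt) x
      rw [← h3, hvt, eul_scale]
    have h4 : eul (u σ) (toR F) x =
        ∑ j, ψX k κ (e j σ) * (b j : (Σ i, J i) → RatFunc κ) x := by
      have h5 := congrFun (eul_map (ψX k κ) (u σ) F) x
      have h6 : eul (u σ) (toR F) x = ψX k κ (eul (u σ) F x) := h5
      rw [h6, ← he, Finset.sum_apply, map_sum]
      exact Finset.sum_congr rfl fun j _ => by rw [Pi.smul_apply, smul_eq_mul, map_mul, ht]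
    rw [h1, h2, h4, Finset.mul_sum]
    refine Finset.sum_congr rfl fun j _ => ?_
    show (RatFunc.X : RatFunc κ) ^ (-d j) * ψX k κ (e j σ) * ((RatFunc.X : RatFunc κ) ^ d j *
      (c x.1 * (b j : (Σ i, J i) → RatFunc κ) x)) = _
    have h7 : (RatFunc.X : RatFunc κ) ^ (-d j) * (RatFunc.X : RatFunc κ) ^ d j = 1 := by
      rw [← zpow_add₀ hX]; simp
    calc _ = ((RatFunc.X : RatFunc κ) ^ (-d j) * (RatFunc.X : RatFunc κ) ^ d j) *
          (c x.1 * (ψX k κ (e j σ) * (b j : (Σ i, J i) → RatFunc κ) x)) := by ring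
      _ = _ := by rw [h7, one_mul]
  -- the scaled Gram matrix
  set Gt : Matrix ι ι (RatFunc κ) := Matrix.of fun j l => (RatFunc.X : RatFunc κ) ^ (-wdeg w F) *
      ((RatFunc.X : RatFunc κ) ^ d j * (RatFunc.X : RatFunc κ) ^ d l * G j l) with hGt
  have hGt' : ∀ m j l, evp (fun i a => ψ (vt i a)) (W.g m) * Gt j l =
      bf (W.q m) (fun i a => ψ (vt i a)) (fun x => ψ (tt j x)) (fun x => ψ (tt l x)) := by
    classical
    intro m j l
    rw [hvt, htt, htt, bf_smul_smul, W.bf_scale m c hc0, ← hG, evp_scale (by convert W.hg m) c]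
    have h1 : ∏ i, c i ^ ((W.dg m i : ℤ) + w i) = (∏ i, c i ^ W.dg m i) *
        (RatFunc.X : RatFunc κ) ^ (-wdeg w F) := by
      have h2 : ∀ i, c i ^ ((W.dg m i : ℤ) + w i) = c i ^ W.dg m i *
          (RatFunc.X : RatFunc κ) ^ (-(w i * (cls F i : ℤ))) := by
        intro i
        rw [zpow_add₀ (hc0 i), zpow_natCast, hc]
        simp only
        rw [← _root_.zpow_mul]
        congr 2
        ring
      rw [Finset.prod_congr rfl fun i _ => h2 i, Finset.prod_mul_distrib]
      congr 1
      have h3 : ∀ s : Finset I, ∏ i ∈ s, (RatFunc.X : RatFunc κ) ^ (-(w i * (cls F i : ℤ))) =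
          (RatFunc.X : RatFunc κ) ^ (-∑ i ∈ s, w i * (cls F i : ℤ)) := by
        intro s
        induction s using Finset.induction_on with
        | empty => simp
        | insert a s ha ih =>
          rw [Finset.prod_insert ha, Finset.sum_insert ha, ih, ← zpow_add₀ hX]
          congr 1
          ring
      exact h3 _
    rw [h1, hGt, of_apply]
    ring
  have hadj : HasH Gt (et.map ψ) ((RatFunc.X : RatFunc κ) ^
      (2 * ∑ j, d j - wdeg w F * ((Fintype.card ι : ℤ) - Fintype.card S)) * h) :=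
    hasH_scale hh (wdeg w F) d
  have hφs : Function.Surjective φ := IsLocalRing.residue_surjective
  obtain ⟨⟨Y, hY⟩, ⟨g, hg, hgG⟩, ⟨g1, a1, hg1, ha1, hga1⟩⟩ :=
    W.place h7 φ hφs ψ hψi hι vt hon h0 tt hjt hli et het Gt hGt' _ hadj
  refine ⟨⟨Y.map ψ, fun σ j => (Y σ j).2, ?_⟩, ?_, ?_⟩
  · have h1 : vinf κ (((Y * et).det : Rinf κ) : RatFunc κ) = 1 := (hφ _).mp hY
    have h2 : ψ (Y * et).det = ((Y * et).map ψ).det := RingHom.map_det (ψ : Rinf κ →+* RatFunc κ) (Y * et)
    rw [← hψ, h2] at h1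
    have h3 : (Y * et).map ψ = Y.map ψ * et.map ψ := by rw [← Matrix.map_mul]
    rw [h3] at h1
    exact h1
  · intro j l
    obtain ⟨a, ha⟩ := hgG j l
    have h1 := congrArg (vinf κ) ha
    rw [map_mul, hψ, (hφ g).mp hg, one_mul, hψ] at h1
    have h2 : vinf κ (Gt j l) ≤ exp 0 := by rw [h1, exp_zero]; exact a.2
    rw [hGt, of_apply] at h2
    have h3 : (RatFunc.X : RatFunc κ) ^ (-wdeg w F) * ((RatFunc.X : RatFunc κ) ^ d j *
        (RatFunc.X : RatFunc κ) ^ d l * G j l) =
        (RatFunc.X : RatFunc κ) ^ (-wdeg w F + d j + d l) * G j l := by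
      rw [zpow_add₀ hX, zpow_add₀ hX]; ring
    rw [h3, vinf_mul_zpow_le] at h2
    refine h2.trans ?_
    rw [exp_le_exp]
    omega
  · have h1 := congrArg (vinf κ) hga1
    rw [map_mul, hψ, (hφ g1).mp hg1, one_mul, hψ, (hφ a1).mp ha1, map_mul, vinf_X_zpow, hv,
      mul_one, ← exp_zero, exp_inj] at h1
    linarith

end Crest.Agent.R260.Num_789
end

-- ▼ part R260/Num9_789
section

/-!
Row 260 (S0398), AG-NUM (helper789), part 9: the Gram matrix theorem, the degree of the tangent
bundle of the multicone, duality of the splitting type.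
-/

set_option autoImplicit false

namespace Crest.Agent.R260.Num_789

open Module Polynomial Matrix WithZero Crest.Agent.R270.BM_360 Crest.Agent.R270.DimN_282
open Crest.Agent.R013.RR2_948

universe u

variable {k : Type u} [Field k] {I : Type} {J : I → Type} [Fintype I] [∀ i, Fintype (J i)]
  {E : Set (MvPolynomial (Σ i, J i) k)} {w : I → ℤ} {S : Type} [Fintype S] [DecidableEq S]
  {u : S → I → k} {κ : Type u} [Field κ] [Algebra k κ] {F : ∀ i, J i → κ[X]}

variable {ι : Type} [Fintype ι]

omit [Fintype S] [DecidableEq S] in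
theorem card_eq {r : ℕ} (h7 : D7r E r) (hF : IsMap E F) (b : Basis ι (RatFunc κ) (TK E F)) :
    Fintype.card ι = r := by
  rw [← Module.finrank_eq_card_basis b]
  exact h7 (RatFunc κ) (toR F) (onX_toR hF) (toR_ne_zero hF)

/-- the conclusions of the Gram matrix theorem. -/
structure Gram [DecidableEq ι] (W : TwoForm E w u) (F : ∀ i, J i → κ[X])
    (b : Basis ι (RatFunc κ) (TK E F)) (d : ι → ℤ) (t : ι → (Σ i, J i) → κ[X])
    (e : Matrix ι S κ[X]) (G : Matrix ι ι κ[X]) : Prop where
  ht : ∀ j x, ψX k κ (t j x) = (b j : (Σ i, J i) → RatFunc κ) x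
  he : ∀ σ, ∑ j, e j σ • t j = eul (u σ) F
  hG : ∀ c j l, evp F (W.g c) * G j l = bf (W.q c) F (t j) (t l)
  skew : ∀ j l, G j l = - G l j
  fin : ∀ p : κ[X], Irreducible p → ∃ Y : Matrix S ι κ[X], ¬ p ∣ (Y * e).det
  Gdeg : ∀ j l, vinf κ (ψX k κ (G j l)) ≤ exp (wdeg w F - d j - d l)
  sum : 2 * ∑ j, d j = ((Fintype.card ι : ℤ) - Fintype.card S) * wdeg w F
  dual : ∀ j, d j ≤ 0 ∨ ∃ l, G j l ≠ 0

/-- **Gram matrix theorem**. -/
theorem TwoForm.gram [DecidableEq ι] (W : TwoForm E w u) {r : ℕ} (h7 : D7r E r) (hE : MHom E)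
    (hF : IsMap E F) {b : Basis ι (RatFunc κ) (TK E F)}
    {d : ι → ℤ} (hs : Split (TK E F).subtype (tw F) b d) :
    ∃ (t : ι → (Σ i, J i) → κ[X]) (e : Matrix ι S κ[X]) (G : Matrix ι ι κ[X]),
      Gram W F b d t e G := by
  have hX : (RatFunc.X : RatFunc κ) ≠ 0 := RatFunc.X_ne_zero
  have hι := card_eq h7 hF b
  obtain ⟨t, ht⟩ := exists_t hs
  obtain ⟨e, he, hed⟩ := exists_e W hF hs ht
  have hon := onX_toR (k := k) hF
  have hne := toR_ne_zero (k := k) hF
  have hb : ∀ j, jac E (toR F) (b j : (Σ i, J i) → RatFunc κ) = 0 := fun j => (b j).2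
  obtain ⟨c₀, hc₀⟩ := W.cov (RatFunc κ) (toR F) hon hne
  set G : Matrix ι ι (RatFunc κ) := Matrix.of fun j l =>
    (evp (toR F) (W.g c₀))⁻¹ * bf (W.q c₀) (toR F) (b j : (Σ i, J i) → RatFunc κ)
      (b l : (Σ i, J i) → RatFunc κ) with hGdef
  have hG : ∀ c j l, evp (toR F) (W.g c) * G j l =
      bf (W.q c) (toR F) (b j : (Σ i, J i) → RatFunc κ) (b l : (Σ i, J i) → RatFunc κ) := by
    intro c j l
    have h1 := W.compat (RatFunc κ) (toR F) (b j : (Σ i, J i) → RatFunc κ)
      (b l : (Σ i, J i) → RatFunc κ) hon hne (hb j) (hb l) c₀ c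
    rw [hGdef, of_apply]
    calc _ = (evp (toR F) (W.g c₀))⁻¹ * (evp (toR F) (W.g c) * bf (W.q c₀) (toR F)
            (b j : (Σ i, J i) → RatFunc κ) (b l : (Σ i, J i) → RatFunc κ)) := by ring
      _ = _ := by rw [← h1, ← mul_assoc, inv_mul_cancel₀ hc₀, one_mul]
  have hskew : ∀ j l, G j l = - G l j := by
    intro j l
    rw [hGdef, of_apply, of_apply, bf_skew (W.skew c₀)]
    ring
  have heK : ∀ σ, ∑ j, ψX k κ (e j σ) • (b j : (Σ i, J i) → RatFunc κ) = eul (u σ) (toR F) := by
    intro σ
    funext x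
    have h5 : eul (u σ) (toR F) x = ψX k κ (eul (u σ) F x) := congrFun (eul_map (ψX k κ) (u σ) F) x
    rw [h5, ← he, Finset.sum_apply, Finset.sum_apply, map_sum]
    exact Finset.sum_congr rfl fun j _ => by
      rw [Pi.smul_apply, Pi.smul_apply, smul_eq_mul, smul_eq_mul, map_mul, ht]
  set eK : Matrix ι S (RatFunc κ) := e.map (ψX k κ) with heKdef
  have hkerK : G * eK = 0 := by
    ext j σ
    rw [Matrix.mul_apply, Matrix.zero_apply]
    have h1 : ∑ l, G j l * eK l σ = (evp (toR F) (W.g c₀))⁻¹ *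
        bf (W.q c₀) (toR F) (b j : (Σ i, J i) → RatFunc κ)
          (∑ l, ψX k κ (e l σ) • (b l : (Σ i, J i) → RatFunc κ)) := by
      rw [bf_sum, Finset.mul_sum]
      exact Finset.sum_congr rfl fun l _ => by
        rw [hGdef, of_apply, heKdef, Matrix.map_apply]; ring
    rw [h1, heK, bf_skew (W.skew c₀), W.eul_rad _ _ _ hon hne (hb j), neg_zero, mul_zero]
  have hGt : Gᵀ = -G := by
    ext j l
    rw [transpose_apply, neg_apply, hskew l j]
  have hker' : eKᵀ * G = 0 := by
    have h1 := congrArg Matrix.transpose hkerK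
    rw [transpose_mul, hGt, Matrix.mul_neg, transpose_zero, neg_eq_zero] at h1
    exact h1
  have hcomb : ∀ x : S → RatFunc κ, ∑ σ, x σ • eul (u σ) (toR F) =
      ∑ j, (eK *ᵥ x) j • (b j : (Σ i, J i) → RatFunc κ) := by
    intro x
    simp only [← heK, Finset.smul_sum, smul_smul, mulVec, dotProduct, Finset.sum_smul,
      heKdef, Matrix.map_apply]
    rw [Finset.sum_comm]
    refine Finset.sum_congr rfl fun j _ => Finset.sum_congr rfl fun σ _ => ?_
    rw [mul_comm]
  have heinj : ∀ x : S → RatFunc κ, eK *ᵥ x = 0 → x = 0 := by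
    intro x hx
    apply W.eul_li hne
    rw [hcomb, hx]
    exact Finset.sum_eq_zero fun j _ => by rw [Pi.zero_apply, zero_smul]
  obtain ⟨Y0, hY0⟩ := exists_left_inv eK heinj
  obtain ⟨h, hh⟩ := exists_h G eK Y0 hY0 hkerK hker'
  have hfin := fun (p : κ[X]) (hp : Irreducible p) =>
    W.fin_place h7 hF hι hs ht he G hG h hh hp
  have hh0 : h ≠ 0 := by
    rintro rfl
    obtain ⟨-, -, g, a, -, ha, hga⟩ := hfin X Polynomial.irreducible_X
    rw [mul_zero] at hga
    exact ha (by
      have : a = 0 := ψX_inj (k := k) (by rw [← hga, map_zero])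
      rw [this]; exact dvd_zero _)
  obtain ⟨h', hh'0, hh'⟩ := exists_C_of (f := h)
    (fun p hp => by
      obtain ⟨g, a, hg, -, hga⟩ := (hfin p hp).2.2
      exact ⟨g, a, hg, hga⟩)
    (fun p hp => by
      obtain ⟨g, a, -, ha, hga⟩ := (hfin p hp).2.2
      exact ⟨g, a, ha, hga⟩) hh0
  have hv : vinf κ h = 1 := by
    rw [← hh', vinf_poly κ (by rwa [Ne, C_eq_zero]), natDegree_C]
    simp
  obtain ⟨hinf, hdeg, hsum⟩ := W.inf_place h7 hE hF hι hs ht he hed G hG h hh hv
  have hpoly : ∀ j l, ∃ q : κ[X], ψX k κ q = G j l := fun j l => exists_poly_of fun p hp => by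
    obtain ⟨-, ⟨g, hg, hgG⟩, -⟩ := hfin p hp
    obtain ⟨a, ha⟩ := hgG j l
    exact ⟨g, a, hg, ha⟩
  choose Gp hGp using hpoly
  refine ⟨t, e, Matrix.of Gp, ht, he, ?_, ?_, fun p hp => (hfin p hp).1, ?_, hsum, ?_⟩
  · intro c j l
    apply ψX_inj (k := k)
    have h1 := hG c j l
    have h2 : evp (toR F) (W.g c) = ψX k κ (evp F (W.g c)) := evp_map (ψX k κ) F (W.g c)
    have h3 : bf (W.q c) (toR F) (b j : (Σ i, J i) → RatFunc κ) (b l : (Σ i, J i) → RatFunc κ) =
        ψX k κ (bf (W.q c) F (t j) (t l)) := by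
      rw [← bf_map]
      congr 1
      · exact (funext (ht j)).symm
      · exact (funext (ht l)).symm
    rw [map_mul, of_apply, hGp, ← h2, h1, h3]
  · intro j l
    apply ψX_inj (k := k)
    rw [map_neg, of_apply, of_apply, hGp, hGp]
    exact hskew j l
  · intro j l
    rw [of_apply, hGp]
    exact hdeg j l
  · -- duality
    intro j
    by_contra hcon
    push Not at hcon
    obtain ⟨hdj, hGj⟩ := hcon
    have hG0 : ∀ l, G j l = 0 := by
      intro l
      rw [← hGp, ← of_apply Gp, hGj, map_zero]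
    -- `b j` is in the radical
    have hrad : ∀ t', jac E (toR F) t' = 0 →
        bf (W.q c₀) (toR F) (b j : (Σ i, J i) → RatFunc κ) t' = 0 := by
      intro t' ht'
      have h1 : t' = ∑ l, b.repr ⟨t', ht'⟩ l • (b l : (Σ i, J i) → RatFunc κ) := by
        have h2 := congrArg (fun z : TK E F => (z : (Σ i, J i) → RatFunc κ))
          (b.sum_repr ⟨t', ht'⟩)
        simp only [Submodule.coe_sum, Submodule.coe_smul] at h2
        exact h2.symm
      rw [h1, bf_sum]
      refine Finset.sum_eq_zero fun l _ => ?_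
      rw [← hG c₀, hG0, mul_zero, mul_zero]
    obtain ⟨a, ha⟩ := W.rad (RatFunc κ) (toR F) _ hon hne (hb j) c₀ hc₀ hrad
    have hδ : eK *ᵥ a = Pi.single j 1 := by
      rw [hcomb] at ha
      have h1 : b j = ∑ l, (eK *ᵥ a) l • b l := by
        apply Subtype.ext
        simp only [Submodule.coe_sum, Submodule.coe_smul]
        exact ha
      funext l
      have h2 := congrArg (fun z => b.repr z l) h1
      simp only [b.repr_self, b.repr_sum_self] at h2
      rw [← h2, Finsupp.single_apply, Pi.single_apply]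
      simp only [eq_comm]
    -- regular at the finite places
    have hapoly : ∀ σ, ∃ q : κ[X], ψX k κ q = a σ := fun σ => exists_poly_of fun p hp => by
      obtain ⟨Y, hY⟩ := (hfin p hp).1
      have h1 : (Y.map (ψX k κ) * eK) *ᵥ a = fun τ => ψX k κ (Y τ j) := by
        rw [← mulVec_mulVec, hδ]
        funext τ
        rw [mulVec_single_one]
        rfl
      have h2 : (Y.map (ψX k κ) * eK) = (Y * e).map (ψX k κ) := by
        rw [Matrix.map_mul]
      have h3 := congrArg (fun z => (Y.map (ψX k κ) * eK).adjugate *ᵥ z) h1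
      simp only [mulVec_mulVec, adjugate_mul, smul_mulVec, one_mulVec] at h3
      have h4 := congrFun h3 σ
      rw [Pi.smul_apply, smul_eq_mul, h2] at h4
      have h5 : ((Y * e).map (ψX k κ)).det = ψX k κ (Y * e).det :=
        (RingHom.map_det ((ψX k κ) : κ[X] →+* RatFunc κ) (Y * e)).symm
      have h6 : ((Y * e).map (ψX k κ)).adjugate = (Y * e).adjugate.map (ψX k κ) :=
        (RingHom.map_adjugate ((ψX k κ) : κ[X] →+* RatFunc κ) (Y * e)).symm
      refine ⟨(Y * e).det, ∑ τ, (Y * e).adjugate σ τ * Y τ j, hY, ?_⟩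
      have h7 : ψX k κ (Y * e).det * a σ = ψX k κ (∑ τ, (Y * e).adjugate σ τ * Y τ j) := by
        rw [← h5, h4, h6, map_sum]
        simp only [mulVec, dotProduct, Matrix.map_apply, map_mul]
      exact h7
    -- bounded at infinity
    obtain ⟨Y, hY1, hY2⟩ := hinf
    set et : Matrix ι S (RatFunc κ) :=
      Matrix.of fun j σ => (RatFunc.X : RatFunc κ) ^ (-d j) * ψX k κ (e j σ) with het
    have h1 : et *ᵥ a = (RatFunc.X : RatFunc κ) ^ (-d j) • Pi.single j 1 := by
      funext l
      have h2 : (et *ᵥ a) l = (RatFunc.X : RatFunc κ) ^ (-d l) * (eK *ᵥ a) l := by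
        simp only [mulVec, dotProduct, Finset.mul_sum, het, of_apply, heKdef, Matrix.map_apply,
          mul_assoc]
      rw [h2, hδ, Pi.smul_apply, smul_eq_mul, Pi.single_apply]
      split_ifs with hl
      · rw [hl]
      · rw [mul_zero, mul_zero]
    have h2 : (Y * et) *ᵥ a = (RatFunc.X : RatFunc κ) ^ (-d j) • fun τ => Y τ j := by
      rw [← mulVec_mulVec, h1, mulVec_smul]
      congr 1
      funext τ
      rw [mulVec_single_one]
      rfl
    have h3 := congrArg (fun z => (Y * et).adjugate *ᵥ z) h2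
    simp only [mulVec_mulVec, adjugate_mul, smul_mulVec, one_mulVec, mulVec_smul] at h3
    have hetint : ∀ l σ, vinf κ (et l σ) ≤ 1 := by
      intro l σ
      rw [het, of_apply, ← exp_zero, vinf_mul_zpow_le]
      have : (0 : ℤ) - -d l = d l := by ring
      rw [this]
      exact hed l σ
    have hYe : ∀ σ τ, vinf κ ((Y * et) σ τ) ≤ 1 := by
      intro σ τ
      rw [Matrix.mul_apply]
      refine Valuation.map_sum_le _ fun l _ => ?_
      rw [map_mul]
      exact mul_le_one' (hY1 _ _) (hetint _ _)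
    have hadj : ∀ σ τ, vinf κ ((Y * et).adjugate σ τ) ≤ 1 := by
      intro σ τ
      rw [adjugate_apply]
      apply det_le_one
      intro i j
      rw [updateRow_apply]
      split_ifs
      · rw [Pi.single_apply]
        split_ifs
        · rw [map_one]
        · rw [map_zero]; exact zero_le
      · exact hYe _ _
    have ha1 : ∀ σ, vinf κ (a σ) ≤ exp (-d j) := by
      intro σ
      have h4 := congrArg (vinf κ) (congrFun h3 σ)
      rw [Pi.smul_apply, Pi.smul_apply, smul_eq_mul, smul_eq_mul, map_mul, map_mul, hY2, one_mul,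
        vinf_X_zpow] at h4
      rw [h4]
      have h5 : vinf κ (((Y * et).adjugate *ᵥ fun τ => Y τ j) σ) ≤ 1 := by
        simp only [mulVec, dotProduct]
        refine Valuation.map_sum_le _ fun τ _ => ?_
        rw [map_mul]
        exact mul_le_one' (hadj _ _) (hY1 _ _)
      calc _ ≤ exp (-d j) * 1 := mul_le_mul_right h5 _
        _ = _ := mul_one _
    have ha0 : a ≠ 0 := by
      rintro rfl
      rw [mulVec_zero] at hδ
      have h4 := congrFun hδ j
      rw [Pi.zero_apply, Pi.single_eq_same] at h4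
      exact zero_ne_one h4
    obtain ⟨σ, hσ⟩ := Function.ne_iff.mp ha0
    rw [Pi.zero_apply] at hσ
    obtain ⟨q, hq⟩ := hapoly σ
    have hq0 : q ≠ 0 := by
      rintro rfl
      rw [map_zero] at hq
      exact hσ hq.symm
    have h4 := ha1 σ
    rw [← hq] at h4
    have h5 : (1 : ℤᵐ⁰) ≤ exp (-d j) := (vinf_poly_one_le κ hq0).trans h4
    rw [← exp_zero, exp_le_exp] at h5
    omega

end Crest.Agent.R260.Num_789
end

-- ▼ part R260/Num11_789
section

/-!
Row 260 (S0398), AG-NUM (helper789), part 11: reduced bases (helper428) are splitting bases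
(helper282).
-/

set_option autoImplicit false

namespace Crest.Agent.R260.Num_789

open Module Polynomial WithZero Crest.Agent.R270.BM_360 Crest.Agent.R270.DimN_282
open Crest.Agent.R013.RR2_948
open Crest.Agent.R260.Frm1_428 Crest.Agent.R260.Frm2_428 Crest.Agent.R260.Frm3_428

universe u

section dle

variable {κ : Type u} [Field κ]

theorem dle_iff {A : ℤ} {p : κ[X]} :
    DLe A p ↔ vinf κ (algebraMap κ[X] (RatFunc κ) p) ≤ exp A := by
  by_cases h0 : p = 0
  · subst h0
    rw [map_zero, map_zero]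
    exact ⟨fun _ => zero_le, fun _ m _ => by rw [cz_zero]⟩
  · rw [vinf_poly κ h0, exp_le_exp]
    constructor
    · intro h
      by_contra hlt
      rw [not_le] at hlt
      have h1 := h _ hlt
      rw [cz_nat, coeff_natDegree] at h1
      exact h0 (leadingCoeff_eq_zero.mp h1)
    · intro h m hm
      have h1 : (0 : ℤ) ≤ m := by omega
      obtain ⟨n, rfl⟩ := Int.eq_ofNat_of_zero_le h1
      rw [cz_nat]
      apply coeff_eq_zero_of_natDegree_lt
      omega

end dle

variable {k : Type u} [Field k] {I : Type} {J : I → Type} [Fintype I] [∀ i, Fintype (J i)]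
  {E : Set (MvPolynomial (Σ i, J i) k)} {κ : Type u} [Field κ] [Algebra k κ]
  {F : ∀ i, J i → κ[X]} {n : ℕ}

theorem aeval_X_eq (p : κ[X]) :
    aeval (RatFunc.X : RatFunc κ) p = algebraMap κ[X] (RatFunc κ) p := by
  rw [← RatFunc.algebraMap_X, aeval_algebraMap_apply, aeval_X_left_apply]

theorem mem_TK_iff (x : (Σ i, J i) → RatFunc κ) :
    x ∈ TK E F ↔ x ∈ KerAt (JacF E F) (RatFunc.X : RatFunc κ) := by
  rw [TK, LinearMap.mem_ker, mem_KerAt]
  constructor
  · intro h p
    have h1 := congrFun h p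
    rw [jac_apply, Pi.zero_apply] at h1
    rw [← h1]
    refine Finset.sum_congr rfl fun y _ => ?_
    rw [jacE_toR, aeval_X_eq]
    rfl
  · intro h
    funext p
    rw [jac_apply, Pi.zero_apply, ← h p]
    refine Finset.sum_congr rfl fun y _ => ?_
    rw [jacE_toR, aeval_X_eq]
    rfl

theorem mem_TanM_of {P : (Σ i, J i) → κ[X]}
    (h : (fun x => algebraMap κ[X] (RatFunc κ) (P x)) ∈ TK E F) : P ∈ TanM E F := by
  rw [mem_TK_iff, mem_KerAt] at h
  intro p
  have h1 := h p
  apply IsFractionRing.injective κ[X] (RatFunc κ)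
  rw [map_sum, map_zero, ← h1]
  refine Finset.sum_congr rfl fun y _ => ?_
  rw [map_mul, aeval_X_eq]

theorem mem_TK_of {P : (Σ i, J i) → κ[X]} (h : P ∈ TanM E F) :
    (fun x => algebraMap κ[X] (RatFunc κ) (P x)) ∈ TK E F := by
  rw [mem_TK_iff]
  have h1 := ev_mem (Jac := JacF E F) (RatFunc.X : RatFunc κ) h
  have h2 : ev (RatFunc.X : RatFunc κ) P = fun x => algebraMap κ[X] (RatFunc κ) (P x) := by
    funext x
    exact aeval_X_eq _
  rw [h2] at h1
  exact h1

/-- the members of a reduced basis, over the function field. -/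
noncomputable def rvec (B : RBasis (tw F) (TanM E F) n) (j : Fin n) : TK E F :=
  ⟨fun x => algebraMap κ[X] (RatFunc κ) (B.e j x), mem_TK_of (B.mem j)⟩

theorem rvec_ev (B : RBasis (tw F) (TanM E F) n) (j : Fin n) :
    (rvec B j : (Σ i, J i) → RatFunc κ) = ev (RatFunc.X : RatFunc κ) (B.e j) := by
  funext x
  exact (aeval_X_eq _).symm

theorem rvec_li (B : RBasis (tw F) (TanM E F) n) : LinearIndependent (RatFunc κ) (rvec B) := by
  have h1 := ev_li (Jac := JacF E F) B (RatFunc.X : RatFunc κ)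
  apply LinearIndependent.of_comp (TK E F).subtype
  have h2 : (TK E F).subtype ∘ rvec B = fun j => ev (RatFunc.X : RatFunc κ) (B.e j) :=
    funext (rvec_ev B)
  rw [h2]
  exact h1

theorem rvec_span (B : RBasis (tw F) (TanM E F) n) :
    ⊤ ≤ Submodule.span (RatFunc κ) (Set.range (rvec B)) := by
  rintro ⟨x, hx⟩ -
  obtain ⟨w, hw⟩ := span_generic (Jac := JacF E F) B ((mem_TK_iff x).mp hx)
  rw [Submodule.mem_span_range_iff_exists_fun]
  refine ⟨w, ?_⟩
  apply Subtype.ext
  simp only [Submodule.coe_sum, Submodule.coe_smul, rvec_ev]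
  exact hw.symm

/-- the basis of `TK E F` attached to a reduced basis. -/
noncomputable def rbas (B : RBasis (tw F) (TanM E F) n) : Basis (Fin n) (RatFunc κ) (TK E F) :=
  Basis.mk (rvec_li B) (rvec_span B)

theorem rbas_apply (B : RBasis (tw F) (TanM E F) n) (j : Fin n) : rbas B j = rvec B j :=
  Basis.mk_apply _ _ _

theorem repr_of_coord (B : RBasis (tw F) (TanM E F) n) (x : TK E F) (P : (Σ i, J i) → κ[X])
    (q : RatFunc κ) (hP : ∀ y, algebraMap κ[X] (RatFunc κ) (P y) = q * (x : _ → RatFunc κ) y)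
    (p : Fin n → κ[X]) (hp : P = ∑ j, p j • B.e j) (j : Fin n) :
    q * (rbas B).repr x j = algebraMap κ[X] (RatFunc κ) (p j) := by
  have h1 : q • x = ∑ j, algebraMap κ[X] (RatFunc κ) (p j) • rbas B j := by
    apply Subtype.ext
    funext y
    simp only [Submodule.coe_sum, Submodule.coe_smul, Finset.sum_apply, Pi.smul_apply,
      smul_eq_mul, rbas_apply]
    rw [← hP y, hp, Finset.sum_apply, map_sum]
    refine Finset.sum_congr rfl fun j _ => ?_
    rw [Pi.smul_apply, smul_eq_mul, map_mul]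
    rfl
  have h2 := congrArg (fun z => (rbas B).repr z j) h1
  simp only [map_smul, Finsupp.smul_apply, smul_eq_mul, Basis.repr_sum_self] at h2
  exact h2

/-- **reduced bases are splitting bases.** -/
theorem split_of_rbasis (B : RBasis (tw F) (TanM E F) n) :
    Split (TK E F).subtype (tw F) (rbas B) B.a := by
  have hsum : ∀ (x : TK E F) (y : Σ i, J i), (x : (Σ i, J i) → RatFunc κ) y =
      ∑ j, (rbas B).repr x j * algebraMap κ[X] (RatFunc κ) (B.e j y) := by
    intro x y
    have h1 := congrArg (fun z : TK E F => (z : (Σ i, J i) → RatFunc κ) y)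
      ((rbas B).sum_repr x)
    refine Eq.trans h1.symm ?_
    simp only [Submodule.coe_sum, Submodule.coe_smul, Finset.sum_apply, Pi.smul_apply,
      smul_eq_mul, rbas_apply]
    rfl
  refine ⟨fun x => ⟨fun h j => ?_, fun h y => ?_⟩, fun x => ⟨fun h j => ?_, fun h y => ?_⟩⟩
  · choose P hP using fun y => (mem_polyS κ).mp (h y)
    have hmem : P ∈ TanM E F := by
      apply mem_TanM_of
      have : (fun y => algebraMap κ[X] (RatFunc κ) (P y)) = (x : (Σ i, J i) → RatFunc κ) :=
        funext hP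
      rw [this]
      exact x.2
    obtain ⟨p, hp⟩ := B.exists_coord hmem
    have h1 := repr_of_coord B x P 1 (fun y => by rw [one_mul]; exact hP y) p hp j
    rw [one_mul] at h1
    rw [mem_polyS]
    exact ⟨p j, h1.symm⟩
  · rw [Submodule.subtype_apply, hsum x y, mem_polyS]
    choose q hq using fun j => (mem_polyS κ).mp (h j)
    refine ⟨∑ j, q j * B.e j y, ?_⟩
    rw [map_sum]
    exact Finset.sum_congr rfl fun j _ => by rw [map_mul, hq j]
  · obtain ⟨⟨q, hq⟩, hqx⟩ := IsLocalization.exist_integer_multiples_of_finite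
      (nonZeroDivisors κ[X]) (x : (Σ i, J i) → RatFunc κ)
    have hq0 : q ≠ 0 := nonZeroDivisors.ne_zero hq
    have hq0' : algebraMap κ[X] (RatFunc κ) q ≠ 0 := RatFunc.algebraMap_ne_zero hq0
    choose P hP using hqx
    have hP' : ∀ y, algebraMap κ[X] (RatFunc κ) (P y) =
        algebraMap κ[X] (RatFunc κ) q * (x : (Σ i, J i) → RatFunc κ) y := by
      intro y
      rw [hP y, Algebra.smul_def]
    have hmem : P ∈ TanM E F := by
      apply mem_TanM_of
      have h1 : (fun y => algebraMap κ[X] (RatFunc κ) (P y)) =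
          algebraMap κ[X] (RatFunc κ) q • (x : (Σ i, J i) → RatFunc κ) := by
        funext y
        rw [hP' y]
        rfl
      rw [h1]
      exact (TK E F).smul_mem _ x.2
    obtain ⟨p, hp⟩ := B.exists_coord hmem
    have hV : VLe (tw F) (-(q.natDegree : ℤ)) (∑ j, p j • B.e j) := by
      rw [← hp]
      intro y
      rw [dle_iff, hP' y, map_mul, vinf_poly κ hq0]
      have h2 : tw F y - -(q.natDegree : ℤ) = q.natDegree + tw F y := by ring
      rw [h2, exp_add]
      exact mul_le_mul_right (h y) _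
    have h3 := B.coord_deg hV j
    rw [dle_iff, ← repr_of_coord B x P _ hP' p hp j, map_mul, vinf_poly κ hq0] at h3
    have h4 : B.a j - -(q.natDegree : ℤ) = q.natDegree + B.a j := by ring
    rw [h4, exp_add] at h3
    calc vinf κ ((rbas B).repr x j) = exp (-(q.natDegree : ℤ)) *
          (exp (q.natDegree : ℤ) * vinf κ ((rbas B).repr x j)) := by
            rw [← mul_assoc, ← exp_add]; simp
      _ ≤ exp (-(q.natDegree : ℤ)) * (exp (q.natDegree : ℤ) * exp (B.a j)) :=
          mul_le_mul_right h3 _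
      _ = _ := by rw [← mul_assoc, ← exp_add]; simp
  · rw [Submodule.subtype_apply, hsum x y]
    refine Valuation.map_sum_le _ fun j _ => ?_
    rw [map_mul]
    have h1 := B.deg j y
    rw [dle_iff] at h1
    calc _ ≤ exp (B.a j) * exp (tw F y - B.a j) := mul_le_mul' (h j) h1
      _ = _ := by rw [← exp_add]; congr 1; ring

end Crest.Agent.R260.Num_789
end

-- ▼ part R260/Om3_997
section

/-!
Row 260 (S0398), helper997: the pairing `dθ(s, t)`, part 3: the pairing of the variation of the end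
point of a family of maps with the tangent vector at the end point; forms consumed by helper365.
-/

set_option autoImplicit false

namespace Crest.Agent.R260.Om_997

open Polynomial Crest.Agent.R270.BM_360 Crest.Agent.R260.Lin_678

universe u

variable {I : Type} {J : I → Type} [Fintype I] [∀ i, Fintype (J i)]

section eval

variable {k : Type u} [Field k] {A B : Type*} [CommRing A] [Algebra k A] [CommRing B] [Algebra k B]
  (φ : A →ₐ[k] B)

omit [Fintype I] [∀ i, Fintype (J i)] in
theorem map_aeval' {σ : Type*} (v : σ → A) (q : MvPolynomial σ k) :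
    φ (MvPolynomial.aeval v q) = MvPolynomial.aeval (fun x => φ (v x)) q := by
  rw [← MvPolynomial.comp_aeval_apply]

theorem map_form (p : (Σ i, J i) → MvPolynomial (Σ i, J i) k) (v t : ∀ i, J i → A) :
    φ (form p v t) = form p (fun i a => φ (v i a)) (fun i a => φ (t i a)) := by
  unfold form
  rw [map_sum]
  exact Finset.sum_congr rfl fun x _ => by rw [map_mul, map_aeval']

theorem map_dform (p : (Σ i, J i) → MvPolynomial (Σ i, J i) k) (v s t : ∀ i, J i → A) :
    φ (dform p v s t) =
      dform p (fun i a => φ (v i a)) (fun i a => φ (s i a)) (fun i a => φ (t i a)) := by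
  unfold dform
  rw [map_sum]
  refine Finset.sum_congr rfl fun x _ => ?_
  rw [map_sum]
  exact Finset.sum_congr rfl fun y _ => by rw [map_mul, map_aeval', map_sub, map_mul, map_mul]

omit [∀ i, Fintype (J i)] in
theorem map_den' (c : ∀ i, J i) (v : ∀ i, J i → A) :
    φ (den c v) = den c (fun i a => φ (v i a)) := by
  unfold den
  rw [map_prod]

omit [∀ i, Fintype (J i)] in
theorem map_dden [DecidableEq I] (c : ∀ i, J i) (v s : ∀ i, J i → A) :
    φ (dden c v s) = dden c (fun i a => φ (v i a)) (fun i a => φ (s i a)) := by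
  unfold dden
  rw [map_sum]
  exact Finset.sum_congr rfl fun i _ => by rw [map_mul, map_prod]

theorem map_num [DecidableEq I] (N : ℕ) (p : (Σ i, J i) → MvPolynomial (Σ i, J i) k)
    (c : ∀ i, J i) (v s t : ∀ i, J i → A) :
    φ (num N p c v s t) =
      num N p c (fun i a => φ (v i a)) (fun i a => φ (s i a)) (fun i a => φ (t i a)) := by
  unfold num
  rw [map_sub, map_mul, map_mul, map_sub, map_mul, map_mul, map_natCast, map_den', map_dform,
    map_dden, map_dden, map_form, map_form]

end eval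

section der

open Crest.Agent.R270.Fr_928 (dX coeff_dX)

variable {k : Type u} [Field k] {K : Type u} [Field K] [Algebra k K]






variable {E : Set (MvPolynomial (Σ i, J i) k)} {w : I → ℤ} (th : CForm E w)
  {F : ∀ i, J i → K[X]}






end der

section forms

variable {k : Type u} [Field k] {K : Type u} [Field K] [Algebra k K]
  {E : Set (MvPolynomial (Σ i, J i) k)} {w : I → ℤ} (th : CForm E w)



theorem num_swap [DecidableEq I] {A : Type*} [CommRing A] [Algebra k A] (N : ℕ)
    (p : (Σ i, J i) → MvPolynomial (Σ i, J i) k) (c : ∀ i, J i) (v s t : ∀ i, J i → A) :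
    num N p c v t s = - num N p c v s t := by
  have h1 : dform p v t s = - dform p v s t := by
    unfold dform
    simp only [← Finset.sum_neg_distrib]
    exact Finset.sum_congr rfl fun x _ => Finset.sum_congr rfl fun y _ => by ring
  unfold num
  rw [h1]
  ring





end forms

end Crest.Agent.R260.Om_997
end

-- ▼ part R260/Da1_997
section

/-!
Row 260 (S0398), helper997: chart independence of `dθ` for arbitrary tangent pairs, part 1:
the calculus for two derivations that need not commute, and the Cramer fields.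
-/

set_option autoImplicit false

namespace Crest.Agent.R260.Om_997

open Crest.Agent.R270.BM_360 Crest.Agent.R260.Lin_678 Crest.Agent.R260.Rk_406

universe u

variable {I : Type} {J : I → Type} [Fintype I] [∀ i, Fintype (J i)]

section clc

variable {k : Type u} [Field k] {A : Type*} [CommRing A] [Algebra k A]

theorem dform_eq_lie (d₁ d₂ : Derivation k A A) (p : (Σ i, J i) → MvPolynomial (Σ i, J i) k)
    (F : ∀ i, J i → A) :
    dform p F (dv d₁ F) (dv d₂ F) = d₁ (form p F (dv d₂ F)) - d₂ (form p F (dv d₁ F)) -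
      form p F (dv ⁅d₁, d₂⁆ F) := by
  have h3 : form p F (dv ⁅d₁, d₂⁆ F) =
      form p F (dv d₁ (dv d₂ F)) - form p F (dv d₂ (dv d₁ F)) := by
    unfold form dv
    rw [← Finset.sum_sub_distrib]
    refine Finset.sum_congr rfl fun x _ => ?_
    rw [Derivation.commutator_apply]
    ring
  have h4 : dform p F (dv d₁ F) (dv d₂ F) =
      (∑ x : Σ i, J i, ∑ y : Σ i, J i,
      MvPolynomial.aeval (fun y : Σ i, J i => F y.1 y.2) (MvPolynomial.pderiv y (p x)) *
        (dv d₁ F y.1 y.2 * dv d₂ F x.1 x.2)) -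
      (∑ x : Σ i, J i, ∑ y : Σ i, J i,
      MvPolynomial.aeval (fun y : Σ i, J i => F y.1 y.2) (MvPolynomial.pderiv y (p x)) *
        (dv d₂ F y.1 y.2 * dv d₁ F x.1 x.2)) := by
    unfold dform
    rw [← Finset.sum_sub_distrib]
    refine Finset.sum_congr rfl fun x _ => ?_
    rw [← Finset.sum_sub_distrib]
    refine Finset.sum_congr rfl fun y _ => ?_
    ring
  rw [der_form, der_form, h3, h4]
  ring

/-- **chart independence** of `dθ` for two derivations. -/
theorem num_agree_lie [DecidableEq I] {A : Type u} [CommRing A] [IsReduced A] [Algebra k A]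
    {E : Set (MvPolynomial (Σ i, J i) k)} {w : I → ℤ} (th : CForm E w)
    (d₁ d₂ : Derivation k A A) {F : ∀ i, J i → A} (hF : OnX E F) (c c' : ∀ i, J i) :
    den c' F ^ (th.N + 1) * num th.N (th.p c) c F (dv d₁ F) (dv d₂ F) =
      den c F ^ (th.N + 1) * num th.N (th.p c') c' F (dv d₁ F) (dv d₂ F) := by
  have a1 := th.agree A F (dv d₁ F) hF (tan_dv hF d₁) c c'
  have a2 := th.agree A F (dv d₂ F) hF (tan_dv hF d₂) c c'
  have a3 := th.agree A F (dv ⁅d₁, d₂⁆ F) hF (tan_dv hF ⁅d₁, d₂⁆) c c'
  have b1 := congrArg d₂ a1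
  have b2 := congrArg d₁ a2
  rw [Derivation.leibniz, Derivation.leibniz] at b1 b2
  simp only [smul_eq_mul] at b1 b2
  have e1 := mul_der_pow d₁ (den c F) th.N
  have e2 := mul_der_pow d₂ (den c F) th.N
  have e1' := mul_der_pow d₁ (den c' F) th.N
  have e2' := mul_der_pow d₂ (den c' F) th.N
  have f1 := dform_eq_lie d₁ d₂ (th.p c) F
  have f2 := dform_eq_lie d₁ d₂ (th.p c') F
  unfold num
  rw [f1, f2, ← der_den, ← der_den, ← der_den, ← der_den]
  generalize form (th.p c) F (dv d₁ F) = α₁ at *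
  generalize form (th.p c) F (dv d₂ F) = α₂ at *
  generalize form (th.p c') F (dv d₁ F) = β₁ at *
  generalize form (th.p c') F (dv d₂ F) = β₂ at *
  generalize form (th.p c) F (dv ⁅d₁, d₂⁆ F) = α₃ at *
  generalize form (th.p c') F (dv ⁅d₁, d₂⁆ F) = β₃ at *
  generalize den c F = x at *
  generalize den c' F = y at *
  generalize th.N = N at *
  generalize hX1 : d₁ (x ^ N) = X1 at *
  generalize hX2 : d₂ (x ^ N) = X2 at *
  generalize hY1 : d₁ (y ^ N) = Y1 at *
  generalize hY2 : d₂ (y ^ N) = Y2 at *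
  generalize d₁ x = x1 at *
  generalize d₂ x = x2 at *
  generalize d₁ y = y1 at *
  generalize d₂ y = y2 at *
  generalize d₁ α₂ = dα2 at *
  generalize d₂ α₁ = dα1 at *
  generalize d₁ β₂ = dβ2 at *
  generalize d₂ β₁ = dβ1 at *
  rw [pow_succ, pow_succ]
  linear_combination (-(x * y)) * b2 + (x * y) * b1 + (x * y) * a3 + (y * β₂) * e1 -
    (y * β₁) * e2 - (x * α₂) * e1' + (x * α₁) * e2' + (N : A) * y * x1 * a2 -
    (N : A) * y * x2 * a1 + (N : A) * x * y1 * a2 - (N : A) * x * y2 * a1

end clc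

/-! ### derivations of the coordinate ring -/

section coord

variable {k : Type u} [Field k]

/-- the coordinate ring of the multicone -/
abbrev CR (E : Set (MvPolynomial (Σ i, J i) k)) : Type u := MvPolynomial (Σ i, J i) k ⧸ Ideal.span E

/-- the generic point of the multicone with entries in the coordinate ring -/
noncomputable def gv (E : Set (MvPolynomial (Σ i, J i) k)) : ∀ i, J i → CR E :=
  fun i a => Ideal.Quotient.mk (Ideal.span E) (MvPolynomial.X ⟨i, a⟩)

omit [Fintype I] [∀ i, Fintype (J i)] in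
theorem aeval_gv (E : Set (MvPolynomial (Σ i, J i) k)) (p : MvPolynomial (Σ i, J i) k) :
    MvPolynomial.aeval (fun x : Σ i, J i => gv E x.1 x.2) p =
      Ideal.Quotient.mk (Ideal.span E) p := by
  have h : MvPolynomial.aeval (fun x : Σ i, J i => gv E x.1 x.2) =
      Ideal.Quotient.mkₐ k (Ideal.span E) := by
    ext x
    rw [MvPolynomial.aeval_X]
    rfl
  rw [h]
  rfl

omit [Fintype I] [∀ i, Fintype (J i)] in
theorem onX_gv (E : Set (MvPolynomial (Σ i, J i) k)) : OnX E (gv E) := by
  intro p hp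
  change MvPolynomial.aeval (fun x : Σ i, J i => gv E x.1 x.2) p = 0
  rw [aeval_gv, Ideal.Quotient.eq_zero_iff_mem]
  exact Ideal.subset_span hp

/-- every tangent vector at the generic point is given by a derivation -/
theorem exists_der_gv (E : Set (MvPolynomial (Σ i, J i) k)) {S : ∀ i, J i → CR E}
    (hS : Tan E (gv E) S) : ∃ d : Derivation k (CR E) (CR E), dv d (gv E) = S := by
  classical
  have hsurj : Function.Surjective (Ideal.Quotient.mkₐ k (Ideal.span E)) :=
    Ideal.Quotient.mkₐ_surjective k _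
  choose g hg using fun x : Σ i, J i => hsurj (S x.1 x.2)
  set D : Derivation k (MvPolynomial (Σ i, J i) k) (MvPolynomial (Σ i, J i) k) :=
    MvPolynomial.mkDerivation k g with hD
  have hDp : ∀ p, Ideal.Quotient.mkₐ k (Ideal.span E) (D p) = ∑ x : Σ i, J i,
      MvPolynomial.aeval (fun y : Σ i, J i => gv E y.1 y.2) (MvPolynomial.pderiv x p) *
        S x.1 x.2 := by
    intro p
    have h1 := der_aeval D (fun x : Σ i, J i => (MvPolynomial.X x : MvPolynomial (Σ i, J i) k)) p
    rw [MvPolynomial.aeval_X_left_apply] at h1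
    rw [h1, map_sum]
    refine Finset.sum_congr rfl fun x _ => ?_
    rw [map_mul, MvPolynomial.aeval_X_left_apply, hD, MvPolynomial.mkDerivation_X, hg, aeval_gv]
    rfl
  have hker : ∀ p, Ideal.Quotient.mkₐ k (Ideal.span E) p = 0 →
      Ideal.Quotient.mkₐ k (Ideal.span E) (D p) = 0 := by
    intro p hp
    have hp' : p ∈ Ideal.span E := Ideal.Quotient.eq_zero_iff_mem.mp hp
    induction hp' using Submodule.span_induction with
    | mem q hq => rw [hDp]; exact hS q hq
    | zero => rw [map_zero, map_zero]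
    | add q r hq hr h1 h2 =>
      rw [map_add, map_add, h1 (Ideal.Quotient.eq_zero_iff_mem.mpr hq),
        h2 (Ideal.Quotient.eq_zero_iff_mem.mpr hr), add_zero]
    | smul a q hq h1 =>
      have hq0 : Ideal.Quotient.mkₐ k (Ideal.span E) q = 0 := Ideal.Quotient.eq_zero_iff_mem.mpr hq
      rw [smul_eq_mul, Derivation.leibniz, map_add, smul_eq_mul, smul_eq_mul, map_mul, map_mul,
        h1 hq0, hq0, mul_zero, zero_mul, add_zero]
  refine ⟨Derivation.liftOfSurjective hsurj hker, ?_⟩
  funext i a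
  have h2 := Derivation.liftOfSurjective_apply hsurj hker (MvPolynomial.X ⟨i, a⟩)
  have h3 : D (MvPolynomial.X ⟨i, a⟩) = g ⟨i, a⟩ := MvPolynomial.mkDerivation_X k g ⟨i, a⟩
  rw [h3, hg] at h2
  exact h2

end coord

end Crest.Agent.R260.Om_997
end

-- ▼ part R260/Da2_997
section

/-!
Row 260 (S0398), helper997: **`DthAgree`** (789): `dθ` does not depend on the chart, for arbitrary
tangent pairs at arbitrary points over fields.
-/

set_option autoImplicit false

namespace Crest.Agent.R260.Om_997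

open Crest.Agent.R270.BM_360 Crest.Agent.R260.Lin_678 Crest.Agent.R260.Rk_406
open Module

universe u

/-! ### Cramer's rule in families -/

section cramer

variable {R : Type*} [CommRing R] {A b : Type*} [Fintype b] [DecidableEq b] {r : ℕ}

/-- the Cramer vector `M e_x - ∑_j (adj · col_x)_j e_(g j)` -/
noncomputable def cram (N : A → b → R) (f : Fin r → A) (g : Fin r → b) (x : b) : b → R :=
  fun y => (Matrix.of fun i j => N (f i) (g j)).det * (if y = x then 1 else 0) -
    ∑ j, if y = g j then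
      ((Matrix.of fun i j => N (f i) (g j)).adjugate.mulVec fun i => N (f i) x) j else 0

theorem sum_cram (N : A → b → R) (f : Fin r → A) (g : Fin r → b) (x : b) (u : b → R) :
    ∑ y, u y * cram N f g x y = (Matrix.of fun i j => N (f i) (g j)).det * u x -
      ∑ j, u (g j) *
        ((Matrix.of fun i j => N (f i) (g j)).adjugate.mulVec fun i => N (f i) x) j := by
  unfold cram
  simp only [mul_sub, Finset.sum_sub_distrib]
  congr 1
  · rw [Finset.sum_eq_single x]
    · rw [if_pos rfl]; ring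
    · intro y _ hy
      rw [if_neg hy]; ring
    · intro h
      exact absurd (Finset.mem_univ x) h
  · simp only [Finset.mul_sum]
    rw [Finset.sum_comm]
    refine Finset.sum_congr rfl fun j _ => ?_
    rw [Finset.sum_eq_single (g j)]
    · rw [if_pos rfl]
    · intro y _ hy
      rw [if_neg hy, mul_zero]
    · intro h
      exact absurd (Finset.mem_univ _) h

theorem cram_row (N : A → b → R) (f : Fin r → A) (g : Fin r → b) (x : b) (l : Fin r) :
    ∑ y, N (f l) y * cram N f g x y = 0 := by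
  rw [sum_cram]
  set Mx : Matrix (Fin r) (Fin r) R := Matrix.of fun i j => N (f i) (g j) with hM
  have h1 : ∑ j, N (f l) (g j) * (Mx.adjugate.mulVec fun i => N (f i) x) j =
      (Mx.mulVec (Mx.adjugate.mulVec fun i => N (f i) x)) l := rfl
  rw [h1, Matrix.mulVec_mulVec, Matrix.mul_adjugate, Matrix.smul_mulVec, Matrix.one_mulVec,
    Pi.smul_apply, smul_eq_mul, sub_self]

theorem cram_comb (N : A → b → R) (f : Fin r → A) (g : Fin r → b) {t : b → R}
    (ht : ∀ l, ∑ y, N (f l) y * t y = 0) (y : b) :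
    ∑ x, t x * cram N f g x y = (Matrix.of fun i j => N (f i) (g j)).det * t y := by
  unfold cram
  set Mx : Matrix (Fin r) (Fin r) R := Matrix.of fun i j => N (f i) (g j) with hM
  simp only [mul_sub, Finset.sum_sub_distrib]
  have h1 : ∑ x, t x * (Mx.det * if y = x then 1 else 0) = Mx.det * t y := by
    rw [Finset.sum_eq_single y]
    · rw [if_pos rfl]; ring
    · intro x _ hx
      rw [if_neg (Ne.symm hx)]; ring
    · intro h
      exact absurd (Finset.mem_univ y) h
  have h2 : ∑ x, t x * ∑ j, (if y = g j then (Mx.adjugate.mulVec fun i => N (f i) x) j else 0) =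
      0 := by
    simp only [Finset.mul_sum]
    rw [Finset.sum_comm]
    refine Finset.sum_eq_zero fun j _ => ?_
    by_cases hj : y = g j
    · simp only [if_pos hj]
      have h3 : ∑ x, t x * (Mx.adjugate.mulVec fun i => N (f i) x) j =
          ∑ i, Mx.adjugate j i * ∑ x, N (f i) x * t x := by
        simp only [Matrix.mulVec, dotProduct, Finset.mul_sum]
        rw [Finset.sum_comm]
        refine Finset.sum_congr rfl fun i _ => Finset.sum_congr rfl fun x _ => ?_
        ring
      rw [h3]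
      exact Finset.sum_eq_zero fun i _ => by rw [ht, mul_zero]
    · simp only [if_neg hj, mul_zero, Finset.sum_const_zero]
  rw [h1, h2, sub_zero]

omit [Fintype b] in
theorem map_cram {R' : Type*} [CommRing R'] (φ : R →+* R') (N : A → b → R) (f : Fin r → A)
    (g : Fin r → b) (x y : b) :
    φ (cram N f g x y) = cram (fun a y => φ (N a y)) f g x y := by
  unfold cram
  have h1 : φ.mapMatrix (Matrix.of fun i j => N (f i) (g j)) =
      Matrix.of fun i j => φ (N (f i) (g j)) := by
    ext i j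
    rfl
  rw [map_sub, map_mul, RingHom.map_det, h1, map_sum]
  congr 1
  · congr 1
    split_ifs
    · exact map_one φ
    · exact map_zero φ
  · refine Finset.sum_congr rfl fun j _ => ?_
    split_ifs
    · rw [← h1, ← RingHom.map_adjugate]
      simp only [Matrix.mulVec, dotProduct, map_sum, map_mul]
      rfl
    · exact map_zero φ

end cramer

/-- lifting of kernel vectors along a specialisation that does not lower the rank. -/
theorem exists_lift {R : Type*} [CommRing R] [IsDomain R] {κ : Type*} [Field κ] (φ : R →+* κ)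
    {A b : Type*} [Fintype b] (N : A → b → R)
    (hr : finrank (FractionRing R) (Row fun a y => algebraMap R (FractionRing R) (N a y)) ≤
      finrank κ (Row fun a y => φ (N a y))) {t : b → κ}
    (ht : ∀ a, ∑ y, φ (N a y) * t y = 0) :
    ∃ (S : b → b → R) (a : b → κ), (∀ x l, ∑ y, N l y * S x y = 0) ∧
      ∀ y, t y = ∑ x, a x * φ (S x y) := by
  classical
  obtain ⟨f, g, hd⟩ := (le_row_iff (fun a y => φ (N a y)) _).1 (le_refl _)
  set L := FractionRing R
  set ι : R →+* L := algebraMap R L with hι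
  have hφd : (Matrix.of fun i j => φ (N (f i) (g j))).det =
      φ (Matrix.of fun i j => N (f i) (g j)).det := by
    rw [RingHom.map_det]; rfl
  have hιd : (Matrix.of fun i j => ι (N (f i) (g j))).det =
      ι (Matrix.of fun i j => N (f i) (g j)).det := by
    rw [RingHom.map_det]; rfl
  have hM : (Matrix.of fun i j => N (f i) (g j)).det ≠ 0 := by
    intro h0
    rw [hφd, h0, map_zero] at hd
    exact hd rfl
  have hdL : (Matrix.of fun i j => ι (N (f i) (g j))).det ≠ 0 := by
    rw [hιd]
    intro h0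
    exact hM ((IsFractionRing.injective R L) (by rw [h0, map_zero]))
  -- the rows `f i` span all rows over `L`
  have hli : LinearIndependent L (fun i => (fun y => ι (N (f i) y))) := by
    have h5 : IsUnit (Matrix.of fun i j => ι (N (f i) (g j))) := by
      rw [Matrix.isUnit_iff_isUnit_det]; exact isUnit_iff_ne_zero.2 hdL
    have h4 := Matrix.linearIndependent_rows_iff_isUnit.2 h5
    let π : (b → L) →ₗ[L] (Fin _ → L) := LinearMap.funLeft L L g
    have : LinearIndependent L (π ∘ (fun i => (fun y => ι (N (f i) y)))) := h4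
    exact LinearIndependent.of_comp π this
  have hspan : Submodule.span L (Set.range fun i => (fun y => ι (N (f i) y))) =
      Row fun a y => ι (N a y) := by
    refine Submodule.eq_of_le_of_finrank_le ?_ ?_
    · rw [Submodule.span_le]
      rintro _ ⟨i, rfl⟩
      exact Submodule.subset_span ⟨f i, rfl⟩
    · rw [finrank_span_eq_card hli, Fintype.card_fin]
      exact hr
  refine ⟨cram N f g, fun x => t x / (Matrix.of fun i j => φ (N (f i) (g j))).det, ?_, ?_⟩
  · intro x l
    apply IsFractionRing.injective R L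
    rw [map_zero, map_sum]
    change ∑ y, ι (N l y * cram N f g x y) = 0
    simp only [map_mul, map_cram]
    have hl : (fun y => ι (N l y)) ∈
        Submodule.span L (Set.range fun i => (fun y => ι (N (f i) y))) := by
      rw [hspan]
      exact Submodule.subset_span ⟨l, rfl⟩
    have key : ∀ u ∈ Submodule.span L (Set.range fun i => (fun y => ι (N (f i) y))),
        ∑ y, u y * cram (fun a y => ι (N a y)) f g x y = 0 := by
      intro u hu
      induction hu using Submodule.span_induction with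
      | mem u hu =>
        obtain ⟨i, rfl⟩ := hu
        exact cram_row (fun a y => ι (N a y)) f g x i
      | zero => simp
      | add u v _ _ hu hv =>
        simp only [Pi.add_apply, add_mul, Finset.sum_add_distrib, hu, hv, add_zero]
      | smul a u _ hu =>
        simp only [Pi.smul_apply, smul_eq_mul, mul_assoc, ← Finset.mul_sum, hu, mul_zero]
    exact key _ hl
  · intro y
    have h1 := cram_comb (fun a y => φ (N a y)) f g (t := t) (fun l => ht (f l)) y
    simp only [map_cram]
    have h2 : ∀ x, t x / (Matrix.of fun i j => φ (N (f i) (g j))).det *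
        cram (fun a y => φ (N a y)) f g x y =
        (t x * cram (fun a y => φ (N a y)) f g x y) /
          (Matrix.of fun i j => φ (N (f i) (g j))).det := fun x => by ring
    simp only [h2]
    rw [← Finset.sum_div, h1, mul_div_cancel_left₀ _ hd]

/-! ### `DthAgree` -/

section main

variable {I : Type} {J : I → Type} [Fintype I] [∀ i, Fintype (J i)] {k : Type u} [Field k]

/-- every tangent vector at a point over a field is a combination of values of tangent vectors at
the generic point (with entries in the coordinate ring). -/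
theorem tan_lift (D : CData k I J) (hP : (Ideal.span D.E).IsPrime) {κ : Type u} [Field κ]
    [Algebra k κ] {v t : ∀ i, J i → κ} (hv : OnX D.E v) (hv0 : ∀ i, v i ≠ 0) (ht : Tan D.E v t)
    (φ : CR D.E →ₐ[k] κ) (hφ : ∀ i a, φ (gv D.E i a) = v i a) :
    ∃ (S : (Σ i, J i) → ∀ i, J i → CR D.E) (a : (Σ i, J i) → κ),
      (∀ x, Tan D.E (gv D.E) (S x)) ∧ ∀ i j, t i j = ∑ x, a x * φ (S x i j) := by
  classical
  have : IsDomain (CR D.E) := (Ideal.Quotient.isDomain_iff_prime _).2 hP
  set L := FractionRing (CR D.E)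
  set ι : CR D.E →ₐ[k] L := IsScalarTower.toAlgHom k (CR D.E) L with hι
  have hιinj : Function.Injective ι := IsFractionRing.injective (CR D.E) L
  set vL : ∀ i, J i → L := fun i a => ι (gv D.E i a) with hvL
  have hvL' : OnX D.E vL := by
    intro p hp
    have h1 := congrArg ι (onX_gv D.E p hp)
    rw [map_zero, map_aeval'] at h1
    exact h1
  have hvL0 : ∀ i, vL i ≠ 0 := by
    intro i h0
    obtain ⟨a, ha⟩ := Function.ne_iff.1 (hv0 i)
    have h1 : ι (gv D.E i a) = 0 := congrFun h0 a
    have h2 : gv D.E i a = 0 := hιinj (by rw [h1, map_zero])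
    apply ha
    rw [← hφ, h2, map_zero]
    rfl
  have r1 := row_add_ker (ev (Jm D.E) (unc vL))
  have r2 := row_add_ker (ev (Jm D.E) (unc v))
  rw [← Ga6a_186.finrank_TanSp, D.tan_dim L vL hvL' hvL0] at r1
  rw [← Ga6a_186.finrank_TanSp, D.tan_dim κ v hv hv0] at r2
  set N : D.E → (Σ i, J i) → CR D.E := fun p x =>
    Ideal.Quotient.mk (Ideal.span D.E) (MvPolynomial.pderiv x p.1) with hN
  have e1 : (fun a y => algebraMap (CR D.E) (FractionRing (CR D.E)) (N a y)) =
      ev (Jm D.E) (unc vL) := by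
    funext a y
    simp only [hN, ev, Jm]
    rw [← aeval_gv]
    exact map_aeval' ι _ _
  have e2 : (fun a y => φ.toRingHom (N a y)) = ev (Jm D.E) (unc v) := by
    funext a y
    simp only [hN, ev, Jm]
    rw [← aeval_gv]
    have h1 := map_aeval' φ (fun x : Σ i, J i => gv D.E x.1 x.2) (MvPolynomial.pderiv y a.1)
    simp only [hφ] at h1
    exact h1
  obtain ⟨S, a, hS, hS2⟩ := exists_lift φ.toRingHom N
    (by
      rw [e1, e2]
      change finrank L (Row (ev (Jm D.E) (unc vL))) ≤ finrank κ (Row (ev (Jm D.E) (unc v)))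
      omega) (t := unc t)
    (fun p => by
      have h1 := ht p.1 p.2
      have h2 : ∀ y, φ.toRingHom (N p y) = ev (Jm D.E) (unc v) p y := fun y =>
        congrFun (congrFun e2 p) y
      simp only [h2]
      exact h1)
  refine ⟨fun x => cur (S x), a, ?_, fun i j => hS2 ⟨i, j⟩⟩
  intro x p hp
  have h1 := hS x ⟨p, hp⟩
  simp only [hN] at h1
  simp only [aeval_gv]
  exact h1

/-- **`DthAgree`.** -/
theorem dth_agree [DecidableEq I] (D : CData k I J) (hP : (Ideal.span D.E).IsPrime) (κ : Type u)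
    [Field κ] [Algebra k κ] (v s t : ∀ i, J i → κ) (hv : OnX D.E v) (hv0 : ∀ i, v i ≠ 0)
    (hs : Tan D.E v s) (ht : Tan D.E v t) (c c' : ∀ i, J i) :
    den c' v ^ (D.th.N + 1) * num D.th.N (D.th.p c) c v s t =
      den c v ^ (D.th.N + 1) * num D.th.N (D.th.p c') c' v s t := by
  have : IsDomain (CR D.E) := (Ideal.Quotient.isDomain_iff_prime _).2 hP
  -- the specialisation
  set φ : CR D.E →ₐ[k] κ := Ideal.Quotient.liftₐ (Ideal.span D.E)
    (MvPolynomial.aeval (fun x : Σ i, J i => v x.1 x.2)) (by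
      intro p hp
      have h1 : Ideal.span D.E ≤ RingHom.ker (MvPolynomial.aeval
          (fun x : Σ i, J i => v x.1 x.2) : MvPolynomial (Σ i, J i) k →ₐ[k] κ) :=
        Ideal.span_le.2 fun q hq => hv q hq
      exact h1 hp) with hφd
  have hφ : ∀ i a, φ (gv D.E i a) = v i a := by
    intro i a
    have h1 : φ (gv D.E i a) = MvPolynomial.aeval (fun x : Σ i, J i => v x.1 x.2)
        (MvPolynomial.X ⟨i, a⟩) := rfl
    rw [h1, MvPolynomial.aeval_X]
  obtain ⟨S, a, hS, hs2⟩ := tan_lift D hP hv hv0 hs φ hφ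
  obtain ⟨T, b, hT, ht2⟩ := tan_lift D hP hv hv0 ht φ hφ
  have key : ∀ x y, den c' v ^ (D.th.N + 1) * num D.th.N (D.th.p c) c v
        (fun i j => φ (S x i j)) (fun i j => φ (T y i j)) =
      den c v ^ (D.th.N + 1) * num D.th.N (D.th.p c') c' v
        (fun i j => φ (S x i j)) (fun i j => φ (T y i j)) := by
    intro x y
    obtain ⟨d₁, h1⟩ := exists_der_gv D.E (hS x)
    obtain ⟨d₂, h2⟩ := exists_der_gv D.E (hT y)
    have h3 := num_agree_lie D.th d₁ d₂ (onX_gv D.E) c c'
    rw [h1, h2] at h3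
    have h4 := congrArg φ h3
    rw [map_mul, map_mul, map_pow, map_pow, map_den', map_den', map_num, map_num] at h4
    simp only [hφ] at h4
    exact h4
  have sum_left : ∀ (q : (Σ i, J i) → MvPolynomial (Σ i, J i) k) (e : ∀ i, J i)
      (u : (Σ i, J i) → ∀ i, J i → κ) (r : (Σ i, J i) → κ) (z : ∀ i, J i → κ)
      (F : Finset (Σ i, J i)),
      num D.th.N q e v (fun i j => ∑ x ∈ F, r x * u x i j) z =
        ∑ x ∈ F, r x * num D.th.N q e v (u x) z := by
    classical
    intro q e u r z F
    induction F using Finset.induction_on with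
    | empty =>
      have h0 := num_smul (p := q) D.th.N e 0 v (fun i j => (0 : κ)) z
      simp only [zero_mul] at h0
      simp only [Finset.sum_empty]
      exact h0
    | insert x F hx ih =>
      simp only [Finset.sum_insert hx]
      rw [num_add, num_smul, ih]
  have sum_right : ∀ (q : (Σ i, J i) → MvPolynomial (Σ i, J i) k) (e : ∀ i, J i)
      (u : (Σ i, J i) → ∀ i, J i → κ) (r : (Σ i, J i) → κ) (z : ∀ i, J i → κ),
      num D.th.N q e v z (fun i j => ∑ x, r x * u x i j) =
        ∑ x, r x * num D.th.N q e v z (u x) := by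
    intro q e u r z
    rw [← neg_neg (num D.th.N q e v z (fun i j => ∑ x, r x * u x i j)), ← num_swap,
      sum_left, ← Finset.sum_neg_distrib]
    refine Finset.sum_congr rfl fun x _ => ?_
    rw [num_swap D.th.N q e v z (u x)]
    ring
  have hs3 : s = fun i j => ∑ x, a x * φ (S x i j) := by
    funext i j
    exact hs2 i j
  have ht3 : t = fun i j => ∑ x, b x * φ (T x i j) := by
    funext i j
    exact ht2 i j
  rw [hs3, ht3, sum_left _ c (fun x i j => φ (S x i j)),
    sum_left _ c' (fun x i j => φ (S x i j)), Finset.mul_sum, Finset.mul_sum]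
  refine Finset.sum_congr rfl fun x _ => ?_
  rw [sum_right _ c (fun x i j => φ (T x i j)), sum_right _ c' (fun x i j => φ (T x i j)),
    Finset.mul_sum, Finset.mul_sum, Finset.mul_sum, Finset.mul_sum]
  refine Finset.sum_congr rfl fun y _ => ?_
  linear_combination (a x * b y) * key x y

end main

end Crest.Agent.R260.Om_997
end

-- ▼ part R260/Da3_997
section

/-!
Row 260 (S0398), helper997: `NumEulP` (789): contraction of `dθ` with the Euler fields, for an
arbitrary tangent vector at an arbitrary point over a field; `DthAgree` and `NumEulP` as Props.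
-/

set_option autoImplicit false

namespace Crest.Agent.R260.Om_997

open Crest.Agent.R270.BM_360 Crest.Agent.R260.Lin_678
open Module

universe u

variable {I : Type} {J : I → Type} [Fintype I] [∀ i, Fintype (J i)] {k : Type u} [Field k]

theorem num_sum [DecidableEq I] {A : Type*} [CommRing A] [Algebra k A] (N : ℕ)
    (p : (Σ i, J i) → MvPolynomial (Σ i, J i) k) (c : ∀ i, J i) {ι : Type*}
    (v : ∀ i, J i → A) (u : ι → ∀ i, J i → A) (r : ι → A) (t : ∀ i, J i → A) (F : Finset ι) :
    num N p c v (fun i j => ∑ x ∈ F, r x * u x i j) t =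
      ∑ x ∈ F, r x * num N p c v (u x) t := by
  classical
  induction F using Finset.induction_on with
  | empty =>
    have h0 := num_smul (p := p) N c 0 v (fun i j => (0 : A)) t
    simp only [zero_mul] at h0
    simp only [Finset.sum_empty]
    exact h0
  | insert x F hx ih =>
    simp only [Finset.sum_insert hx]
    rw [num_add, num_smul, ih]

theorem num_sum_right [DecidableEq I] {A : Type*} [CommRing A] [Algebra k A] (N : ℕ)
    (p : (Σ i, J i) → MvPolynomial (Σ i, J i) k) (c : ∀ i, J i) {ι : Type*}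
    (v s : ∀ i, J i → A) (u : ι → ∀ i, J i → A) (r : ι → A) (F : Finset ι) :
    num N p c v s (fun i j => ∑ x ∈ F, r x * u x i j) =
      ∑ x ∈ F, r x * num N p c v s (u x) := by
  rw [← neg_neg (num N p c v s (fun i j => ∑ x ∈ F, r x * u x i j)), ← num_swap, num_sum,
    ← Finset.sum_neg_distrib]
  refine Finset.sum_congr rfl fun x _ => ?_
  rw [num_swap N p c v s (u x)]
  ring

theorem form_sum (p : (Σ i, J i) → MvPolynomial (Σ i, J i) k) {A : Type*} [CommRing A]
    [Algebra k A] {ι : Type*} (v : ∀ i, J i → A) (u : ι → ∀ i, J i → A) (r : ι → A)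
    (F : Finset ι) :
    form p v (fun i j => ∑ x ∈ F, r x * u x i j) = ∑ x ∈ F, r x * form p v (u x) := by
  unfold form
  simp only [Finset.mul_sum]
  rw [Finset.sum_comm]
  refine Finset.sum_congr rfl fun x _ => Finset.sum_congr rfl fun y _ => ?_
  ring

omit [Fintype I] [∀ i, Fintype (J i)] in
/-- the specialisation of the coordinate ring at a point. -/
theorem exists_spec {E : Set (MvPolynomial (Σ i, J i) k)} {κ : Type*} [Field κ] [Algebra k κ]
    {v : ∀ i, J i → κ} (hv : OnX E v) :
    ∃ φ : CR E →ₐ[k] κ, ∀ i a, φ (gv E i a) = v i a := by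
  refine ⟨Ideal.Quotient.liftₐ (Ideal.span E)
    (MvPolynomial.aeval (fun x : Σ i, J i => v x.1 x.2)) (by
      intro p hp
      have h1 : Ideal.span E ≤ RingHom.ker (MvPolynomial.aeval
          (fun x : Σ i, J i => v x.1 x.2) : MvPolynomial (Σ i, J i) k →ₐ[k] κ) :=
        Ideal.span_le.2 fun q hq => hv q hq
      exact h1 hp), fun i a => ?_⟩
  exact MvPolynomial.aeval_X _ _

/-- **`NumEulP`.** -/
theorem num_eulP [DecidableEq I] (D : CData k I J) (hP : (Ideal.span D.E).IsPrime) (κ : Type u)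
    [Field κ] [Algebra k κ] (v t : ∀ i, J i → κ) (hv : OnX D.E v) (hv0 : ∀ i, v i ≠ 0)
    (ht : Tan D.E v t) (c : ∀ i, J i) (a : I → κ) :
    num D.th.N (D.th.p c) c v (eul a v) t =
      (∑ i, a i * (D.w i : κ)) * (den c v * form (D.th.p c) v t) := by
  have : IsDomain (CR D.E) := (Ideal.Quotient.isDomain_iff_prime _).2 hP
  obtain ⟨φ, hφ⟩ := exists_spec hv
  obtain ⟨T, b, hT, ht2⟩ := tan_lift D hP hv hv0 ht φ hφ
  have ht3 : t = fun i j => ∑ x, b x * φ (T x i j) := by
    funext i j
    exact ht2 i j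
  have key : ∀ (i : I) x, num D.th.N (D.th.p c) c v (eul (Pi.single i (1 : κ)) v)
        (fun i j => φ (T x i j)) =
      (D.w i : κ) * (den c v * form (D.th.p c) v (fun i j => φ (T x i j))) := by
    intro i x
    obtain ⟨d, h1⟩ := exists_der_gv D.E (hT x)
    have h3 := num_eul D.th d (onX_gv D.E) c (Pi.single i (1 : CR D.E))
    rw [h1] at h3
    have h4 := congrArg φ h3
    rw [map_num, map_mul, map_mul, map_den', map_form] at h4
    have h5 : (fun i' j => φ (eul (Pi.single i (1 : CR D.E)) (gv D.E) i' j)) =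
        eul (Pi.single i (1 : κ)) v := by
      funext i' j
      unfold eul
      rw [map_mul, hφ]
      by_cases h : i' = i
      · subst h
        rw [Pi.single_eq_same, Pi.single_eq_same, map_one]
      · rw [Pi.single_eq_of_ne h, Pi.single_eq_of_ne h, map_zero]
    have h6 : φ (∑ i', Pi.single (M := fun _ => CR D.E) i (1 : CR D.E) i' * (D.w i' : CR D.E)) =
        (D.w i : κ) := by
      rw [Finset.sum_eq_single i]
      · rw [Pi.single_eq_same, one_mul, map_intCast]
      · intro j _ hj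
        rw [Pi.single_eq_of_ne hj, zero_mul]
      · intro h
        exact absurd (Finset.mem_univ i) h
    rw [h5, h6] at h4
    simp only [hφ] at h4
    exact h4
  have heul : eul a v = fun i' j => ∑ i, a i * eul (Pi.single i (1 : κ)) v i' j := by
    funext i' j
    unfold eul
    rw [Finset.sum_eq_single i']
    · rw [Pi.single_eq_same, one_mul]
    · intro i _ hi
      rw [Pi.single_eq_of_ne (Ne.symm hi), zero_mul, mul_zero]
    · intro h
      exact absurd (Finset.mem_univ i') h
  rw [heul, num_sum, ht3, Finset.sum_mul]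
  refine Finset.sum_congr rfl fun i _ => ?_
  rw [num_sum_right (u := fun x i j => φ (T x i j)), form_sum (u := fun x i j => φ (T x i j)),
    Finset.mul_sum, Finset.mul_sum, Finset.mul_sum]
  refine Finset.sum_congr rfl fun x _ => ?_
  rw [key i x]
  ring

end Crest.Agent.R260.Om_997
end

-- ▼ part R260/Num14_789
section

/-!
Row 260 (S0398), AG-NUM (helper789), part 14: `NumP`.
-/

set_option autoImplicit false

namespace Crest.Agent.R260.Num_789

open Crest.Agent.R270.BM_360 Crest.Agent.R270.DimN_282 Crest.Agent.R260.Lin_678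
open Crest.Agent.R260.Om_997 (num dden)
open Crest.Agent.R260.Frm1_428 Crest.Agent.R260.Frm3_428

universe u

variable {k : Type u} [Field k] {I : Type} {J : I → Type} [Fintype I] [∀ i, Fintype (J i)]

section tan

variable {E : Set (MvPolynomial (Σ i, J i) k)}

theorem tan_cur {A : Type*} [CommRing A] [Algebra k A] (v : ∀ i, J i → A) (t : (Σ i, J i) → A) :
    jac E v t = 0 ↔ Tan E v (cur t) := by
  constructor
  · intro h p hp
    have h1 := congrFun h ⟨p, hp⟩
    rw [jac_apply, Pi.zero_apply] at h1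
    exact h1
  · intro h
    funext p
    rw [jac_apply, Pi.zero_apply]
    exact h p.1 p.2

theorem sum_of_hom {p : MvPolynomial (Σ i, J i) k} {δ : I → ℕ}
    (h : open Classical in MvPolynomial.IsWeightedHomogeneous
      (fun x : Σ i, J i => (Pi.single x.1 1 : I → ℕ)) p δ) :
    ∀ m ∈ p.support, ∀ i, ∑ a, m ⟨i, a⟩ = δ i := by
  classical
  intro m hm i
  have h1 := h (MvPolynomial.mem_support_iff.mp hm)
  rw [← h1, Finsupp.weight_apply, Finsupp.sum, Finset.sum_apply]
  have h2 : ∑ x ∈ m.support, (m x • (Pi.single x.1 1 : I → ℕ)) i =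
      ∑ x : Σ i, J i, m x * (if i = x.1 then 1 else 0) := by
    rw [← Finset.sum_subset (Finset.subset_univ m.support)]
    · refine Finset.sum_congr rfl fun x _ => ?_
      rw [Pi.smul_apply, smul_eq_mul, Pi.single_apply]
    · intro x _ hx
      rw [Finsupp.notMem_support_iff.mp hx, zero_mul]
  have h3 : ∑ x : Σ i, J i, m x * (if i = x.1 then 1 else 0) = ∑ a, m ⟨i, a⟩ := by
    rw [Fintype.sum_sigma, Finset.sum_eq_single i]
    · exact Finset.sum_congr rfl fun a _ => by rw [if_pos rfl, mul_one]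
    · intro j _ hj
      exact Finset.sum_eq_zero fun a _ => by rw [if_neg (Ne.symm hj), mul_zero]
    · intro h; exact absurd (Finset.mem_univ i) h
  rw [← h3, ← h2]

/-- Euler vectors are tangent. -/
theorem tan_eul (hE : MHom E) {A : Type*} [CommRing A] [Algebra k A] {v : ∀ i, J i → A}
    (hv : OnX E v) (a : I → A) : Tan E v (Crest.Agent.R260.Om_997.eul a v) := by
  intro p hp
  obtain ⟨δ, hδ⟩ := hE p hp
  rw [Fintype.sum_sigma]
  refine Finset.sum_eq_zero fun i _ => ?_
  have h1 := Crest.Agent.R260.Om_997.euler_block (A := A) i (δ i)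
    (fun m hm => sum_of_hom hδ m hm i) (fun y : Σ i, J i => v y.1 y.2)
  rw [hv p hp, mul_zero] at h1
  have h2 : ∑ b, MvPolynomial.aeval (fun y : Σ i, J i => v y.1 y.2)
      (MvPolynomial.pderiv (⟨i, b⟩ : Σ i, J i) p) * Crest.Agent.R260.Om_997.eul a v i b =
      a i * ∑ b, MvPolynomial.aeval (fun y : Σ i, J i => v y.1 y.2)
        (MvPolynomial.pderiv (⟨i, b⟩ : Σ i, J i) p) * v i b := by
    rw [Finset.mul_sum]
    refine Finset.sum_congr rfl fun b _ => ?_
    unfold Crest.Agent.R260.Om_997.eul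
    ring
  rw [h2, h1, mul_zero]

/-- the two forms of the tangent space. -/
def tanEquiv {κ : Type u} [Field κ] [Algebra k κ] (v : ∀ i, J i → κ) :
    LinearMap.ker (jac E v) ≃ₗ[κ] TanSp E v where
  toFun t := ⟨cur t.1, (tan_cur v t.1).mp t.2⟩
  invFun t := ⟨fun x => t.1 x.1 x.2, (tan_cur v _).mpr t.2⟩
  left_inv _ := rfl
  right_inv _ := rfl
  map_add' _ _ := rfl
  map_smul' _ _ := rfl

end tan

theorem d7r (D : CData k I J) : D7r D.E (2 * D.m + 1 + Fintype.card I) := by
  intro κ _ _ v hv hv0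
  rw [(tanEquiv v).finrank_eq]
  exact D.tan_dim κ v hv hv0

variable [DecidableEq I]

/-- the basis of `{u | ∑ w_i u_i = 0}`. -/
def uE (D : CData k I J) (i0 : I) (σ : {i : I // i ≠ i0}) : I → k :=
  fun i => if i = σ.1 then (D.w i0 : k) else if i = i0 then -(D.w σ.1 : k) else 0

omit [DecidableEq I] in
theorem exists_i0 (D : CData k I J) : ∃ i0, (D.w i0 : k) ≠ 0 := by
  by_contra hcon
  push Not at hcon
  have h1 := congrArg (Int.cast : ℤ → k) D.wβ
  push_cast at h1
  rw [Finset.sum_eq_zero fun i _ => by rw [hcon i, zero_mul]] at h1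
  exact zero_ne_one h1

omit [DecidableEq I] in
theorem wcast_ne {D : CData k I J} {i0 : I} (h : (D.w i0 : k) ≠ 0) (κ : Type u) [Field κ]
    [Algebra k κ] : (D.w i0 : κ) ≠ 0 := by
  intro h0
  apply h
  apply (algebraMap k κ).injective
  rw [map_intCast, map_zero, h0]

theorem uE_w {D : CData k I J} {i0 : I} (κ : Type u) [Field κ] [Algebra k κ]
    (σ : {i : I // i ≠ i0}) : ∑ i, algebraMap k κ (uE D i0 σ i) * (D.w i : κ) = 0 := by
  rw [Fintype.sum_eq_add_sum_subtype_ne _ i0, Finset.sum_eq_single σ]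
  · unfold uE
    rw [if_neg (Ne.symm σ.2), if_pos rfl, if_pos rfl, map_neg, map_intCast, map_intCast]
    ring
  · intro τ _ hτ
    unfold uE
    rw [if_neg (fun h => hτ (Subtype.ext h)), if_neg τ.2, map_zero, zero_mul]
  · intro h; exact absurd (Finset.mem_univ _) h

theorem uE_comb {D : CData k I J} {i0 : I} (h : (D.w i0 : k) ≠ 0) (κ : Type u) [Field κ]
    [Algebra k κ] (a : I → κ) (ha : ∑ i, a i * (D.w i : κ) = 0) (i : I) :
    ∑ σ : {i : I // i ≠ i0}, a σ.1 / (D.w i0 : κ) * algebraMap k κ (uE D i0 σ i) = a i := by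
  have hw := wcast_ne h κ
  by_cases hi : i = i0
  · subst hi
    have h1 : ∀ σ : {j : I // j ≠ i}, a σ.1 / (D.w i : κ) * algebraMap k κ (uE D i σ i) =
        -(a σ.1 * (D.w σ.1 : κ)) / (D.w i : κ) := by
      intro σ
      unfold uE
      rw [if_neg (Ne.symm σ.2), if_pos rfl, map_neg, map_intCast]
      ring
    rw [Finset.sum_congr rfl fun σ _ => h1 σ, ← Finset.sum_div, Finset.sum_neg_distrib]
    rw [Fintype.sum_eq_add_sum_subtype_ne _ i] at ha
    rw [div_eq_iff hw]
    linear_combination -ha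
  · rw [Finset.sum_eq_single (⟨i, hi⟩ : {j : I // j ≠ i0})]
    · unfold uE
      rw [if_pos rfl, map_intCast]
      field_simp
    · intro τ _ hτ
      unfold uE
      rw [if_neg (fun h => hτ (Subtype.ext h.symm)), if_neg hi, map_zero, mul_zero]
    · intro h; exact absurd (Finset.mem_univ _) h

theorem cur_eul {κ : Type u} [Field κ] [Algebra k κ] (u : I → k) (v : ∀ i, J i → κ) :
    cur (eul u v) = Crest.Agent.R260.Om_997.eul (fun i => algebraMap k κ (u i)) v := rfl

theorem num_skew {A : Type*} [CommRing A] [Algebra k A] (N : ℕ)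
    (p : (Σ i, J i) → MvPolynomial (Σ i, J i) k) (c : ∀ i, J i) (v s t : ∀ i, J i → A) :
    num N p c v s t = - num N p c v t s := by
  have h1 := bf_skew (qP_skew N p c) v (fun x => s x.1 x.2) (fun x => t x.1 x.2)
  rw [bf_qP, bf_qP] at h1
  exact h1

/-- **`dθ` as a two-form on the multicone.** -/
noncomputable def ofCData (D : CData k I J) (hP : (Ideal.span D.E).IsPrime) {i0 : I}
    (h0 : (D.w i0 : k) ≠ 0) : TwoForm D.E D.w (uE D i0) where
  C := ∀ i, J i
  g c := denP k c ^ (D.th.N + 1)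
  q c := qP D.th.N (D.th.p c) c
  dg _ i := D.th.N + 1
  dq c x y i := (open Classical in (D.th.N : ℤ) + 1 + D.w i - (if x.1 = i then 1 else 0) -
    (if y.1 = i then 1 else 0)).toNat
  hg c := by
    have h1 := ((zh_denP (k := k) c).pow (D.th.N + 1)).isWeightedHomogeneous
    convert h1 using 1
    funext i
    simp
  hq c x y := (zh_qP D.th c x y).isWeightedHomogeneous
  hw c x y i hq := by
    have h1 := (zh_qP D.th c x y).toNat_eq hq i
    have h2 : ((D.th.N : ℤ) + 1 + D.w i - (if x.1 = i then 1 else 0) -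
        (if y.1 = i then 1 else 0)) + (Pi.single x.1 1 : I → ℤ) i +
        (Pi.single y.1 1 : I → ℤ) i = ((D.th.N + 1 : ℕ) : ℤ) + D.w i := by
      rw [Pi.single_apply, Pi.single_apply]
      simp only [eq_comm (a := i)]
      push_cast
      ring
    rw [← h2, ← h1]
    congr!
  skew c x y := qP_skew _ _ _ _ _
  cov κ _ _ v hv hv0 := by
    choose c hc using fun i => Function.ne_iff.mp (hv0 i)
    refine ⟨c, ?_⟩
    have h1 : evp v (denP k c ^ (D.th.N + 1)) = den c v ^ (D.th.N + 1) := by
      rw [← evp_denP (k := k)]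
      exact map_pow _ _ _
    rw [h1]
    exact pow_ne_zero _ (Finset.prod_ne_zero_iff.mpr fun i _ => hc i)
  compat κ _ _ v t t' hv hv0 ht ht' c c' := by
    have h1 : ∀ c : ∀ i, J i, evp v (denP k c ^ (D.th.N + 1)) = den c v ^ (D.th.N + 1) := by
      intro c
      rw [← evp_denP (k := k)]
      exact map_pow _ _ _
    rw [h1, h1, bf_qP, bf_qP]
    exact Crest.Agent.R260.Om_997.dth_agree D hP κ v (cur t) (cur t') hv hv0
      ((tan_cur v t).mp ht) ((tan_cur v t').mp ht') c' c
  hu κ _ _ a ha := by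
    funext σ
    have h1 := ha σ.1
    rw [Finset.sum_eq_single σ] at h1
    · unfold uE at h1
      rw [if_pos rfl, map_intCast] at h1
      exact (mul_eq_zero.mp h1).resolve_right (wcast_ne h0 κ)
    · intro τ _ hτ
      unfold uE
      rw [if_neg (fun h => hτ (Subtype.ext h.symm)), if_neg σ.2, map_zero, mul_zero]
    · intro h; exact absurd (Finset.mem_univ _) h
  rad κ _ _ v t hv hv0 ht c hc hrad := by
    have h1 : evp v (denP k c ^ (D.th.N + 1)) = den c v ^ (D.th.N + 1) := by
      rw [← evp_denP (k := k)]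
      exact map_pow _ _ _
    rw [h1] at hc
    have hden : den c v ≠ 0 := fun h => hc (by rw [h, zero_pow (Nat.succ_ne_zero _)])
    have hcv : ∀ i, v i (c i) ≠ 0 := fun i => Finset.prod_ne_zero_iff.mp hden i (Finset.mem_univ i)
    have htan := (tan_cur v t).mp ht
    have hnum : ∀ t' : ∀ i, J i → κ, Tan D.E v t' →
        num D.th.N (D.th.p c) c v (cur t) t' = 0 := by
      intro t' ht'
      have h2 := hrad (fun x => t' x.1 x.2) ((tan_cur v _).mpr ht')
      rw [bf_qP] at h2
      exact h2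
    -- `θ(t) = 0`
    have hform : form (D.th.p c) v (cur t) = 0 := by
      have h2 := Crest.Agent.R260.Om_997.num_eulP D hP κ v (cur t) hv hv0 htan c
        (Pi.single i0 1)
      rw [num_skew, hnum _ (tan_eul D.hom hv _), neg_zero] at h2
      have h3 : ∑ i, (Pi.single i0 1 : I → κ) i * (D.w i : κ) = (D.w i0 : κ) := by
        rw [Finset.sum_eq_single i0]
        · rw [Pi.single_eq_same, one_mul]
        · intro j _ hj; rw [Pi.single_eq_of_ne hj, zero_mul]
        · intro h; exact absurd (Finset.mem_univ _) h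
      rw [h3] at h2
      rcases mul_eq_zero.mp h2.symm with h4 | h4
      · exact absurd h4 (wcast_ne h0 κ)
      · exact (mul_eq_zero.mp h4).resolve_left hden
    obtain ⟨a, ha⟩ := D.nondeg κ v c hv hcv (cur t) htan hform (by
      intro t' ht' hf'
      have h2 := hnum t' ht'
      unfold num at h2
      rw [hform, hf', mul_zero, mul_zero, sub_zero, mul_zero, sub_zero] at h2
      exact (mul_eq_zero.mp h2).resolve_left hden)
    have hta : cur t = Crest.Agent.R260.Om_997.eul a v := by
      funext i j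
      exact ha i j
    obtain ⟨t1, ht1, hf1⟩ := D.th_ne κ v c hv hcv
    have haw : ∑ i, a i * (D.w i : κ) = 0 := by
      have h2 := Crest.Agent.R260.Om_997.num_eulP D hP κ v t1 hv hv0 ht1 c a
      rw [← hta, hnum t1 ht1] at h2
      rcases mul_eq_zero.mp h2.symm with h4 | h4
      · exact h4
      · exact absurd h4 (mul_ne_zero hden hf1)
    refine ⟨fun σ => a σ.1 / (D.w i0 : κ), ?_⟩
    funext x
    obtain ⟨i, j⟩ := x
    have h2 : t ⟨i, j⟩ = a i * v i j := ha i j
    rw [h2, Finset.sum_apply, ← uE_comb h0 κ a haw i, Finset.sum_mul]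
    refine Finset.sum_congr rfl fun σ _ => ?_
    rw [Pi.smul_apply, smul_eq_mul]
    unfold eul
    ring
  eul_tan κ _ _ v hv σ := by
    rw [tan_cur, cur_eul]
    exact tan_eul D.hom hv _
  eul_rad κ _ _ v t hv hv0 ht c σ := by
    rw [bf_qP, cur_eul, Crest.Agent.R260.Om_997.num_eulP D hP κ v (cur t) hv hv0
      ((tan_cur v t).mp ht) c, uE_w, zero_mul]

end Crest.Agent.R260.Num_789
end

-- ▼ part R260/Num15_789
section

/-!
Row 260 (S0398), AG-NUM (helper789), part 15: `NumP`, the numbers of the tangent bundle of the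
multicone along any map from the projective line.
-/

set_option autoImplicit false

namespace Crest.Agent.R260.Num_789

open Polynomial WithZero Crest.Agent.R270.BM_360 Crest.Agent.R270.DimN_282
open Crest.Agent.R013.RR2_948 Crest.Agent.R260.Lin_678
open Crest.Agent.R260.Frm1_428 Crest.Agent.R260.Frm3_428

universe u

variable {k : Type u} [Field k] {I : Type} {J : I → Type} [Fintype I] [∀ i, Fintype (J i)]

/-- the numbers: `n`, the sum of the `a_j`, the duality. -/
def NumP (D : CData k I J) : Prop :=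
  ∀ (κ : Type u) [Field κ] [Algebra k κ] (F : ∀ i, J i → κ[X]) (e n : ℕ), IsMap D.E F →
    cls F = e • D.β → ∀ B : RBasis (fun x : Σ i, J i => (cls F x.1 : ℤ)) (TanM D.E F) n,
      n = 2 * D.m + 1 + Fintype.card I ∧ ∑ j, B.a j = ((D.m + 1) * e : ℕ) ∧
        ∀ j, B.a j ≤ 0 ∨ ∃ l, B.a j + B.a l ≤ e

/-- **`NumP`**. -/
theorem numP (D : CData k I J) (hP : (Ideal.span D.E).IsPrime) : NumP D := by
  classical
  intro κ _ _ F e n hF hcl B
  obtain ⟨i0, h0⟩ := exists_i0 D
  have hs : Split (TK D.E F).subtype (tw F) (rbas B) B.a := split_of_rbasis B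
  have hn : n = 2 * D.m + 1 + Fintype.card I := by
    have := card_eq (d7r D) hF (rbas B)
    rwa [Fintype.card_fin] at this
  obtain ⟨t, ee, G, hG⟩ := (ofCData D hP h0).gram (d7r D) D.hom hF hs
  have hw : wdeg D.w F = e := by
    unfold wdeg
    have h1 : ∀ i, D.w i * (cls F i : ℤ) = e * (D.w i * (D.β i : ℤ)) := by
      intro i
      rw [hcl]
      simp only [Pi.smul_apply, smul_eq_mul]
      push_cast
      ring
    rw [Finset.sum_congr rfl fun i _ => h1 i, ← Finset.mul_sum, D.wβ, mul_one]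
  have hcS : Fintype.card {i : I // i ≠ i0} = Fintype.card I - 1 := by
    rw [Fintype.card_subtype_compl, Fintype.card_subtype_eq]
  have hI : 1 ≤ Fintype.card I := Fintype.card_pos_iff.mpr ⟨i0⟩
  refine ⟨hn, ?_, ?_⟩
  · have h1 := hG.sum
    rw [Fintype.card_fin, hcS, hw] at h1
    push_cast [hI] at h1 ⊢
    have hn' : (n : ℤ) = 2 * D.m + 1 + Fintype.card I := by exact_mod_cast hn
    have h2 : 2 * ∑ j, B.a j = 2 * (((D.m : ℤ) + 1) * e) := by
      rw [h1, hn']
      ring
    exact mul_left_cancel₀ two_ne_zero h2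
  · intro j
    rcases hG.dual j with h1 | ⟨l, hl⟩
    · exact Or.inl h1
    · refine Or.inr ⟨l, ?_⟩
      have h2 := hG.Gdeg j l
      rw [hw] at h2
      have h3 : (1 : ℤᵐ⁰) ≤ exp ((e : ℤ) - B.a j - B.a l) := (vinf_poly_one_le κ hl).trans h2
      rw [← exp_zero, exp_le_exp] at h3
      omega

/-- `NumAt` of helper703. -/
theorem numAt (D : CData k I J) (hP : (Ideal.span D.E).IsPrime) {κ : Type u} [Field κ]
    [Algebra k κ] {F : ∀ i, J i → κ[X]} {e : ℕ} (hF : IsMap D.E F) (hcl : cls F = e • D.β) :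
    Crest.Agent.R260.Cf_703.NumAt D F e := fun n b =>
  (numP D hP κ F e n hF hcl b).2.1

/-- `NumConP` of helper169. -/
theorem numConP (D : CData k I J) (hP : (Ideal.span D.E).IsPrime) :
    Crest.Agent.R260.Gp_169.NumConP D := fun _ _ _ _ _ hF hcl => numAt D hP hF hcl


end Crest.Agent.R260.Num_789
end

-- ▼ part R260/Loc_33

/-!
# Row 260 (helper33): `LocP` (517 #6944): the local ring of a point of codimension at most one

`v` a point over the field `K = F(v)`, `q` a specialisation of `v` with the same dimension `N` of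
the tangent spaces and `N = trdeg v`, `trdeg q ≥ N - 1`: the local ring of `q` in `K` is a
valuation ring.
-/

set_option autoImplicit false
set_option linter.all false

namespace Crest.Agent.R260.Loc_33

open Module IsLocalRing
open Crest.Agent.R270.BM_360 Crest.Agent.R270.Fr_928 Crest.Agent.R260.Der_169

universe u v

/-- the derivation `R → 𝔪/𝔪²` attached to a section of the residue field. -/
theorem exists_cot {F R : Type u} [Field F] [CharZero F] [CommRing R] [IsLocalRing R]
    [Algebra F R] : ∃ e : R → CotangentSpace R, (∀ a b, e (a + b) = e a + e b) ∧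
      (∀ c : F, e (algebraMap F R c) = 0) ∧ (∀ a b, e (a * b) = a • e b + b • e a) ∧
      ∀ a : maximalIdeal R, e a = (maximalIdeal R).toCotangent a := by
  let g : (R ⧸ (maximalIdeal R) ^ 2) →ₐ[F] ResidueField R :=
    Ideal.Quotient.liftₐ _ (IsScalarTower.toAlgHom F R (ResidueField R)) (fun a ha => by
      have h1 : a ∈ maximalIdeal R := Ideal.pow_le_self two_ne_zero ha
      exact (residue_eq_zero_iff a).2 h1)
  have hgm : ∀ a, g (Ideal.Quotient.mk _ a) = residue R a := fun a => rfl
  have hg : Function.Surjective g := by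
    intro x
    obtain ⟨a, rfl⟩ := residue_surjective x
    exact ⟨_, hgm a⟩
  have hker : RingHom.ker (g : (R ⧸ (maximalIdeal R) ^ 2) →+* ResidueField R) ≤
      (maximalIdeal R).map (Ideal.Quotient.mk ((maximalIdeal R) ^ 2)) := by
    intro x hx
    obtain ⟨a, rfl⟩ := Ideal.Quotient.mk_surjective x
    refine Ideal.mem_map_of_mem _ ?_
    rw [RingHom.mem_ker] at hx
    exact (residue_eq_zero_iff a).1 hx
  have hnil : IsNilpotent (RingHom.ker (g : (R ⧸ (maximalIdeal R) ^ 2) →+* ResidueField R)) := by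
    refine ⟨2, ?_⟩
    rw [Ideal.zero_eq_bot, eq_bot_iff]
    refine (Ideal.pow_right_mono hker 2).trans ?_
    rw [← Ideal.map_pow, Ideal.map_quotient_self]
  have : CharZero F := inferInstance
  have hfs : Algebra.FormallySmooth F (ResidueField R) := fs_charZero F (ResidueField R)
  let s : ResidueField R →ₐ[F] (R ⧸ (maximalIdeal R) ^ 2) :=
    Algebra.FormallySmooth.liftOfSurjective (AlgHom.id F (ResidueField R)) g hg hnil
  have hs : ∀ x, g (s x) = x := fun x =>
    Algebra.FormallySmooth.liftOfSurjective_apply (AlgHom.id F (ResidueField R)) g hg hnil x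
  choose r hr using fun x : ResidueField R => Ideal.Quotient.mk_surjective (s x)
  have hrx : ∀ x, residue R (r x) = x := fun x => by rw [← hgm, hr, hs]
  have hmem : ∀ a : R, a - r (residue R a) ∈ maximalIdeal R := fun a => by
    rw [← residue_eq_zero_iff, map_sub, hrx, sub_self]
  have h2 : ∀ a b : R, Ideal.Quotient.mk ((maximalIdeal R) ^ 2) a = Ideal.Quotient.mk _ b →
      a - b ∈ (maximalIdeal R) ^ 2 := fun a b h => Ideal.Quotient.eq.1 h
  refine ⟨fun a => (maximalIdeal R).toCotangent ⟨a - r (residue R a), hmem a⟩, ?_, ?_, ?_, ?_⟩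
  · intro a b
    rw [← map_add, Ideal.toCotangent_eq]
    change (a + b - r (residue R (a + b))) - ((a - r (residue R a)) + (b - r (residue R b))) ∈ _
    have h3 := h2 (r (residue R a) + r (residue R b)) (r (residue R (a + b))) (by
      rw [map_add, hr, hr, hr, map_add, map_add])
    have h4 : (a + b - r (residue R (a + b))) - ((a - r (residue R a)) + (b - r (residue R b))) =
      (r (residue R a) + r (residue R b)) - r (residue R (a + b)) := by ring
    rwa [h4]
  · intro c
    rw [Ideal.toCotangent_eq_zero]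
    refine h2 _ _ ?_
    rw [hr]
    have h3 : residue R (algebraMap F R c) = algebraMap F (ResidueField R) c := rfl
    rw [h3, AlgHom.commutes]
    rfl
  · intro a b
    rw [← map_smul, ← map_smul, ← map_add, Ideal.toCotangent_eq]
    change (a * b - r (residue R (a * b))) -
      (a * (b - r (residue R b)) + b * (a - r (residue R a))) ∈ _
    have h3 := h2 (r (residue R a) * r (residue R b)) (r (residue R (a * b))) (by
      rw [map_mul, hr, hr, hr, map_mul, map_mul])
    have h4 : (a - r (residue R a)) * (b - r (residue R b)) ∈ (maximalIdeal R) ^ 2 := by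
      rw [pow_two]
      exact Ideal.mul_mem_mul (hmem a) (hmem b)
    have h5 : (a * b - r (residue R (a * b))) -
      (a * (b - r (residue R b)) + b * (a - r (residue R a))) =
        (r (residue R a) * r (residue R b) - r (residue R (a * b))) -
          (a - r (residue R a)) * (b - r (residue R b)) := by ring
    rw [h5]
    exact Ideal.sub_mem _ h3 h4
  · intro a
    rw [Ideal.toCotangent_eq]
    change ((a : R) - r (residue R (a : R))) - a ∈ _
    have h3 : residue R (a : R) = 0 := (residue_eq_zero_iff _).2 a.2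
    have h4 := h2 0 (r (residue R (a : R))) (by rw [map_zero, hr, h3, map_zero])
    have h5 : ((a : R) - r (residue R (a : R))) - a = 0 - r (residue R (a : R)) := by ring
    rwa [h5]

/-- chain rule for a derivation of the polynomial ring along a homomorphism. -/
theorem chain {F κ : Type u} [Field F] [Field κ] [Algebra F κ] {σ : Type} [Fintype σ]
    (g : MvPolynomial σ F →ₐ[F] κ) (T : MvPolynomial σ F → κ)
    (hadd : ∀ p q, T (p + q) = T p + T q) (hC : ∀ c, T (MvPolynomial.C c) = 0)
    (hmul : ∀ p q, T (p * q) = g p * T q + g q * T p) (p : MvPolynomial σ F) :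
    T p = ∑ x, g (MvPolynomial.pderiv x p) * T (MvPolynomial.X x) := by
  classical
  induction p using MvPolynomial.induction_on with
  | C c =>
    rw [hC]
    simp
  | add p q hp hq =>
    rw [hadd, hp, hq, ← Finset.sum_add_distrib]
    refine Finset.sum_congr rfl fun x _ => ?_
    rw [map_add, map_add, add_mul]
  | mul_X p y hp =>
    rw [hmul]
    have h1 : ∀ x, g (MvPolynomial.pderiv x (p * MvPolynomial.X y)) * T (MvPolynomial.X x) =
        (if x = y then g p * T (MvPolynomial.X y) else 0) +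
          g (MvPolynomial.X y) * (g (MvPolynomial.pderiv x p) * T (MvPolynomial.X x)) := by
      intro x
      rw [Derivation.leibniz, MvPolynomial.pderiv_X, smul_eq_mul, smul_eq_mul, map_add, map_mul,
        map_mul]
      by_cases hxy : x = y
      · subst hxy
        simp
        ring
      · rw [if_neg hxy, Pi.single_eq_of_ne (Ne.symm hxy)]
        simp
        ring
    rw [Finset.sum_congr rfl fun x _ => h1 x, Finset.sum_add_distrib, ← Finset.mul_sum, ← hp]
    simp

/-- two independent cotangent vectors and `n` algebraically independent elements give `n + 2`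
independent tangent vectors. -/
theorem tan_ge {F K κ : Type u} [Field F] [Field K] [Field κ] [CharZero F] [Algebra F K]
    [Algebra F κ] {σ : Type} [Fintype σ] {E : Set (MvPolynomial σ F)} {A R : Type u} [CommRing A]
    [Algebra F A] [CommRing R] [IsLocalRing R] [Algebra F R] [Algebra A R] [IsScalarTower F A R]
    (𝔭 : Ideal A) [𝔭.IsPrime] [IsLocalization.AtPrime R 𝔭]
    (f : MvPolynomial σ F →ₐ[F] A) (hf : Function.Surjective f) (φ : A →ₐ[F] κ)
    (hφ : ∀ a, φ a = 0 ↔ a ∈ 𝔭) (q : σ → κ) (hq : ∀ p, φ (f p) = MvPolynomial.aeval q p)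
    (hE : ∀ p ∈ E, f p = 0) [FiniteDimensional (ResidueField R) (CotangentSpace R)]
    (h2 : 2 ≤ finrank (ResidueField R) (CotangentSpace R)) {n : ℕ}
    (hn : TrGe F (Set.range q) n) : n + 2 ≤ finrank κ (TanS E q) := by
  classical
  let ρ : R →+* κ := IsLocalization.lift (M := 𝔭.primeCompl) (g := (φ : A →+* κ))
    (fun y => IsUnit.mk0 _ (fun h => y.2 ((hφ y).1 h)))
  have hρ : ∀ a, ρ (algebraMap A R a) = φ a := fun a => IsLocalization.lift_eq _ a
  have hρm : ∀ r ∈ maximalIdeal R, ρ r = 0 := by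
    intro r hr
    obtain ⟨a, s, rfl⟩ := IsLocalization.exists_mk'_eq 𝔭.primeCompl r
    have h3 : a ∈ 𝔭 := (IsLocalization.AtPrime.mk'_mem_maximal_iff R 𝔭 a s).1 hr
    have h4 : IsLocalization.mk' R a s * algebraMap A R s = algebraMap A R a :=
      IsLocalization.mk'_spec R a s
    have h5 := congrArg ρ h4
    rw [map_mul, hρ, hρ, (hφ a).2 h3] at h5
    exact (mul_eq_zero.1 h5).resolve_right (fun h => s.2 ((hφ s).1 h))
  let ψ : ResidueField R →+* κ := Ideal.Quotient.lift (maximalIdeal R) ρ hρm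
  have hψ : ∀ r, ψ (residue R r) = ρ r := fun r => rfl
  obtain ⟨e, e1, e2, e3, e4⟩ := exists_cot (F := F) (R := R)
  let b := finBasis (ResidueField R) (CotangentSpace R)
  let j0 : Fin 2 → Fin (finrank (ResidueField R) (CotangentSpace R)) := fun i => ⟨i, by omega⟩
  have hj0 : Function.Injective j0 := fun i i' h => Fin.ext (Fin.mk.inj_iff.1 h)
  -- the derivations
  let D : Fin 2 → R → κ := fun i r => ψ (b.coord (j0 i) (e r))
  have D1 : ∀ i a c, D i (a + c) = D i a + D i c := fun i a c => by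
    simp only [D, e1, map_add]
  have D2 : ∀ i (c : F), D i (algebraMap F R c) = 0 := fun i c => by
    simp only [D, e2, map_zero]
  have hsm : ∀ (a : R) (m : CotangentSpace R) (i : Fin 2), ψ (b.coord (j0 i) (a • m)) =
      ρ a * ψ (b.coord (j0 i) m) := by
    intro a m i
    rw [← hψ, ← map_mul, ← smul_eq_mul, ← map_smul]
    rfl
  have D3 : ∀ i a c, D i (a * c) = ρ a * D i c + ρ c * D i a := fun i a c => by
    simp only [D, e3, map_add, hsm]
  -- elements of the prime ideal
  have hel : ∀ i : Fin 2, ∃ a ∈ 𝔭, ∀ i', D i' (algebraMap A R a) ≠ 0 ↔ i = i' := by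
    intro i
    obtain ⟨z, hz⟩ := (maximalIdeal R).toCotangent_surjective (b (j0 i))
    obtain ⟨a, s, has⟩ := IsLocalization.exists_mk'_eq 𝔭.primeCompl (z : R)
    have h3 : a ∈ 𝔭 := (IsLocalization.AtPrime.mk'_mem_maximal_iff R 𝔭 a s).1 (by
      rw [has]; exact z.2)
    have h4 : (z : R) * algebraMap A R s = algebraMap A R a := by
      rw [← has]
      exact IsLocalization.mk'_spec R a s
    refine ⟨a, h3, fun i' => ?_⟩
    rw [← h4, D3, hρm _ z.2, zero_mul, zero_add, hρ]
    have h5 : D i' (z : R) = if i = i' then 1 else 0 := by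
      simp only [D, e4, hz]
      rw [Basis.coord_apply, Basis.repr_self, Finsupp.single_apply]
      by_cases h : i = i'
      · subst h
        simp
      · rw [if_neg (fun h' => h (hj0 h')), if_neg h, map_zero]
    have h6 : φ (s : A) ≠ 0 := fun h => s.2 ((hφ s).1 h)
    rw [h5]
    by_cases h : i = i'
    · simp [h, h6]
    · simp [h]
  choose a ha haD using hel
  choose pa hpa using fun i => hf (a i)
  obtain ⟨w, hw, hw2⟩ := hn
  obtain ⟨δ, hδ⟩ := exists_der_indep w hw2
  -- the derivations on polynomials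
  let T : (Fin n ⊕ Fin 2) → MvPolynomial σ F → κ := Sum.elim
    (fun j p => δ j (MvPolynomial.aeval q p)) (fun i p => D i (algebraMap A R (f p)))
  have T1 : ∀ t p p', T t (p + p') = T t p + T t p' := by
    rintro (j | i) p p'
    · simp [T]
    · simp only [T, Sum.elim_inr, map_add, D1]
  have T2 : ∀ t c, T t (MvPolynomial.C c) = 0 := by
    rintro (j | i) c
    · simp [T]
    · simp only [T, Sum.elim_inr]
      rw [← MvPolynomial.algebraMap_eq, AlgHom.commutes, ← IsScalarTower.algebraMap_apply]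
      exact D2 i c
  have T3 : ∀ t p p', T t (p * p') = MvPolynomial.aeval q p * T t p' +
      MvPolynomial.aeval q p' * T t p := by
    rintro (j | i) p p'
    · simp only [T, Sum.elim_inl, map_mul, Derivation.leibniz, smul_eq_mul]
    · simp only [T, Sum.elim_inr, map_mul, D3, hρ, hq]
  have TX : ∀ t p, T t p = ∑ x, MvPolynomial.aeval q (MvPolynomial.pderiv x p) *
      T t (MvPolynomial.X x) := fun t p => chain (MvPolynomial.aeval q) (T t) (T1 t) (T2 t) (T3 t) p
  have TE : ∀ t, (fun x => T t (MvPolynomial.X x)) ∈ TanS E q := by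
    intro t
    rw [mem_TanS]
    intro p hp
    rw [← TX]
    have h3 : f p = 0 := hE p hp
    rcases t with (j | i)
    · simp only [T, Sum.elim_inl]
      rw [← hq, h3, map_zero, map_zero]
    · simp only [T, Sum.elim_inr]
      rw [h3, map_zero]
      have := D2 i 0
      rwa [map_zero] at this
  let V : (Fin n ⊕ Fin 2) → TanS E q := fun t => ⟨fun x => T t (MvPolynomial.X x), TE t⟩
  have hV : LinearIndependent κ V := by
    rw [Fintype.linearIndependent_iff]
    intro c hc
    have hc0 : ∀ p, ∑ t, c t * T t p = 0 := by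
      intro p
      have h3 : ∀ x, ∑ t, c t * T t (MvPolynomial.X x) = 0 := by
        intro x
        have h4 := congrArg (fun z : TanS E q => (z : σ → κ) x) hc
        simpa [V, Finset.sum_apply] using h4
      have h5 : ∑ t, c t * T t p = ∑ x, MvPolynomial.aeval q (MvPolynomial.pderiv x p) *
          ∑ t, c t * T t (MvPolynomial.X x) := by
        simp only [Finset.mul_sum]
        rw [Finset.sum_comm]
        refine Finset.sum_congr rfl fun t _ => ?_
        rw [TX t p, Finset.mul_sum]
        refine Finset.sum_congr rfl fun x _ => by ring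
      rw [h5]
      simp [h3]
    have hr : ∀ i, c (Sum.inr i) = 0 := by
      intro i
      have h3 := hc0 (pa i)
      rw [Fintype.sum_sum_type] at h3
      have h4 : ∀ j, T (Sum.inl j) (pa i) = 0 := by
        intro j
        simp only [T, Sum.elim_inl]
        rw [← hq, hpa, (hφ _).2 (ha i), map_zero]
      have h5 : ∀ i', T (Sum.inr i') (pa i) = D i' (algebraMap A R (a i)) := by
        intro i'
        simp only [T, Sum.elim_inr, hpa]
      simp only [h4, h5, mul_zero, Finset.sum_const_zero, zero_add] at h3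
      rw [Finset.sum_eq_single i] at h3
      · exact (mul_eq_zero.1 h3).resolve_right ((haD i i).2 rfl)
      · intro i' _ hi'
        have h6 : D i' (algebraMap A R (a i)) = 0 := by
          by_contra h7
          exact hi' ((haD i i').1 h7).symm
        rw [h6, mul_zero]
      · simp
    have hl : ∀ p : MvPolynomial σ F, ∑ j, c (Sum.inl j) * δ j (MvPolynomial.aeval q p) = 0 := by
      intro p
      have h3 := hc0 p
      rw [Fintype.sum_sum_type] at h3
      simpa [hr, T] using h3
    let δ' : Derivation F κ κ := ∑ j, c (Sum.inl j) • δ j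
    have hδ' : ∀ z, δ' z = ∑ j, c (Sum.inl j) * δ j z := fun z => by
      simp only [δ', sum_der_apply]
      rfl
    have hle : IntermediateField.adjoin F (Set.range q) ≤ kerF δ' := by
      rw [IntermediateField.adjoin_le_iff]
      rintro _ ⟨x, rfl⟩
      change δ' (q x) = 0
      rw [hδ']
      have h3 := hl (MvPolynomial.X x)
      rwa [MvPolynomial.aeval_X] at h3
    rintro (j | i)
    · have h3 : δ' (w j) = 0 := hle (hw j)
      rw [hδ', Finset.sum_eq_single j] at h3
      · rwa [hδ, if_pos rfl, mul_one] at h3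
      · intro j' _ hj'
        rw [hδ, if_neg hj', mul_zero]
      · simp
    · exact hr i
  have h3 := hV.fintype_card_le_finrank
  simpa using h3

/-- **LocP** (517 #6944 (2)): the local ring of the point `q` is a valuation ring. -/
theorem loc_val {F K κ : Type u} [Field F] [Field K] [Field κ] [CharZero F] [Algebra F K]
    [Algebra F κ] {σ : Type} [Fintype σ] {E : Set (MvPolynomial σ F)} {v : σ → K} {q : σ → κ}
    {N : ℕ} (hspec : ∀ p : MvPolynomial σ F, MvPolynomial.aeval v p = 0 →
      MvPolynomial.aeval q p = 0)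
    (htop : IntermediateField.adjoin F (Set.range v) = ⊤)
    (hv : ∀ p ∈ E, MvPolynomial.aeval v p = 0) (hNq : finrank κ (TanS E q) ≤ N)
    (hq : TrGe F (Set.range q) (N - 1)) (b : K) :
    ∃ P Q : MvPolynomial σ F, MvPolynomial.aeval v Q ≠ 0 ∧
      b * MvPolynomial.aeval v Q = MvPolynomial.aeval v P ∧
      (MvPolynomial.aeval q Q ≠ 0 ∨ MvPolynomial.aeval q P ≠ 0) := by
  classical
  let I : Ideal (MvPolynomial σ F) := RingHom.ker (MvPolynomial.aeval (R := F) v)
  haveI hI : I.IsPrime := RingHom.ker_isPrime _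
  let A := MvPolynomial σ F ⧸ I
  haveI : IsDomain A := Ideal.Quotient.isDomain I
  let φ : A →ₐ[F] κ := Ideal.Quotient.liftₐ I (MvPolynomial.aeval q) (fun p hp => hspec p hp)
  let ι : A →ₐ[F] K := Ideal.Quotient.liftₐ I (MvPolynomial.aeval v) (fun p hp => hp)
  have hφ : ∀ p, φ (Ideal.Quotient.mk I p) = MvPolynomial.aeval q p := fun p => rfl
  have hιm : ∀ p, ι (Ideal.Quotient.mk I p) = MvPolynomial.aeval v p := fun p => rfl
  have hι : Function.Injective ι := by
    rw [injective_iff_map_eq_zero]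
    intro a ha
    obtain ⟨p, rfl⟩ := Ideal.Quotient.mk_surjective a
    exact Ideal.Quotient.eq_zero_iff_mem.2 ha
  let 𝔭 : Ideal A := RingHom.ker (φ : A →+* κ)
  haveI h𝔭 : 𝔭.IsPrime := RingHom.ker_isPrime _
  let R := Localization.AtPrime 𝔭
  haveI : IsDomain R := IsLocalization.isDomain_localization (Ideal.primeCompl_le_nonZeroDivisors 𝔭)
  haveI : IsNoetherianRing R := IsLocalization.isNoetherianRing 𝔭.primeCompl R inferInstance
  have hfin : finrank (ResidueField R) (CotangentSpace R) ≤ 1 := by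
    by_contra hcon
    have h1 := tan_ge (F := F) (K := K) (κ := κ) (E := E) (A := A) (R := R) 𝔭
      (Ideal.Quotient.mkₐ F I) Ideal.Quotient.mk_surjective φ (fun a => Iff.rfl) q
      (fun p => rfl) (fun p hp => Ideal.Quotient.eq_zero_iff_mem.2 (hv p hp)) (by omega) hq
    omega
  haveI hval : ValuationRing R :=
    ((tfae_of_isNoetherianRing_of_isLocalRing_of_isDomain R).out 5 1).1 hfin
  -- `b` is a quotient
  have hb : ∃ a c : A, ι c ≠ 0 ∧ b * ι c = ι a := by
    have h1 : b ∈ IntermediateField.adjoin F (Set.range v) := by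
      rw [htop]
      trivial
    rw [IntermediateField.mem_adjoin_range_iff] at h1
    obtain ⟨r, s, hrs⟩ := h1
    by_cases hs : MvPolynomial.aeval v s = 0
    · refine ⟨0, 1, by simp, ?_⟩
      rw [hrs, hs]
      simp
    · refine ⟨Ideal.Quotient.mk I r, Ideal.Quotient.mk I s, hs, ?_⟩
      rw [hιm, hιm, hrs, div_mul_cancel₀ _ hs]
  obtain ⟨a, c, hc, hac⟩ := hb
  have hinj : Function.Injective (algebraMap A R) :=
    IsLocalization.injective R (Ideal.primeCompl_le_nonZeroDivisors 𝔭)
  have key : ∀ a c : A, (∃ z : R, algebraMap A R a * z = algebraMap A R c) →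
      ∃ P Q : MvPolynomial σ F, MvPolynomial.aeval q Q ≠ 0 ∧
        ι a * MvPolynomial.aeval v P = ι c * MvPolynomial.aeval v Q := by
    rintro a c ⟨z, hz⟩
    obtain ⟨p, s, rfl⟩ := IsLocalization.exists_mk'_eq 𝔭.primeCompl z
    obtain ⟨P, rfl⟩ := Ideal.Quotient.mk_surjective p
    obtain ⟨Q, hQ⟩ := Ideal.Quotient.mk_surjective (s : A)
    refine ⟨P, Q, ?_, ?_⟩
    · intro h0
      refine s.2 ?_
      change φ (s : A) = 0
      rw [← hQ]
      exact h0
    · have h1 : algebraMap A R (a * Ideal.Quotient.mk I P) = algebraMap A R (c * (s : A)) := by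
        rw [map_mul, map_mul, ← hz, mul_assoc, IsLocalization.mk'_spec]
      have h2 := congrArg ι (hinj h1)
      rw [map_mul, map_mul, ← hQ] at h2
      exact h2
  have hQv : ∀ Q : MvPolynomial σ F, MvPolynomial.aeval q Q ≠ 0 → MvPolynomial.aeval v Q ≠ 0 :=
    fun Q h h' => h (hspec Q h')
  obtain ⟨z, hz⟩ : ∃ z : R, algebraMap A R a * z = algebraMap A R c ∨
      algebraMap A R c * z = algebraMap A R a := hval.toPreValuationRing.cond' _ _
  rcases hz with hz | hz
  · obtain ⟨P, Q, hQ, hPQ⟩ := key a c ⟨z, hz⟩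
    -- `a P = c Q`, `b = a / c = Q / P`
    have h1 : b * ι c * MvPolynomial.aeval v P = ι c * MvPolynomial.aeval v Q := by
      rw [hac, hPQ]
    have h2 : b * MvPolynomial.aeval v P = MvPolynomial.aeval v Q :=
      mul_left_cancel₀ hc (by rw [← h1]; ring)
    refine ⟨Q, P, ?_, h2, Or.inr hQ⟩
    intro h0
    rw [h0, mul_zero] at h2
    exact hQv Q hQ h2.symm
  · obtain ⟨P, Q, hQ, hPQ⟩ := key c a ⟨z, hz⟩
    refine ⟨P, Q, hQv Q hQ, ?_, Or.inl hQ⟩
    have h1 : b * ι c * MvPolynomial.aeval v Q = ι c * MvPolynomial.aeval v P := by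
      rw [hac, hPQ]
    exact mul_left_cancel₀ hc (by rw [← h1]; ring)

end Crest.Agent.R260.Loc_33
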