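import Mathlib
import Crest.Agent.R260.QuadDefs_517
import Crest.Agent.R260.QuadB_517
import Crest.Agent.R260.Alg2_661
import Crest.Agent.R270.BmAlg_360
import Crest.Agent.R270.BmDefs_360
import Crest.Agent.R270.Fr3_928
import Crest.Agent.R260.Der2_169
import Crest.Agent.R260.Der3_169
import Crest.Agent.R260.Gp1_169

-- ▼ part R260/QuadC_517
section

/-!
# Row 260, A-QUAD (helper517), part 3: transport along homomorphisms; the dichotomy
-/

set_option autoImplicit false
set_option linter.all false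

noncomputable section

namespace Crest.Agent.R260.Quad_517

open Polynomial
open Crest.Agent.R270.BM_360 Crest.Agent.R260.Lin_678 Crest.Agent.R260.QuadDefs_517

variable {I : Type} {J : I → Type} [Fintype I] [∀ i, Fintype (J i)] {k : Type} [Field k]

/-- image of a tuple under a homomorphism -/
def mp {κ κ' : Type} [Field κ] [Field κ'] (g : κ →+* κ') (F : ∀ i, J i → κ[X]) :
    ∀ i, J i → κ'[X] := fun i a => (F i a).map g

section transport

variable {κ κ' : Type} [Field κ] [Field κ'] [Algebra k κ] [Algebra k κ']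

theorem isMap_mp {E : Set (MvPolynomial (Σ i, J i) k)} (g : κ →ₐ[k] κ') {F : ∀ i, J i → κ[X]}
    (hF : IsMap E F) : IsMap E (mp (g : κ →+* κ') F) := by
  refine ⟨?_, fun i => ?_⟩
  · have h := hF.on.map (Polynomial.mapAlgHom g)
    exact h
  · exact (hF.cop i).map (Polynomial.mapRingHom (g : κ →+* κ'))

theorem cls_mp (g : κ →+* κ') (F : ∀ i, J i → κ[X]) : cls (mp g F) = cls F := by
  funext i
  simp [cls, vdeg, mp, Polynomial.natDegree_map]

theorem val_mp {D : CData k I J} (g : κ →ₐ[k] κ') {F : ∀ i, J i → κ[X]} {c : κ}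
    (h : D.th.Val F (dd F) (C c)) :
    D.th.Val (mp (g : κ →+* κ') F) (dd (mp (g : κ →+* κ') F)) (C (g c)) := by
  have h1 := Crest.Agent.R260.Alg0_661.Val_map D.th (Polynomial.mapAlgHom g) h
  have h2 : (fun i a => (Polynomial.mapAlgHom g) (F i a)) = mp (g : κ →+* κ') F := rfl
  have h3 : (fun i a => (Polynomial.mapAlgHom g) (dd F i a)) = dd (mp (g : κ →+* κ') F) := by
    funext i a
    change (derivative (F i a)).map (g : κ →+* κ') = derivative ((F i a).map (g : κ →+* κ'))
    rw [derivative_map]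
  have h4 : (Polynomial.mapAlgHom g) (C c) = C (g c) := by simp
  rw [h2, h3, h4] at h1
  exact h1

theorem phi_map {D : CData k I J} (g : κ →+* κ') (a b : I → κ) (c : κ) :
    g (phi D a b c) = phi D (fun i => g (a i)) (fun i => g (b i)) (g c) := by
  simp only [phi, map_mul, map_pow, map_prod, map_zpow₀]

theorem joins_mp {D : CData k I J} (g : κ →ₐ[k] κ') {f : ∀ i, J i → κ[X]} {x y : ∀ i, J i → κ}
    {a b : I → κ} {c : κ} (h : Joins D f x y a b c) :
    Joins D (mp (g : κ →+* κ') f) (fun i j => g (x i j)) (fun i j => g (y i j))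
      (fun i => g (a i)) (fun i => g (b i)) (g c) where
  a0 i := (map_ne_zero g).2 (h.a0 i)
  b0 i := (map_ne_zero g).2 (h.b0 i)
  lead i j := by
    change ((f i j).map (g : κ →+* κ')).coeff _ = _
    rw [coeff_map, h.lead]
    simp
  bot i j := by
    change ((f i j).map (g : κ →+* κ')).coeff _ = _
    rw [coeff_map, h.bot]
    simp
  val := val_mp g h.val

end transport

/-- the class is stable under homomorphisms -/
def MapCC (CC : Cls k J) : Prop :=
  ∀ (κ κ' : Type) [Field κ] [Field κ'] [Algebra k κ] [Algebra k κ'] (g : κ →ₐ[k] κ')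
    (F : ∀ i, J i → κ[X]), CC κ F → CC κ' (mp (g : κ →+* κ') F)

theorem con_mp {D : CData k I J} {CC : Cls k J} (hCC : MapCC CC) {κ κ' : Type} [Field κ] [Field κ']
    [Algebra k κ] [Algebra k κ'] (g : κ →ₐ[k] κ') {F : ∀ i, J i → κ[X]} (hF : Con D CC F) :
    Con D CC (mp (g : κ →+* κ') F) where
  map := isMap_mp g hF.map
  cls := by rw [cls_mp, hF.cls]
  cc := hCC κ κ' g F hF.cc

/-- the output of (DIV) over `F₀` -/
def DivOut (D : CData k I J) (CC : Cls k J) (F₀ : Type) [Field F₀] [Algebra k F₀] : Prop :=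
  ∀ (k' : Type) [Field k'] [IsAlgClosed k'] [Algebra k k'] [Algebra F₀ k']
      [IsScalarTower k F₀ k'] (H : ∀ i, J i → k'[X]) (t : k'),
      Con D CC H → TrGe F₀ (coeffs H) (hc D) → ¬ TrGe F₀ (rat (pt H t)) (2 * D.m + 1) →
      ∃ (kl : Type) (_ : Field kl) (_ : IsAlgClosed kl) (_ : Algebra k kl) (_ : Algebra F₀ kl)
        (_ : IsScalarTower k F₀ kl) (l : ∀ i, J i → kl[X]) (t₀ : kl),
        IsMap D.E l ∧ cls l = D.β ∧ TrGe F₀ (coeffs l) (hl D) ∧
        TrGe F₀ (ent (pt l t₀)) (2 * D.m + Fintype.card I) ∧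
        ∀ p : MvPolynomial (Σ i, J i) F₀, MHm p → (evv (pt l t₀) p = 0 ↔ evv (pt H t) p = 0)

/-! ### descent of the quadratic polynomial -/

theorem mem_range_of_root {A B : Type} [Field A] [Field B] [IsAlgClosed A] (g : A →+* B)
    {p : A[X]} (hp : p ≠ 0) {z : B} (hz : (p.map g).eval z = 0) : ∃ a, g a = z := by
  letI := g.toAlgebra
  have h1 : IsAlgebraic A z := ⟨p, hp, by rw [← hz, eval_map]; rfl⟩
  have h2 : IsIntegral A z := h1.isIntegral
  have h3 := IsAlgClosed.degree_eq_one_of_irreducible A (minpoly.irreducible h2)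
  obtain ⟨a, ha⟩ := minpoly.mem_range_of_degree_eq_one A z h3
  exact ⟨a, ha⟩

theorem hev {A B : Type} [CommRing A] [CommRing B] (h : A →+* B) (R : A[X]) (x : A) :
    h (R.eval x) = (R.map h).eval (h x) := by
  rw [← Polynomial.eval₂_hom, ← eval_map]

theorem descent {k' k₁ L L₁ : Type} [Field k'] [Field k₁] [Field L] [Field L₁] [IsAlgClosed k']
    [Algebra k' L] [Algebra k₁ L₁] (g' : k' →+* k₁) (g : L →+* L₁)
    (hg : ∀ x, g (algebraMap k' L x) = algebraMap k₁ L₁ (g' x)) (u : L)
    (hu : Transcendental k₁ (g u)) (φ : L)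
    (hφ : IsAlgebraic (IntermediateField.adjoin k' {u}) φ) (n : ℕ) (p : k₁[X])
    (hn : p.natDegree ≤ n) (hp : g φ = aeval (g u) p) :
    ∃ q : k'[X], q.natDegree ≤ n ∧ φ = aeval u q := by
  classical
  haveI : Infinite k' := IsAlgClosed.instInfinite
  -- a polynomial relation
  obtain ⟨P, hP0, hP⟩ : ∃ P : k'[X][X], P ≠ 0 ∧
      (P.map (aeval u : k'[X] →ₐ[k'] L).toRingHom).eval φ = 0 := by
    obtain ⟨P₀, hP0, hP⟩ := IntermediateField.isAlgebraic_adjoin_iff.1 hφ
    let au : k'[X] →ₐ[k'] Algebra.adjoin k' {u} :=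
      aeval (⟨u, Algebra.subset_adjoin rfl⟩ : Algebra.adjoin k' {u})
    have hau : ∀ r, ((au r : Algebra.adjoin k' {u}) : L) = aeval u r := by
      intro r
      have := Polynomial.aeval_algHom_apply (Algebra.adjoin k' {u}).val
        (⟨u, Algebra.subset_adjoin rfl⟩ : Algebra.adjoin k' {u}) r
      exact this.symm
    have hsurj : Function.Surjective (au : k'[X] →+* Algebra.adjoin k' {u}) := by
      rintro ⟨z, hz⟩
      rw [Algebra.adjoin_singleton_eq_range_aeval] at hz
      obtain ⟨r, hr⟩ := hz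
      exact ⟨r, Subtype.ext ((hau r).trans hr)⟩
    obtain ⟨P, rfl⟩ := Polynomial.map_surjective _ hsurj P₀
    refine ⟨P, fun h => hP0 (by rw [h, Polynomial.map_zero]), ?_⟩
    rw [← hP, aeval_def, eval₂_map, eval_map]
    congr 1
    ext r
    · exact (hau (C r)).symm
    · exact (hau X).symm
  -- transport
  have hcomp : (aeval (g u) : k₁[X] →ₐ[k₁] L₁).toRingHom.comp (mapRingHom g') =
      g.comp (aeval u : k'[X] →ₐ[k'] L).toRingHom := by
    apply Polynomial.ringHom_ext
    · intro a
      simp [hg]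
    · simp
  let R : k₁[X][X] := P.map (mapRingHom g')
  have hT : R.eval p = 0 := by
    by_contra hne
    apply hu
    refine ⟨R.eval p, hne, ?_⟩
    have h1 : aeval (g u) (R.eval p) = (R.map (aeval (g u) : k₁[X] →ₐ[k₁] L₁).toRingHom).eval
        (aeval (g u) p) := hev (aeval (g u) : k₁[X] →ₐ[k₁] L₁).toRingHom R p
    rw [h1, Polynomial.map_map, hcomp, ← hp, ← Polynomial.map_map, ← hev, hP, map_zero]
  -- values
  obtain ⟨m, hm⟩ : ∃ m, P.coeff m ≠ 0 := by
    by_contra h
    push Not at h
    exact hP0 (Polynomial.ext (by simpa using h))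
  have hval : ∀ t : k', (P.coeff m).eval t ≠ 0 → ∃ v, g' v = p.eval (g' t) := by
    intro t ht
    have h1 : P.map (evalRingHom t) ≠ 0 := by
      intro h
      have := congrArg (fun q => Polynomial.coeff q m) h
      simp only [coeff_map, coe_evalRingHom, coeff_zero] at this
      exact ht this
    refine mem_range_of_root g' h1 ?_
    have h2 := congrArg (Polynomial.eval (g' t)) hT
    rw [eval_zero] at h2
    have h3 : (R.eval p).eval (g' t) = (R.map (evalRingHom (g' t))).eval (p.eval (g' t)) :=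
      hev (evalRingHom (g' t)) R p
    rw [h3, Polynomial.map_map] at h2
    rw [Polynomial.map_map]
    have h4 : g'.comp (evalRingHom t) = (evalRingHom (g' t)).comp (mapRingHom g') := by
      apply Polynomial.ringHom_ext
      · intro a
        simp
      · simp
    rw [h4]
    exact h2
  have hinf : {t : k' | (P.coeff m).eval t ≠ 0}.Infinite := by
    have h1 : {t : k' | (P.coeff m).eval t = 0}.Finite := by
      refine (P.coeff m).roots.toFinset.finite_toSet.subset fun t ht => ?_
      simp only [Multiset.mem_toFinset, Finset.mem_coe]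
      exact (mem_roots hm).2 ht
    have h2 := h1.infinite_compl
    exact h2
  obtain ⟨S, hS, hcard⟩ := hinf.exists_subset_card_eq (n + 1)
  choose! v hv using hval
  let q : k'[X] := Lagrange.interpolate S id v
  have hinj : Set.InjOn (id : k' → k') S := Function.injective_id.injOn
  have hqd : q.degree < (n + 1 : ℕ) := by
    have := Lagrange.degree_interpolate_lt v hinj
    rwa [hcard] at this
  have hqv : ∀ t ∈ S, q.eval t = v t := fun t ht => Lagrange.eval_interpolate_at_node v hinj ht
  have hpq : q.map g' = p := by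
    have hc : (S.image g').card = n + 1 := by
      rw [Finset.card_image_of_injective _ g'.injective, hcard]
    refine Polynomial.eq_of_degrees_lt_of_eval_finset_eq (S.image g') ?_ ?_ ?_
    · rw [hc, degree_map]
      exact hqd
    · rw [hc]
      refine lt_of_le_of_lt degree_le_natDegree ?_
      exact_mod_cast Nat.lt_succ_of_le hn
    · intro x hx
      obtain ⟨t, ht, rfl⟩ := Finset.mem_image.1 hx
      rw [eval_map, ← hv t (hS ht), ← hqv t ht, Polynomial.eval₂_hom]
  refine ⟨q, ?_, g.injective ?_⟩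
  · rw [← natDegree_map g', hpq]
    exact hn
  · rw [hp, ← hpq]
    have h1 := RingHom.congr_fun hcomp q
    exact h1

/-! ### the dichotomy -/

theorem ent_map {A B : Type} (g : A → B) (x : ∀ i, J i → A) :
    QuadDefs_517.ent (fun i j => g (x i j)) = g '' QuadDefs_517.ent x := by
  ext c
  constructor
  · rintro ⟨i, b, rfl⟩
    exact ⟨_, ⟨i, b, rfl⟩, rfl⟩
  · rintro ⟨_, ⟨i, b, rfl⟩, rfl⟩
    exact ⟨i, b, rfl⟩

theorem coeffs_mp {κ κ' : Type} [Field κ] [Field κ'] (g : κ →+* κ') (F : ∀ i, J i → κ[X]) :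
    coeffs (mp g F) = g '' coeffs F := by
  ext c
  constructor
  · rintro ⟨i, a, j, rfl⟩
    exact ⟨_, ⟨i, a, j, rfl⟩, (coeff_map _ _).symm⟩
  · rintro ⟨_, ⟨i, a, j, rfl⟩, rfl⟩
    exact ⟨i, a, j, coeff_map _ _⟩

theorem onX_comp {E : Set (MvPolynomial (Σ i, J i) k)} {A B : Type} [Field A] [Field B]
    [Algebra k A] [Algebra k B] (g : A →ₐ[k] B) {x : ∀ i, J i → A} (hx : OnX E x) :
    OnX E (fun i j => g (x i j)) := OnX.map hx g

theorem ne_comp {A B : Type} [Field A] [Field B] (g : A →+* B) {x : ∀ i, J i → A}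
    (hx : ∀ i, x i ≠ 0) : ∀ i, (fun j => g (x i j)) ≠ 0 := by
  intro i h
  apply hx i
  funext j
  exact (map_eq_zero g).1 (congrFun h j)

theorem dich_core {D : CData k I J} {CC : Cls k J} (hCC : MapCC CC) (hK : KprimeP D)
    (hDiv : DivP D CC) {F₀ k' L F₁ k₁ L₁ : Type} [Field F₀] [Field k'] [Field L] [Field F₁]
    [Field k₁] [Field L₁] [IsAlgClosed F₀] [IsAlgClosed k'] [IsAlgClosed L] [IsAlgClosed F₁]
    [IsAlgClosed k₁] [IsAlgClosed L₁] [Algebra k F₀] [Algebra k k'] [Algebra k L]
    [Algebra F₀ k'] [Algebra F₀ L] [Algebra k' L] [IsScalarTower k F₀ k'] [IsScalarTower k F₀ L]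
    [IsScalarTower k k' L] [IsScalarTower F₀ k' L]
    [Algebra k F₁] [Algebra k k₁] [Algebra k L₁] [Algebra F₀ F₁] [Algebra F₀ k₁] [Algebra F₀ L₁]
    [Algebra F₁ k₁] [Algebra F₁ L₁] [Algebra k₁ L₁] [IsScalarTower k F₀ F₁] [IsScalarTower k F₀ k₁]
    [IsScalarTower k F₀ L₁] [IsScalarTower k F₁ k₁] [IsScalarTower k F₁ L₁]
    [IsScalarTower k k₁ L₁] [IsScalarTower F₀ F₁ k₁] [IsScalarTower F₀ F₁ L₁]
    [IsScalarTower F₀ k₁ L₁] [IsScalarTower F₁ k₁ L₁]
    (τ₀ : F₀ →ₐ[k] F₁) (τ' : k' →ₐ[k] k₁) (τ : L →ₐ[k] L₁)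
    (c0 : ∀ e, algebraMap F₁ L₁ (τ₀ e) = τ (algebraMap F₀ L e))
    (c1 : ∀ e, algebraMap k₁ L₁ (τ' e) = τ (algebraMap k' L e))
    (x₀ : ∀ i, J i → F₀) (H : ∀ i, J i → k'[X]) (u : L) (f : ∀ i, J i → L[X]) (a b : I → L)
    (c : L)
    (T0 : ∀ n, TrGe k (QuadDefs_517.ent x₀) n → TrGe F₀ (τ₀ '' QuadDefs_517.ent x₀) n)
    (T1 : ∀ n, TrGe F₀ (coeffs H) n → TrGe F₁ (τ' '' coeffs H) n)
    (T2 : Transcendental k₁ (τ u))
    (T3 : Algebra.IsAlgebraic (IntermediateField.adjoin k₁ {τ u}) L₁)
    (hx : OnX D.E x₀) (hx0 : ∀ i, x₀ i ≠ 0) (hxt : TrGe k (QuadDefs_517.ent x₀) (nn D))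
    (hH : Con D CC H) (hHt : TrGe F₀ (coeffs H) (hc D))
    (hL : Algebra.IsAlgebraic (IntermediateField.adjoin k' {u}) L)
    (hf : Con D CC f) (hj : Joins D f (up L x₀) (at' H u) a b c) :
    (∃ p : k'[X], p.natDegree ≤ 2 ∧ phi D a b c = aeval u p) ∨ DivOut D CC F₀ := by
  have e1 : (fun i j => τ (up L x₀ i j)) = up L₁ (fun i j => τ₀ (x₀ i j)) := by
    funext i j
    exact (c0 (x₀ i j)).symm
  have e2 : (fun i j => τ (at' H u i j)) = at' (mp (τ' : k' →+* k₁) H) (τ u) := by
    funext i j
    change τ (aeval u (H i j)) = aeval (τ u) ((H i j).map (τ' : k' →+* k₁))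
    rw [aeval_def, aeval_def, eval₂_map]
    have h1 := Polynomial.hom_eval₂ (H i j) (algebraMap k' L) (τ : L →+* L₁) u
    have h2 : (τ : L →+* L₁).comp (algebraMap k' L) = (algebraMap k₁ L₁).comp (τ' : k' →+* k₁) := by
      ext e
      exact (c1 e).symm
    rw [h2] at h1
    exact h1
  have hf₁ : Con D CC (mp (τ : L →+* L₁) f) := con_mp hCC τ hf
  have hH₁ : Con D CC (mp (τ' : k' →+* k₁) H) := con_mp hCC τ' hH
  have hj₁ := joins_mp τ hj
  rw [e1, e2] at hj₁
  have hx₁ : OnX D.E (fun i j => τ₀ (x₀ i j)) := onX_comp τ₀ hx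
  have hx₁0 : ∀ i, (fun j => τ₀ (x₀ i j)) ≠ 0 := ne_comp (τ₀ : F₀ →+* F₁) hx0
  by_cases hall : ∀ O : ValuationSubring L₁, (∀ z : k₁, algebraMap k₁ L₁ z ∈ O) →
      OneRadius D O (mp (τ : L →+* L₁) f) (fun i => τ (a i))
  · left
    obtain ⟨p, hp2, hp⟩ := hK F₁ k₁ L₁ (fun i j => τ₀ (x₀ i j)) (mp (τ' : k' →+* k₁) H) (τ u)
      (mp (τ : L →+* L₁) f) (fun i => τ (a i)) (fun i => τ (b i)) (τ c) hx₁ hx₁0 hH₁.map hH₁.cls
      T2 hf₁.map hf₁.cls hj₁ hall
    refine descent (τ' : k' →+* k₁) (τ : L →+* L₁) (fun x => (c1 x).symm) u T2 _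
      (hL.isAlgebraic _) 2 p hp2 ?_
    rw [phi_map]
    exact hp
  · right
    push Not at hall
    obtain ⟨O, hO, hnot⟩ := hall
    refine hDiv F₀ F₁ k₁ L₁ (fun i j => τ₀ (x₀ i j)) (mp (τ' : k' →+* k₁) H) (τ u)
      (mp (τ : L →+* L₁) f) (fun i => τ (a i)) (fun i => τ (b i)) (τ c) hx₁ hx₁0 ?_ hH₁ ?_ T2 T3
      hf₁ hj₁ O hO hnot
    · rw [ent_map]
      exact T0 _ hxt
    · rw [coeffs_mp]
      exact T1 _ hHt

/-! ### pushing forward adjunctions -/

theorem adj_push {A κ B κ' : Type} [Field A] [Field κ] [Field B] [Field κ'] [Algebra A κ]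
    [Algebra B κ'] (g : κ →+* κ') (gA : A →+* B)
    (hc : ∀ a, g (algebraMap A κ a) = algebraMap B κ' (gA a)) (S : Set κ) {e : κ}
    (he : e ∈ IntermediateField.adjoin A S) : g e ∈ IntermediateField.adjoin B (g '' S) := by
  let N := IntermediateField.adjoin B (g '' S)
  let P : IntermediateField A κ :=
    { carrier := {e | g e ∈ N}
      mul_mem' := fun {a b} ha hb => by
        change g (a * b) ∈ N
        rw [map_mul]
        exact N.mul_mem ha hb
      add_mem' := fun {a b} ha hb => by
        change g (a + b) ∈ N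
        rw [map_add]
        exact N.add_mem ha hb
      algebraMap_mem' := fun r => by
        change g (algebraMap A κ r) ∈ N
        rw [hc]
        exact N.algebraMap_mem _
      inv_mem' := fun a ha => by
        change g a⁻¹ ∈ N
        rw [map_inv₀]
        exact N.inv_mem ha }
  have hP : IntermediateField.adjoin A S ≤ P := by
    rw [IntermediateField.adjoin_le_iff]
    intro s hs
    exact IntermediateField.subset_adjoin B _ ⟨s, hs, rfl⟩
  exact hP he

theorem alg_push {A κ B κ' : Type} [Field A] [Field κ] [Field B] [Field κ'] [Algebra A κ]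
    [Algebra B κ'] (g : κ →+* κ') (gA : A →+* B)
    (hc : ∀ a, g (algebraMap A κ a) = algebraMap B κ' (gA a)) (S : Set κ) {e : κ}
    (he : IsAlgebraic (IntermediateField.adjoin A S) e) :
    IsAlgebraic (IntermediateField.adjoin B (g '' S)) (g e) := by
  obtain ⟨p, hp0, hp⟩ := he
  let h : IntermediateField.adjoin A S →+* IntermediateField.adjoin B (g '' S) :=
    (g.comp (algebraMap (IntermediateField.adjoin A S) κ)).codRestrict _
      (fun x => adj_push g gA hc S x.2)
  refine ⟨p.map h, (Polynomial.map_ne_zero_iff h.injective).2 hp0, ?_⟩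
  rw [Polynomial.aeval_def, Polynomial.eval₂_map]
  have h1 : (algebraMap (IntermediateField.adjoin B (g '' S)) κ').comp h =
      g.comp (algebraMap (IntermediateField.adjoin A S) κ) := rfl
  have h3 := Polynomial.hom_eval₂ p (algebraMap (IntermediateField.adjoin A S) κ) g e
  have h2 : Polynomial.eval₂ (algebraMap (IntermediateField.adjoin A S) κ) e p = 0 := hp
  rw [h2, map_zero] at h3
  rw [h1]
  exact h3.symm

theorem trge_push {A κ B κ' : Type} [Field A] [Field κ] [Field B] [Field κ'] [Algebra A κ]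
    [Algebra B κ'] (g : κ →+* κ') (gA : A →+* B)
    (hc : ∀ a, g (algebraMap A κ a) = algebraMap B κ' (gA a)) (S : Set κ) (n : ℕ)
    (hind : ∀ w : Fin n → κ, AlgebraicIndependent A w → AlgebraicIndependent B (fun i => g (w i)))
    (h : TrGe A S n) : TrGe B (g '' S) n := by
  obtain ⟨w, hw, hi⟩ := h
  exact ⟨fun i => g (w i), fun j => adj_push g gA hc S (hw j), hind w hi⟩

theorem alg_top {F₀ k' L Ω : Type} [Field F₀] [Field k'] [Field L] [Field Ω] [Algebra k' L]
    [Algebra F₀ Ω] (k₁ : IntermediateField F₀ Ω) (τ : L →+* Ω) (τ' : k' →+* k₁)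
    (hc : ∀ e, τ (algebraMap k' L e) = τ' e) (u : L)
    (hL : Algebra.IsAlgebraic (IntermediateField.adjoin k' {u}) L)
    (hΩ : ∀ K : IntermediateField F₀ Ω, (∀ e, τ e ∈ K) → ∀ z : Ω, IsAlgebraic K z) :
    Algebra.IsAlgebraic (IntermediateField.adjoin k₁ {τ u}) Ω := by
  refine ⟨fun z => ?_⟩
  generalize hN : IntermediateField.adjoin k₁ {τ u} = N
  let A := (algebraicClosure N Ω)
  have hA : ∀ e : L, τ e ∈ A := by
    intro e
    rw [mem_algebraicClosure_iff]
    have h1 := alg_push τ τ' hc {u} (hL.isAlgebraic e)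
    rw [Set.image_singleton, hN] at h1
    exact h1
  have hF : ∀ r : F₀, algebraMap F₀ Ω r ∈ A := by
    intro r
    have h1 : algebraMap F₀ Ω r ∈ N := N.algebraMap_mem (algebraMap F₀ k₁ r)
    exact A.algebraMap_mem ⟨_, h1⟩
  let K : IntermediateField F₀ Ω :=
    { carrier := {e | e ∈ A}
      mul_mem' := fun {a b} ha hb => A.mul_mem ha hb
      add_mem' := fun {a b} ha hb => A.add_mem ha hb
      algebraMap_mem' := hF
      inv_mem' := fun a ha => A.inv_mem ha }
  obtain ⟨p, hp0, hp⟩ := hΩ K hA z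
  let g : K →+* A := (algebraMap K Ω).codRestrict A (fun x => x.2)
  have h1 : IsAlgebraic A z := by
    refine ⟨p.map g, (Polynomial.map_ne_zero_iff g.injective).2 hp0, ?_⟩
    rw [Polynomial.aeval_def, Polynomial.eval₂_map]
    exact hp
  exact h1.restrictScalars _

theorem dich_mid {D : CData k I J} {CC : Cls k J} (hCC : MapCC CC)
    (hK : KprimeP D) (hDiv : DivP D CC)
    {F₀ k' L : Type} [Field F₀] [Field k'] [Field L] [IsAlgClosed F₀] [IsAlgClosed k']
    [IsAlgClosed L] [Algebra k F₀] [Algebra k k'] [Algebra k L] [Algebra F₀ k'] [Algebra F₀ L]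
    [Algebra k' L] [IsScalarTower k F₀ k'] [IsScalarTower k F₀ L] [IsScalarTower k k' L]
    [IsScalarTower F₀ k' L]
    (x₀ : ∀ i, J i → F₀) (H : ∀ i, J i → k'[X]) (u : L) (f : ∀ i, J i → L[X]) (a b : I → L)
    (c : L) (hx : OnX D.E x₀) (hx0 : ∀ i, x₀ i ≠ 0)
    (hxt : TrGe k (QuadDefs_517.ent x₀) (nn D))
    (hH : Con D CC H) (hHt : TrGe F₀ (coeffs H) (hc D)) (hu : Transcendental k' u)
    (hL : Algebra.IsAlgebraic (IntermediateField.adjoin k' {u}) L)
    (hf : Con D CC f) (hj : Joins D f (up L x₀) (at' H u) a b c)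
    (Ω : Type) [Field Ω] [IsAlgClosed Ω] [Algebra k Ω] [Algebra F₀ Ω] [IsScalarTower k F₀ Ω]
    (τ : L →ₐ[k] Ω) (hτ : ∀ (ι : Type) (w : ι → L), AlgebraicIndependent k w →
        AlgebraicIndependent F₀ (fun i => τ (w i)))
    (hΩ : ∀ K : IntermediateField F₀ Ω, (∀ e, τ e ∈ K) → ∀ z : Ω, IsAlgebraic K z)
    (F₁ k₁ : IntermediateField F₀ Ω) [IsAlgClosed F₁] [IsAlgClosed k₁]
    (m0 : ∀ e : F₀, τ (algebraMap F₀ L e) ∈ F₁) (m1 : ∀ e : k', τ (algebraMap k' L e) ∈ k₁)
    (h01 : F₁ ≤ k₁)
    (i0 : ∀ (n : ℕ) (w : Fin n → L), AlgebraicIndependent F₀ w →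
      AlgebraicIndependent F₁ (fun i => τ (w i)))
    (i1 : AlgebraicIndependent k' (fun _ : Unit => u) →
      AlgebraicIndependent k₁ (fun _ : Unit => τ u)) :
    (∃ p : k'[X], p.natDegree ≤ 2 ∧ phi D a b c = aeval u p) ∨ DivOut D CC F₀ := by
  letI A01 : Algebra F₁ k₁ := (IntermediateField.inclusion h01).toAlgebra
  haveI : IsScalarTower k F₁ k₁ := IsScalarTower.of_algebraMap_eq fun _ => rfl
  haveI : IsScalarTower F₀ F₁ k₁ := IsScalarTower.of_algebraMap_eq fun _ => rfl
  haveI : IsScalarTower F₁ k₁ Ω := IsScalarTower.of_algebraMap_eq fun _ => rfl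
  haveI : IsScalarTower k F₁ Ω := IsScalarTower.of_algebraMap_eq fun x => by
    rw [IsScalarTower.algebraMap_apply k F₀ Ω, IsScalarTower.algebraMap_apply k F₀ F₁]
    rfl
  haveI : IsScalarTower k k₁ Ω := IsScalarTower.of_algebraMap_eq fun x => by
    rw [IsScalarTower.algebraMap_apply k F₀ Ω, IsScalarTower.algebraMap_apply k F₀ k₁]
    rfl
  let τ₀ : F₀ →ₐ[k] F₁ :=
    { (τ.toRingHom.comp (algebraMap F₀ L)).codRestrict F₁ m0 with
      commutes' := fun r => Subtype.ext (by
        change τ (algebraMap F₀ L (algebraMap k F₀ r)) = algebraMap F₁ Ω (algebraMap k F₁ r)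
        rw [← IsScalarTower.algebraMap_apply k F₀ L, τ.commutes,
          ← IsScalarTower.algebraMap_apply k F₁ Ω]) }
  let τ' : k' →ₐ[k] k₁ :=
    { (τ.toRingHom.comp (algebraMap k' L)).codRestrict k₁ m1 with
      commutes' := fun r => Subtype.ext (by
        change τ (algebraMap k' L (algebraMap k k' r)) = algebraMap k₁ Ω (algebraMap k k₁ r)
        rw [← IsScalarTower.algebraMap_apply k k' L, τ.commutes,
          ← IsScalarTower.algebraMap_apply k k₁ Ω]) }
  have hτu : Transcendental k₁ (τ u) := by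
    have h1 := i1 (algebraicIndependent_unique_type_iff.2 hu)
    exact algebraicIndependent_unique_type_iff.1 h1
  refine dich_core hCC hK hDiv τ₀ τ' τ (fun e => rfl) (fun e => rfl) x₀ H u f a b c ?_ ?_ hτu ?_
    hx hx0 hxt hH hHt hL hf hj
  · intro n hn
    refine trge_push (τ₀ : F₀ →+* F₁) (algebraMap k F₀) (fun r => ?_) _ n (fun w hw => ?_) hn
    · change τ₀ (algebraMap k F₀ r) = _
      rw [τ₀.commutes, IsScalarTower.algebraMap_apply k F₀ F₁]
    · have h1 : AlgebraicIndependent k (fun i => algebraMap F₀ L (w i)) :=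
        hw.map' (f := IsScalarTower.toAlgHom k F₀ L) (algebraMap F₀ L).injective
      have h2 : AlgebraicIndependent F₀ (fun i => τ (algebraMap F₀ L (w i))) := hτ _ _ h1
      exact AlgebraicIndependent.of_comp (x := fun i => (τ₀ (w i) : F₁))
        (IsScalarTower.toAlgHom F₀ F₁ Ω) h2
  · intro n hn
    refine trge_push (τ' : k' →+* k₁) (τ₀ : F₀ →+* F₁) (fun r => ?_) _ n (fun w hw => ?_) hn
    · apply Subtype.ext
      change τ (algebraMap k' L (algebraMap F₀ k' r)) = τ (algebraMap F₀ L r)
      rw [← IsScalarTower.algebraMap_apply F₀ k' L]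
    · have h1 : AlgebraicIndependent F₀ (fun i => algebraMap k' L (w i)) :=
        hw.map' (f := IsScalarTower.toAlgHom F₀ k' L) (algebraMap k' L).injective
      have h2 := i0 n _ h1
      exact AlgebraicIndependent.of_comp (x := fun i => (τ' (w i) : k₁))
        (IsScalarTower.toAlgHom F₁ k₁ Ω) h2
  · exact alg_top k₁ (τ : L →+* Ω) (τ' : k' →+* k₁) (fun e => rfl) u hL hΩ

theorem dichotomy [IsAlgClosed k] {D : CData k I J} {CC : Cls k J} (hCC : MapCC CC)
    (hK : KprimeP D) (hDiv : DivP D CC)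
    {F₀ k' L : Type} [Field F₀] [Field k'] [Field L] [IsAlgClosed F₀] [IsAlgClosed k']
    [IsAlgClosed L] [Algebra k F₀] [Algebra k k'] [Algebra k L] [Algebra F₀ k'] [Algebra F₀ L]
    [Algebra k' L] [IsScalarTower k F₀ k'] [IsScalarTower k F₀ L] [IsScalarTower k k' L]
    [IsScalarTower F₀ k' L]
    (x₀ : ∀ i, J i → F₀) (H : ∀ i, J i → k'[X]) (u : L) (f : ∀ i, J i → L[X]) (a b : I → L)
    (c : L) (hx : OnX D.E x₀) (hx0 : ∀ i, x₀ i ≠ 0)
    (hxt : TrGe k (QuadDefs_517.ent x₀) (nn D))
    (hH : Con D CC H) (hHt : TrGe F₀ (coeffs H) (hc D)) (hu : Transcendental k' u)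
    (hL : Algebra.IsAlgebraic (IntermediateField.adjoin k' {u}) L)
    (hf : Con D CC f) (hj : Joins D f (up L x₀) (at' H u) a b c) :
    (∃ p : k'[X], p.natDegree ≤ 2 ∧ phi D a b c = aeval u p) ∨ DivOut D CC F₀ := by
  obtain ⟨Ω, _, _, _, _, _, τ, hτ, hΩ⟩ := exists_copy k F₀ L
  refine dich_mid hCC hK hDiv x₀ H u f a b c hx hx0 hxt hH hHt hu hL hf hj Ω τ hτ hΩ
    (cl (Set.range fun e : F₀ => τ (algebraMap F₀ L e)))
    (cl (Set.range fun e : k' => τ (algebraMap k' L e)))
    (fun e => subset_cl _ ⟨e, rfl⟩) (fun e => subset_cl _ ⟨e, rfl⟩)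
    (cl_le ?_)
    (fun n w hw => indep_rel (E := F₀) τ hτ _
      (fun S hS => cl_le (by rintro _ ⟨e, rfl⟩; exact hS e)) w hw)
    (fun hw => indep_rel (E := k') τ hτ _
      (fun S hS => cl_le (by rintro _ ⟨e, rfl⟩; exact hS e)) _ hw)
  rintro _ ⟨e, rfl⟩
  refine subset_cl _ ⟨algebraMap F₀ k' e, ?_⟩
  change τ _ = τ _
  rw [← IsScalarTower.algebraMap_apply F₀ k' L]

end Crest.Agent.R260.Quad_517
end
end

-- ▼ part R260/Pur1_920
section

/-!
# Row 260: moving line lemma (helper920), step (5) of #5156 in the form #5517 / #5602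

* `der_zero`, `der_unique`: derivations over an algebraic extension of characteristic zero
* `mov`, `mov_mem`: the identity `ψ (∂ b) = Σ c_j D_j ψ b` extends from `K` to `K'`
* `int_iff`: integrality over `A_R = ψ⁻¹ O` is regularity of all conjugates
* `int_deriv`: integral elements are stable under the derivation `∂`
-/

set_option autoImplicit false

noncomputable section

open Polynomial

namespace Crest.Agent.R260.Pur920

section DerZero

variable {K K' M : Type*} [Field K] [Field K'] [Field M] [CharZero K] [Algebra K K']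
  [Algebra.IsAlgebraic K K']

omit [CharZero K] [Algebra.IsAlgebraic K K'] in
/-- an additive map with the product rule over `ψ` which vanishes on `K`, on polynomials -/
lemma der_aeval (ψ : K' →+* M) (δ : K' →+ M)
    (hδ : ∀ a b, δ (a * b) = ψ a * δ b + ψ b * δ a)
    (h0 : ∀ a : K, δ (algebraMap K K' a) = 0) (b : K') (q : K[X]) :
    δ (aeval b q) = ψ (aeval b (derivative q)) * δ b := by
  have hpow : ∀ n : ℕ, δ (b ^ n) = ψ ((n : K') * b ^ (n - 1)) * δ b := by
    intro n
    induction n with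
    | zero =>
      have h1 := h0 1
      rw [map_one] at h1
      simp [h1]
    | succ n ih =>
      rw [pow_succ, hδ, ih]
      rcases n with _ | n
      · simp
      · simp only [map_mul, map_pow, map_natCast, Nat.add_sub_cancel, Nat.cast_add, Nat.cast_one,
          map_add, map_one]
        ring
  induction q using Polynomial.induction_on' with
  | add p q hp hq => simp only [map_add, hp, hq, add_mul]
  | monomial n a =>
    rw [aeval_monomial, hδ, h0, hpow, derivative_monomial, aeval_monomial]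
    simp only [map_mul, map_natCast, map_pow, mul_zero, add_zero]
    ring

/-- an additive map with the product rule over `ψ` which vanishes on `K` vanishes -/
theorem der_zero (ψ : K' →+* M) (δ : K' →+ M)
    (hδ : ∀ a b, δ (a * b) = ψ a * δ b + ψ b * δ a)
    (h0 : ∀ a : K, δ (algebraMap K K' a) = 0) (b : K') : δ b = 0 := by
  have hb : IsIntegral K b := Algebra.IsIntegral.isIntegral b
  have h1 := der_aeval ψ δ hδ h0 b (minpoly K b)
  rw [minpoly.aeval, map_zero] at h1
  have h2 : aeval b (derivative (minpoly K b)) ≠ 0 :=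
    (minpoly.irreducible hb).separable.aeval_derivative_ne_zero (minpoly.aeval K b)
  have h3 : ψ (aeval b (derivative (minpoly K b))) ≠ 0 := by
    intro h
    exact h2 (ψ.injective (by rw [h, map_zero]))
  rcases mul_eq_zero.mp h1.symm with h | h
  · exact absurd h h3
  · exact h

end DerZero

section Mov

variable {K K' M : Type*} [Field K] [Field K'] [Field M] [CharZero K] [Algebra K K']
  [Algebra.IsAlgebraic K K']

/-- **(MOV)** the identity `ψ (∂ b) = Σ c_j D_j (ψ b)` extends from `K` to `K'` -/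
theorem mov (ψ : K' →+* M) (der : Derivation ℤ K' K') {ι : Type*} (s : Finset ι) (c : ι → M)
    (D : ι → Derivation ℤ M M)
    (hK : ∀ a : K, ψ (der (algebraMap K K' a)) = ∑ j ∈ s, c j * D j (ψ (algebraMap K K' a)))
    (b : K') : ψ (der b) = ∑ j ∈ s, c j * D j (ψ b) := by
  let δ : K' →+ M :=
    { toFun := fun b => ψ (der b) - ∑ j ∈ s, c j * D j (ψ b)
      map_zero' := by simp
      map_add' := by
        intro a b
        simp only [map_add, mul_add, Finset.sum_add_distrib]
        ring }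
  have h1 : δ b = 0 := by
    refine der_zero (K := K) ψ δ ?_ ?_ b
    · intro a b
      show ψ (der (a * b)) - ∑ j ∈ s, c j * D j (ψ (a * b)) =
        ψ a * (ψ (der b) - ∑ j ∈ s, c j * D j (ψ b)) +
          ψ b * (ψ (der a) - ∑ j ∈ s, c j * D j (ψ a))
      have e1 : ∑ j ∈ s, c j * D j (ψ (a * b)) =
          ψ a * ∑ j ∈ s, c j * D j (ψ b) + ψ b * ∑ j ∈ s, c j * D j (ψ a) := by
        rw [Finset.mul_sum, Finset.mul_sum, ← Finset.sum_add_distrib]
        refine Finset.sum_congr rfl fun j _ => ?_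
        rw [map_mul, Derivation.leibniz, smul_eq_mul, smul_eq_mul]
        ring
      rw [e1, Derivation.leibniz, smul_eq_mul, smul_eq_mul, map_add, map_mul, map_mul]
      ring
    · intro a
      show ψ (der (algebraMap K K' a)) - ∑ j ∈ s, c j * D j (ψ (algebraMap K K' a)) = 0
      rw [hK, sub_self]
  exact sub_eq_zero.mp h1

/-- **(MOV)** regular elements stay regular -/
theorem mov_mem (ψ : K' →+* M) (der : Derivation ℤ K' K') {ι : Type*} (s : Finset ι) (c : ι → M)
    (D : ι → Derivation ℤ M M) (O : Subring M) (hc : ∀ j ∈ s, c j ∈ O)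
    (hD : ∀ j ∈ s, ∀ x ∈ O, D j x ∈ O)
    (hK : ∀ a : K, ψ (der (algebraMap K K' a)) = ∑ j ∈ s, c j * D j (ψ (algebraMap K K' a)))
    {b : K'} (hb : ψ b ∈ O) : ψ (der b) ∈ O := by
  rw [mov (K := K) ψ der s c D hK b]
  exact sum_mem fun j hj => O.mul_mem (hc j hj) (hD j hj _ hb)


/-- a derivation of `K'` preserving `K` commutes with the automorphisms -/
theorem der_comm (der : Derivation ℤ K' K') (d : K → K)
    (hd : ∀ a, der (algebraMap K K' a) = algebraMap K K' (d a)) (σ : K' ≃ₐ[K] K') (b : K') :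
    σ (der b) = der (σ b) := by
  have h1 : ∀ b : K', ((σ : K' →+* K')) (der b) - der (σ b) = 0 := by
    intro b
    let δ : K' →+ K' :=
      { toFun := fun b => σ (der b) - der (σ b)
        map_zero' := by simp
        map_add' := by
          intro a b
          simp only [map_add]
          ring }
    refine der_zero (K := K) (σ : K' →+* K') δ ?_ ?_ b
    · intro a b
      show σ (der (a * b)) - der (σ (a * b)) =
        σ a * (σ (der b) - der (σ b)) + σ b * (σ (der a) - der (σ a))
      rw [Derivation.leibniz, map_mul σ a b, Derivation.leibniz, smul_eq_mul, smul_eq_mul,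
        smul_eq_mul, smul_eq_mul, map_add σ, map_mul σ, map_mul σ]
      ring
    · intro a
      show σ (der (algebraMap K K' a)) - der (σ (algebraMap K K' a)) = 0
      rw [hd, σ.commutes, σ.commutes, hd, sub_self]
  have h2 := h1 b
  exact sub_eq_zero.mp h2

end Mov

section Int

variable {K K' M : Type*} [Field K] [Field K'] [Field M] [Algebra K K']

/-- `A_R`: the elements of `K` with `ψ`-value in `O` -/
def AR (K : Type*) {K' M : Type*} [Field K] [Field K'] [Field M] [Algebra K K'] (ψ : K' →+* M)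
    (O : Subring M) : Subring K :=
  O.comap (ψ.comp (algebraMap K K'))

lemma mem_AR (ψ : K' →+* M) (O : Subring M) (a : K) :
    a ∈ AR K ψ O ↔ ψ (algebraMap K K' a) ∈ O := Iff.rfl

/-- **(INT)** `b` is integral over `A_R` iff all conjugates of `b` are regular -/
theorem int_iff [Normal K K'] (ψ : K' →+* M) (O : Subring M)
    (hO : ∀ x : M, IsIntegral O x → x ∈ O) (b : K') :
    IsIntegral (AR K ψ O) b ↔ ∀ σ : K' ≃ₐ[K] K', ψ (σ b) ∈ O := by
  constructor
  · rintro ⟨p, hp, hp0⟩ σ
    apply hO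
    let φ : AR K ψ O →+* O :=
      { toFun := fun a => ⟨ψ (algebraMap K K' a), a.2⟩
        map_one' := by ext; simp
        map_mul' := by intro a b; ext; simp
        map_zero' := by ext; simp
        map_add' := by intro a b; ext; simp }
    refine ⟨p.map φ, hp.map φ, ?_⟩
    rw [eval₂_map]
    have e1 : (algebraMap O M).comp φ =
        (ψ.comp (σ : K' →+* K')).comp (algebraMap (AR K ψ O) K') := by
      ext a
      show ψ (algebraMap K K' a) = ψ (σ (algebraMap K K' a))
      rw [σ.commutes]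
    rw [e1]
    have e2 := Polynomial.hom_eval₂ p (algebraMap (AR K ψ O) K') (ψ.comp (σ : K' →+* K')) b
    rw [hp0, map_zero] at e2
    exact e2.symm
  · intro h
    have hb : IsIntegral K b := Normal.isIntegral inferInstance b
    -- the coefficients of the minimal polynomial
    have hsp : ((minpoly K b).map (algebraMap K K')).Splits :=
      Normal.splits inferInstance b
    have hroots : ∀ r ∈ ((minpoly K b).map (algebraMap K K')).roots, ψ r ∈ O := by
      intro r hr
      have h1 : aeval r (minpoly K b) = 0 := by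
        have := (mem_roots ((minpoly.monic hb).map (algebraMap K K')).ne_zero).mp hr
        rwa [IsRoot.def, eval_map, ← aeval_def] at this
      obtain ⟨σ, hσ⟩ := minpoly.exists_algEquiv_of_root' (K := K) (L := K') (x := r) (y := b)
        hb.isAlgebraic h1
      rw [← hσ]
      exact h σ
    have hprod : ((minpoly K b).map (algebraMap K K')).map ψ =
        ((((minpoly K b).map (algebraMap K K')).roots.map ψ).map (fun r => X - C r)).prod := by
      have h1 := hsp.eq_prod_roots_of_monic ((minpoly.monic hb).map (algebraMap K K'))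
      conv_lhs => rw [h1]
      rw [Polynomial.map_multiset_prod, Multiset.map_map, Multiset.map_map]
      congr 1
      refine Multiset.map_congr rfl fun r _ => ?_
      simp
    have hmem : ∀ S : Multiset M, (∀ r ∈ S, r ∈ O) →
        ∀ i, ((S.map (fun r => X - C r)).prod).coeff i ∈ O := by
      intro S hS
      have hl : (S.map (fun r => X - C r)).prod ∈ Polynomial.lifts (O.subtype) := by
        apply Subsemiring.multiset_prod_mem
        intro q hq
        obtain ⟨r, hr, rfl⟩ := Multiset.mem_map.mp hq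
        refine Subring.sub_mem (Polynomial.liftsRing O.subtype) ?_ ?_
        · exact Polynomial.X_mem_lifts _
        · exact (Polynomial.lifts_iff_coeff_lifts _).mpr (by
            intro n
            rw [coeff_C]
            split_ifs
            · exact ⟨⟨r, hS r hr⟩, rfl⟩
            · exact ⟨0, by simp⟩)
      intro i
      obtain ⟨x, hx⟩ := (Polynomial.lifts_iff_coeff_lifts _).mp hl i
      rw [← hx]
      exact x.2
    have hcoef : ∀ i, (minpoly K b).coeff i ∈ AR K ψ O := by
      intro i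
      rw [mem_AR]
      have h1 : ψ (algebraMap K K' ((minpoly K b).coeff i)) =
          (((minpoly K b).map (algebraMap K K')).map ψ).coeff i := by
        rw [coeff_map, coeff_map]
      rw [h1, hprod]
      apply hmem
      intro r hr
      obtain ⟨r', hr', rfl⟩ := Multiset.mem_map.mp hr
      exact hroots r' hr'
    have hl : minpoly K b ∈ Polynomial.lifts ((AR K ψ O).subtype) :=
      (Polynomial.lifts_iff_coeff_lifts _).mpr fun n => ⟨⟨_, hcoef n⟩, rfl⟩
    obtain ⟨q, hq, -, hqm⟩ := Polynomial.lifts_and_natDegree_eq_and_monic hl (minpoly.monic hb)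
    refine ⟨q, hqm, ?_⟩
    have h2 : (algebraMap (AR K ψ O) K') = (algebraMap K K').comp (AR K ψ O).subtype := rfl
    rw [h2, ← eval₂_map, hq, ← aeval_def, minpoly.aeval]

/-- **(INT)** integrality over `A_R` is stable under the derivation -/
theorem int_deriv [CharZero K] [Normal K K'] (ψ : K' →+* M) (O : Subring M)
    (hO : ∀ x : M, IsIntegral O x → x ∈ O)
    (der : Derivation ℤ K' K') (d : K → K)
    (hd : ∀ a, der (algebraMap K K' a) = algebraMap K K' (d a))
    {ι : Type*} (s : Finset ι) (c : ι → M)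
    (D : ι → Derivation ℤ M M) (hc : ∀ j ∈ s, c j ∈ O)
    (hD : ∀ j ∈ s, ∀ x ∈ O, D j x ∈ O)
    (hK : ∀ a : K, ψ (algebraMap K K' (d a)) = ∑ j ∈ s, c j * D j (ψ (algebraMap K K' a)))
    {b : K'} (hb : IsIntegral (AR K ψ O) b) : IsIntegral (AR K ψ O) (der b) := by
  have halg : Algebra.IsAlgebraic K K' := Normal.toIsAlgebraic
  rw [int_iff ψ O hO] at hb ⊢
  intro σ
  rw [der_comm (K := K) der d hd σ b]
  exact mov_mem (K := K) ψ der s c D O hc hD (fun a => by rw [hd]; exact hK a) (hb σ)

end Int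

end Crest.Agent.R260.Pur920
end
end

-- ▼ part R260/Pur2_920
section

/-!
# Row 260: the conic lemma (P1) of #5602 (helper920)

* `chain_mem`: derivatives along a generic curve of elements with integral derivatives
* `quad_of_int`: integral derivatives at every place of `k(u)` and a pole of order two at infinity
  ==> quadratic polynomial
-/

set_option autoImplicit false

noncomputable section

open Polynomial

namespace Crest.Agent.R260.Pur920

section Chain

variable {K K' L : Type*} [Field K] [Field K'] [Field L] [CharZero K] [Algebra K K']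
  [Algebra.IsAlgebraic K K']

/-- **(CHAIN)** `S ⊆ K'` stable under the derivations `∂_j`, `d (ψ b) = Σ e_j ψ (∂_j b)` on `K`:
all derivatives of `g * ψ b` stay in `O`. -/
theorem chain_mem (ψ : K' →+* L) (dL : Derivation ℤ L L) {ι : Type*} (s : Finset ι)
    (e : ι → L) (der : ι → Derivation ℤ K' K')
    (hK : ∀ a : K, dL (ψ (algebraMap K K' a)) = ∑ j ∈ s, e j * ψ (der j (algebraMap K K' a)))
    (S : Subring K') (hS : ∀ j ∈ s, ∀ b ∈ S, der j b ∈ S)
    (O0 O : Subring L) (h0 : O0 ≤ O) (hSO : ∀ b ∈ S, ψ b ∈ O) (hd0 : ∀ x ∈ O0, dL x ∈ O0)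
    (he : ∀ j ∈ s, e j ∈ O0) {g : L} (hg : g ∈ O0) {b : K'} (hb : b ∈ S) (r : ℕ) :
    (dL)^[r] (g * ψ b) ∈ O := by
  -- the identity extends to `K'`
  have hK' : ∀ b : K', dL (ψ b) = ∑ j ∈ s, e j * ψ (der j b) := by
    intro b
    let δ : K' →+ L :=
      { toFun := fun b => dL (ψ b) - ∑ j ∈ s, e j * ψ (der j b)
        map_zero' := by simp
        map_add' := by
          intro a b
          simp only [map_add, mul_add, Finset.sum_add_distrib]
          ring }
    have h1 : δ b = 0 := by
      refine der_zero (K := K) ψ δ ?_ ?_ b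
      · intro a b
        show dL (ψ (a * b)) - ∑ j ∈ s, e j * ψ (der j (a * b)) =
          ψ a * (dL (ψ b) - ∑ j ∈ s, e j * ψ (der j b)) +
            ψ b * (dL (ψ a) - ∑ j ∈ s, e j * ψ (der j a))
        have e1 : ∑ j ∈ s, e j * ψ (der j (a * b)) =
            ψ a * ∑ j ∈ s, e j * ψ (der j b) + ψ b * ∑ j ∈ s, e j * ψ (der j a) := by
          rw [Finset.mul_sum, Finset.mul_sum, ← Finset.sum_add_distrib]
          refine Finset.sum_congr rfl fun j _ => ?_
          rw [Derivation.leibniz, smul_eq_mul, smul_eq_mul, map_add, map_mul, map_mul]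
          ring
        rw [e1, map_mul, Derivation.leibniz, smul_eq_mul, smul_eq_mul]
        ring
      · intro a
        show dL (ψ (algebraMap K K' a)) - ∑ j ∈ s, e j * ψ (der j (algebraMap K K' a)) = 0
        rw [hK, sub_self]
    exact sub_eq_zero.mp h1
  -- the `O0`-span of `ψ S`
  let T : AddSubgroup L := AddSubgroup.closure {x | ∃ g ∈ O0, ∃ b ∈ S, x = g * ψ b}
  have hTO : T ≤ O.toAddSubgroup := by
    rw [AddSubgroup.closure_le]
    rintro x ⟨g, hg, b, hb, rfl⟩
    exact O.mul_mem (h0 hg) (hSO b hb)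
  have hTd : ∀ x ∈ T, dL x ∈ T := by
    intro x hx
    induction hx using AddSubgroup.closure_induction with
    | mem x hx =>
      obtain ⟨g, hg, b, hb, rfl⟩ := hx
      rw [Derivation.leibniz, smul_eq_mul, smul_eq_mul, hK', Finset.mul_sum]
      refine T.add_mem (T.sum_mem fun j hj => ?_) ?_
      · exact AddSubgroup.subset_closure ⟨g * e j, O0.mul_mem hg (he j hj), der j b, hS j hj b hb,
          by ring⟩
      · exact AddSubgroup.subset_closure ⟨dL g, hd0 g hg, b, hb, by ring⟩
    | zero => rw [map_zero]; exact T.zero_mem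
    | add x y _ _ hx hy => rw [map_add]; exact T.add_mem hx hy
    | neg x _ hx => rw [map_neg]; exact T.neg_mem hx
  have hr : ∀ r : ℕ, (dL)^[r] (g * ψ b) ∈ T := by
    intro r
    induction r with
    | zero => exact AddSubgroup.subset_closure ⟨g, hg, b, hb, rfl⟩
    | succ n ih => rw [Function.iterate_succ_apply']; exact hTd _ ih
  exact hTO (hr r)

end Chain

section Places

variable {k : Type*} [Field k] {Kr : Type*} [Field Kr] [Algebra k[X] Kr] [IsFractionRing k[X] Kr]

/-- the local ring of `k(u)` at the finite place `a` -/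
def Va (Kr : Type*) [Field Kr] [Algebra k[X] Kr] [IsFractionRing k[X] Kr] (a : k) :
    ValuationSubring Kr where
  carrier := {x | ∃ p q : k[X], q.eval a ≠ 0 ∧ x * algebraMap k[X] Kr q = algebraMap k[X] Kr p}
  mul_mem' := by
    rintro x y ⟨p, q, hq, h⟩ ⟨p', q', hq', h'⟩
    refine ⟨p * p', q * q', by rw [eval_mul]; exact mul_ne_zero hq hq', ?_⟩
    rw [map_mul, map_mul, ← h, ← h']
    ring
  one_mem' := ⟨1, 1, by simp, by simp⟩
  add_mem' := by
    rintro x y ⟨p, q, hq, h⟩ ⟨p', q', hq', h'⟩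
    refine ⟨p * q' + p' * q, q * q', by rw [eval_mul]; exact mul_ne_zero hq hq', ?_⟩
    rw [map_add, map_mul, map_mul, map_mul, ← h, ← h']
    ring
  zero_mem' := ⟨0, 1, by simp, by simp⟩
  neg_mem' := by
    rintro x ⟨p, q, hq, h⟩
    exact ⟨-p, q, hq, by rw [map_neg, ← h]; ring⟩
  mem_or_inv_mem' := by
    intro x
    obtain ⟨p, q, hq, rfl⟩ := IsFractionRing.div_surjective (A := k[X]) x
    have hq0 : q ≠ 0 := nonZeroDivisors.ne_zero hq
    by_cases hp0 : p = 0
    · left
      exact ⟨0, 1, by simp, by simp [hp0]⟩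
    obtain ⟨p', hp', hpn⟩ := exists_eq_pow_rootMultiplicity_mul_and_not_dvd p hp0 a
    obtain ⟨q', hq', hqn⟩ := exists_eq_pow_rootMultiplicity_mul_and_not_dvd q hq0 a
    rw [dvd_iff_isRoot, IsRoot.def] at hpn hqn
    have hX : algebraMap k[X] Kr (X - C a) ≠ 0 := by
      rw [Ne, FaithfulSMul.algebraMap_eq_zero_iff]
      exact X_sub_C_ne_zero a
    have hp1 : algebraMap k[X] Kr p' ≠ 0 := by
      rw [Ne, FaithfulSMul.algebraMap_eq_zero_iff]
      rintro rfl
      simp at hpn
    have hq1 : algebraMap k[X] Kr q' ≠ 0 := by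
      rw [Ne, FaithfulSMul.algebraMap_eq_zero_iff]
      rintro rfl
      simp at hqn
    rcases le_total (q.rootMultiplicity a) (p.rootMultiplicity a) with h | h
    · left
      refine ⟨(X - C a) ^ (p.rootMultiplicity a - q.rootMultiplicity a) * p', q', hqn, ?_⟩
      rw [hp', hq']
      simp only [map_mul, map_pow]
      have e1 : algebraMap k[X] Kr (X - C a) ^ p.rootMultiplicity a =
          algebraMap k[X] Kr (X - C a) ^ (p.rootMultiplicity a - q.rootMultiplicity a) *
            algebraMap k[X] Kr (X - C a) ^ q.rootMultiplicity a := by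
        rw [← pow_add, Nat.sub_add_cancel h]
      rw [← hp', ← hq', e1]
      field_simp
    · right
      refine ⟨(X - C a) ^ (q.rootMultiplicity a - p.rootMultiplicity a) * q', p', hpn, ?_⟩
      rw [hp', hq']
      simp only [map_mul, map_pow]
      have e1 : algebraMap k[X] Kr (X - C a) ^ q.rootMultiplicity a =
          algebraMap k[X] Kr (X - C a) ^ (q.rootMultiplicity a - p.rootMultiplicity a) *
            algebraMap k[X] Kr (X - C a) ^ p.rootMultiplicity a := by
        rw [← pow_add, Nat.sub_add_cancel h]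
      rw [← hp', ← hq', e1]
      field_simp


/-- the local ring of `k(u)` at infinity -/
def Vinf (k Kr : Type*) [Field k] [Field Kr] [Algebra k[X] Kr] [IsFractionRing k[X] Kr] :
    ValuationSubring Kr where
  carrier := {x | ∃ p q : k[X], q ≠ 0 ∧ p.degree ≤ q.degree ∧
    x * algebraMap k[X] Kr q = algebraMap k[X] Kr p}
  mul_mem' := by
    rintro x y ⟨p, q, hq, hd, h⟩ ⟨p', q', hq', hd', h'⟩
    refine ⟨p * p', q * q', mul_ne_zero hq hq', ?_, ?_⟩
    · rw [degree_mul, degree_mul]
      exact add_le_add hd hd'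
    · rw [map_mul, map_mul, ← h, ← h']
      ring
  one_mem' := ⟨1, 1, one_ne_zero, le_rfl, by simp⟩
  add_mem' := by
    rintro x y ⟨p, q, hq, hd, h⟩ ⟨p', q', hq', hd', h'⟩
    refine ⟨p * q' + p' * q, q * q', mul_ne_zero hq hq', ?_, ?_⟩
    · refine (degree_add_le _ _).trans (max_le ?_ ?_)
      · rw [degree_mul, degree_mul]
        gcongr
      · rw [degree_mul, degree_mul, add_comm q.degree]
        gcongr
    · rw [map_add, map_mul, map_mul, map_mul, ← h, ← h']
      ring
  zero_mem' := ⟨0, 1, one_ne_zero, by simp, by simp⟩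
  neg_mem' := by
    rintro x ⟨p, q, hq, hd, h⟩
    exact ⟨-p, q, hq, by rwa [degree_neg], by rw [map_neg, ← h]; ring⟩
  mem_or_inv_mem' := by
    intro x
    obtain ⟨p, q, hq, rfl⟩ := IsFractionRing.div_surjective (A := k[X]) x
    have hq0 : q ≠ 0 := nonZeroDivisors.ne_zero hq
    by_cases hp0 : p = 0
    · left
      exact ⟨0, 1, one_ne_zero, by simp, by simp [hp0]⟩
    have hp1 : algebraMap k[X] Kr p ≠ 0 := by
      rwa [Ne, FaithfulSMul.algebraMap_eq_zero_iff]
    have hq1 : algebraMap k[X] Kr q ≠ 0 := by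
      rwa [Ne, FaithfulSMul.algebraMap_eq_zero_iff]
    rcases le_total p.degree q.degree with h | h
    · left
      exact ⟨p, q, hq0, h, by field_simp⟩
    · right
      exact ⟨q, p, hp0, h, by field_simp⟩


/-- elements of all finite local rings are polynomials -/
lemma exists_poly [IsAlgClosed k] {x : Kr} (hx : ∀ a : k, x ∈ Va Kr a) :
    ∃ p : k[X], x = algebraMap k[X] Kr p := by
  classical
  -- a representation with denominator of minimal degree
  have hex : ∃ n : ℕ, ∃ p q : k[X], q ≠ 0 ∧ q.natDegree = n ∧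
      x * algebraMap k[X] Kr q = algebraMap k[X] Kr p := by
    obtain ⟨p, q, hq, h⟩ := hx 0
    exact ⟨q.natDegree, p, q, by rintro rfl; simp at hq, rfl, h⟩
  obtain ⟨p, q, hq0, hqn, h⟩ := Nat.find_spec hex
  have hmin := fun m (hm : m < Nat.find hex) => Nat.find_min hex hm
  by_cases hdeg : q.natDegree = 0
  · rw [natDegree_eq_zero] at hdeg
    obtain ⟨c, rfl⟩ := hdeg
    have hc : c ≠ 0 := by rintro rfl; simp at hq0
    refine ⟨C c⁻¹ * p, ?_⟩
    rw [map_mul, ← h, mul_comm x, ← mul_assoc, ← map_mul, ← C_mul, inv_mul_cancel₀ hc, C_1,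
      map_one, one_mul]
  · exfalso
    have hdeg' : q.degree ≠ 0 := by
      rw [degree_eq_natDegree hq0]
      exact_mod_cast hdeg
    obtain ⟨a, ha⟩ := IsAlgClosed.exists_root q hdeg'
    obtain ⟨q₁, hq₁⟩ := dvd_iff_isRoot.mpr ha
    obtain ⟨p', q', hq', h'⟩ := hx a
    -- p q' = p' q, so (X - a) | p
    have h2 : p * q' = p' * q := by
      apply FaithfulSMul.algebraMap_injective k[X] Kr
      rw [map_mul, map_mul, ← h, ← h']
      ring
    have h3 : (X - C a) ∣ p := by
      have h4 : (X - C a) ∣ p * q' := by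
        rw [h2]
        exact (dvd_iff_isRoot.mpr ha).mul_left p'
      rcases (prime_X_sub_C a).dvd_or_dvd h4 with h5 | h5
      · exact h5
      · exact absurd (dvd_iff_isRoot.mp h5) hq'
    obtain ⟨p₁, hp₁⟩ := h3
    have hX : algebraMap k[X] Kr (X - C a) ≠ 0 := by
      rw [Ne, FaithfulSMul.algebraMap_eq_zero_iff]
      exact X_sub_C_ne_zero a
    have hq₁0 : q₁ ≠ 0 := by
      rintro rfl
      rw [mul_zero] at hq₁
      exact hq0 hq₁
    refine hmin q₁.natDegree ?_ ⟨p₁, q₁, hq₁0, rfl, ?_⟩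
    · rw [← hqn, hq₁, natDegree_mul (X_sub_C_ne_zero a) hq₁0, natDegree_X_sub_C]
      omega
    · rw [hq₁, hp₁, map_mul, map_mul] at h
      apply mul_left_cancel₀ hX
      rw [← h]
      ring

/-- coefficients of the minimal polynomial of an integral element lie in the valuation ring -/
lemma coeff_mem {L : Type*} [Field L] [Algebra Kr L] (V : ValuationSubring Kr) {f : L}
    (hf : IsIntegral V f) (i : ℕ) : (minpoly Kr f).coeff i ∈ V := by
  obtain ⟨p, hp, hp0⟩ := hf
  have h1 : minpoly Kr f ∣ p.map (algebraMap V Kr) := by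
    apply minpoly.dvd
    rw [aeval_map_algebraMap]
    exact hp0
  have hfi : IsIntegral Kr f := ⟨p.map (algebraMap V Kr), hp.map _, by
    rw [eval₂_map]
    exact hp0⟩
  have h2 := Polynomial.isIntegral_coeff_of_dvd p (minpoly Kr f) hp (minpoly.monic hfi) h1 i
  obtain ⟨y, hy⟩ := (IsIntegrallyClosed.isIntegral_iff (R := V) (K := Kr)).mp h2
  rw [← hy]
  exact y.2

end Places

end Crest.Agent.R260.Pur920
end
end

-- ▼ part R260/Pur3_920
section

/-!
# Row 260: quadratic polynomials from integrality at all places (helper920)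

* `zero_of_int`: `h` integral at all finite places, `u ^ m h` integral at infinity, `m > 0` ==> `h = 0`
* `const_of_der`: constants of `d/du` are in `k`
* `quad_of_int`, `quad_of_int'`
-/

set_option autoImplicit false

noncomputable section

open Polynomial

namespace Crest.Agent.R260.Pur920

variable {k : Type*} [Field k] {Kr : Type*} [Field Kr] [Algebra k[X] Kr] [IsFractionRing k[X] Kr]
variable {L : Type*} [Field L] [Algebra Kr L]

/-- the variable `u` in `L` -/
def U (k Kr L : Type*) [Field k] [Field Kr] [Algebra k[X] Kr] [Field L] [Algebra Kr L] : L :=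
  algebraMap Kr L (algebraMap k[X] Kr X)

lemma algebraMap_X_ne_zero : algebraMap k[X] Kr X ≠ 0 := by
  rw [Ne, FaithfulSMul.algebraMap_eq_zero_iff]
  exact X_ne_zero

lemma U_ne_zero : U k Kr L ≠ 0 := by
  rw [U, Ne, FaithfulSMul.algebraMap_eq_zero_iff]
  exact algebraMap_X_ne_zero

lemma degree_le_of_mem_Vinf {p : k[X]} (hp : algebraMap k[X] Kr p ∈ Vinf k Kr) : p.degree ≤ 0 := by
  obtain ⟨a, q, hq, hd, h⟩ := hp
  have h1 : p * q = a := by
    apply FaithfulSMul.algebraMap_injective k[X] Kr
    rw [map_mul, h]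
  by_contra hc
  rw [not_le] at hc
  rw [← h1, degree_mul, degree_eq_natDegree hq, degree_eq_natDegree (ne_zero_of_degree_gt hc)] at hd
  rw [degree_eq_natDegree (ne_zero_of_degree_gt hc)] at hc
  have h2 : p.natDegree + q.natDegree ≤ q.natDegree := by exact_mod_cast hd
  have h3 : 0 < p.natDegree := by exact_mod_cast hc
  omega

/-- integral at all finite places and vanishing at infinity ==> zero -/
theorem zero_of_int [IsAlgClosed k] {h : L} (hfin : ∀ a : k, IsIntegral (Va Kr a) h) {m : ℕ}
    (hm : 0 < m) (hinf : IsIntegral (Vinf k Kr) (U k Kr L ^ m * h)) : h = 0 := by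
  -- `h` is algebraic
  have hh : IsIntegral Kr h := by
    obtain ⟨p, hp, hp0⟩ := hfin 0
    exact ⟨p.map (algebraMap (Va Kr 0) Kr), hp.map _, by rw [eval₂_map]; exact hp0⟩
  set s : Kr := algebraMap k[X] Kr X ^ m with hs
  have hs0 : s ≠ 0 := pow_ne_zero _ algebraMap_X_ne_zero
  have hsU : U k Kr L ^ m * h = algebraMap Kr L s * h := by
    rw [U, hs, map_pow]
  rw [hsU] at hinf
  set h' : L := algebraMap Kr L s * h with hh'
  have hh1 : IsIntegral Kr h' := isIntegral_algebraMap.mul hh
  -- the two minimal polynomials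
  have hm1 : minpoly Kr h' = (minpoly Kr h).scaleRoots s := by
    have d1 : minpoly Kr h' ∣ (minpoly Kr h).scaleRoots s := by
      apply minpoly.dvd
      exact scaleRoots_aeval_eq_zero (minpoly.aeval Kr h)
    have d2 : minpoly Kr h ∣ (minpoly Kr h').scaleRoots s⁻¹ := by
      apply minpoly.dvd
      have h1 := scaleRoots_aeval_eq_zero (r := s⁻¹) (minpoly.aeval Kr h')
      have h2 : algebraMap Kr L s⁻¹ * h' = h := by
        rw [hh', ← mul_assoc, ← map_mul, inv_mul_cancel₀ hs0, map_one, one_mul]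
      rwa [h2] at h1
    have n1 := natDegree_le_of_dvd d1 (scaleRoots_ne_zero (minpoly.ne_zero hh) s)
    have n2 := natDegree_le_of_dvd d2 (scaleRoots_ne_zero (minpoly.ne_zero hh1) s⁻¹)
    rw [natDegree_scaleRoots] at n1 n2
    symm
    apply eq_of_monic_of_dvd_of_natDegree_le (minpoly.monic hh1)
    · exact (monic_scaleRoots_iff s).mpr (minpoly.monic hh)
    · exact d1
    · rw [natDegree_scaleRoots]
      exact n2
  -- the coefficients vanish
  have hc : ∀ i, i < (minpoly Kr h).natDegree → (minpoly Kr h).coeff i = 0 := by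
    intro i hi
    obtain ⟨P, hP⟩ := exists_poly (k := k) (x := (minpoly Kr h).coeff i)
      (fun a => coeff_mem (Va Kr a) (hfin a) i)
    have h1 := coeff_mem (Vinf k Kr) hinf i
    rw [hm1, coeff_scaleRoots, hP, hs, ← pow_mul, ← map_pow, ← map_mul] at h1
    have h2 := degree_le_of_mem_Vinf h1
    have hP0 : P = 0 := by
      by_contra hP0
      rw [degree_mul, degree_X_pow, degree_eq_natDegree hP0] at h2
      have h3 : P.natDegree + m * ((minpoly Kr h).natDegree - i) ≤ 0 := by exact_mod_cast h2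
      have h4 : 0 < m * ((minpoly Kr h).natDegree - i) := Nat.mul_pos hm (by omega)
      omega
    rw [hP, hP0, map_zero]
  have h3 : minpoly Kr h = X ^ (minpoly Kr h).natDegree := by
    ext i
    rw [coeff_X_pow]
    rcases lt_trichotomy i (minpoly Kr h).natDegree with h | h | h
    · rw [hc i h, if_neg h.ne]
    · rw [if_pos h, h]
      exact (minpoly.monic hh).coeff_natDegree
    · rw [if_neg h.ne', coeff_eq_zero_of_natDegree_lt h]
  have h4 := minpoly.aeval Kr h
  rw [h3, map_pow, aeval_X] at h4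
  exact (pow_eq_zero_iff (minpoly.natDegree_pos hh).ne').mp h4

section Const

variable (dL : Derivation ℤ L L)
  (hdL : ∀ p : k[X], dL (algebraMap Kr L (algebraMap k[X] Kr p)) =
    algebraMap Kr L (algebraMap k[X] Kr (derivative p)))

include hdL

/-- `d/du` maps `k(u)` to `k(u)` -/
lemma der_Kr (x : Kr) : ∃ y : Kr, dL (algebraMap Kr L x) = algebraMap Kr L y := by
  obtain ⟨p, q, hq, rfl⟩ := IsFractionRing.div_surjective (A := k[X]) x
  have hq0 : algebraMap k[X] Kr q ≠ 0 := by
    rw [Ne, FaithfulSMul.algebraMap_eq_zero_iff]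
    exact nonZeroDivisors.ne_zero hq
  have hq1 : algebraMap Kr L (algebraMap k[X] Kr q) ≠ 0 := by
    rwa [Ne, FaithfulSMul.algebraMap_eq_zero_iff]
  refine ⟨(algebraMap k[X] Kr (derivative p) * algebraMap k[X] Kr q -
    algebraMap k[X] Kr p * algebraMap k[X] Kr (derivative q)) / algebraMap k[X] Kr q ^ 2, ?_⟩
  have h1 := hdL p
  have h2 : algebraMap Kr L (algebraMap k[X] Kr p) =
      algebraMap Kr L (algebraMap k[X] Kr p / algebraMap k[X] Kr q) *
        algebraMap Kr L (algebraMap k[X] Kr q) := by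
    rw [← map_mul, div_mul_cancel₀ _ hq0]
  rw [h2, Derivation.leibniz, hdL q, smul_eq_mul, smul_eq_mul] at h1
  have e1 : algebraMap Kr L ((algebraMap k[X] Kr (derivative p) * algebraMap k[X] Kr q -
      algebraMap k[X] Kr p * algebraMap k[X] Kr (derivative q)) / algebraMap k[X] Kr q ^ 2) =
      (algebraMap Kr L (algebraMap k[X] Kr (derivative p)) *
        algebraMap Kr L (algebraMap k[X] Kr q) - algebraMap Kr L (algebraMap k[X] Kr p) *
        algebraMap Kr L (algebraMap k[X] Kr (derivative q))) /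
        algebraMap Kr L (algebraMap k[X] Kr q) ^ 2 := by
    rw [map_div₀, map_sub, map_mul, map_mul, map_pow]
  rw [e1, eq_div_iff (pow_ne_zero _ hq1), h2]
  linear_combination algebraMap Kr L (algebraMap k[X] Kr q) * h1

/-- constants of `k(u)` are in `k` -/
lemma const_Kr [CharZero k] {x : Kr} (hx : dL (algebraMap Kr L x) = 0) :
    ∃ c : k, x = algebraMap k[X] Kr (C c) := by
  classical
  set p := IsFractionRing.num k[X] x with hp
  set q : k[X] := (IsFractionRing.den k[X] x : k[X]) with hq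
  have hq0 : q ≠ 0 := nonZeroDivisors.ne_zero (IsFractionRing.den k[X] x).2
  have hqK : algebraMap k[X] Kr q ≠ 0 := by rwa [Ne, FaithfulSMul.algebraMap_eq_zero_iff]
  have hx1 : x * algebraMap k[X] Kr q = algebraMap k[X] Kr p := by
    have := IsFractionRing.mk'_num_den' k[X] x
    rw [← this]
    exact div_mul_cancel₀ _ hqK
  have hcop : IsCoprime p q := (IsFractionRing.num_den_reduced k[X] x).isCoprime
  have h1 := hdL p
  rw [← hx1, map_mul, Derivation.leibniz, hx, hdL, smul_eq_mul, smul_zero, add_zero] at h1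
  have h2 : p * derivative q = derivative p * q := by
    apply FaithfulSMul.algebraMap_injective k[X] Kr
    apply FaithfulSMul.algebraMap_injective Kr L
    rw [map_mul, map_mul, map_mul, map_mul, ← h1, ← hx1, map_mul]
    ring
  have hq' : derivative q = 0 := by
    have h3 : q ∣ derivative q := hcop.symm.dvd_of_dvd_mul_left (Dvd.intro_left _ h2.symm)
    by_contra hne
    have := degree_le_of_dvd h3 hne
    exact absurd (degree_derivative_lt hq0) (not_lt.mpr this)
  have hp' : derivative p = 0 := by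
    rw [hq', mul_zero] at h2
    rcases mul_eq_zero.mp h2.symm with h | h
    · exact h
    · exact absurd h hq0
  have hqc : q = C (q.coeff 0) := eq_C_of_derivative_eq_zero hq'
  have hpc : p = C (p.coeff 0) := eq_C_of_derivative_eq_zero hp'
  have hc0 : q.coeff 0 ≠ 0 := by
    intro h
    rw [h, C_0] at hqc
    exact hq0 hqc
  refine ⟨(q.coeff 0)⁻¹ * p.coeff 0, ?_⟩
  apply mul_right_cancel₀ hqK
  rw [hx1, ← map_mul]
  congr 1
  conv_rhs => rw [hqc]
  rw [← C_mul]
  conv_lhs => rw [hpc]
  congr 1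
  rw [coeff_C_zero]
  field_simp

/-- constants of `d/du` are in `k` -/
theorem const_of_der [IsAlgClosed k] [CharZero k] {h : L} (hh : IsIntegral Kr h)
    (h0 : dL h = 0) : ∃ c : k, h = algebraMap Kr L (algebraMap k[X] Kr (C c)) := by
  classical
  -- differentiate the minimal polynomial
  choose y hy using der_Kr dL hdL
  have hpow : ∀ n : ℕ, dL (h ^ n) = 0 := by
    intro n
    rw [Derivation.leibniz_pow, h0, smul_zero, smul_zero]
  set P := minpoly Kr h with hP
  have hsum : ∑ i ∈ Finset.range P.natDegree, algebraMap Kr L (y (P.coeff i)) * h ^ i = 0 := by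
    have h1 : dL (aeval h P) = 0 := by rw [hP, minpoly.aeval, map_zero]
    rw [aeval_eq_sum_range, Finset.sum_range_succ, map_add, map_sum] at h1
    have h2 : P.coeff P.natDegree = 1 := (minpoly.monic hh).coeff_natDegree
    rw [h2, one_smul, hpow, add_zero] at h1
    rw [← h1]
    refine Finset.sum_congr rfl fun i _ => ?_
    rw [Algebra.smul_def, Derivation.leibniz, hpow, smul_zero, zero_add, smul_eq_mul, hy]
    ring
  have hy0 : ∀ i, i < P.natDegree → y (P.coeff i) = 0 := by
    set Q : Kr[X] := ∑ i ∈ Finset.range P.natDegree, monomial i (y (P.coeff i)) with hQ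
    have hQ0 : Q = 0 := by
      by_contra hne
      have h1 : aeval h Q = 0 := by
        rw [hQ, map_sum, ← hsum]
        refine Finset.sum_congr rfl fun i _ => ?_
        rw [aeval_monomial]
      have h2 := minpoly.degree_le_of_ne_zero Kr h hne h1
      have h3 : Q.degree < P.degree := by
        rw [degree_eq_natDegree (minpoly.ne_zero hh), hQ]
        refine (degree_sum_le _ _).trans_lt ?_
        rw [Finset.sup_lt_iff (WithBot.bot_lt_coe _)]
        intro i hi
        refine (degree_monomial_le _ _).trans_lt ?_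
        exact_mod_cast Finset.mem_range.mp hi
      exact absurd h2 (not_le.mpr h3)
    intro i hi
    have h1 : Q.coeff i = y (P.coeff i) := by
      rw [hQ, finsetSum_coeff, Finset.sum_eq_single i]
      · rw [coeff_monomial_same]
      · intro j _ hj
        rw [coeff_monomial, if_neg hj]
      · intro hni
        exact absurd (Finset.mem_range.mpr hi) hni
    rw [← h1, hQ0, coeff_zero]
  have hcc : ∀ i, ∃ c : k, P.coeff i = algebraMap k[X] Kr (C c) := by
    intro i
    rcases lt_trichotomy i P.natDegree with hi | hi | hi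
    · apply const_Kr dL hdL
      rw [hy, hy0 i hi, map_zero]
    · exact ⟨1, by rw [hi, (minpoly.monic hh).coeff_natDegree, C_1, map_one]⟩
    · exact ⟨0, by rw [coeff_eq_zero_of_natDegree_lt hi, C_0, map_zero]⟩
  -- descend the minimal polynomial
  let ι : k →+* Kr := (algebraMap k[X] Kr).comp C
  have hl : P ∈ Polynomial.lifts ι := (Polynomial.lifts_iff_coeff_lifts _).mpr fun n => by
    obtain ⟨c, hc⟩ := hcc n
    exact ⟨c, hc.symm⟩
  obtain ⟨q, hq, hqd, hqm⟩ := Polynomial.lifts_and_natDegree_eq_and_monic hl (minpoly.monic hh)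
  have hqd' : q.degree ≠ 0 := by
    rw [degree_eq_natDegree hqm.ne_zero, hqd]
    exact_mod_cast (minpoly.natDegree_pos hh).ne'
  obtain ⟨c, hc⟩ := IsAlgClosed.exists_root q hqd'
  have h1 : P.eval (ι c) = 0 := by
    have h2 := Polynomial.hom_eval₂ q (RingHom.id k) ι c
    have hc' : q.eval c = 0 := hc
    rw [eval₂_id, hc', map_zero, RingHom.comp_id] at h2
    rw [← hq, eval_map, ← h2]
  obtain ⟨R, hR⟩ := dvd_iff_isRoot.mpr h1
  have h3 : IsUnit R := by
    rcases (minpoly.irreducible hh).isUnit_or_isUnit hR with h4 | h4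
    · exact absurd h4 (not_isUnit_X_sub_C _)
    · exact h4
  have h4 := minpoly.aeval Kr h
  rw [← hP, hR, map_mul] at h4
  have h5 : aeval h R ≠ 0 := by
    have := h3.map (aeval h)
    exact this.ne_zero
  have h6 : aeval h (X - C (ι c)) = 0 := by
    rcases mul_eq_zero.mp h4 with h | h
    · exact h
    · exact absurd h h5
  refine ⟨c, ?_⟩
  rw [map_sub, aeval_X, aeval_C, sub_eq_zero] at h6
  exact h6

/-- **(P1)** `f` with `d^3 f` integral at the finite places and `u^4 d^3 f` integral at infinity is a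
quadratic polynomial -/
theorem quad_of_int [IsAlgClosed k] [CharZero k] [Algebra.IsAlgebraic Kr L] (f : L)
    (hfin : ∀ a : k, IsIntegral (Va Kr a) (dL (dL (dL f))))
    (hinf : IsIntegral (Vinf k Kr) (U k Kr L ^ 4 * dL (dL (dL f)))) :
    ∃ a b c : k, f = algebraMap Kr L (algebraMap k[X] Kr (C a + C b * X + C c * X ^ 2)) := by
  have h3 : dL (dL (dL f)) = 0 := zero_of_int hfin (by norm_num) hinf
  obtain ⟨c, hc⟩ := const_of_der dL hdL (Algebra.IsIntegral.isIntegral (dL (dL f))) h3
  have h2 : dL (dL f - algebraMap Kr L (algebraMap k[X] Kr (C c * X))) = 0 := by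
    rw [map_sub, hdL, hc]
    simp
  obtain ⟨b, hb⟩ := const_of_der dL hdL (Algebra.IsIntegral.isIntegral _) h2
  have h1 : dL (f - algebraMap Kr L (algebraMap k[X] Kr (C b * X + C (c / 2) * X ^ 2))) = 0 := by
    rw [map_sub, hdL]
    have e1 : derivative (C b * X + C (c / 2) * X ^ 2) = C b + C c * X := by
      rw [derivative_add, derivative_C_mul_X, derivative_C_mul, derivative_X_pow]
      simp only [Nat.cast_ofNat, Nat.add_one_sub_one, pow_one]
      have e2 : C (c / 2) * (C 2 * X) = C c * (X : k[X]) := by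
        rw [← mul_assoc, ← C_mul, div_mul_cancel₀ _ (two_ne_zero)]
      rw [e2]
    rw [e1, map_add, map_add, ← hb]
    ring
  obtain ⟨a, ha⟩ := const_of_der dL hdL (Algebra.IsIntegral.isIntegral _) h1
  refine ⟨a, b, c / 2, ?_⟩
  rw [add_assoc, map_add, map_add (algebraMap Kr L), ← ha]
  ring

/-- the derivation `d/dw = - u^2 d/du`, `w = 1/u` -/
def dw : Derivation ℤ L L := -(U k Kr L ^ 2) • dL

omit hdL [IsFractionRing k[X] Kr] in
lemma dw_apply (x : L) : dw (k := k) (Kr := Kr) dL x = -(U k Kr L ^ 2) * dL x := rfl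

omit [IsFractionRing k[X] Kr] in
lemma dL_U : dL (U k Kr L) = 1 := by
  rw [U, hdL, derivative_X, map_one, map_one]

/-- the third `w`-derivative of `w^2 f` -/
lemma dw_three (f : L) : dw (k := k) (Kr := Kr) dL (dw (k := k) (Kr := Kr) dL
    (dw (k := k) (Kr := Kr) dL ((U k Kr L)⁻¹ ^ 2 * f))) = -(U k Kr L ^ 4 * dL (dL (dL f))) := by
  have hU := U_ne_zero (k := k) (Kr := Kr) (L := L)
  have hd := dL_U dL hdL
  set u : L := U k Kr L with hu
  have hinv : dL u⁻¹ = -(u⁻¹ ^ 2) := by
    have h1 := congrArg dL (inv_mul_cancel₀ hU)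
    rw [Derivation.leibniz, hd, Derivation.map_one_eq_zero, smul_eq_mul, smul_eq_mul, mul_one] at h1
    field_simp at h1 ⊢
    linear_combination h1
  have e1 : dw (k := k) (Kr := Kr) dL (u⁻¹ ^ 2 * f) = 2 * (u⁻¹ * f) - dL f := by
    have e0 : dL (u⁻¹ ^ 2) = 2 * (u⁻¹ * -(u⁻¹ ^ 2)) := by
      rw [pow_two u⁻¹, Derivation.leibniz, hinv]
      simp only [smul_eq_mul]
      ring
    rw [dw_apply, ← hu, Derivation.leibniz, e0]
    simp only [smul_eq_mul]
    field_simp
    ring
  have e2 : dw (k := k) (Kr := Kr) dL (2 * (u⁻¹ * f) - dL f) =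
      2 * f - 2 * (u * dL f) + u ^ 2 * dL (dL f) := by
    have h2 : dL (2 : L) = 0 := by
      have := Derivation.map_natCast dL 2
      simpa using this
    rw [dw_apply, ← hu, map_sub, Derivation.leibniz, Derivation.leibniz, hinv, h2]
    simp only [smul_eq_mul]
    field_simp
    ring
  have e3 : dw (k := k) (Kr := Kr) dL (2 * f - 2 * (u * dL f) + u ^ 2 * dL (dL f)) =
      -(u ^ 4 * dL (dL (dL f))) := by
    have h2 : dL (2 : L) = 0 := by
      have := Derivation.map_natCast dL 2
      simpa using this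
    rw [dw_apply, ← hu, map_add, map_sub, Derivation.leibniz, Derivation.leibniz,
      Derivation.leibniz, Derivation.leibniz, pow_two, Derivation.leibniz, h2, hd]
    simp only [smul_eq_mul]
    ring
  rw [e1, e2, e3]

/-- **(P1)**, with the `w`-derivatives of `w^2 f` at infinity -/
theorem quad_of_int' [IsAlgClosed k] [CharZero k] [Algebra.IsAlgebraic Kr L] (f : L)
    (hfin : ∀ a : k, IsIntegral (Va Kr a) ((dL)^[3] f))
    (hinf : IsIntegral (Vinf k Kr)
      ((dw (k := k) (Kr := Kr) dL)^[3] ((U k Kr L)⁻¹ ^ 2 * f))) :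
    ∃ a b c : k, f = algebraMap Kr L (algebraMap k[X] Kr (C a + C b * X + C c * X ^ 2)) := by
  apply quad_of_int dL hdL f hfin
  have h1 : IsIntegral (Vinf k Kr) (-(U k Kr L ^ 4 * dL (dL (dL f)))) := by
    rw [← dw_three dL hdL f]
    exact hinf
  simpa using h1.neg

end Const

end Crest.Agent.R260.Pur920
end
end

-- ▼ part R260/QuadA_517
section

/-!
# Row 260, A-QUAD (helper517), part 1: generic fields, amalgamation, frames of derivations
-/

set_option autoImplicit false
set_option linter.all false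

noncomputable section

namespace Crest.Agent.R260.Quad_517

open Polynomial Module
open Crest.Agent.R270.BM_360 Crest.Agent.R270.Fr_928 Crest.Agent.R260.Der_169

/-! ### amalgamation of fields -/

theorem amalg {K A B : Type} [Field K] [Field A] [Field B] (f : K →+* A) (g : K →+* B) :
    ∃ (M : Type) (_ : Field M) (α : A →+* M) (β : B →+* M), ∀ x, α (f x) = β (g x) := by
  letI := f.toAlgebra
  letI := g.toAlgebra
  haveI : Nontrivial (TensorProduct K A B) := inferInstance
  obtain ⟨m, hm⟩ := Ideal.exists_maximal (TensorProduct K A B)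
  letI := Ideal.Quotient.field m
  refine ⟨TensorProduct K A B ⧸ m, inferInstance,
    (Ideal.Quotient.mk m).comp (Algebra.TensorProduct.includeLeft (R := K) (S := K) (A := A)
      (B := B)).toRingHom,
    (Ideal.Quotient.mk m).comp (Algebra.TensorProduct.includeRight (R := K) (A := A)
      (B := B)).toRingHom, fun x => ?_⟩
  have h : (Algebra.TensorProduct.includeLeft (R := K) (S := K) (A := A) (B := B)) (f x) =
      (Algebra.TensorProduct.includeRight (R := K) (A := A) (B := B)) (g x) := by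
    have h1 := (Algebra.TensorProduct.includeLeft (R := K) (S := K) (A := A) (B := B)).commutes x
    have h2 := (Algebra.TensorProduct.includeRight (R := K) (A := A) (B := B)).commutes x
    have h3 : algebraMap K A x = f x := rfl
    have h4 : algebraMap K B x = g x := rfl
    rw [h3] at h1
    rw [h4] at h2
    rw [h1, h2]
  change Ideal.Quotient.mk m _ = Ideal.Quotient.mk m _
  exact congrArg _ h

/-! ### the field generated by a generic point -/

section gen

variable {F : Type} [Field F] {σ : Type}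

theorem exists_gen {L : Type} [Field L] [Algebra F L] (y : σ → L) :
    ∃ (K : Type) (_ : Field K) (_ : Algebra F K) (v : σ → K),
      (∀ p : MvPolynomial σ F, MvPolynomial.aeval v p = 0 ↔ MvPolynomial.aeval y p = 0) ∧
      (∀ a : K, ∃ P Q : MvPolynomial σ F, MvPolynomial.aeval v Q ≠ 0 ∧
        a = MvPolynomial.aeval v P / MvPolynomial.aeval v Q) ∧
      ∀ (M : Type) [Field M] [Algebra F M] (z : σ → M),
        (∀ p : MvPolynomial σ F, MvPolynomial.aeval y p = 0 ↔ MvPolynomial.aeval z p = 0) →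
        ∃ ψ : K →ₐ[F] M, ∀ x, ψ (v x) = z x := by
  let I : Ideal (MvPolynomial σ F) := RingHom.ker (MvPolynomial.aeval (R := F) y)
  haveI : I.IsPrime := RingHom.ker_isPrime _
  let A := MvPolynomial σ F ⧸ I
  let v : σ → FractionRing A := fun x => algebraMap A _ (Ideal.Quotient.mk I (MvPolynomial.X x))
  have hv : ∀ p : MvPolynomial σ F, MvPolynomial.aeval v p =
      algebraMap A (FractionRing A) (Ideal.Quotient.mk I p) := by
    intro p
    have h1 : MvPolynomial.aeval v = (Algebra.algHom F A (FractionRing A)).comp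
        (Ideal.Quotient.mkₐ F I) := by
      apply MvPolynomial.algHom_ext
      intro x
      simp only [MvPolynomial.aeval_X, AlgHom.comp_apply]
      rfl
    rw [h1]
    rfl
  have hv0 : ∀ p : MvPolynomial σ F, MvPolynomial.aeval v p = 0 ↔
      MvPolynomial.aeval y p = 0 := by
    intro p
    rw [hv, FaithfulSMul.algebraMap_eq_zero_iff, Ideal.Quotient.eq_zero_iff_mem]
    exact RingHom.mem_ker
  refine ⟨FractionRing A, inferInstance, inferInstance, v, hv0, fun a => ?_, ?_⟩
  · obtain ⟨P', Q', hQ', rfl⟩ := IsFractionRing.div_surjective (A := A) a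
    obtain ⟨P, rfl⟩ := Ideal.Quotient.mk_surjective P'
    obtain ⟨Q, rfl⟩ := Ideal.Quotient.mk_surjective Q'
    refine ⟨P, Q, ?_, by rw [hv, hv]⟩
    rw [hv]
    intro h
    rw [FaithfulSMul.algebraMap_eq_zero_iff] at h
    exact nonZeroDivisors.ne_zero hQ' h
  · intro M _ _ z hz
    let g0 : A →ₐ[F] M := Ideal.Quotient.liftₐ I (MvPolynomial.aeval z) (fun p hp =>
      (hz p).1 (RingHom.mem_ker.1 hp))
    have hg0 : Function.Injective g0 := by
      rw [injective_iff_map_eq_zero]
      intro a ha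
      obtain ⟨p, rfl⟩ := Ideal.Quotient.mk_surjective a
      have h1 : g0 (Ideal.Quotient.mk I p) = MvPolynomial.aeval z p := rfl
      rw [h1] at ha
      rw [Ideal.Quotient.eq_zero_iff_mem]
      exact RingHom.mem_ker.2 ((hz p).2 ha)
    let g : FractionRing A →ₐ[F] M := IsFractionRing.liftAlgHom hg0
    refine ⟨g, fun x => ?_⟩
    have h2 : g (algebraMap A _ (Ideal.Quotient.mk I (MvPolynomial.X x))) =
        g0 (Ideal.Quotient.mk I (MvPolynomial.X x)) := IsFractionRing.lift_algebraMap hg0 _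
    change g (algebraMap A _ (Ideal.Quotient.mk I (MvPolynomial.X x))) = z x
    rw [h2]
    change MvPolynomial.aeval z (MvPolynomial.X x) = z x
    rw [MvPolynomial.aeval_X]

end gen

/-! ### frames of derivations of the generic field -/

section frames

variable {I : Type} {J : I → Type} [Fintype I] [∀ i, Fintype (J i)] {F K : Type} [Field F]
  [Field K] [Algebra F K] {E : Set (MvPolynomial (Σ i, J i) F)} {N : ℕ}

/-- the set of entries of a vector -/
def ent {A : Type} (v : ∀ i, J i → A) : Set A := {c | ∃ i b, v i b = c}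







variable {L : Type} [Field L] [Algebra F L]




end frames

end Crest.Agent.R260.Quad_517
end
end

-- ▼ part R260/Der4_169
section

/-!
# Row 260, A-REG (helper169), part 2: the local theorem at a finite place

`K = k(v)`, `v` a generic point of the cone, `K'` a normal algebraic extension, `φ ∈ K'`,
`H` a polynomial curve on the cone, `q = H(a)` a point whose local ring is a valuation ring (or `q`
generic), `l` a moving line with `l(t0)` a generic point of the same prime as `q`, such that all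
conjugates of `φ` are regular along `l` at `t0`. Then all derivatives of `φ` along `H` are
integral at `a`.
-/

set_option autoImplicit false
set_option linter.unusedSectionVars false

namespace Crest.Agent.R260.Der_169

open Polynomial Module
open Crest.Agent.R270.BM_360 Crest.Agent.R270.Fr_928 Crest.Agent.R260.Pur920

universe u v w

section frameS

variable {k κ : Type u} [Field k] [Field κ] [Algebra k κ] {σ : Type v} [Fintype σ]

theorem aeval_ratFunc (l : σ → κ[X]) (p : MvPolynomial σ k) :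
    MvPolynomial.aeval (fun x => algebraMap κ[X] (RatFunc κ) (l x)) p =
      algebraMap κ[X] (RatFunc κ) (MvPolynomial.aeval l p) := by
  have h := MvPolynomial.map_aeval l (algebraMap κ[X] (RatFunc κ)) p
  rw [h, MvPolynomial.aeval_def]
  congr 1

theorem aeval_eval (l : σ → κ[X]) (a : κ) (p : MvPolynomial σ k) :
    MvPolynomial.aeval (fun x => (l x).eval a) p = (MvPolynomial.aeval l p).eval a := by
  have h := MvPolynomial.map_aeval l (evalRingHom a) p
  rw [coe_evalRingHom] at h
  rw [h, MvPolynomial.aeval_def]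
  congr 1
  ext r
  rw [RingHom.comp_apply, IsScalarTower.algebraMap_apply k κ κ[X], algebraMap_eq,
    coe_evalRingHom, eval_C]

/-- **(M1)** the frame at the point `a` of a curve, for any finite index type. -/
theorem frame_lineS {E : Set (MvPolynomial σ k)} {l : σ → κ[X]} (a : κ) {N : ℕ}
    (t : Fin N → σ → κ[X])
    (htan : ∀ j, ∀ p ∈ E, ∑ x, MvPolynomial.aeval l (MvPolynomial.pderiv x p) * t j x = 0)
    (hind : LinearIndependent κ (fun j => fun x => (t j x).eval a))
    (hrk : finrank (RatFunc κ) (TanS E (fun x => algebraMap κ[X] (RatFunc κ) (l x))) ≤ N)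
    (s : σ → RatFunc κ) (hsT : s ∈ TanS E (fun x => algebraMap κ[X] (RatFunc κ) (l x)))
    (hs : ∀ x, s x ∈ RegAt a) :
    ∃ c : Fin N → RatFunc κ, (∀ j, c j ∈ RegAt a) ∧
      ∀ x, s x = ∑ j, c j * algebraMap κ[X] (RatFunc κ) (t j x) := by
  classical
  obtain ⟨y, hy⟩ := exists_minor _ hind
  let P : Matrix (Fin N) (Fin N) κ[X] := Matrix.of fun i j => t j (y i)
  have hP : P.det.eval a ≠ 0 := by
    have h := RingHom.map_det (evalRingHom a) P
    rw [coe_evalRingHom] at h
    rw [h]
    exact hy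
  let R : Fin N → σ → RatFunc κ := fun j x => algebraMap κ[X] (RatFunc κ) (t j x)
  have hdet : (Matrix.of fun i j => R j (y i)).det = algebraMap κ[X] (RatFunc κ) P.det := by
    rw [RingHom.map_det]
    rfl
  have hdet0 : (Matrix.of fun i j => R j (y i)).det ≠ 0 := by
    rw [hdet, Ne, FaithfulSMul.algebraMap_eq_zero_iff]
    intro h
    rw [h] at hP
    simp at hP
  have hli : LinearIndependent (RatFunc κ) R := by
    rw [Fintype.linearIndependent_iff]
    intro g hg
    have h1 : (Matrix.of fun i j => R j (y i)).mulVec g = 0 := by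
      funext i
      have := congrFun hg (y i)
      rw [Finset.sum_apply] at this
      simp only [Pi.smul_apply, smul_eq_mul, Pi.zero_apply] at this
      simp only [Matrix.mulVec, dotProduct, Matrix.of_apply, Pi.zero_apply]
      rw [← this]
      exact Finset.sum_congr rfl fun j _ => mul_comm _ _
    have h2 := Matrix.eq_zero_of_mulVec_eq_zero hdet0 h1
    intro i
    exact congrFun h2 i
  have hRT : ∀ j, R j ∈ TanS E (fun x => algebraMap κ[X] (RatFunc κ) (l x)) := by
    intro j p hp
    have h := congrArg (algebraMap κ[X] (RatFunc κ)) (htan j p hp)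
    rw [map_sum, map_zero] at h
    rw [← h]
    refine Finset.sum_congr rfl fun x _ => ?_
    rw [aeval_ratFunc, map_mul]
  let b : Fin N → TanS E (fun x => algebraMap κ[X] (RatFunc κ) (l x)) := fun j => ⟨R j, hRT j⟩
  have hb : LinearIndependent (RatFunc κ) b := by
    apply LinearIndependent.of_comp (Submodule.subtype _)
    exact hli
  have hcard : finrank (RatFunc κ) (TanS E (fun x => algebraMap κ[X] (RatFunc κ) (l x))) = N := by
    refine le_antisymm hrk ?_
    simpa using hb.fintype_card_le_finrank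
  have hspan : Submodule.span (RatFunc κ) (Set.range b) = ⊤ :=
    hb.span_eq_top_of_card_eq_finrank' (by simp [hcard])
  have h6 : (⟨s, hsT⟩ : TanS E (fun x => algebraMap κ[X] (RatFunc κ) (l x))) ∈
      Submodule.span (RatFunc κ) (Set.range b) := by
    rw [hspan]; trivial
  rw [Submodule.mem_span_range_iff_exists_fun] at h6
  obtain ⟨c, hc⟩ := h6
  have hc' : s = ∑ j, c j • R j := by
    have := congrArg (Submodule.subtype (TanS E (fun x => algebraMap κ[X] (RatFunc κ) (l x)))) hc
    rw [map_sum] at this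
    simpa [b] using this.symm
  refine ⟨c, ?_, fun x => ?_⟩
  · refine frame_coeff (RegAt a) R (fun j x => poly_mem_RegAt a _) y hdet0 ?_ s hs c hc'
    rw [hdet]
    exact inv_mem_RegAt hP
  · rw [hc', Finset.sum_apply]
    rfl

end frameS

/-- a derivation, seen over `ℤ`. -/
def toZ {R : Type v} {A : Type w} [CommRing R] [CommRing A] [Algebra R A]
    (D : Derivation R A A) : Derivation ℤ A A :=
  D.restrictScalars ℤ


section dreg

variable {κ : Type u} [Field κ]

/-- `d/dX` preserves the functions regular at `a`, in any extension. -/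
theorem deriv_mem_reg {L : Type w} [Field L] [Algebra (RatFunc κ) L] (dL : Derivation ℤ L L)
    (hdL : ∀ p : κ[X], dL (algebraMap (RatFunc κ) L (algebraMap κ[X] (RatFunc κ) p)) =
      algebraMap (RatFunc κ) L (algebraMap κ[X] (RatFunc κ) (derivative p))) (a : κ) {x : L}
    (hx : x ∈ (RegAt a).map (algebraMap (RatFunc κ) L)) :
    dL x ∈ (RegAt a).map (algebraMap (RatFunc κ) L) := by
  obtain ⟨_, ⟨p, q, hq, rfl⟩, rfl⟩ := hx
  refine ⟨algebraMap κ[X] (RatFunc κ) (q * derivative p - p * derivative q) /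
    algebraMap κ[X] (RatFunc κ) (q ^ 2), ⟨_, _, by rw [eval_pow]; exact pow_ne_zero 2 hq, rfl⟩, ?_⟩
  rw [map_div₀, map_div₀, Derivation.leibniz_div, hdL, hdL]
  simp only [map_sub, map_mul, map_pow, smul_eq_mul]
  rw [div_eq_inv_mul]
  rw [inv_pow]

end dreg

section core

variable {k : Type u} [Field k] [CharZero k] {σ : Type v} [Fintype σ]
  {K K' : Type u} [Field K] [Field K'] [Algebra k K] [Algebra K K'] [Algebra k K']
  [IsScalarTower k K K'] [Algebra.IsAlgebraic K K']

/-- the chain rule along a curve. -/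
theorem chain_core {E : Set (MvPolynomial σ k)} {v : σ → K}
    (hv : ∀ p ∈ E, MvPolynomial.aeval v p = 0)
    (hgen : IntermediateField.adjoin k (Set.range v) = ⊤) {N : ℕ}
    (hNv : finrank K (TanS E v) ≤ N) (htr : TrGe k (Set.range v) N)
    {κ : Type u} [Field κ] [Algebra k κ] (H : σ → κ[X]) (a : κ)
    {L : Type w} [Field L] [Algebra (RatFunc κ) L] [Algebra k L] [IsScalarTower k (RatFunc κ) L]
    (Ψ : K' →ₐ[k] L)
    (hΨ : ∀ x, Ψ (algebraMap K K' (v x)) =
      algebraMap (RatFunc κ) L (algebraMap κ[X] (RatFunc κ) (H x)))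
    (dL : Derivation ℤ L L)
    (hdL : ∀ p : κ[X], dL (algebraMap (RatFunc κ) L (algebraMap κ[X] (RatFunc κ) p)) =
      algebraMap (RatFunc κ) L (algebraMap κ[X] (RatFunc κ) (derivative p)))
    (hdk : ∀ c : κ, dL (algebraMap (RatFunc κ) L (algebraMap κ[X] (RatFunc κ) (C c))) = 0)
    (hNH : finrank (RatFunc κ) (TanS E (fun x => algebraMap κ[X] (RatFunc κ) (H x))) ≤ N)
    (hNq : finrank κ (TanS E (fun x => (H x).eval a)) = N)
    (S : Subring K')
    (hS : ∀ (d : Derivation k K K), (∀ x, ∃ s : MvPolynomial σ k, d (v x) = MvPolynomial.aeval v s) →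
      ∀ D : Derivation k K' K', (∀ b, D (algebraMap K K' b) = algebraMap K K' (d b)) →
      ∀ b ∈ S, D b ∈ S)
    (hSO : ∀ b ∈ S, IsIntegral (RegAt a) (Ψ b)) {φ : K'} (hφ : φ ∈ S) (r : ℕ) :
    IsIntegral (RegAt a) (dL^[r] (Ψ φ)) := by
  classical
  have hc0 : CharZero K := charZero_of_injective_algebraMap (algebraMap k K).injective
  -- values of polynomials
  have hpol : ∀ p : MvPolynomial σ k, Ψ (algebraMap K K' (MvPolynomial.aeval v p)) =
      algebraMap (RatFunc κ) L (algebraMap κ[X] (RatFunc κ) (MvPolynomial.aeval H p)) := by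
    intro p
    have h1 : Ψ (algebraMap K K' (MvPolynomial.aeval v p)) =
        MvPolynomial.aeval (fun x => Ψ (algebraMap K K' (v x))) p := by
      have := MvPolynomial.comp_aeval_apply (f := v) (Ψ.comp (IsScalarTower.toAlgHom k K K')) p
      exact this
    rw [h1, ← aeval_ratFunc]
    have h2 := MvPolynomial.comp_aeval_apply
      (f := fun x => algebraMap κ[X] (RatFunc κ) (H x)) (IsScalarTower.toAlgHom k (RatFunc κ) L) p
    rw [IsScalarTower.coe_toAlgHom'] at h2
    rw [h2]
    congr 2
    funext x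
    exact hΨ x
  have hinjL : Function.Injective (fun p : κ[X] =>
      algebraMap (RatFunc κ) L (algebraMap κ[X] (RatFunc κ) p)) :=
    (algebraMap (RatFunc κ) L).injective.comp (FaithfulSMul.algebraMap_injective _ _)
  have hspec : ∀ p : MvPolynomial σ k, MvPolynomial.aeval v p = 0 →
      MvPolynomial.aeval H p = 0 := by
    intro p hp
    apply hinjL
    change algebraMap (RatFunc κ) L (algebraMap κ[X] (RatFunc κ) (MvPolynomial.aeval H p)) = _
    rw [← hpol, hp]
    simp
  have hspecq : ∀ p : MvPolynomial σ k, MvPolynomial.aeval v p = 0 →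
      MvPolynomial.aeval (fun x => (H x).eval a) p = 0 := by
    intro p hp
    rw [aeval_eval, hspec p hp, eval_zero]
  obtain ⟨s, d, hd, -, hind⟩ := cramer_ders hv (fun x => (H x).eval a) hspecq hNv htr hNq
  -- the derivations of `K'`
  have : Algebra.FormallySmooth K K' := fs_charZero K K'
  have hext : ∀ j, ∃ D : Derivation k K' K', ∀ b, D (algebraMap K K' b) = algebraMap K K' (d j b) := by
    intro j
    obtain ⟨D, hD⟩ := ext_der (R := k) (A := K) (L := K')
      ((Algebra.linearMap K K').compDer (d j))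
    exact ⟨D, fun b => hD b⟩
  choose D hD using hext
  -- the tangent vector of the curve
  have hH' : (fun x => algebraMap κ[X] (RatFunc κ) (derivative (H x))) ∈
      TanS E (fun x => algebraMap κ[X] (RatFunc κ) (H x)) := by
    intro p hp
    let dk : Derivation k κ[X] κ[X] := (Polynomial.derivative' (R := κ)).restrictScalars k
    have h1 : (fun x => dk (H x)) ∈ TanS E H := der_mem_TanS (fun p hp => hspec p (hv p hp)) dk
    have h2 := congrArg (algebraMap κ[X] (RatFunc κ)) (h1 p hp)
    rw [map_sum, map_zero] at h2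
    rw [← h2]
    refine Finset.sum_congr rfl fun x _ => ?_
    rw [aeval_ratFunc, map_mul]
    rfl
  -- the frame
  have htan : ∀ j, ∀ p ∈ E, ∑ x, MvPolynomial.aeval H (MvPolynomial.pderiv x p) *
      MvPolynomial.aeval H (s j x) = 0 := by
    intro j p hp
    have h1 := der_mem_TanS hv (d j) p hp
    have h2 : MvPolynomial.aeval v (∑ x, MvPolynomial.pderiv x p * s j x) = 0 := by
      rw [map_sum, ← h1]
      refine Finset.sum_congr rfl fun x _ => ?_
      change _ = _ * d j (v x)
      rw [map_mul, hd]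
    have h3 := hspec _ h2
    rw [map_sum] at h3
    rw [← h3]
    exact Finset.sum_congr rfl fun x _ => (map_mul _ _ _).symm
  have hind' : LinearIndependent κ (fun j => fun x => (MvPolynomial.aeval H (s j x)).eval a) := by
    simpa only [← aeval_eval] using hind
  obtain ⟨c, hc, hcs⟩ := frame_lineS a (fun j x => MvPolynomial.aeval H (s j x)) htan hind' hNH
    _ hH' (fun x => poly_mem_RegAt a _)
  -- the identity on `K`
  have hK : ∀ b : K, dL (Ψ (algebraMap K K' b)) =
      ∑ j, algebraMap (RatFunc κ) L (c j) * Ψ (D j (algebraMap K K' b)) := by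
    let ψ0 : K →ₐ[k] L := Ψ.comp (IsScalarTower.toAlgHom k K K')
    let F : K →+ L :=
      { toFun := fun b => dL (Ψ (algebraMap K K' b)) -
          ∑ j, algebraMap (RatFunc κ) L (c j) * Ψ (D j (algebraMap K K' b))
        map_zero' := by simp
        map_add' := fun x y => by
          simp only [map_add, mul_add, Finset.sum_add_distrib]
          ring }
    have hFmul : ∀ x y, F (x * y) = ψ0 x * F y + ψ0 y * F x := by
      intro x y
      change dL (Ψ (algebraMap K K' (x * y))) -
          ∑ j, algebraMap (RatFunc κ) L (c j) * Ψ (D j (algebraMap K K' (x * y))) =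
        Ψ (algebraMap K K' x) * (dL (Ψ (algebraMap K K' y)) -
          ∑ j, algebraMap (RatFunc κ) L (c j) * Ψ (D j (algebraMap K K' y))) +
        Ψ (algebraMap K K' y) * (dL (Ψ (algebraMap K K' x)) -
          ∑ j, algebraMap (RatFunc κ) L (c j) * Ψ (D j (algebraMap K K' x)))
      have h1 : ∑ j, algebraMap (RatFunc κ) L (c j) * Ψ (D j (algebraMap K K' (x * y))) =
          Ψ (algebraMap K K' x) *
            ∑ j, algebraMap (RatFunc κ) L (c j) * Ψ (D j (algebraMap K K' y)) +
          Ψ (algebraMap K K' y) *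
            ∑ j, algebraMap (RatFunc κ) L (c j) * Ψ (D j (algebraMap K K' x)) := by
        rw [Finset.mul_sum, Finset.mul_sum, ← Finset.sum_add_distrib]
        refine Finset.sum_congr rfl fun j _ => ?_
        rw [map_mul, Derivation.leibniz]
        simp only [smul_eq_mul, map_add, map_mul]
        ring
      rw [h1, map_mul, map_mul, Derivation.leibniz]
      simp only [smul_eq_mul]
      ring
    have hFk : ∀ r : k, F (algebraMap k K r) = 0 := by
      intro r
      change dL (Ψ (algebraMap K K' (algebraMap k K r))) -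
          ∑ j, algebraMap (RatFunc κ) L (c j) * Ψ (D j (algebraMap K K' (algebraMap k K r))) = 0
      rw [← IsScalarTower.algebraMap_apply k K K', Ψ.commutes]
      have h1 : ∀ j, D j (algebraMap k K' r) = 0 := fun j => (D j).map_algebraMap r
      simp only [h1, map_zero, mul_zero, Finset.sum_const_zero, sub_zero]
      rw [IsScalarTower.algebraMap_apply k (RatFunc κ) L]
      have h2 : algebraMap k (RatFunc κ) r = algebraMap κ[X] (RatFunc κ) (C (algebraMap k κ r)) := by
        rw [IsScalarTower.algebraMap_apply k κ[X] (RatFunc κ),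
          IsScalarTower.algebraMap_apply k κ κ[X], algebraMap_eq]
      rw [h2, hdk]
    have h2 : IntermediateField.adjoin k (Set.range v) ≤ kerAlong ψ0 F hFmul hFk := by
      rw [IntermediateField.adjoin_le_iff]
      rintro _ ⟨x, rfl⟩
      change dL (Ψ (algebraMap K K' (v x))) -
          ∑ j, algebraMap (RatFunc κ) L (c j) * Ψ (D j (algebraMap K K' (v x))) = 0
      rw [hΨ, hdL, hcs x, map_sum, sub_eq_zero]
      refine Finset.sum_congr rfl fun j _ => ?_
      rw [map_mul, hD, hd, hpol]
    intro b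
    have h3 : b ∈ kerAlong ψ0 F hFmul hFk := by
      apply h2
      rw [hgen]
      trivial
    exact sub_eq_zero.1 h3
  -- apply `chain_mem`
  have key := chain_mem (K := K) (K' := K') (L := L) Ψ.toRingHom dL (Finset.univ : Finset (Fin N))
    (fun j => algebraMap (RatFunc κ) L (c j)) (fun j => (D j).restrictScalars ℤ)
    (fun b => hK b) S
    (fun j _ b hb => hS (d j) (fun x => ⟨s j x, hd j x⟩) (D j) (hD j) b hb)
    ((RegAt a).map (algebraMap (RatFunc κ) L)) (integralClosure (RegAt a) L).toSubring ?_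
    (fun b hb => hSO b hb) (fun x hx => deriv_mem_reg dL hdL a hx)
    (fun j _ => ⟨c j, hc j, rfl⟩) (Subring.one_mem _) hφ r
  · have h4 : (dL^[r]) (Ψ φ) ∈ (integralClosure (RegAt a) L).toSubring := by
      simpa using key
    exact h4
  · rintro _ ⟨y, hy, rfl⟩
    exact isIntegral_algebraMap (R := RegAt a) (x := ⟨y, hy⟩)

end core

section va

variable {κ : Type u} [Field κ]

theorem mem_RegAt_iff_Va (a : κ) (f : RatFunc κ) : f ∈ RegAt a ↔ f ∈ Va (RatFunc κ) a := by
  constructor
  · rintro ⟨p, q, hq, rfl⟩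
    refine ⟨p, q, hq, ?_⟩
    have hq0 : algebraMap κ[X] (RatFunc κ) q ≠ 0 := by
      rw [Ne, FaithfulSMul.algebraMap_eq_zero_iff]
      rintro rfl
      simp at hq
    rw [div_mul_cancel₀ _ hq0]
  · rintro ⟨p, q, hq, h⟩
    have hq0 : algebraMap κ[X] (RatFunc κ) q ≠ 0 := by
      rw [Ne, FaithfulSMul.algebraMap_eq_zero_iff]
      rintro rfl
      simp at hq
    exact ⟨p, q, hq, by rw [← h, mul_div_assoc, div_self hq0, mul_one]⟩

theorem RegAt_eq_Va (a : κ) : RegAt a = (Va (RatFunc κ) a).toSubring :=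
  Subring.ext fun f => mem_RegAt_iff_Va a f

theorem isIntegral_Va_iff {L : Type w} [Field L] [Algebra (RatFunc κ) L] (a : κ) (x : L) :
    IsIntegral (RegAt a) x ↔ IsIntegral (Va (RatFunc κ) a) x := by
  rw [RegAt_eq_Va]
  exact Iff.rfl

/-- `RegAt a` is integrally closed. -/
theorem RegAt_intClosed (a : κ) (x : RatFunc κ) (hx : IsIntegral (RegAt a) x) : x ∈ RegAt a := by
  rw [isIntegral_Va_iff] at hx
  rw [mem_RegAt_iff_Va]
  obtain ⟨y, hy⟩ := IsIntegrallyClosed.isIntegral_iff.1 hx
  rw [← hy]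
  exact y.2

end va

section localthm

variable {k : Type u} [Field k] [CharZero k] {σ : Type v} [Fintype σ]
  {K K' : Type u} [Field K] [Field K'] [Algebra k K] [Algebra K K'] [Algebra k K']
  [IsScalarTower k K K']

/-- elements integral over a subring of the local ring of `q` have values integral at `a`. -/
theorem int_map {v : σ → K} {κ : Type u} [Field κ] [Algebra k κ] (H : σ → κ[X]) (a : κ)
    {L : Type w} [Field L] [Algebra (RatFunc κ) L] [Algebra k L] [IsScalarTower k (RatFunc κ) L]
    (Ψ : K' →ₐ[k] L)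
    (hΨ : ∀ x, Ψ (algebraMap K K' (v x)) =
      algebraMap (RatFunc κ) L (algebraMap κ[X] (RatFunc κ) (H x)))
    (A : Subring K)
    (hA : ∀ c ∈ A, ∃ P Q : MvPolynomial σ k, MvPolynomial.aeval (fun x => (H x).eval a) Q ≠ 0 ∧
      c * MvPolynomial.aeval v Q = MvPolynomial.aeval v P) {b : K'} (hb : IsIntegral A b) :
    IsIntegral (RegAt a) (Ψ b) := by
  have hpol : ∀ p : MvPolynomial σ k, Ψ (algebraMap K K' (MvPolynomial.aeval v p)) =
      algebraMap (RatFunc κ) L (algebraMap κ[X] (RatFunc κ) (MvPolynomial.aeval H p)) := by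
    intro p
    have h1 : Ψ (algebraMap K K' (MvPolynomial.aeval v p)) =
        MvPolynomial.aeval (fun x => Ψ (algebraMap K K' (v x))) p := by
      have := MvPolynomial.comp_aeval_apply (f := v) (Ψ.comp (IsScalarTower.toAlgHom k K K')) p
      exact this
    rw [h1, ← aeval_ratFunc]
    have h2 := MvPolynomial.comp_aeval_apply
      (f := fun x => algebraMap κ[X] (RatFunc κ) (H x)) (IsScalarTower.toAlgHom k (RatFunc κ) L) p
    rw [IsScalarTower.coe_toAlgHom'] at h2
    rw [h2]
    congr 2
    funext x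
    exact hΨ x
  have hg0 : ∀ c : A, ∃ y : RegAt a, algebraMap (RatFunc κ) L y = Ψ (algebraMap K K' c) := by
    intro c
    obtain ⟨P, Q, hQ, hPQ⟩ := hA c c.2
    rw [aeval_eval] at hQ
    have hQ0 : algebraMap κ[X] (RatFunc κ) (MvPolynomial.aeval H Q) ≠ 0 := by
      rw [Ne, FaithfulSMul.algebraMap_eq_zero_iff]
      intro h
      rw [h, eval_zero] at hQ
      exact hQ rfl
    refine ⟨⟨algebraMap κ[X] (RatFunc κ) (MvPolynomial.aeval H P) /
      algebraMap κ[X] (RatFunc κ) (MvPolynomial.aeval H Q), ⟨_, _, hQ, rfl⟩⟩, ?_⟩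
    have h1 := congrArg (fun z => Ψ (algebraMap K K' z)) hPQ
    simp only [map_mul] at h1
    rw [hpol, hpol] at h1
    change algebraMap (RatFunc κ) L (_ / _) = _
    rw [map_div₀, ← h1, mul_div_assoc, div_self, mul_one]
    intro h2
    exact hQ0 ((map_eq_zero _).1 h2)
  choose g hg using hg0
  have hinj : ∀ y z : RegAt a, algebraMap (RatFunc κ) L y = algebraMap (RatFunc κ) L z → y = z :=
    fun y z h => Subtype.ext ((algebraMap (RatFunc κ) L).injective h)
  let G : A →+* RegAt a :=
    { toFun := g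
      map_one' := hinj _ _ (by rw [hg]; simp)
      map_mul' := fun x y => hinj _ _ (by
        rw [hg]
        change _ = algebraMap (RatFunc κ) L ((g x : RatFunc κ) * (g y : RatFunc κ))
        rw [map_mul, hg, hg]
        simp)
      map_zero' := hinj _ _ (by rw [hg]; simp)
      map_add' := fun x y => hinj _ _ (by
        rw [hg]
        change _ = algebraMap (RatFunc κ) L ((g x : RatFunc κ) + (g y : RatFunc κ))
        rw [map_add, hg, hg]
        simp) }
  obtain ⟨p, hp, hp0⟩ := hb
  refine ⟨p.map G, hp.map _, ?_⟩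
  rw [eval₂_map]
  have e1 : (algebraMap (RegAt a) L).comp G = (Ψ : K' →+* L).comp (algebraMap A K') := by
    ext c
    exact hg c
  rw [e1]
  have e2 := Polynomial.hom_eval₂ p (algebraMap A K') (Ψ : K' →+* L) b
  rw [hp0, map_zero] at e2
  exact e2.symm

/-- the moving frame property of a line at `t0`. -/
def MovAt (v : σ → K) {κl : Type u} [Field κl] [Algebra k κl] (ψ : K →ₐ[k] RatFunc κl)
    (t0 : κl) : Prop :=
  ∃ (M : ℕ) (δ : Fin M → Derivation k κl κl), ∀ d : Derivation k K K,
    (∀ x, ψ (d (v x)) ∈ RegAt t0) → ∃ c : Fin M → RatFunc κl, (∀ j, c j ∈ RegAt t0) ∧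
      ∀ b : K, ψ (d b) = ∑ j, c j * hat (δ j) (ψ b)

/-- **A-REG, the local theorem** at a point `q = H(a)` whose local ring is a valuation ring. -/
theorem local_thm [Normal K K'] {E : Set (MvPolynomial σ k)} {v : σ → K}
    (hv : ∀ p ∈ E, MvPolynomial.aeval v p = 0)
    (hgen : IntermediateField.adjoin k (Set.range v) = ⊤) {N : ℕ}
    (hNv : finrank K (TanS E v) ≤ N) (htr : TrGe k (Set.range v) N)
    {κ : Type u} [Field κ] [Algebra k κ] (H : σ → κ[X]) (a : κ)
    {L : Type w} [Field L] [Algebra (RatFunc κ) L] [Algebra k L] [IsScalarTower k (RatFunc κ) L]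
    (Ψ : K' →ₐ[k] L)
    (hΨ : ∀ x, Ψ (algebraMap K K' (v x)) =
      algebraMap (RatFunc κ) L (algebraMap κ[X] (RatFunc κ) (H x)))
    (dL : Derivation ℤ L L)
    (hdL : ∀ p : κ[X], dL (algebraMap (RatFunc κ) L (algebraMap κ[X] (RatFunc κ) p)) =
      algebraMap (RatFunc κ) L (algebraMap κ[X] (RatFunc κ) (derivative p)))
    (hNH : finrank (RatFunc κ) (TanS E (fun x => algebraMap κ[X] (RatFunc κ) (H x))) ≤ N)
    (hNq : finrank κ (TanS E (fun x => (H x).eval a)) = N)
    (hval : ∀ b : K, ∃ P Q : MvPolynomial σ k, MvPolynomial.aeval v Q ≠ 0 ∧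
      b * MvPolynomial.aeval v Q = MvPolynomial.aeval v P ∧
      (MvPolynomial.aeval (fun x => (H x).eval a) Q ≠ 0 ∨
        MvPolynomial.aeval (fun x => (H x).eval a) P ≠ 0))
    {κl : Type u} [Field κl] [Algebra k κl] (l : σ → κl[X]) (t0 : κl) (ψ : K' →ₐ[k] RatFunc κl)
    (hψ : ∀ x, ψ (algebraMap K K' (v x)) = algebraMap κl[X] (RatFunc κl) (l x))
    (hlq : ∀ p : MvPolynomial σ k, MvPolynomial.aeval (fun x => (l x).eval t0) p = 0 ↔
      MvPolynomial.aeval (fun x => (H x).eval a) p = 0)
    (hmov : MovAt v (ψ.comp (IsScalarTower.toAlgHom k K K')) t0)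
    {φ : K'} (hφ : ∀ τ : K' ≃ₐ[K] K', ψ (τ φ) ∈ RegAt t0) (r : ℕ) :
    IsIntegral (RegAt a) (dL^[r] (Ψ φ)) := by
  have hc0 : CharZero K := charZero_of_injective_algebraMap (algebraMap k K).injective
  have halg : Algebra.IsAlgebraic K K' := Normal.toIsAlgebraic
  have hdk : ∀ c : κ, dL (algebraMap (RatFunc κ) L (algebraMap κ[X] (RatFunc κ) (C c))) = 0 := by
    intro c
    rw [hdL]
    simp
  -- values of polynomials along the line
  have hpoll : ∀ p : MvPolynomial σ k, ψ (algebraMap K K' (MvPolynomial.aeval v p)) =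
      algebraMap κl[X] (RatFunc κl) (MvPolynomial.aeval l p) := by
    intro p
    have h1 : ψ (algebraMap K K' (MvPolynomial.aeval v p)) =
        MvPolynomial.aeval (fun x => ψ (algebraMap K K' (v x))) p := by
      have := MvPolynomial.comp_aeval_apply (f := v) (ψ.comp (IsScalarTower.toAlgHom k K K')) p
      exact this
    rw [h1, ← aeval_ratFunc]
    congr 2
    funext x
    exact hψ x
  set ψr : K' →+* RatFunc κl := ψ.toRingHom with hψr
  -- `A_R` is contained in the local ring of `q`
  have hAR : ∀ c ∈ AR K ψr (RegAt t0), ∃ P Q : MvPolynomial σ k,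
      MvPolynomial.aeval (fun x => (H x).eval a) Q ≠ 0 ∧
      c * MvPolynomial.aeval v Q = MvPolynomial.aeval v P := by
    intro c hc
    obtain ⟨P, Q, -, hPQ, hor⟩ := hval c
    by_cases hQ : MvPolynomial.aeval (fun x => (H x).eval a) Q = 0
    · exfalso
      have hP : MvPolynomial.aeval (fun x => (H x).eval a) P ≠ 0 := by
        rcases hor with h | h
        · exact absurd hQ h
        · exact h
      obtain ⟨A, B, hB, hAB⟩ : ψ (algebraMap K K' c) ∈ RegAt t0 := hc
      have hB0 : algebraMap κl[X] (RatFunc κl) B ≠ 0 := by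
        rw [Ne, FaithfulSMul.algebraMap_eq_zero_iff]
        rintro rfl
        simp at hB
      have h1 := congrArg (fun z => ψ (algebraMap K K' z)) hPQ
      simp only [map_mul] at h1
      rw [hpoll, hpoll, hAB, div_mul_eq_mul_div, div_eq_iff hB0, ← map_mul, ← map_mul] at h1
      have h2 := FaithfulSMul.algebraMap_injective _ _ h1
      have h3 := congrArg (Polynomial.eval t0) h2
      rw [eval_mul, eval_mul, ← aeval_eval, ← aeval_eval, (hlq Q).2 hQ, mul_zero] at h3
      rcases mul_eq_zero.1 h3.symm with h4 | h4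
      · exact hP ((hlq P).1 h4)
      · exact hB h4
    · exact ⟨P, Q, hQ, hPQ⟩
  refine chain_core hv hgen hNv htr H a Ψ hΨ dL hdL hdk hNH hNq
    (integralClosure (AR K ψr (RegAt t0)) K').toSubring ?_ ?_ ?_ r
  · intro d hd D hD b hb
    obtain ⟨M, δ, hδ⟩ := hmov
    obtain ⟨c, hc, hcd⟩ := hδ d (fun x => by
      obtain ⟨s, hs⟩ := hd x
      rw [hs]
      change ψ (algebraMap K K' (MvPolynomial.aeval v s)) ∈ RegAt t0
      rw [hpoll]
      exact poly_mem_RegAt _ _)
    exact int_deriv (K := K) ψr (RegAt t0) (RegAt_intClosed t0) (D.restrictScalars ℤ) d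
      (fun a => hD a) (Finset.univ : Finset (Fin M)) c (fun j => toZ (hat (δ j)))
      (fun j _ => hc j) (fun j _ x hx => hat_mem_RegAt (δ j) hx)
      (fun a => hcd a) hb
  · intro b hb
    exact int_map H a Ψ hΨ _ hAR hb
  · exact (int_iff (K := K) ψr (RegAt t0) (RegAt_intClosed t0) φ).2 hφ

/-- **A-REG, the local theorem** at a point `q = H(a)` which is generic. -/
theorem local_gen [Algebra.IsAlgebraic K K'] {E : Set (MvPolynomial σ k)} {v : σ → K}
    (hv : ∀ p ∈ E, MvPolynomial.aeval v p = 0)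
    (hgen : IntermediateField.adjoin k (Set.range v) = ⊤) {N : ℕ}
    (hNv : finrank K (TanS E v) ≤ N) (htr : TrGe k (Set.range v) N)
    {κ : Type u} [Field κ] [Algebra k κ] (H : σ → κ[X]) (a : κ)
    {L : Type w} [Field L] [Algebra (RatFunc κ) L] [Algebra k L] [IsScalarTower k (RatFunc κ) L]
    (Ψ : K' →ₐ[k] L)
    (hΨ : ∀ x, Ψ (algebraMap K K' (v x)) =
      algebraMap (RatFunc κ) L (algebraMap κ[X] (RatFunc κ) (H x)))
    (dL : Derivation ℤ L L)
    (hdL : ∀ p : κ[X], dL (algebraMap (RatFunc κ) L (algebraMap κ[X] (RatFunc κ) p)) =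
      algebraMap (RatFunc κ) L (algebraMap κ[X] (RatFunc κ) (derivative p)))
    (hNH : finrank (RatFunc κ) (TanS E (fun x => algebraMap κ[X] (RatFunc κ) (H x))) ≤ N)
    (hNq : finrank κ (TanS E (fun x => (H x).eval a)) = N)
    (hq : ∀ Q : MvPolynomial σ k, MvPolynomial.aeval (fun x => (H x).eval a) Q = 0 →
      MvPolynomial.aeval v Q = 0)
    (φ : K') (r : ℕ) :
    IsIntegral (RegAt a) (dL^[r] (Ψ φ)) := by
  have hdk : ∀ c : κ, dL (algebraMap (RatFunc κ) L (algebraMap κ[X] (RatFunc κ) (C c))) = 0 := by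
    intro c
    rw [hdL]
    simp
  refine chain_core hv hgen hNv htr H a Ψ hΨ dL hdL hdk hNH hNq ⊤ (fun _ _ _ _ _ _ => trivial)
    (fun b _ => ?_) trivial r
  refine int_map H a Ψ hΨ (⊤ : Subring K) (fun c _ => ?_) (b := b) ?_
  · have hc : c ∈ IntermediateField.adjoin k (Set.range v) := by
      rw [hgen]; trivial
    rw [IntermediateField.mem_adjoin_range_iff] at hc
    obtain ⟨P, Q, rfl⟩ := hc
    by_cases hQ : MvPolynomial.aeval v Q = 0
    · refine ⟨0, 1, by simp, ?_⟩
      rw [hQ, div_zero]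
      simp
    · exact ⟨P, Q, fun h => hQ (hq Q h), div_mul_cancel₀ _ hQ⟩
  · have hb : IsIntegral K b := Algebra.IsIntegral.isIntegral b
    obtain ⟨p, hp, hp0⟩ := hb
    refine ⟨p.map (Subring.topEquiv (R := K)).symm.toRingHom, hp.map _, ?_⟩
    rw [eval₂_map]
    have e1 : (algebraMap (⊤ : Subring K) K').comp (Subring.topEquiv (R := K)).symm.toRingHom =
        algebraMap K K' := by
      ext c
      rfl
    rw [e1, hp0]

end localthm

end Crest.Agent.R260.Der_169
end

-- ▼ part R260/Der5_169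
section

/-!
# Row 260, A-REG (helper169), part 3: the local theorem in the language of tuples
-/

set_option autoImplicit false
set_option linter.unusedSectionVars false

namespace Crest.Agent.R260.Der_169

open Polynomial Module
open Crest.Agent.R270.BM_360 Crest.Agent.R270.Fr_928 Crest.Agent.R260.Pur920

universe u v w

section tuple

variable {I : Type} {J : I → Type} {k : Type u} [Field k] [CharZero k]
  [Fintype I] [∀ i, Fintype (J i)]


/-- `moving_frame` gives the moving frame property. -/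
theorem movAt_of_frame {κl : Type u} [Field κl] [Algebra k κl]
    {E : Set (MvPolynomial (Σ i, J i) k)} {l : ∀ i, J i → κl[X]}
    (hF : OnX E l) {m : ℕ} (hm : finrank κl (TanL E l) ≤ m) (htr : TrGe k (coeffs l) m) (t0 : κl)
    {N : ℕ} (t : Fin N → ∀ i, J i → κl[X]) (ht : ∀ j, t j ∈ TanL E l)
    (hind : LinearIndependent κl (fun j => fun x : Σ i, J i => (t j x.1 x.2).eval t0))
    (hrk : finrank (RatFunc κl)
      (TanS E (fun x : Σ i, J i => algebraMap κl[X] (RatFunc κl) (l x.1 x.2))) ≤ N)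
    {K : Type u} [Field K] [Algebra k K] {v : (Σ i, J i) → K}
    (hv : ∀ p ∈ E, MvPolynomial.aeval v p = 0)
    (hgen : IntermediateField.adjoin k (Set.range v) = ⊤) (ψ : K →ₐ[k] RatFunc κl)
    (hψ : ∀ x, ψ (v x) = algebraMap κl[X] (RatFunc κl) (l x.1 x.2)) : MovAt v ψ t0 := by
  have hrk' : finrank (RatFunc κl) (TanV E (toR l)) ≤ N := hrk
  obtain ⟨δ, -, hδ⟩ := moving_frame.{u, u} hF hm htr t0 t ht hind hrk'
  have hgen' : IntermediateField.adjoin k {c | ∃ i b, v ⟨i, b⟩ = c} = ⊤ := by
    rw [← hgen]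
    congr 1
    ext c
    constructor
    · rintro ⟨i, b, rfl⟩
      exact ⟨⟨i, b⟩, rfl⟩
    · rintro ⟨⟨i, b⟩, rfl⟩
      exact ⟨i, b, rfl⟩
  refine ⟨N, δ, fun d hd => ?_⟩
  exact hδ (fun i b => v ⟨i, b⟩) (fun p hp => hv p hp) hgen' ψ (fun i b => hψ ⟨i, b⟩) d
    (fun i b => hd ⟨i, b⟩)

/-- **A-REG, tuples.** The point `H(a)` has a local ring which is a valuation ring and a line
`l`, of maximal transcendence degree, passes at `t0` through a generic point of the same prime. -/
theorem local_tuple {K K' : Type u} [Field K] [Field K'] [Algebra k K] [Algebra K K']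
    [Algebra k K'] [IsScalarTower k K K'] [Normal K K'] {E : Set (MvPolynomial (Σ i, J i) k)}
    {N : ℕ} (hN : ∀ (κ : Type u) [Field κ] [Algebra k κ] (q : ∀ i, J i → κ), OnX E q →
      (∀ i, q i ≠ 0) → finrank κ (TanS E (fun x : Σ i, J i => q x.1 x.2)) = N)
    {v : ∀ i, J i → K} (hv : OnX E v) (hv0 : ∀ i, v i ≠ 0)
    (hgen : IntermediateField.adjoin k (Set.range fun x : Σ i, J i => v x.1 x.2) = ⊤)
    (htr : TrGe k (Set.range fun x : Σ i, J i => v x.1 x.2) N)
    {κ : Type u} [Field κ] [Algebra k κ] (H : ∀ i, J i → κ[X]) (a : κ)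
    (hHa : ∀ i, (fun b => (H i b).eval a) ≠ 0)
    {L : Type w} [Field L] [Algebra (RatFunc κ) L] [Algebra k L] [IsScalarTower k (RatFunc κ) L]
    (Ψ : K' →ₐ[k] L)
    (hΨ : ∀ i b, Ψ (algebraMap K K' (v i b)) =
      algebraMap (RatFunc κ) L (algebraMap κ[X] (RatFunc κ) (H i b)))
    (dL : Derivation ℤ L L)
    (hdL : ∀ p : κ[X], dL (algebraMap (RatFunc κ) L (algebraMap κ[X] (RatFunc κ) p)) =
      algebraMap (RatFunc κ) L (algebraMap κ[X] (RatFunc κ) (derivative p)))
    (hval : ∀ b : K, ∃ P Q : MvPolynomial (Σ i, J i) k,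
      MvPolynomial.aeval (fun x : Σ i, J i => v x.1 x.2) Q ≠ 0 ∧
      b * MvPolynomial.aeval (fun x : Σ i, J i => v x.1 x.2) Q =
        MvPolynomial.aeval (fun x : Σ i, J i => v x.1 x.2) P ∧
      (MvPolynomial.aeval (fun x : Σ i, J i => (H x.1 x.2).eval a) Q ≠ 0 ∨
        MvPolynomial.aeval (fun x : Σ i, J i => (H x.1 x.2).eval a) P ≠ 0))
    {κl : Type u} [Field κl] [Algebra k κl] {l : ∀ i, J i → κl[X]}
    {m : ℕ} (hm : finrank κl (TanL E l) ≤ m) (htrl : TrGe k (coeffs l) m) (t0 : κl)
    (t : Fin N → ∀ i, J i → κl[X]) (ht : ∀ j, t j ∈ TanL E l)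
    (hind : LinearIndependent κl (fun j => fun x : Σ i, J i => (t j x.1 x.2).eval t0))
    (ψ : K' →ₐ[k] RatFunc κl)
    (hψ : ∀ i b, ψ (algebraMap K K' (v i b)) = algebraMap κl[X] (RatFunc κl) (l i b))
    (hlq : ∀ p : MvPolynomial (Σ i, J i) k,
      MvPolynomial.aeval (fun x : Σ i, J i => (l x.1 x.2).eval t0) p = 0 ↔
      MvPolynomial.aeval (fun x : Σ i, J i => (H x.1 x.2).eval a) p = 0)
    {φ : K'} (hφ : ∀ τ : K' ≃ₐ[K] K', ψ (τ φ) ∈ RegAt t0) (r : ℕ) :
    IsIntegral (RegAt a) (dL^[r] (Ψ φ)) := by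
  -- points
  have hspecH : ∀ p : MvPolynomial (Σ i, J i) k,
      MvPolynomial.aeval (fun x : Σ i, J i => v x.1 x.2) p = 0 →
      MvPolynomial.aeval (fun x : Σ i, J i => H x.1 x.2) p = 0 := by
    intro p hp
    have h1 : Ψ (algebraMap K K' (MvPolynomial.aeval (fun x : Σ i, J i => v x.1 x.2) p)) =
        MvPolynomial.aeval (fun x : Σ i, J i => Ψ (algebraMap K K' (v x.1 x.2))) p := by
      have := MvPolynomial.comp_aeval_apply (f := fun x : Σ i, J i => v x.1 x.2)
        (Ψ.comp (IsScalarTower.toAlgHom k K K')) p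
      exact this
    have h2 := MvPolynomial.comp_aeval_apply
      (f := fun x : Σ i, J i => algebraMap κ[X] (RatFunc κ) (H x.1 x.2))
      (IsScalarTower.toAlgHom k (RatFunc κ) L) p
    rw [IsScalarTower.coe_toAlgHom'] at h2
    have h3 : algebraMap (RatFunc κ) L (algebraMap κ[X] (RatFunc κ)
        (MvPolynomial.aeval (fun x : Σ i, J i => H x.1 x.2) p)) = 0 := by
      rw [← aeval_ratFunc, h2]
      rw [hp, map_zero, map_zero] at h1
      rw [h1]
      congr 2
      funext x
      exact (hΨ x.1 x.2).symm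
    have h4 := (map_eq_zero _).1 h3
    rwa [FaithfulSMul.algebraMap_eq_zero_iff] at h4
  have hspecl : ∀ p : MvPolynomial (Σ i, J i) k,
      MvPolynomial.aeval (fun x : Σ i, J i => v x.1 x.2) p = 0 →
      MvPolynomial.aeval (fun x : Σ i, J i => l x.1 x.2) p = 0 := by
    intro p hp
    have h1 : ψ (algebraMap K K' (MvPolynomial.aeval (fun x : Σ i, J i => v x.1 x.2) p)) =
        MvPolynomial.aeval (fun x : Σ i, J i => ψ (algebraMap K K' (v x.1 x.2))) p := by
      have := MvPolynomial.comp_aeval_apply (f := fun x : Σ i, J i => v x.1 x.2)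
        (ψ.comp (IsScalarTower.toAlgHom k K K')) p
      exact this
    have h3 : algebraMap κl[X] (RatFunc κl)
        (MvPolynomial.aeval (fun x : Σ i, J i => l x.1 x.2) p) = 0 := by
      rw [← aeval_ratFunc]
      rw [hp, map_zero, map_zero] at h1
      rw [h1]
      congr 2
      funext x
      exact (hψ x.1 x.2).symm
    rwa [FaithfulSMul.algebraMap_eq_zero_iff] at h3
  have hne : ∀ {κ₁ : Type u} [Field κ₁] (F : ∀ i, J i → κ₁[X]) (b : κ₁),
      (∀ i, (fun c => (F i c).eval b) ≠ 0) →
      ∀ i, (fun c => algebraMap κ₁[X] (RatFunc κ₁) (F i c)) ≠ 0 := by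
    intro κ₁ _ F b hF i h0
    apply hF i
    funext c
    have := congrFun h0 c
    simp only [Pi.zero_apply] at this
    rw [FaithfulSMul.algebraMap_eq_zero_iff] at this
    rw [this]
    simp
  have hla : ∀ i, (fun b => (l i b).eval t0) ≠ 0 := by
    intro i h0
    apply hHa i
    funext b
    have h1 := congrFun h0 b
    have h2 := (hlq (MvPolynomial.X ⟨i, b⟩)).1 (by
      rw [MvPolynomial.aeval_X]
      exact h1)
    rwa [MvPolynomial.aeval_X] at h2
  have hNv : finrank K (TanS E (fun x : Σ i, J i => v x.1 x.2)) = N := hN K v hv hv0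
  have hNH : finrank (RatFunc κ)
      (TanS E (fun x : Σ i, J i => algebraMap κ[X] (RatFunc κ) (H x.1 x.2))) = N :=
    hN (RatFunc κ) (fun i b => algebraMap κ[X] (RatFunc κ) (H i b))
      (fun p hp => by rw [aeval_ratFunc, hspecH p (hv p hp), map_zero]) (hne H a hHa)
  have hNq : finrank κ (TanS E (fun x : Σ i, J i => (H x.1 x.2).eval a)) = N :=
    hN κ (fun i b => (H i b).eval a)
      (fun p hp => by rw [aeval_eval, hspecH p (hv p hp), eval_zero]) hHa
  have hNl : finrank (RatFunc κl)
      (TanS E (fun x : Σ i, J i => algebraMap κl[X] (RatFunc κl) (l x.1 x.2))) = N :=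
    hN (RatFunc κl) (fun i b => algebraMap κl[X] (RatFunc κl) (l i b))
      (fun p hp => by rw [aeval_ratFunc, hspecl p (hv p hp), map_zero]) (hne l t0 hla)
  have hlE : OnX E l := fun p hp => hspecl p (hv p hp)
  exact local_thm (E := E) (v := fun x : Σ i, J i => v x.1 x.2) (fun p hp => hv p hp) hgen hNv.le
    htr (fun x : Σ i, J i => H x.1 x.2) a Ψ (fun x => hΨ x.1 x.2) dL hdL hNH.le hNq hval
    (fun x : Σ i, J i => l x.1 x.2) t0 ψ (fun x => hψ x.1 x.2) hlq
    (movAt_of_frame hlE hm htrl t0 t ht hind hNl.le (fun p hp => hv p hp) hgen _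
      (fun x => hψ x.1 x.2)) hφ r

end tuple

end Crest.Agent.R260.Der_169
end

-- ▼ part R260/QuadD_517
section

/-!
# Row 260, A-QUAD (helper517), part 4: regularity of the conjugates, the place theorem
-/

set_option autoImplicit false
set_option linter.all false

noncomputable section

namespace Crest.Agent.R260.Quad_517

open Polynomial Module
open Crest.Agent.R270.BM_360 Crest.Agent.R260.Lin_678 Crest.Agent.R260.QuadDefs_517
open Crest.Agent.R260.Der_169

variable {I : Type} {J : I → Type} [Fintype I] [∀ i, Fintype (J i)] {k : Type} [Field k]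

/-- amalgamation inside an algebraically closed field -/
theorem amalgC {K A B : Type} [Field K] [Field A] [Field B] (f : K →+* A) (g : K →+* B) :
    ∃ (M : Type) (_ : Field M) (_ : IsAlgClosed M) (α : A →+* M) (β : B →+* M),
      ∀ x, α (f x) = β (g x) := by
  obtain ⟨M, iM, α, β, h⟩ := amalg f g
  exact ⟨AlgebraicClosure M, inferInstance, inferInstance, (algebraMap M _).comp α,
    (algebraMap M _).comp β, fun x => congrArg (algebraMap M (AlgebraicClosure M)) (h x)⟩

/-! ### regularity of the conjugates along a line -/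

theorem conj_lin {D : CData k I J} (hLin : LinP D) {F₀ L K kl M : Type} [Field F₀] [Field L]
    [Field K] [Field kl] [Field M] [IsAlgClosed F₀] [IsAlgClosed kl] [Algebra k F₀] [Algebra k L]
    [Algebra F₀ L] [IsScalarTower k F₀ L] [Algebra F₀ K] [Algebra K L] [IsScalarTower F₀ K L]
    [Algebra k kl] [Algebra F₀ kl] [IsScalarTower k F₀ kl]
    (v : ∀ i, J i → K) (x₀ : ∀ i, J i → F₀) (hx : OnX D.E x₀) (hx0 : ∀ i, x₀ i ≠ 0)
    (f : ∀ i, J i → L[X]) (a b : I → L) (c : L) (hf : IsMap D.E f) (hfc : cls f = 2 • D.β)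
    (hj : Joins D f (up L x₀) (fun i j => algebraMap K L (v i j)) a b c)
    (hφ : IsIntegral K (phi D a b c))
    (l : ∀ i, J i → kl[X]) (hl : IsMap D.E l) (hlc : cls l = D.β)
    (ψ₀ : K →ₐ[F₀] RatFunc kl)
    (hψ₀ : ∀ i j, ψ₀ (v i j) = algebraMap kl[X] (RatFunc kl) (l i j))
    (g : RatFunc kl →+* M) (ρ : M)
    (hρ : (minpoly K (phi D a b c)).eval₂ (g.comp (ψ₀ : K →+* RatFunc kl)) ρ = 0) :
    ∃ a0 a1 : kl, ρ = g (algebraMap kl[X] (RatFunc kl) (C a0 + C a1 * X)) := by
  set φ := phi D a b c with hφd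
  haveI : Fact (Irreducible (minpoly K φ)) := ⟨minpoly.irreducible hφ⟩
  let fL : AdjoinRoot (minpoly K φ) →+* L :=
    AdjoinRoot.lift (algebraMap K L) φ (minpoly.aeval K φ)
  let gM : AdjoinRoot (minpoly K φ) →+* M :=
    AdjoinRoot.lift (g.comp (ψ₀ : K →+* RatFunc kl)) ρ hρ
  obtain ⟨M₃, iM₃, aM₃, α, β, hαβ⟩ := amalgC fL gM
  have hK : ∀ x : K, α (algebraMap K L x) = β (g (ψ₀ x)) := by
    intro x
    have h1 := hαβ (AdjoinRoot.of _ x)
    have h2 : fL (AdjoinRoot.of _ x) = algebraMap K L x := AdjoinRoot.lift_of _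
    have h3 : gM (AdjoinRoot.of _ x) = g (ψ₀ x) := AdjoinRoot.lift_of _
    rw [h2, h3] at h1
    exact h1
  have hroot : α φ = β ρ := by
    have h1 := hαβ (AdjoinRoot.root _)
    have h2 : fL (AdjoinRoot.root _) = φ := AdjoinRoot.lift_root _
    have h3 : gM (AdjoinRoot.root _) = ρ := AdjoinRoot.lift_root _
    rw [h2, h3] at h1
    exact h1
  letI A1 : Algebra kl M₃ := ((β.comp g).comp (algebraMap kl (RatFunc kl))).toAlgebra
  letI A2 : Algebra F₀ M₃ := ((algebraMap kl M₃).comp (algebraMap F₀ kl)).toAlgebra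
  letI A3 : Algebra k M₃ := ((algebraMap F₀ M₃).comp (algebraMap k F₀)).toAlgebra
  haveI T1 : IsScalarTower k F₀ M₃ := IsScalarTower.of_algebraMap_eq fun _ => rfl
  haveI T2 : IsScalarTower F₀ kl M₃ := IsScalarTower.of_algebraMap_eq fun _ => rfl
  haveI T3 : IsScalarTower k kl M₃ := IsScalarTower.of_algebraMap_eq fun x => by
    change algebraMap kl M₃ (algebraMap F₀ kl (algebraMap k F₀ x)) = _
    rw [← IsScalarTower.algebraMap_apply k F₀ kl]
  have hF : ∀ r : F₀, α (algebraMap F₀ L r) = algebraMap F₀ M₃ r := by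
    intro r
    rw [IsScalarTower.algebraMap_apply F₀ K L, hK, ψ₀.commutes]
    change β (g (algebraMap F₀ (RatFunc kl) r)) =
      β (g (algebraMap kl (RatFunc kl) (algebraMap F₀ kl r)))
    rw [← IsScalarTower.algebraMap_apply F₀ kl (RatFunc kl)]
  let αk : L →ₐ[k] M₃ :=
    { α with
      commutes' := fun r => by
        change α (algebraMap k L r) = algebraMap F₀ M₃ (algebraMap k F₀ r)
        rw [IsScalarTower.algebraMap_apply k F₀ L, hF] }
  set s : M₃ := β (g (algebraMap kl[X] (RatFunc kl) X)) with hs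
  have hpol : ∀ p : kl[X], β (g (algebraMap kl[X] (RatFunc kl) p)) = aeval s p := by
    intro p
    induction p using Polynomial.induction_on' with
    | add p q hp hq => rw [map_add, map_add, map_add, map_add, hp, hq]
    | monomial n c =>
      rw [← C_mul_X_pow_eq_monomial, map_mul, map_mul, map_mul, map_pow, map_pow, map_pow,
        map_mul, map_pow, aeval_C, aeval_X, ← hs]
      rfl
  have hst : Transcendental kl s := by
    rw [transcendental_iff]
    intro p hp
    rw [← hpol] at hp
    have h1 := (map_eq_zero β).1 hp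
    have h2 := (map_eq_zero g).1 h1
    exact (FaithfulSMul.algebraMap_eq_zero_iff _ _).1 h2
  have hj' := joins_mp αk hj
  have e1 : (fun i j => αk (up L x₀ i j)) = up M₃ x₀ := by
    funext i j
    exact hF (x₀ i j)
  have e2 : (fun i j => αk (algebraMap K L (v i j))) = at' l s := by
    funext i j
    change α (algebraMap K L (v i j)) = aeval s (l i j)
    rw [hK, hψ₀, hpol]
  rw [e1, e2] at hj'
  obtain ⟨a0, a1, h⟩ := hLin F₀ kl M₃ x₀ l s _ _ _ _ hx hx0 hl hlc hst (isMap_mp αk hf)
    (by rw [cls_mp, hfc]) hj'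
  refine ⟨a0, a1, ?_⟩
  have h1 := phi_map (D := D) (αk : L →+* M₃) a b c
  have h2 : αk φ = algebraMap kl M₃ a0 + algebraMap kl M₃ a1 * s := h1.trans h
  have h3 : α φ = β (g (algebraMap kl[X] (RatFunc kl) (C a0 + C a1 * X))) := by
    rw [hpol, map_add, map_mul, aeval_C, aeval_C, aeval_X]
    exact h2
  rw [hroot] at h3
  exact β.injective h3

theorem conj_emb {D : CData k I J} (hLin : LinP D) {F₀ L K kl : Type} [Field F₀] [Field L]
    [Field K] [Field kl] [IsAlgClosed F₀] [IsAlgClosed L] [IsAlgClosed kl] [Algebra k F₀]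
    [Algebra k L] [Algebra F₀ L] [IsScalarTower k F₀ L] [Algebra F₀ K] [Algebra K L]
    [IsScalarTower F₀ K L] [Algebra k kl] [Algebra F₀ kl] [IsScalarTower k F₀ kl]
    (v : ∀ i, J i → K) (x₀ : ∀ i, J i → F₀) (hx : OnX D.E x₀) (hx0 : ∀ i, x₀ i ≠ 0)
    (f : ∀ i, J i → L[X]) (a b : I → L) (c : L) (hf : IsMap D.E f) (hfc : cls f = 2 • D.β)
    (hj : Joins D f (up L x₀) (fun i j => algebraMap K L (v i j)) a b c)
    (hφ : IsIntegral K (phi D a b c))
    (l : ∀ i, J i → kl[X]) (hl : IsMap D.E l) (hlc : cls l = D.β)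
    (ψ₀ : K →ₐ[F₀] RatFunc kl)
    (hψ₀ : ∀ i j, ψ₀ (v i j) = algebraMap kl[X] (RatFunc kl) (l i j))
    (K' : IntermediateField K L)
    [hspl : IsSplittingField K K' (minpoly K (phi D a b c))] (φ' : K')
    (hφ' : (φ' : L) = phi D a b c) :
    ∃ ψ : K' →ₐ[F₀] RatFunc kl,
      (∀ x, ψ (algebraMap K K' x) = ψ₀ x) ∧
      ∀ (t₀ : kl) (τ : K' ≃ₐ[K] K'), ψ (τ φ') ∈ RegAt t₀ := by
  letI A1 : Algebra K (RatFunc kl) := (ψ₀ : K →+* RatFunc kl).toAlgebra
  have hψ₀' : ∀ x, algebraMap K (RatFunc kl) x = ψ₀ x := fun _ => rfl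
  haveI T1 : IsScalarTower F₀ K (RatFunc kl) := IsScalarTower.of_algebraMap_eq fun r => by
    rw [hψ₀', ψ₀.commutes]
  have hsp : ((minpoly K (phi D a b c)).map (algebraMap K (RatFunc kl))).Splits := by
    refine Polynomial.Splits.of_splits_map_of_injective
      (i := algebraMap (RatFunc kl) (AlgebraicClosure (RatFunc kl)))
      (FaithfulSMul.algebraMap_injective _ _) (IsAlgClosed.splits _) (fun ρ hρ => ?_)
    have h1 : (minpoly K (phi D a b c)).eval₂
        ((algebraMap (RatFunc kl) (AlgebraicClosure (RatFunc kl))).comp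
          (ψ₀ : K →+* RatFunc kl)) ρ = 0 := by
      have h2 := (mem_roots'.1 hρ).2
      rw [IsRoot.def, eval_map, eval₂_map] at h2
      exact h2
    obtain ⟨a0, a1, h⟩ := conj_lin hLin v x₀ hx hx0 f a b c hf hfc hj hφ l hl hlc ψ₀ hψ₀ _ ρ h1
    exact ⟨_, h.symm⟩
  let ψK : K' →ₐ[K] RatFunc kl := IsSplittingField.lift K' (minpoly K (phi D a b c)) hsp
  refine ⟨ψK.restrictScalars F₀, fun x => ψK.commutes x, fun t₀ τ => ?_⟩
  have h1 : (minpoly K (phi D a b c)).eval₂ ((RingHom.id (RatFunc kl)).comp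
      (ψ₀ : K →+* RatFunc kl)) (ψK (τ φ')) = 0 := by
    have h2 : aeval φ' (minpoly K (phi D a b c)) = 0 := by
      apply Subtype.ext
      have h3 := Polynomial.aeval_algHom_apply K'.val φ' (minpoly K (phi D a b c))
      rw [← hφ'] at h3 ⊢
      have h4 : aeval (K'.val φ') (minpoly K (φ' : L)) = 0 := minpoly.aeval K (φ' : L)
      rw [h4] at h3
      exact h3.symm
    have h3 : aeval (ψK (τ φ')) (minpoly K (phi D a b c)) = 0 := by
      have h4 := Polynomial.aeval_algHom_apply (ψK.comp (τ : K' →ₐ[K] K')) φ'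
        (minpoly K (phi D a b c))
      rw [h2, map_zero] at h4
      exact h4
    exact h3
  obtain ⟨a0, a1, h⟩ := conj_lin hLin v x₀ hx hx0 f a b c hf hfc hj hφ l hl hlc ψ₀ hψ₀ _ _ h1
  change ψK (τ φ') ∈ RegAt t₀
  rw [h]
  exact poly_mem_RegAt _ _

end Crest.Agent.R260.Quad_517
end
end

-- ▼ part R260/Gp3_169
section

/-!
# Row 260, (GL) (helper169): a generic line at a generic point of the parameter line is generic
-/

set_option autoImplicit false
set_option linter.all false

namespace Crest.Agent.R260.Gp_169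

open Polynomial Module
open Crest.Agent.R270.BM_360 Crest.Agent.R260.Lin_678 Crest.Agent.R260.QuadDefs_517

universe u

variable {I : Type} {J : I → Type} [Fintype I] [∀ i, Fintype (J i)] {k : Type u} [Field k]

/-- **(GL)**: a generic line at a generic point of the parameter line is generic. -/
def GenLP (D : CData k I J) : Prop :=
  ∀ (F₀ kl M : Type u) [Field F₀] [Field kl] [Field M] [IsAlgClosed F₀] [IsAlgClosed kl]
    [Algebra k F₀] [Algebra k kl] [Algebra k M] [Algebra F₀ kl] [Algebra F₀ M] [Algebra kl M]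
    [IsScalarTower k F₀ kl] [IsScalarTower k F₀ M] [IsScalarTower k kl M] [IsScalarTower F₀ kl M]
    (l : ∀ i, J i → kl[X]) (s : M), IsMap D.E l → cls l = D.β → TrGe F₀ (coeffs l) (hl D) →
    Transcendental kl s → TrGe F₀ (ent (at' l s)) (nn D)

theorem genLP [CharZero k] {D : CData k I J} (h : LineFrameP D) : GenLP D := by
  intro F₀ kl M _ _ _ _ _ _ _ _ _ _ _ _ _ _ _ l s h1 h2 h3 hs
  have hc0 : CharZero F₀ := charZero_of_injective_algebraMap (algebraMap k F₀).injective
  exact gen1_of_frm h1.on (lineFrm h F₀ kl l h1 h2 h3) h3 hs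



end Crest.Agent.R260.Gp_169
end

-- ▼ part R260/QuadE_517

/-!
# Row 260, A-QUAD (helper517), part 5: equations over `F₀`, the place theorem
-/

set_option autoImplicit false
set_option linter.all false

noncomputable section

namespace Crest.Agent.R260.Quad_517

open Polynomial Module
open Crest.Agent.R270.BM_360 Crest.Agent.R260.Lin_678 Crest.Agent.R260.QuadDefs_517
open Crest.Agent.R260.Der_169

variable {I : Type} {J : I → Type} [Fintype I] [∀ i, Fintype (J i)] {k : Type} [Field k]

/-! ### the equations over a bigger field -/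

/-- the equations over `F` -/
def EF (E : Set (MvPolynomial (Σ i, J i) k)) (F : Type) [Field F] [Algebra k F] :
    Set (MvPolynomial (Σ i, J i) F) := (MvPolynomial.map (algebraMap k F)) '' E

section EF

variable {E : Set (MvPolynomial (Σ i, J i) k)} {F : Type} [Field F] [Algebra k F] {A : Type}
  [CommRing A] [Algebra k A] [Algebra F A] [IsScalarTower k F A]

theorem onX_EF {v : ∀ i, J i → A} : OnX (EF E F) v ↔ OnX E v := by
  constructor
  · intro h p hp
    have := h _ ⟨p, hp, rfl⟩
    rwa [MvPolynomial.aeval_map_algebraMap] at this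
  · rintro h _ ⟨p, hp, rfl⟩
    rw [MvPolynomial.aeval_map_algebraMap]
    exact h p hp

theorem tan_EF {v : ∀ i, J i → A} {t : ∀ i, J i → A} :
    (∀ p ∈ EF E F, ∑ x : Σ i, J i, MvPolynomial.aeval (fun x : Σ i, J i => v x.1 x.2)
      (MvPolynomial.pderiv x p) * t x.1 x.2 = 0) ↔ Tan E v t := by
  have h : ∀ (p : MvPolynomial (Σ i, J i) k) (x : Σ i, J i),
      MvPolynomial.aeval (fun x : Σ i, J i => v x.1 x.2)
        (MvPolynomial.pderiv x (MvPolynomial.map (algebraMap k F) p)) =
      MvPolynomial.aeval (fun x : Σ i, J i => v x.1 x.2) (MvPolynomial.pderiv x p) := by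
    intro p x
    rw [MvPolynomial.pderiv_map, MvPolynomial.aeval_map_algebraMap]
  constructor
  · intro hh p hp
    have := hh _ ⟨p, hp, rfl⟩
    simp only [h] at this
    exact this
  · rintro hh _ ⟨p, hp, rfl⟩
    simp only [h]
    exact hh p hp

/-- tangent spaces in the two languages -/
def tanEquiv (v : ∀ i, J i → A) :
    TanS (EF E F) (fun x : Σ i, J i => v x.1 x.2) ≃ₗ[A] TanSp E v where
  toFun s := ⟨fun i a => s.1 ⟨i, a⟩, (tan_EF (F := F) (t := fun i a => s.1 ⟨i, a⟩)).1 s.2⟩
  invFun t := ⟨fun x => t.1 x.1 x.2, (tan_EF (F := F) (t := t.1)).2 t.2⟩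
  left_inv s := rfl
  right_inv t := rfl
  map_add' s t := rfl
  map_smul' c s := rfl

end EF

theorem finrank_EF {D : CData k I J} {F : Type} [Field F] [Algebra k F] {κ : Type} [Field κ]
    [Algebra F κ] (q : ∀ i, J i → κ) (hq : OnX (EF D.E F) q) (hq0 : ∀ i, q i ≠ 0) :
    finrank κ (TanS (EF D.E F) (fun x : Σ i, J i => q x.1 x.2)) = nn D := by
  letI : Algebra k κ := ((algebraMap F κ).comp (algebraMap k F)).toAlgebra
  haveI : IsScalarTower k F κ := IsScalarTower.of_algebraMap_eq fun _ => rfl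
  rw [(tanEquiv (E := D.E) (F := F) q).finrank_eq]
  exact D.tan_dim κ q (onX_EF.1 hq) hq0

theorem mem_TanL_EF {E : Set (MvPolynomial (Σ i, J i) k)} {F : Type} [Field F] [Algebra k F]
    {κ : Type} [Field κ] [Algebra k κ] [Algebra F κ] [IsScalarTower k F κ]
    (l : ∀ i, J i → κ[X]) (t : ∀ i, J i → κ[X]) :
    t ∈ TanL (EF E F) l ↔ t ∈ TanL E l := by
  rw [mem_TanL, mem_TanL]
  exact and_congr_right fun _ => tan_EF

theorem finrank_TanL_EF {E : Set (MvPolynomial (Σ i, J i) k)} {F : Type} [Field F] [Algebra k F]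
    {κ : Type} [Field κ] [Algebra k κ] [Algebra F κ] [IsScalarTower k F κ]
    (l : ∀ i, J i → κ[X]) : finrank κ (TanL (EF E F) l) = finrank κ (TanL E l) := by
  have h : TanL (EF E F) l = TanL E l := Submodule.ext fun t => mem_TanL_EF l t
  rw [h]

/-! ### integrality at a place of the `w`-line -/

/-- rational functions of `w` regular at `w = t` -/
def SubAt {k' L : Type} [Field k'] [Field L] [Algebra k' L] (t : k') (w : L) : Set L :=
  {z | ∃ p q : k'[X], q.eval t ≠ 0 ∧ z = aeval w p / aeval w q}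

/-- integral at `w = t` -/
def IntAt {k' L : Type} [Field k'] [Field L] [Algebra k' L] (t : k') (w x : L) : Prop :=
  ∃ P : L[X], P.Monic ∧ (∀ n, P.coeff n ∈ SubAt t w) ∧ P.eval x = 0

section RF

variable {k' L : Type} [Field k'] [Field L] [Algebra k' L]

/-- the field of rational functions of `w` -/
def rf (w : L) (hw : Transcendental k' w) : RatFunc k' →+* L :=
  IsFractionRing.lift (A := k'[X]) (g := (aeval w : k'[X] →ₐ[k'] L).toRingHom)
    (transcendental_iff_injective.1 hw)

theorem rf_poly (w : L) (hw : Transcendental k' w) (p : k'[X]) :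
    rf w hw (algebraMap k'[X] (RatFunc k') p) = aeval w p :=
  IsFractionRing.lift_algebraMap _ p

theorem rf_C (w : L) (hw : Transcendental k' w) (e : k') :
    rf w hw (algebraMap k' (RatFunc k') e) = algebraMap k' L e := by
  rw [IsScalarTower.algebraMap_apply k' k'[X] (RatFunc k'), rf_poly]
  simp

/-- integrality over `RegAt t` is `IntAt` -/
theorem intAt_of_reg [Algebra (RatFunc k') L] (w : L)
    (h : ∀ p : k'[X], algebraMap (RatFunc k') L (algebraMap k'[X] (RatFunc k') p) = aeval w p)
    (t : k') (x : L) (hx : IsIntegral (RegAt t) x) : IntAt t w x := by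
  obtain ⟨P, hP, hP0⟩ := hx
  refine ⟨P.map (algebraMap (RegAt t) L), hP.map _, fun n => ?_, by rw [eval_map]; exact hP0⟩
  rw [coeff_map]
  obtain ⟨p, q, hq, hh⟩ := (P.coeff n).2
  refine ⟨p, q, hq, ?_⟩
  change algebraMap (RatFunc k') L (P.coeff n : RatFunc k') = _
  rw [hh, map_div₀, h, h]

end RF

/-- an element algebraic over `k(S)` is algebraic over `K` -/
theorem alg_of_adjoin {K L : Type} [Field K] [Field L] [Algebra k L] [Algebra K L] (S : Set L)
    (hk : ∀ r : k, ∃ z : K, algebraMap k L r = algebraMap K L z)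
    (hS : ∀ s ∈ S, ∃ z : K, s = algebraMap K L z) (φ : L)
    (h : IsAlgebraic (IntermediateField.adjoin k S) φ) : IsAlgebraic K φ := by
  let R := (algebraMap K L).fieldRange
  have hP : (IntermediateField.adjoin k S).toSubfield ≤ R := by
    let P : IntermediateField k L :=
      { R with
        algebraMap_mem' := fun r => by
          obtain ⟨z, hz⟩ := hk r
          exact ⟨z, hz.symm⟩ }
    have h1 : IntermediateField.adjoin k S ≤ P := by
      rw [IntermediateField.adjoin_le_iff]
      intro s hs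
      obtain ⟨z, hz⟩ := hS s hs
      exact ⟨z, hz.symm⟩
    exact h1
  have hx : ∀ x : IntermediateField.adjoin k S, ∃ z : K, algebraMap K L z = x := fun x => hP x.2
  choose g hg using hx
  have hinj : Function.Injective (algebraMap K L) := (algebraMap K L).injective
  let G : IntermediateField.adjoin k S →+* K :=
    { toFun := g
      map_one' := hinj (by rw [hg]; simp)
      map_mul' := fun x y => hinj (by rw [hg, map_mul, hg, hg]; simp)
      map_zero' := hinj (by rw [hg]; simp)
      map_add' := fun x y => hinj (by rw [hg, map_add, hg, hg]; simp) }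
  obtain ⟨p, hp0, hp⟩ := h
  refine ⟨p.map G, (Polynomial.map_ne_zero_iff G.injective).2 hp0, ?_⟩
  rw [Polynomial.aeval_def, Polynomial.eval₂_map]
  have h1 : (algebraMap K L).comp G = algebraMap (IntermediateField.adjoin k S) L := by
    ext x
    exact hg x
  rw [h1]
  exact hp

/-- **(LOC1)** of 920: the local ring of a smooth point of codimension one is a valuation ring -/
def LocP : Prop :=
  ∀ (F K κ : Type) [Field F] [Field K] [Field κ] [CharZero F] [Algebra F K] [Algebra F κ]
    (σ : Type) [Fintype σ] (E : Set (MvPolynomial σ F)) (v : σ → K) (q : σ → κ) (N : ℕ),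
    (∀ p : MvPolynomial σ F, MvPolynomial.aeval v p = 0 → MvPolynomial.aeval q p = 0) →
    IntermediateField.adjoin F (Set.range v) = ⊤ → (∀ p ∈ E, MvPolynomial.aeval v p = 0) →
    finrank K (TanS E v) = N → finrank κ (TanS E q) = N → TrGe F (Set.range v) N →
    TrGe F (Set.range q) (N - 1) →
    ∀ b : K, ∃ P Q : MvPolynomial σ F, MvPolynomial.aeval v Q ≠ 0 ∧
      b * MvPolynomial.aeval v Q = MvPolynomial.aeval v P ∧
      (MvPolynomial.aeval q Q ≠ 0 ∨ MvPolynomial.aeval q P ≠ 0)

theorem ne_at' {κ L : Type} [Field κ] [Field L] [Algebra κ L] {F : ∀ i, J i → κ[X]}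
    (hF : ∀ i, Cop (F i)) (w : L) (i : I) : at' F w i ≠ 0 := by
  intro h
  have h1 : Ideal.span (Set.range (F i)) ≤ RingHom.ker (aeval w : κ[X] →ₐ[κ] L) := by
    rw [Ideal.span_le]
    rintro _ ⟨j, rfl⟩
    exact congrFun h j
  have h2 : (1 : κ[X]) ∈ RingHom.ker (aeval w : κ[X] →ₐ[κ] L) := by
    apply h1
    have h3 : Ideal.span (Set.range (F i)) = ⊤ := hF i
    rw [h3]
    trivial
  rw [RingHom.mem_ker, map_one] at h2
  exact one_ne_zero h2

theorem ne_pt {κ : Type} [Field κ] {F : ∀ i, J i → κ[X]} (hF : ∀ i, Cop (F i)) (t : κ) (i : I) :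
    pt F t i ≠ 0 := by
  have h := ne_at' hF t i
  have h1 : at' F t i = pt F t i := by
    funext j
    simp [at', pt, coe_aeval_eq_eval]
  rwa [h1] at h

theorem aeval_RX {κ : Type} [Field κ] (p : κ[X]) :
    aeval (algebraMap κ[X] (RatFunc κ) X) p = algebraMap κ[X] (RatFunc κ) p := by
  rw [aeval_algebraMap_apply, aeval_X_left_apply]

theorem trans_RX {κ : Type} [Field κ] :
    Transcendental κ (algebraMap κ[X] (RatFunc κ) X) := by
  rw [transcendental_iff]
  intro p hp
  rw [aeval_RX] at hp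
  exact (FaithfulSMul.algebraMap_eq_zero_iff _ _).1 hp

/-- the local data at the point `G(t)` -/
def Line (D : CData k I J) (F₀ : Type) [Field F₀] [Algebra k F₀] {k' : Type} [Field k']
    [Algebra F₀ k'] (G : ∀ i, J i → k'[X]) (t : k') : Prop :=
  ∃ (kl : Type) (_ : Field kl) (_ : IsAlgClosed kl) (_ : Algebra k kl) (_ : Algebra F₀ kl)
    (_ : IsScalarTower k F₀ kl) (l : ∀ i, J i → kl[X]) (t₀ : kl),
    IsMap D.E l ∧ cls l = D.β ∧ TrGe F₀ (coeffs l) (hl D) ∧
    ∀ p : MvPolynomial (Σ i, J i) F₀, evv (pt l t₀) p = 0 ↔ evv (pt G t) p = 0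

/-- **the place theorem** -/
theorem place [CharZero k] {D : CData k I J} (hLin : LinP D) (hIrr : IrrP D) (hAlg : AlgP D)
    (hLF : LineFrameP D) (hLoc : LocP)
    {F₀ k' L : Type} [Field F₀] [Field k'] [Field L] [IsAlgClosed F₀] [IsAlgClosed k']
    [IsAlgClosed L] [Algebra k F₀] [Algebra k k'] [Algebra k L] [Algebra F₀ k'] [Algebra F₀ L]
    [Algebra k' L] [IsScalarTower k F₀ k'] [IsScalarTower k F₀ L] [IsScalarTower k k' L]
    [IsScalarTower F₀ k' L]
    (x₀ : ∀ i, J i → F₀) (hx : OnX D.E x₀) (hx0 : ∀ i, x₀ i ≠ 0)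
    (G : ∀ i, J i → k'[X]) (hG : IsMap D.E G) (w : L) (hw : Transcendental k' w)
    (f : ∀ i, J i → L[X]) (a b : I → L) (c : L) (hf : IsMap D.E f) (hfc : cls f = 2 • D.β)
    (hj : Joins D f (up L x₀) (at' G w) a b c)
    (hgen : TrGe F₀ (QuadDefs_517.ent (at' G w)) (nn D))
    (dL : Derivation k' L L) (hdw : dL w = 1) (t : k')
    (hloc : TrGe F₀ (QuadDefs_517.ent (pt G t)) (nn D) ∨
      (TrGe F₀ (QuadDefs_517.ent (pt G t)) (nn D - 1) ∧ Line D F₀ G t)) (r : ℕ) :
    IntAt t w (dL^[r] (phi D a b c)) := by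
  haveI hc0 : CharZero F₀ := charZero_of_injective_algebraMap (algebraMap k F₀).injective
  obtain ⟨K, iK, aK, v, hv0, hvq, hvu⟩ := exists_gen (F := F₀)
    (fun x : Σ i, J i => at' G w x.1 x.2)
  obtain ⟨ι, hι⟩ := hvu L (fun x : Σ i, J i => at' G w x.1 x.2) (fun p => Iff.rfl)
  letI AKL : Algebra K L := (ι : K →+* L).toAlgebra
  have hKL : ∀ x, algebraMap K L x = ι x := fun _ => rfl
  haveI T1 : IsScalarTower F₀ K L := IsScalarTower.of_algebraMap_eq fun r => (ι.commutes r).symm
  -- the generic vector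
  let v' : ∀ i, J i → K := fun i j => v ⟨i, j⟩
  have hv' : (fun x : Σ i, J i => v' x.1 x.2) = v := rfl
  have hιv : ∀ i j, algebraMap K L (v' i j) = at' G w i j := fun i j => hι ⟨i, j⟩
  have hyX : OnX D.E (at' G w) := by
    have := (hG.on).map ((aeval w : k'[X] →ₐ[k'] L).restrictScalars k)
    exact this
  have hvX : OnX (EF D.E F₀) v' := by
    intro p hp
    exact (hv0 p).2 (onX_EF.2 hyX p hp)
  have hvne : ∀ i, v' i ≠ 0 := by
    intro i h
    apply ne_at' hG.cop w i
    funext j
    rw [← hιv i j, h]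
    simp
  have hadj : IntermediateField.adjoin F₀ (Set.range v) = ⊤ := by
    rw [eq_top_iff]
    intro z _
    obtain ⟨P, Q, hQ, rfl⟩ := hvq z
    rw [IntermediateField.mem_adjoin_range_iff]
    exact ⟨P, Q, rfl⟩
  have htr : TrGe F₀ (Set.range v) (nn D) := by
    obtain ⟨wv, hw1, hw2⟩ := hgen
    have h1 : ∀ j, ∃ z : K, ι z = wv j := by
      intro j
      have h2 : IntermediateField.adjoin F₀ (QuadDefs_517.ent (at' G w)) ≤ ι.fieldRange := by
        rw [IntermediateField.adjoin_le_iff]
        rintro _ ⟨i, b, rfl⟩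
        exact ⟨v' i b, hιv i b⟩
      obtain ⟨z, hz⟩ := h2 (hw1 j)
      exact ⟨z, hz⟩
    choose z hz using h1
    refine ⟨z, fun j => ?_, ?_⟩
    · rw [hadj]
      trivial
    · have h3 : AlgebraicIndependent F₀ (ι ∘ z) := by
        have : ι ∘ z = wv := funext hz
        rw [this]
        exact hw2
      exact AlgebraicIndependent.of_comp ι h3
  -- algebraicity of `φ`
  have hφa : IsAlgebraic K (phi D a b c) := by
    refine alg_of_adjoin (k := k) (QuadDefs_517.ent (up L x₀) ∪ QuadDefs_517.ent (at' G w))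
      (fun r => ⟨algebraMap F₀ K (algebraMap k F₀ r), ?_⟩) ?_ _
      (hAlg L f (up L x₀) (at' G w) a b c hf hfc hj)
    · rw [← IsScalarTower.algebraMap_apply F₀ K L, ← IsScalarTower.algebraMap_apply k F₀ L]
    · rintro s (⟨i, j, rfl⟩ | ⟨i, j, rfl⟩)
      · refine ⟨algebraMap F₀ K (x₀ i j), ?_⟩
        rw [← IsScalarTower.algebraMap_apply F₀ K L]
        rfl
      · exact ⟨v' i j, (hιv i j).symm⟩
  have hφi : IsIntegral K (phi D a b c) := hφa.isIntegral
  -- the normal extension
  let K' : IntermediateField K L :=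
    IntermediateField.adjoin K ((minpoly K (phi D a b c)).rootSet L)
  haveI hspl : IsSplittingField K K' (minpoly K (phi D a b c)) :=
    IntermediateField.adjoin_rootSet_isSplittingField (IsAlgClosed.splits _)
  haveI hnorm : Normal K K' := Normal.of_isSplittingField (minpoly K (phi D a b c))
  have hφK : phi D a b c ∈ K' := by
    apply IntermediateField.subset_adjoin
    rw [mem_rootSet]
    exact ⟨minpoly.ne_zero hφi, minpoly.aeval K _⟩
  let φ' : K' := ⟨phi D a b c, hφK⟩
  let Ψ : K' →ₐ[F₀] L := K'.val.restrictScalars F₀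
  have hΨφ : Ψ φ' = phi D a b c := rfl
  -- the structure over rational functions
  letI ARL : Algebra (RatFunc k') L := (rf w hw).toAlgebra
  have hRL : ∀ z, algebraMap (RatFunc k') L z = rf w hw z := fun _ => rfl
  have hRp : ∀ p : k'[X], algebraMap (RatFunc k') L (algebraMap k'[X] (RatFunc k') p) =
      aeval w p := fun p => rf_poly w hw p
  haveI T2 : IsScalarTower F₀ (RatFunc k') L := IsScalarTower.of_algebraMap_eq fun r => by
    rw [hRL, IsScalarTower.algebraMap_apply F₀ k' (RatFunc k'), rf_C,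
      ← IsScalarTower.algebraMap_apply F₀ k' L]
  let dZ : Derivation ℤ L L := dL.restrictScalars ℤ
  have hdZ : ∀ p : k'[X], dZ (algebraMap (RatFunc k') L (algebraMap k'[X] (RatFunc k') p)) =
      algebraMap (RatFunc k') L (algebraMap k'[X] (RatFunc k') (derivative p)) := by
    intro p
    rw [hRp, hRp]
    change dL (aeval w p) = _
    rw [Derivation.map_aeval, hdw, smul_eq_mul, mul_one]
  have hit : ∀ z, (dZ^[r]) z = (dL^[r]) z := fun z => rfl
  have hΨv : ∀ i j, Ψ (algebraMap K K' (v' i j)) =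
      algebraMap (RatFunc k') L (algebraMap k'[X] (RatFunc k') (G i j)) := by
    intro i j
    rw [hRp]
    exact hιv i j
  apply intAt_of_reg w hRp t
  rw [← hit, ← hΨφ]
  have hptX : OnX (EF D.E F₀) (pt G t) := by
    have h1 := (hG.on).map ((aeval t : k'[X] →ₐ[k'] k').restrictScalars k)
    refine onX_EF.2 (fun p hp => ?_)
    have h2 := h1 p hp
    simpa [pt, coe_aeval_eq_eval] using h2
  have hpt0 : ∀ i, pt G t i ≠ 0 := ne_pt hG.cop t
  have hspec : ∀ p : MvPolynomial (Σ i, J i) F₀, MvPolynomial.aeval v p = 0 →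
      MvPolynomial.aeval (fun x : Σ i, J i => (G x.1 x.2).eval t) p = 0 := by
    intro p hp
    have h1 := (hv0 p).1 hp
    have h2 : MvPolynomial.aeval (fun x : Σ i, J i => at' G w x.1 x.2) p =
        aeval w (MvPolynomial.aeval (fun x : Σ i, J i => G x.1 x.2) p) :=
      (MvPolynomial.comp_aeval_apply (f := fun x : Σ i, J i => G x.1 x.2)
        ((aeval w : k'[X] →ₐ[k'] L).restrictScalars F₀) p).symm
    rw [h2] at h1
    have h3 := transcendental_iff.1 hw _ h1
    rw [aeval_eval, h3, eval_zero]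
  have hNv : finrank K (TanS (EF D.E F₀) v) = nn D := finrank_EF v' hvX hvne
  have hNq : finrank k' (TanS (EF D.E F₀) (fun x : Σ i, J i => (G x.1 x.2).eval t)) = nn D :=
    finrank_EF (pt G t) hptX hpt0
  rcases hloc with hl1 | ⟨hl1, kl, ikl, akl, A1, A2, T3, l, t₀, hl, hlc, hlt, hlq⟩
  · have hRX : OnX (EF D.E F₀) (fun i j => algebraMap k'[X] (RatFunc k') (G i j)) := by
      intro p hp
      have h1 : MvPolynomial.aeval v p = 0 := hvX p hp
      have h2 := (hv0 p).1 h1
      have h3 : MvPolynomial.aeval (fun x : Σ i, J i => at' G w x.1 x.2) p =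
          aeval w (MvPolynomial.aeval (fun x : Σ i, J i => G x.1 x.2) p) :=
        (MvPolynomial.comp_aeval_apply (f := fun x : Σ i, J i => G x.1 x.2)
          ((aeval w : k'[X] →ₐ[k'] L).restrictScalars F₀) p).symm
      rw [h3] at h2
      have h4 := transcendental_iff.1 hw _ h2
      rw [aeval_ratFunc, h4, map_zero]
    have hR0 : ∀ i, (fun j => algebraMap k'[X] (RatFunc k') (G i j)) ≠ 0 := by
      intro i h
      apply hpt0 i
      funext j
      have h1 := congrFun h j
      simp only [Pi.zero_apply] at h1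
      rw [FaithfulSMul.algebraMap_eq_zero_iff] at h1
      change (G i j).eval t = 0
      rw [h1, eval_zero]
    exact local_gen (E := EF D.E F₀) (v := v) (fun p hp => hvX p hp) hadj (N := nn D) hNv.le htr
      (fun x : Σ i, J i => G x.1 x.2) t Ψ (fun x => hΨv x.1 x.2) dZ hdZ
      (finrank_EF _ hRX hR0).le hNq (fun Q hQ => (hv0 Q).2
        (hIrr F₀ k' L (pt G t) (at' G w) (onX_EF.1 hptX) hyX hpt0 (ne_at' hG.cop w) hl1 hgen Q
          hQ)) φ' r
  · have hFrm := Crest.Agent.R260.Gp_169.lineFrm hLF F₀ kl l hl hlc hlt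
    obtain ⟨fr, hfr1, hfr2⟩ := hFrm.pts t₀
    set s : RatFunc kl := algebraMap kl[X] (RatFunc kl) X with hs
    have hsl : at' l s = fun i j => algebraMap kl[X] (RatFunc kl) (l i j) := by
      funext i j
      exact aeval_RX (l i j)
    have hlgen : TrGe F₀ (QuadDefs_517.ent (at' l s)) (nn D) :=
      Crest.Agent.R260.Gp_169.genLP hLF F₀ kl (RatFunc kl) l s hl hlc hlt trans_RX
    have hlX : OnX D.E (at' l s) := by
      have := (hl.on).map ((aeval s : kl[X] →ₐ[kl] RatFunc kl).restrictScalars k)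
      exact this
    obtain ⟨ψ₀, hψ₀⟩ := hvu (RatFunc kl) (fun x : Σ i, J i => at' l s x.1 x.2) (fun p =>
      ⟨fun h => hIrr F₀ L (RatFunc kl) (at' G w) (at' l s) hyX hlX (ne_at' hG.cop w)
        (ne_at' hl.cop s) hgen hlgen p h,
       fun h => hIrr F₀ (RatFunc kl) L (at' l s) (at' G w) hlX hyX (ne_at' hl.cop s)
        (ne_at' hG.cop w) hlgen hgen p h⟩)
    have hψv : ∀ i j, ψ₀ (v' i j) = algebraMap kl[X] (RatFunc kl) (l i j) := by
      intro i j
      have := hψ₀ ⟨i, j⟩
      rw [hsl] at this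
      exact this
    have hjK : Joins D f (up L x₀) (fun i j => algebraMap K L (v' i j)) a b c := by
      have h1 : (fun i j => algebraMap K L (v' i j)) = at' G w := by
        funext i j
        exact hιv i j
      rw [h1]
      exact hj
    obtain ⟨ψ, hψ1, hψ2⟩ := conj_emb hLin v' x₀ hx hx0 f a b c hf hfc hjK hφi l hl hlc ψ₀ hψv K'
      φ' rfl
    have hval := hLoc F₀ K k' (Σ i, J i) (EF D.E F₀) v
      (fun x : Σ i, J i => (G x.1 x.2).eval t) (nn D) hspec hadj (fun p hp => hvX p hp) hNv hNq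
      htr (by
        convert hl1 using 2
        ext z
        constructor
        · rintro ⟨x, rfl⟩
          exact ⟨x.1, x.2, rfl⟩
        · rintro ⟨i, j, rfl⟩
          exact ⟨⟨i, j⟩, rfl⟩)
    exact local_tuple (E := EF D.E F₀) (N := nn D) (fun κ _ _ q hq hq0 => finrank_EF q hq hq0)
      hvX hvne hadj htr G t hpt0 Ψ hΨv dZ hdZ hval
      (by rw [finrank_TanL_EF]; exact hFrm.le) hlt t₀ fr
      (fun j => (mem_TanL_EF l (fr j)).2 (hfr1 j)) hfr2 ψ
      (fun i b => by rw [hψ1, hψv]) (fun p => hlq p) (fun τ => hψ2 t₀ τ) r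

end Crest.Agent.R260.Quad_517
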