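import Crest.Agent.R260.Fp1_919_Mg
import Crest.Agent.R260.Gln1_941_Mg
import Crest.Agent.R260.Gp5_169
import Crest.Agent.R260.Cc_564
import Mathlib
import Crest.Agent.R270.Gr3_789
import Crest.Agent.R270.AmpDefs_907
import Crest.Agent.R270.Amp1_907
import Crest.Agent.R260.LinDefs_678
import Crest.Agent.R260.Alg1_661
import Crest.Agent.R270.Fr3_928
import Crest.Agent.R260.Scl_678
import Crest.Agent.R260.QuadDefs_517
import Crest.Agent.R260.Irr3_33
import Crest.Agent.R260.Alg3_661
import Crest.Agent.R260.Iso5_568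
import Crest.Agent.R260.Cf2_703
import Crest.Agent.R270.LTr_360
import Crest.Agent.R270.Link3_131
import Crest.Agent.R270.TrM_807
import Crest.Agent.R260.Fin12_600
import Crest.Agent.R260.Fm3_323_Mg
import Crest.Agent.R260.Loc_33_Mg
import Crest.Agent.R260.QuadE_517
import Crest.Agent.R260.Irr2_33
import Crest.Agent.R270.Link1_131

-- ▼ part R260/Gtr3_516
section

/-!
# Row 260 (S0398), GENFAM (F6) (helper516): `GenTrP` for the family
-/

set_option autoImplicit false
set_option linter.unusedSectionVars false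

namespace Crest.Agent.R260.Gtr_516

open Crest.Agent.R260.Lin_678 Crest.Agent.R260.Fam_919

universe u

variable {I : Type} {J : I → Type} [Fintype I] [∀ i, Fintype (J i)] {k : Type u} [Field k]
  {D : CData k I J} {P : Ideal (MvPolynomial (Cx J (fun i => 2 * D.β i)) k)}

/-- **(F6a)** for the family. -/
theorem genRatP [IsAlgClosed k] [CharZero k] (hF : Fam D P) (hP : (Ideal.span D.E).IsPrime) :
    GenRatP D P :=
  gen_rat hF hP (gen_pair_inf hF)

/-- **(F6)** for the family. -/
theorem genTrP [IsAlgClosed k] [CharZero k] (hF : Fam D P) (hP : (Ideal.span D.E).IsPrime) :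
    GenTrP D P :=
  gen_tr hF (genRatP hF hP)

end Crest.Agent.R260.Gtr_516
end

-- ▼ part R260/Div_749
section

/-!
Row 260 (S0398), DivP (helper749): the division theorem for the family `VC _ P`.
-/

set_option autoImplicit false
set_option linter.unusedSectionVars false

namespace Crest.Agent.R260.Cnt_749

open Polynomial Crest.Agent.R270.BM_360 Crest.Agent.R260.Lin_678
open Crest.Agent.R260.QuadDefs_517 Crest.Agent.R260.Fam_919
open Crest.Agent.R260.Gp_169 (VC GenFrame NumConP)

universe u

variable {I : Type} {J : I → Type} [Fintype I] [∀ i, Fintype (J i)]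
  {k : Type u} [Field k] [IsAlgClosed k] [CharZero k] {D : CData k I J}
  {P : Ideal (MvPolynomial (Cx J (fun i => 2 * D.β i)) k)}

theorem genLine (D : CData k I J) : GenLine D.E D.β := by
  obtain ⟨i₀⟩ := nonempty_I D
  intro F₀ κ _ _ _ _ _ _ _ G hG hc n ht
  exact Crest.Agent.R260.Gln_941.gen_line D.hom i₀ D.β_pos hG hc ht

theorem ccInv (hF : Fam D P) : CCInv D (VC _ P) where
  map := fun _ _ _ _ _ _ φ _ h => Crest.Agent.R260.Cc_564.con_map φ h
  rev := fun _ _ _ _ _ h => Crest.Agent.R260.Cc_564.con_rev hF h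

theorem specP (hF : Fam D P) (hG : GenFrame D P) : SpecP D (VC _ P) :=
  fun _ _ _ _ _ _ _ _ _ _ _ _ _ _ _ _ _ _ hH htr hf =>
    Crest.Agent.R260.Gp_169.hspec_of_con hF hG hH htr hf

/-- **DivP** from the frame of the generic conic. -/
theorem divP_of (hm : 0 < D.m) (hF : Fam D P) (hG : GenFrame D P) : DivP D (VC _ P) :=
  divP_aux D hm (ccInv hF)
    (Crest.Agent.R260.Gp_169.gen2P (Crest.Agent.R260.Gp_169.conFrameP_of_gen hF hG))
    (specP hF hG) (genLine D)

/-- **DivP** for the family `V(P)`. -/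
theorem divP (hm : 0 < D.m) (hF : Fam D P) (hE : (Ideal.span D.E).IsPrime) (hN : NumConP D)
    (hM : GenMapP D P) : DivP D (VC _ P) :=
  divP_of hm hF (Crest.Agent.R260.Gp_169.genFrame hF hE hN hM)

end Crest.Agent.R260.Cnt_749
end

-- ▼ part R260/Lin1_678
section

/-!
Row 260 (S0398), division AG, task LIN: the global part of #5156 (3)-(4) without divisors or degrees.

A tangent vector `X` along a curve `l` over `K ⊇ k(s)`, written in a splitting frame of the tangent
bundle of the `L`-torsor along `l`, which is regular at every place of `K/k`, has CONSTANT coordinates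
in the degree-zero part of the frame.
-/

namespace Crest.Agent.R260.Lin_678

open Polynomial

universe u

section Const

variable {k : Type*} {K : Type*} [Field k] [Field K] [Algebra k K]

/-- An element of every valuation ring containing `k` is integral over `k`. -/
theorem isIntegral_of_forall_val (x : K)
    (h : ∀ O : ValuationSubring K, (∀ c : k, algebraMap k K c ∈ O) → x ∈ O) :
    IsIntegral k x := by
  have h1 : x ∈ (⨅ V : {V : ValuationSubring K // (Set.range (algebraMap k K) : Set K) ⊆
      V.toSubring}, V.1.toSubring) := by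
    rw [Subring.mem_iInf]
    rintro ⟨V, hV⟩
    exact h V fun c => hV ⟨c, rfl⟩
  rw [iInf_valuationSubring_superset] at h1
  have h2 : Subring.closure (Set.range (algebraMap k K)) = (algebraMap k K).range := by
    apply le_antisymm
    · rw [Subring.closure_le]
      rintro _ ⟨c, rfl⟩
      exact ⟨c, rfl⟩
    · rintro _ ⟨c, rfl⟩
      exact Subring.subset_closure ⟨c, rfl⟩
  rw [h2] at h1
  have h3 : IsIntegral (algebraMap k K).range x := h1
  obtain ⟨p, hp, hpx⟩ := h3
  have hlift : p ∈ Polynomial.lifts (algebraMap k K).rangeRestrict := by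
    rw [Polynomial.lifts_iff_coeff_lifts]
    intro n
    obtain ⟨y, hy⟩ := (algebraMap k K).rangeRestrict_surjective (p.coeff n)
    exact ⟨y, hy⟩
  obtain ⟨q, hq, hqd, hqm⟩ := Polynomial.lifts_and_natDegree_eq_and_monic hlift hp
  refine ⟨q, hqm, ?_⟩
  rw [← hq, eval₂_map] at hpx
  exact hpx

/-- An element of every valuation ring containing the algebraically closed field `k` is in `k`. -/
theorem mem_range_of_forall_val [IsAlgClosed k] (x : K)
    (h : ∀ O : ValuationSubring K, (∀ c : k, algebraMap k K c ∈ O) → x ∈ O) :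
    ∃ c : k, algebraMap k K c = x := by
  have hx := isIntegral_of_forall_val x h
  have h1 : (minpoly k x).degree = 1 :=
    IsAlgClosed.degree_eq_one_of_irreducible k (minpoly.irreducible hx)
  exact minpoly.mem_range_of_degree_eq_one k x h1

end Const

section Frames

variable {K : Type*} [Field K]

/-- In a valuation ring: coordinates with respect to integral vectors which are independent over
the residue field are integral. -/
theorem val_coords (O : ValuationSubring K) {σ ι : Type*} [Fintype ι] (E : ι → σ → O)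
    (hind : LinearIndependent (IsLocalRing.ResidueField O)
      (fun i (x : σ) => IsLocalRing.residue O (E i x)))
    (V : ι → K) (Y : σ → K) (hY : ∀ x, Y x ∈ O) (h : ∀ x, Y x = ∑ i, V i * (E i x : K)) :
    ∀ i, V i ∈ O := by
  classical
  by_contra hcon
  push Not at hcon
  obtain ⟨i₁, hi₁⟩ := hcon
  -- index with maximal valuation
  obtain ⟨i₀, -, hi₀⟩ := Finset.exists_max_image Finset.univ (fun i => O.valuation (V i))
    ⟨i₁, Finset.mem_univ _⟩
  have hbig : 1 < O.valuation (V i₁) := by
    rw [← not_le, O.valuation_le_one_iff]; exact hi₁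
  have hbig0 : 1 < O.valuation (V i₀) := lt_of_lt_of_le hbig (hi₀ i₁ (Finset.mem_univ _))
  have hV0 : V i₀ ≠ 0 := by
    intro h0
    rw [h0, map_zero] at hbig0
    exact absurd hbig0 (by simp)
  have hmem : ∀ i, V i / V i₀ ∈ O := fun i => by
    rw [← O.valuation_le_one_iff, map_div₀]
    exact div_le_one_of_le₀ (hi₀ i (Finset.mem_univ _)) zero_le
  have hinv : (V i₀)⁻¹ ∈ O := by
    rw [← O.valuation_le_one_iff, map_inv₀]
    exact inv_le_one_of_one_le₀ hbig0.le
  -- the relation over the residue field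
  let c : ι → O := fun i => ⟨V i / V i₀, hmem i⟩
  let r : O := ⟨(V i₀)⁻¹, hinv⟩
  have hr : IsLocalRing.residue O r = 0 := by
    rw [IsLocalRing.residue_eq_zero_iff]
    refine (ValuationSubring.valuation_lt_one_iff O r).2 ?_
    change O.valuation ((V i₀)⁻¹) < 1
    rw [map_inv₀]
    exact inv_lt_one_of_one_lt₀ hbig0
  have hrel : ∀ x, ∑ i, c i * E i x = r * ⟨Y x, hY x⟩ := fun x => by
    apply Subtype.ext
    change ((∑ i, c i * E i x : O) : K) = (V i₀)⁻¹ * Y x
    rw [h x, Finset.mul_sum]
    rw [show ((∑ i, c i * E i x : O) : K) = ∑ i, ((c i * E i x : O) : K) from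
      map_sum O.subtype _ _]
    refine Finset.sum_congr rfl fun i _ => ?_
    change V i / V i₀ * (E i x : K) = (V i₀)⁻¹ * (V i * (E i x : K))
    field_simp
  have hsum : ∑ i, IsLocalRing.residue O (c i) • (fun (x : σ) => IsLocalRing.residue O (E i x)) = 0 := by
    funext x
    simp only [Finset.sum_apply, Pi.smul_apply, smul_eq_mul, Pi.zero_apply]
    have := congrArg (IsLocalRing.residue O) (hrel x)
    rw [map_sum, map_mul, hr, zero_mul] at this
    simpa only [map_mul] using this
  have h0 := (Fintype.linearIndependent_iff.1 hind) _ hsum i₀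
  have h1 : c i₀ = 1 := by
    apply Subtype.ext
    change V i₀ / V i₀ = 1
    exact div_self hV0
  rw [h1, map_one] at h0
  exact one_ne_zero h0

end Frames

section Ind

variable {k : Type*} [Field k]

/-- independence at one point implies independence over the polynomial ring -/
theorem linearIndependent_poly {σ ι : Type*} [Fintype ι] (e : ι → σ → k[X]) (c : k)
    (h : LinearIndependent k (fun i x => (e i x).eval c)) : LinearIndependent k[X] e := by
  rw [Fintype.linearIndependent_iff]
  have key : ∀ n : ℕ, ∀ p : ι → k[X], (∀ i, (p i).natDegree ≤ n) → ∑ i, p i • e i = 0 →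
      ∀ i, p i = 0 := by
    intro n
    induction n with
    | zero =>
      intro p hp hsum i
      have hc : ∀ i, (p i).eval c = 0 := by
        apply Fintype.linearIndependent_iff.1 h
        funext x
        have := congrArg (fun f : σ → k[X] => (f x).eval c) hsum
        simpa [eval_finsetSum] using this
      have h1 := hc i
      rw [Polynomial.eq_C_of_natDegree_le_zero (hp i), eval_C] at h1
      rw [Polynomial.eq_C_of_natDegree_le_zero (hp i), h1, C_0]
    | succ n ih =>
      intro p hp hsum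
      have hc : ∀ i, (p i).eval c = 0 := by
        apply Fintype.linearIndependent_iff.1 h
        funext x
        have := congrArg (fun f : σ → k[X] => (f x).eval c) hsum
        simpa [eval_finsetSum] using this
      have hd : ∀ i, (X - C c) ∣ p i := fun i => dvd_iff_isRoot.2 (hc i)
      choose q hq using hd
      have hq0 : ∀ i, q i = 0 := by
        apply ih q
        · intro i
          by_cases h0 : q i = 0
          · simp [h0]
          have := hp i
          rw [hq i, natDegree_mul (X_sub_C_ne_zero c) h0, natDegree_X_sub_C] at this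
          omega
        · have h1 : (X - C c) • ∑ i, q i • e i = 0 := by
            rw [Finset.smul_sum, ← hsum]
            refine Finset.sum_congr rfl fun i _ => ?_
            rw [smul_smul, ← hq i]
          funext x
          have h2 := congrFun h1 x
          simp only [Pi.smul_apply, smul_eq_mul, Pi.zero_apply, mul_eq_zero] at h2
          rcases h2 with h2 | h2
          · exact absurd h2 (X_sub_C_ne_zero c)
          · exact h2
      intro i
      rw [hq i, hq0 i, mul_zero]
  intro p hp
  exact key (Finset.univ.sup fun i => (p i).natDegree) p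
    (fun i => Finset.le_sup (f := fun i => (p i).natDegree) (Finset.mem_univ i)) hp

/-- pointwise independence over the algebraically closed field `k` implies independence at every
point over every extension field. -/
theorem ind_of_pointwise [IsAlgClosed k] {σ ι : Type*} [Finite σ] [Fintype ι] (e : ι → σ → k[X])
    (h : ∀ c : k, LinearIndependent k (fun i x => (e i x).eval c))
    {κ : Type*} [Field κ] [Algebra k κ] (s : κ) :
    LinearIndependent κ (fun i x => aeval s (e i x)) := by
  by_cases hs : IsAlgebraic k s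
  · have hint : IsIntegral k s := hs.isIntegral
    obtain ⟨c, hc⟩ := minpoly.mem_range_of_degree_eq_one k s
      (IsAlgClosed.degree_eq_one_of_irreducible k (minpoly.irreducible hint))
    have h1 := (linearIndependent_algebraMap_comp_iff (R := k) (S := κ)).2 (h c)
    have h2 : (fun i x => aeval s (e i x)) =
        fun i => ⇑(algebraMap k κ) ∘ fun x => eval c (e i x) := by
      funext i x
      rw [← hc, aeval_algebraMap_apply]
      rfl
    rw [h2]
    exact h1
  · have htr : Transcendental k s := hs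
    let : Algebra k[X] κ := (aeval s : k[X] →ₐ[k] κ).toRingHom.toAlgebra
    have hinj : Function.Injective (algebraMap k[X] κ) :=
      transcendental_iff_injective.1 htr
    have : FaithfulSMul k[X] κ := (faithfulSMul_iff_algebraMap_injective _ _).2 hinj
    exact (linearIndependent_algebraMap_comp_iff (R := k[X]) (S := κ)).2
      (linearIndependent_poly e 0 (h 0))

end Ind

section Main

variable {k : Type*} [Field k]

/-- splitting frame (degrees `a i`) of a lattice along a curve whose coordinate `x` has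
degree `d x`: `e i` is a section of degree `-a i`. -/
structure IsFrame {σ ι : Type*} (d : σ → ℕ) (a : ι → ℕ) (e : ι → σ → k[X]) : Prop where
  deg : ∀ i x, e i x ≠ 0 → (e i x).natDegree + a i ≤ d x
  ind : ∀ c : k, LinearIndependent k (fun i x => (e i x).eval c)
  inf : LinearIndependent k (fun i x => (e i x).coeff (d x - a i))

/-- regularity of `Y : σ → K` at all places of `K/k`, in the lattice of weights `d`. -/
def RegAll (k : Type*) [Field k] {K : Type*} [Field K] [Algebra k K] {σ : Type*} (d : σ → ℕ)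
    (s : K) (Y : σ → K) : Prop :=
  ∀ O : ValuationSubring K, (∀ c : k, algebraMap k K c ∈ O) →
    (s ∈ O → ∀ x, Y x ∈ O) ∧ (s ∉ O → ∀ x, Y x * s⁻¹ ^ d x ∈ O)

variable {K : Type*} [Field K] [Algebra k K]

theorem aeval_mem (O : ValuationSubring K) (hO : ∀ c : k, algebraMap k K c ∈ O) {s : K}
    (hs : s ∈ O) (p : k[X]) : aeval s p ∈ O := by
  rw [aeval_eq_sum_range]
  refine sum_mem fun i _ => ?_
  rw [Algebra.smul_def]
  exact mul_mem (hO _) (pow_mem hs _)

variable [IsAlgClosed k] {σ ι : Type*} [Finite σ] [Fintype ι] {d : σ → ℕ} {a : ι → ℕ}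
  {e : ι → σ → k[X]}

/-- the coordinates at a finite place -/
theorem coords_fin (hF : IsFrame d a e) {s : K} {W : ι → K} {Y : σ → K}
    (hY : ∀ x, Y x = ∑ i, W i * aeval s (e i x)) (O : ValuationSubring K)
    (hO : ∀ c : k, algebraMap k K c ∈ O) (hs : s ∈ O) (hreg : ∀ x, Y x ∈ O) : ∀ i, W i ∈ O := by
  let kO : k →+* O := (algebraMap k K).codRestrict O.toSubring hO
  let : Algebra k (IsLocalRing.ResidueField O) := ((IsLocalRing.residue O).comp kO).toAlgebra
  let s' : O := ⟨s, hs⟩
  let E : ι → σ → O := fun i x => ⟨aeval s (e i x), aeval_mem O hO hs _⟩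
  have hE : ∀ i x, IsLocalRing.residue O (E i x) =
      aeval (IsLocalRing.residue O s') (e i x) := fun i x => by
    have h1 : E i x = eval₂ kO s' (e i x) := by
      apply Subtype.ext
      change aeval s (e i x) = O.subtype (eval₂ kO s' (e i x))
      rw [hom_eval₂]
      rfl
    rw [h1, hom_eval₂]
    rfl
  refine val_coords O E ?_ W Y hreg hY
  have h2 := ind_of_pointwise e hF.ind (κ := IsLocalRing.ResidueField O)
    (IsLocalRing.residue O s')
  have h3 : (fun i (x : σ) => IsLocalRing.residue O (E i x)) =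
      fun i x => aeval (IsLocalRing.residue O s') (e i x) := by
    funext i x; exact hE i x
  rw [h3]
  exact h2

/-- the coordinates at a place over infinity -/
theorem coords_inf (hF : IsFrame d a e) {s : K} {W : ι → K} {Y : σ → K}
    (hY : ∀ x, Y x = ∑ i, W i * aeval s (e i x)) (O : ValuationSubring K)
    (hO : ∀ c : k, algebraMap k K c ∈ O) (hs : s ∉ O) (hreg : ∀ x, Y x * s⁻¹ ^ d x ∈ O) :
    ∀ i, W i * s⁻¹ ^ a i ∈ O := by
  have hs0 : s ≠ 0 := fun h => hs (h ▸ zero_mem O)
  have hu : s⁻¹ ∈ O := (O.mem_or_inv_mem s).resolve_left hs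
  let kO : k →+* O := (algebraMap k K).codRestrict O.toSubring hO
  let : Algebra k (IsLocalRing.ResidueField O) := ((IsLocalRing.residue O).comp kO).toAlgebra
  let u' : O := ⟨s⁻¹, hu⟩
  have hu0 : IsLocalRing.residue O u' = 0 := by
    rw [IsLocalRing.residue_eq_zero_iff]
    refine (ValuationSubring.valuation_lt_one_iff O u').2 ?_
    change O.valuation (s⁻¹) < 1
    rw [map_inv₀]
    refine inv_lt_one_of_one_lt₀ ?_
    rw [← not_le, O.valuation_le_one_iff]; exact hs
  let r : ι → σ → k[X] := fun i x => reflect (d x - a i) (e i x)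
  have hr : ∀ i x, s⁻¹ ^ a i * aeval s⁻¹ (r i x) = aeval s (e i x) * s⁻¹ ^ d x := fun i x => by
    by_cases h0 : e i x = 0
    · simp [r, h0]
    have hd := hF.deg i x h0
    let : Invertible s := invertibleOfNonzero hs0
    have h1 : eval₂ (algebraMap k K) (⅟s) (reflect (d x - a i) (e i x)) * s ^ (d x - a i) =
        eval₂ (algebraMap k K) s (e i x) :=
      eval₂_reflect_mul_pow (algebraMap k K) s (d x - a i) (e i x) (by omega)
    rw [invOf_eq_inv] at h1
    have h2 : aeval s (e i x) = aeval s⁻¹ (r i x) * s ^ (d x - a i) := h1.symm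
    rw [h2, mul_assoc, mul_comm (s⁻¹ ^ a i), show d x = (d x - a i) + a i by omega, pow_add,
      show d x - a i + a i - a i = d x - a i by omega, ← mul_assoc (s ^ (d x - a i)), ← mul_pow,
      mul_inv_cancel₀ hs0, one_pow, one_mul]
  let E : ι → σ → O := fun i x => ⟨aeval s⁻¹ (r i x), aeval_mem O hO hu _⟩
  have hE : ∀ i x, IsLocalRing.residue O (E i x) =
      algebraMap k (IsLocalRing.ResidueField O) ((e i x).coeff (d x - a i)) := fun i x => by
    have h1 : E i x = eval₂ kO u' (r i x) := by
      apply Subtype.ext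
      change aeval s⁻¹ (r i x) = O.subtype (eval₂ kO u' (r i x))
      rw [hom_eval₂]
      rfl
    rw [h1, hom_eval₂, hu0, eval₂_at_zero]
    have h2 : (r i x).coeff 0 = (e i x).coeff (d x - a i) := by
      simp only [r, coeff_reflect, revAt_zero]
    rw [h2]
    rfl
  refine val_coords O E ?_ (fun i => W i * s⁻¹ ^ a i) (fun x => Y x * s⁻¹ ^ d x) hreg ?_
  · have h2 := (linearIndependent_algebraMap_comp_iff (R := k)
      (S := IsLocalRing.ResidueField O)).2 hF.inf
    have h3 : (fun i (x : σ) => IsLocalRing.residue O (E i x)) =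
        fun i => ⇑(algebraMap k (IsLocalRing.ResidueField O)) ∘
          fun x => (e i x).coeff (d x - a i) := by
      funext i x; exact hE i x
    rw [h3]
    exact h2
  · intro x
    change Y x * s⁻¹ ^ d x = ∑ i, W i * s⁻¹ ^ a i * aeval s⁻¹ (r i x)
    rw [hY x, Finset.sum_mul]
    refine Finset.sum_congr rfl fun i _ => ?_
    rw [mul_assoc, ← hr i x, mul_assoc]

/-- **constant coordinates**: a tangent vector along `l` which is regular at every place has
constant coordinates in the degree `0` part of the frame. -/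
theorem coords_const (hF : IsFrame d a e) {s : K} {W : ι → K} {Y : σ → K}
    (hY : ∀ x, Y x = ∑ i, W i * aeval s (e i x)) (hreg : RegAll k d s Y) {i : ι} (hi : a i = 0) :
    ∃ c : k, algebraMap k K c = W i := by
  refine mem_range_of_forall_val (W i) fun O hO => ?_
  by_cases hs : s ∈ O
  · exact coords_fin hF hY O hO hs ((hreg O hO).1 hs) i
  · have := coords_inf hF hY O hO hs ((hreg O hO).2 hs) i
    rwa [hi, pow_zero, mul_one] at this

/-- **LIN**, global part: the value on `Y` of a form which vanishes on the positive part of the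
frame and has degree `≤ 1` on the degree `0` part is a polynomial of degree `≤ 1` over `k`. -/
theorem lin (hF : IsFrame d a e) {s : K} {W : ι → K} {Y : σ → K}
    (hY : ∀ x, Y x = ∑ i, W i * aeval s (e i x)) (hreg : RegAll k d s Y)
    (g : ι → k[X]) (hg : ∀ i, a i ≠ 0 → g i = 0) (m : ℕ) (hg1 : ∀ i, a i = 0 → (g i).natDegree ≤ m) :
    ∃ φ : k[X], φ.natDegree ≤ m ∧ ∑ i, W i * aeval s (g i) = aeval s φ := by
  classical
  have h : ∀ i, ∃ c : k, W i * aeval s (g i) = aeval s (C c * g i) := fun i => by
    by_cases hi : a i = 0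
    · obtain ⟨c, hc⟩ := coords_const hF hY hreg hi
      exact ⟨c, by rw [map_mul, aeval_C, hc]⟩
    · exact ⟨0, by rw [hg i hi]; simp⟩
  choose c hc using h
  refine ⟨∑ i, C (c i) * g i, ?_, ?_⟩
  · refine natDegree_sum_le_of_forall_le _ _ fun i _ => ?_
    by_cases hi : a i = 0
    · exact (natDegree_C_mul_le _ _).trans (hg1 i hi)
    · rw [hg i hi]; simp
  · rw [map_sum]
    exact Finset.sum_congr rfl fun i _ => hc i

end Main

end Crest.Agent.R260.Lin_678
end

-- ▼ part R260/Nl1_997
section

/-!
Row 260 (S0398), the case without separating nodes ("no contact lines"), helper997, part 1: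
Theorem K', linear part.

`F` a map of atomic class over an algebraically closed field `K`, based at a point of the
algebraically closed field `k`, whose value at `0` is the point `H(u)` of a map `H` over `k` of the
same class. Then the (normalised) tangent vector `F'(0)` has constant coefficients in every frame
of shifted degrees `≤ 1` of the tangent bundle of the cone along `H`.
-/

set_option autoImplicit false

namespace Crest.Agent.R260.Nl1_997

open Polynomial IsLocalRing Crest.Agent.R270.BM_360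
open Crest.Agent.R270.Cone_704 (Atom)
open Crest.Agent.R270.Fin_305
open Crest.Agent.R270.Gr_789
open Crest.Agent.R270.Amp_907 (TSplit OrdGe lead TanAt)

universe u

variable {I : Type} {J : I → Type}

/-! ### one radius -/

section radius

variable {k₀ : Type u} [Field k₀] {K : Type u} [Field K] {O : ValuationSubring K} [Algebra k₀ K]
  [Algebra k₀ O] [IsScalarTower k₀ O K]

/-- **one radius** for a map of atomic class with primitive leading vectors: `|F(0)_i| = r ^ c_i`
and the coefficient of `z ^ j` is at most `r ^ (c_i - j)`. -/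
theorem radius [IsAlgClosed K] [Fintype I] [∀ i, Fintype (J i)]
    {E : Set (MvPolynomial (Σ i, J i) k₀)} (hE : MHom E) {F : ∀ i, J i → K[X]} (hF : IsMap E F)
    (hat : Atom (Lam0 E) (cls F)) (hp : ∀ i, VMax O (fun x => (F i x).coeff (cls F i)) 1) :
    ∃ r : O.ValueGroup, 0 < r ∧ (∀ i, VMax O (fun x => (F i x).coeff 0) (r ^ cls F i)) ∧
      ∀ i x j, j ≤ cls F i → O.valuation ((F i x).coeff j) ≤ r ^ (cls F i - j) := by
  obtain ⟨a, π, μ, R, h⟩ := exists_good (O := O) hE hF hat
  refine ⟨max (O.valuation π) (O.valuation a), lt_of_lt_of_le h.pi_pos (le_max_left _ _),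
    fun i => ?_, fun i x j hj => ?_⟩
  · have h1 := h.vmax_prim (hp i) 0
    rw [zero_sub, Valuation.map_neg] at h1
    simpa only [coeff_zero_eq_eval_zero] using h1
  · have h2 : F i x = ((F i x).comp (X + C a)).comp (X + C (-a)) := by
      rw [comp_assoc]
      simp
    set q := (F i x).comp (X + C a) with hq
    have hdeg : q.natDegree ≤ cls F i := by
      rw [hq, natDegree_comp, natDegree_X_add_C, mul_one]
      exact natDegree_le_cls F i x
    have h3 : (F i x).coeff j = ∑ l ∈ Finset.range (cls F i + 1),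
        q.coeff l * ((X + C (-a)) ^ l).coeff j := by
      conv_lhs => rw [h2]
      rw [comp_eq_sum_left, sum_over_range' _ _ (cls F i + 1) (Nat.lt_succ_of_le hdeg),
        finsetSum_coeff]
      · simp only [coeff_C_mul]
      · intro n
        simp
    rw [h3]
    refine Valuation.map_sum_le _ fun l hl => ?_
    have hl' : l ≤ cls F i := Nat.lt_succ_iff.mp (Finset.mem_range.mp hl)
    rcases lt_or_ge l j with hlj | hlj
    · have h4 : ((X + C (-a)) ^ l).coeff j = 0 := by
        refine coeff_eq_zero_of_natDegree_lt ?_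
        rw [natDegree_pow, natDegree_X_add_C, mul_one]
        exact hlj
      rw [h4, mul_zero, map_zero]
      exact zero_le
    · rw [coeff_X_add_C_pow, map_mul, map_mul, map_pow, Valuation.map_neg]
      have h4 : O.valuation ((l.choose j : ℕ) : K) ≤ 1 := by
        have : ((l.choose j : ℕ) : K) = ((l.choose j : ℕ) : O) := by push_cast; rfl
        rw [this]
        exact O.valuation_le_one _
      have h5 := h.coeff_shift_le (hp i) x hl'
      calc O.valuation (q.coeff l) * (O.valuation a ^ (l - j) * O.valuation ((l.choose j : ℕ) : K))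
          ≤ max (O.valuation π) (O.valuation a) ^ (cls F i - l) *
            (max (O.valuation π) (O.valuation a) ^ (l - j) * 1) := by
            gcongr
            · exact h5.trans (pow_le_pow_left₀ zero_le (le_max_left _ _) _)
            · exact le_max_right _ _
        _ = max (O.valuation π) (O.valuation a) ^ (cls F i - j) := by
            rw [mul_one, ← pow_add]
            congr 1
            omega

end radius

/-! ### norm form of maps with constant coefficients -/

section norm

variable {k : Type u} [Field k] {K : Type u} [Field K] [Algebra k K] (O : ValuationSubring K)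

theorem val_const (hO : ∀ c : k, algebraMap k K c ∈ O) {c : k} (hc : c ≠ 0) :
    O.valuation (algebraMap k K c) = 1 := by
  refine le_antisymm ((O.valuation_le_one_iff _).mpr (hO c)) ?_
  have h1 := (O.valuation_le_one_iff _).mpr (hO c⁻¹)
  rw [map_inv₀, map_inv₀] at h1
  have h2 : 0 < O.valuation (algebraMap k K c) := by
    rw [zero_lt_iff, Ne, Valuation.zero_iff]
    exact (_root_.map_ne_zero _).mpr hc
  exact (inv_le_one₀ h2).mp h1

theorem val_const_le (hO : ∀ c : k, algebraMap k K c ∈ O) (c : k) :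
    O.valuation (algebraMap k K c) ≤ 1 := (O.valuation_le_one_iff _).mpr (hO c)

theorem val_aeval_le (hO : ∀ c : k, algebraMap k K c ∈ O) (u : K) {p : k[X]} {n : ℕ}
    (hp : p.natDegree ≤ n) : O.valuation (aeval u p) ≤ max 1 (O.valuation u) ^ n := by
  rw [aeval_eq_sum_range' (Nat.lt_succ_of_le hp)]
  refine Valuation.map_sum_le _ fun l hl => ?_
  have hl' : l ≤ n := Nat.lt_succ_iff.mp (Finset.mem_range.mp hl)
  rw [Algebra.smul_def, map_mul, map_pow]
  calc O.valuation (algebraMap k K (p.coeff l)) * O.valuation u ^ l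
      ≤ 1 * max 1 (O.valuation u) ^ l := by
        gcongr
        · exact val_const_le O hO _
        · exact le_max_right _ _
    _ = max 1 (O.valuation u) ^ l := one_mul _
    _ ≤ _ := pow_le_pow_right₀ (le_max_left _ _) hl'

/-- for `|u| > 1` the lower terms are smaller than `|u| ^ n`. -/
theorem val_aeval_sub_lt (hO : ∀ c : k, algebraMap k K c ∈ O) {u : K} (hu : 1 < O.valuation u)
    {p : k[X]} {n : ℕ} (hp : p.natDegree ≤ n) :
    O.valuation (aeval u p - algebraMap k K (p.coeff n) * u ^ n) < O.valuation u ^ n := by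
  have hu0 : O.valuation u ≠ 0 := (lt_trans zero_lt_one hu).ne'
  rw [aeval_eq_sum_range' (Nat.lt_succ_of_le hp), Finset.sum_range_succ, Algebra.smul_def,
    add_sub_cancel_right]
  rcases Nat.eq_zero_or_pos n with h0 | h0
  · rw [h0, Finset.range_zero, Finset.sum_empty, map_zero, pow_zero]
    exact zero_lt_one
  · refine Valuation.map_sum_lt _ (pow_ne_zero _ hu0) fun j hj => ?_
    rw [Algebra.smul_def, map_mul, map_pow]
    have hj' := Finset.mem_range.mp hj
    calc _ ≤ 1 * O.valuation u ^ j := by gcongr; exact val_const_le O hO _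
      _ = O.valuation u ^ j := one_mul _
      _ < _ := pow_lt_pow_right₀ hu hj'

/-- **norm form** of a coprime vector with constant coefficients. -/
theorem vmax_const (hO : ∀ c : k, algebraMap k K c ∈ O) {T : Type} [Fintype T] {f : T → k[X]}
    (hf : Cop f) (u : K) :
    VMax O (fun x => aeval u (f x)) (max 1 (O.valuation u) ^ vdeg f) := by
  classical
  have hle : ∀ x, (f x).natDegree ≤ vdeg f := fun x =>
    Finset.le_sup (f := fun a => (f a).natDegree) (Finset.mem_univ x)
  have hup : ∀ x, O.valuation (aeval u (f x)) ≤ max 1 (O.valuation u) ^ vdeg f := fun x =>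
    val_aeval_le O hO u (hle x)
  refine ⟨?_, hup⟩
  by_cases hu : O.valuation u ≤ 1
  · rw [max_eq_left hu, one_pow] at hup ⊢
    have h1 : (1 : k[X]) ∈ Ideal.span (Set.range f) := by rw [show _ = _ from hf]; trivial
    obtain ⟨g, hg⟩ := (Ideal.mem_span_range_iff_exists_fun).mp h1
    by_contra hcon
    push Not at hcon
    have h2 : O.valuation (aeval u (∑ x, g x * f x)) < 1 := by
      rw [map_sum]
      refine Valuation.map_sum_lt _ one_ne_zero fun x _ => ?_
      rw [map_mul, map_mul]
      have h3 : O.valuation (aeval u (g x)) ≤ 1 := by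
        have := val_aeval_le O hO u (le_refl (g x).natDegree)
        rwa [max_eq_left hu, one_pow] at this
      calc _ ≤ 1 * O.valuation (aeval u (f x)) := by gcongr
        _ = O.valuation (aeval u (f x)) := one_mul _
        _ < 1 := lt_of_le_of_ne (hup x) (hcon x)
    rw [hg, map_one, map_one] at h2
    exact lt_irrefl _ h2
  · rw [not_le] at hu
    rw [max_eq_right hu.le]
    obtain ⟨x, hx⟩ := Function.ne_iff.mp (lead_ne hf)
    refine ⟨x, ?_⟩
    have h1 := val_aeval_sub_lt O hO hu (hle x)
    have h2 : O.valuation (algebraMap k K ((f x).coeff (vdeg f)) * u ^ vdeg f) =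
        O.valuation u ^ vdeg f := by
      rw [map_mul, map_pow, val_const O hO hx, one_mul]
    have h3 : aeval u (f x) = (aeval u (f x) - algebraMap k K ((f x).coeff (vdeg f)) * u ^ vdeg f) +
        algebraMap k K ((f x).coeff (vdeg f)) * u ^ vdeg f := by ring
    show O.valuation (aeval u (f x)) = _
    rw [h3, Valuation.map_add_eq_of_lt_right _ (by rw [h2]; exact h1), h2]

/-! ### frames -/

section frame

variable [Fintype I] [∀ i, Fintype (J i)]


end frame

end norm

/-! ### Theorem K', linear part -/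

section kprime

variable {k : Type u} [Field k] {K : Type u} [Field K] [Algebra k K]


variable {k₀ : Type u} [Field k₀] [Algebra k₀ k] [Algebra k₀ K] [IsScalarTower k₀ k K]
  [Fintype I] [∀ i, Fintype (J i)]


end kprime

end Crest.Agent.R260.Nl1_997
end

-- ▼ part R260/Pd1_365
section

/-!
# Row 260 (S0398), helper365: frame-free LIN / K' (post 6024)

Pair the normalised tangent vector of the moving conic with the two partial derivatives of the test
curve: both values lie in every valuation ring of `K/k`, hence in `k`.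

Part 1: the numerator `om` of `dθ` in a chart: scaling, Euler fields, integrality.
-/

set_option autoImplicit false
set_option linter.unusedSectionVars false

namespace Crest.Agent.R260.Pd_365

open Polynomial Crest.Agent.R270.BM_360 Crest.Agent.R260.Lin_678
open Crest.Agent.R270.Fin_305 (VMax)
open Crest.Agent.R260.Alg0_661

universe u

/-! ### a derivation with `δ s = 1` -/

theorem exists_der_one {k K : Type u} [Field k] [Field K] [Algebra k K] [CharZero k] {s : K}
    (hs : Transcendental k s) : ∃ δ : Derivation k K K, δ s = 1 := by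
  have h : AlgebraicIndependent k (fun _ : Fin 1 => s) :=
    algebraicIndependent_unique_type_iff.mpr hs
  obtain ⟨δ, hδ⟩ := Crest.Agent.R270.Fr_928.exists_der_indep _ h
  exact ⟨δ 0, by simpa using hδ 0 0⟩

theorem transcendental_of {k K : Type u} [Field k] [Field K] [Algebra k K] [IsAlgClosed k] {s : K}
    (hs : ∀ a : k, algebraMap k K a ≠ s) : Transcendental k s := by
  intro h
  have h5 : (minpoly k s).degree = 1 :=
    IsAlgClosed.degree_eq_one_of_irreducible k (minpoly.irreducible h.isIntegral)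
  obtain ⟨a, ha⟩ := minpoly.mem_range_of_degree_eq_one k s h5
  exact hs a ha

variable {I : Type} {J : I → Type} [Fintype I] [∀ i, Fintype (J i)]

/-! ### block degrees -/

/-- all the monomials of `q` have degree `d i` in the block `i`. -/
def BD {k : Type u} [Field k] (q : MvPolynomial (Σ i, J i) k) (d : I → ℤ) : Prop :=
  ∀ m ∈ q.support, ∀ i, ((∑ a, m ⟨i, a⟩ : ℕ) : ℤ) = d i

section euler

variable {k : Type u} [Field k] {A : Type*} [CommRing A] [Algebra k A]

theorem dfun_sum {ι : Type*} (S : Finset ι) (f : ι → MvPolynomial (Σ i, J i) k)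
    (v t : (Σ i, J i) → A) : dfun (∑ m ∈ S, f m) v t = ∑ m ∈ S, dfun (f m) v t := by
  unfold dfun
  simp only [map_sum, Finset.sum_mul]
  rw [Finset.sum_comm]

/-- Euler's theorem, blockwise. -/
theorem dfun_euler {q : MvPolynomial (Σ i, J i) k} {d : I → ℤ} (hq : BD q d)
    (v : (Σ i, J i) → A) (a : I → A) :
    dfun q v (fun x => a x.1 * v x) = (∑ i, a i * (d i : A)) * MvPolynomial.aeval v q := by
  have key : ∀ m ∈ q.support, dfun (MvPolynomial.monomial m (q.coeff m)) v
      (fun x => a x.1 * v x) =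
      (∑ i, a i * (d i : A)) * MvPolynomial.aeval v (MvPolynomial.monomial m (q.coeff m)) := by
    intro m hm
    unfold dfun
    have h1 : ∀ x : Σ i, J i, MvPolynomial.aeval v (MvPolynomial.pderiv x
        (MvPolynomial.monomial m (q.coeff m))) * (a x.1 * v x) =
        a x.1 * (m x : A) * MvPolynomial.aeval v (MvPolynomial.monomial m (q.coeff m)) := by
      intro x
      have h2 := congrArg (MvPolynomial.aeval v)
        (MvPolynomial.X_mul_pderiv_monomial (i := x) (m := m) (r := q.coeff m))
      rw [map_mul, MvPolynomial.aeval_X, map_nsmul, nsmul_eq_mul] at h2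
      calc _ = a x.1 * (v x * MvPolynomial.aeval v (MvPolynomial.pderiv x
        (MvPolynomial.monomial m (q.coeff m)))) := by ring
        _ = _ := by rw [h2]; ring
    rw [Finset.sum_congr rfl fun x _ => h1 x, ← Finset.sum_mul]
    congr 1
    rw [Fintype.sum_sigma]
    refine Finset.sum_congr rfl fun i _ => ?_
    simp only
    rw [← Finset.mul_sum]
    congr 1
    have h3 := congrArg (fun z : ℤ => (z : A)) (hq m hm i)
    simpa using h3
  conv_lhs => rw [MvPolynomial.as_sum q, dfun_sum]
  conv_rhs => rw [MvPolynomial.as_sum q, map_sum, Finset.mul_sum]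
  exact Finset.sum_congr rfl key

theorem dpol_BD (c : ∀ i, J i) (N : ℕ) : BD (dpol k c N) (fun _ => (N : ℤ)) := by
  classical
  have h1 : dpol k c N = MvPolynomial.monomial (N • ∑ i, Finsupp.single (⟨i, c i⟩ : Σ i, J i) 1)
      1 := by
    unfold dpol
    simp only [MvPolynomial.X]
    rw [← MvPolynomial.monomial_sum_one, MvPolynomial.monomial_pow, one_pow]
  intro m hm i
  rw [h1] at hm
  have h2 := MvPolynomial.support_monomial_subset hm
  rw [Finset.mem_singleton] at h2
  rw [h2]
  have h3 : ∀ a : J i, (N • ∑ j, Finsupp.single (⟨j, c j⟩ : Σ i, J i) 1) ⟨i, a⟩ =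
      N * (if c i = a then 1 else 0) := by
    intro a
    rw [Finsupp.smul_apply, Finsupp.finsetSum_apply, smul_eq_mul]
    congr 1
    rw [Finset.sum_eq_single i]
    · rw [Finsupp.single_apply]
      simp
    · intro j _ hj
      rw [Finsupp.single_apply, if_neg]
      intro h
      exact hj (congrArg Sigma.fst h)
    · simp
  simp [h3]

/-- the coefficients of the form. -/
theorem p_BD {E : Set (MvPolynomial (Σ i, J i) k)} {w : I → ℤ} (th : CForm E w) (c : ∀ i, J i)
    (x : Σ i, J i) : BD (th.p c x) (fun i => th.N + w i - (open Classical in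
      if x.1 = i then 1 else 0)) := by
  intro m hm i
  have h := th.hom c x m hm i
  change ((∑ a, m ⟨i, a⟩ : ℕ) : ℤ) = th.N + w i - _
  rw [← h]
  ring

end euler

section scale

variable {k : Type u} [Field k] {K : Type u} [Field K] [Algebra k K]

theorem prod_scale (m : (Σ i, J i) →₀ ℕ) (lam : I → K) :
    ∏ x : Σ i, J i, lam x.1 ^ m x = ∏ i, lam i ^ (∑ a, m ⟨i, a⟩) := by
  rw [Fintype.prod_sigma]
  refine Finset.prod_congr rfl fun i _ => ?_
  change ∏ y, lam i ^ m ⟨i, y⟩ = _
  rw [Finset.prod_pow_eq_pow_sum]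

theorem mono_scale (m : (Σ i, J i) →₀ ℕ) (r : k) (lam : I → K) (v : (Σ i, J i) → K) :
    MvPolynomial.aeval (fun x : Σ i, J i => lam x.1 * v x) (MvPolynomial.monomial m r) =
      (∏ x : Σ i, J i, lam x.1 ^ m x) * MvPolynomial.aeval v (MvPolynomial.monomial m r) := by
  rw [MvPolynomial.aeval_monomial, MvPolynomial.aeval_monomial, Finsupp.prod_fintype _ _ (by simp),
    Finsupp.prod_fintype _ _ (by simp)]
  simp only [mul_pow, Finset.prod_mul_distrib]
  ring

theorem aeval_scale {q : MvPolynomial (Σ i, J i) k} {d : I → ℤ} (hq : BD q d) (lam : I → K)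
    (v : (Σ i, J i) → K) :
    MvPolynomial.aeval (fun x : Σ i, J i => lam x.1 * v x) q =
      (∏ i, lam i ^ d i) * MvPolynomial.aeval v q := by
  conv_lhs => rw [MvPolynomial.as_sum q, map_sum]
  conv_rhs => rw [MvPolynomial.as_sum q, map_sum, Finset.mul_sum]
  refine Finset.sum_congr rfl fun m hm => ?_
  rw [mono_scale, prod_scale]
  congr 1
  refine Finset.prod_congr rfl fun i _ => ?_
  rw [← hq m hm i, zpow_natCast]

theorem pderiv_scale {q : MvPolynomial (Σ i, J i) k} {d : I → ℤ} (hq : BD q d) (lam : I → K)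
    (v : (Σ i, J i) → K) (x : Σ i, J i) :
    MvPolynomial.aeval (fun x : Σ i, J i => lam x.1 * v x) (MvPolynomial.pderiv x q) * lam x.1 =
      (∏ i, lam i ^ d i) * MvPolynomial.aeval v (MvPolynomial.pderiv x q) := by
  classical
  conv_lhs => rw [MvPolynomial.as_sum q, map_sum, map_sum, Finset.sum_mul]
  conv_rhs => rw [MvPolynomial.as_sum q, map_sum, map_sum, Finset.mul_sum]
  refine Finset.sum_congr rfl fun m hm => ?_
  rw [MvPolynomial.pderiv_monomial, mono_scale]
  rcases Nat.eq_zero_or_pos (m x) with h0 | h0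
  · rw [h0]
    simp
  · have h1 : (m - Finsupp.single x 1) + Finsupp.single x 1 = m := by
      ext y
      rw [Finsupp.add_apply, Finsupp.tsub_apply]
      by_cases hy : x = y
      · subst hy
        rw [Finsupp.single_eq_same]
        omega
      · rw [Finsupp.single_eq_of_ne' hy]
        omega
    have h2 : (∏ y : Σ i, J i, lam y.1 ^ ((m - Finsupp.single x 1 : (Σ i, J i) →₀ ℕ) y)) * lam x.1 =
        ∏ i, lam i ^ d i := by
      have h3 : ∏ y : Σ i, J i, lam y.1 ^ m y =
          (∏ y : Σ i, J i, lam y.1 ^ ((m - Finsupp.single x 1 : (Σ i, J i) →₀ ℕ) y)) * lam x.1 := by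
        conv_lhs => rw [← h1]
        simp only [Finsupp.add_apply, pow_add, Finset.prod_mul_distrib]
        congr 1
        rw [Finset.prod_eq_single x]
        · rw [Finsupp.single_eq_same, pow_one]
        · intro y _ hy
          rw [Finsupp.single_eq_of_ne hy, pow_zero]
        · simp
      rw [← h3, prod_scale]
      refine Finset.prod_congr rfl fun i _ => ?_
      rw [← hq m hm i, zpow_natCast]
    rw [← h2]
    ring

theorem dfun_scale {q : MvPolynomial (Σ i, J i) k} {d : I → ℤ} (hq : BD q d) (lam : I → K)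
    (v t : (Σ i, J i) → K) :
    dfun q (fun x : Σ i, J i => lam x.1 * v x) (fun x => lam x.1 * t x) =
      (∏ i, lam i ^ d i) * dfun q v t := by
  unfold dfun
  rw [Finset.mul_sum]
  refine Finset.sum_congr rfl fun x _ => ?_
  rw [← mul_assoc, pderiv_scale hq, mul_assoc]

variable {E : Set (MvPolynomial (Σ i, J i) k)} {w : I → ℤ}

theorem den_scale (c : ∀ i, J i) (lam : I → K) (v : ∀ i, J i → K) :
    den c (fun i x => lam i * v i x) = (∏ i, lam i) * den c v := by
  unfold den
  rw [Finset.prod_mul_distrib]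

theorem prod_zpow_aux (lam : I → K) (hlam : ∀ i, lam i ≠ 0) (N : ℕ) (x : I) :
    (∏ i, lam i ^ ((N : ℤ) + w i - (open Classical in if x = i then 1 else 0))) * lam x =
      (∏ i, lam i ^ w i) * (∏ i, lam i) ^ N := by
  classical
  have h1 : lam x = ∏ i, lam i ^ ((if x = i then 1 else 0 : ℤ)) := by
    rw [Finset.prod_eq_single x]
    · simp
    · intro i _ hi
      rw [if_neg (Ne.symm hi), zpow_zero]
    · simp
  conv_lhs => rw [h1]
  rw [← Finset.prod_mul_distrib, ← Finset.prod_pow, ← Finset.prod_mul_distrib]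
  refine Finset.prod_congr rfl fun i _ => ?_
  rw [← zpow_natCast, ← zpow_add₀ (hlam i), ← zpow_add₀ (hlam i)]
  congr 1
  split_ifs <;> ring

theorem form_scale (th : CForm E w) (c : ∀ i, J i) (lam : I → K) (hlam : ∀ i, lam i ≠ 0)
    (v t : ∀ i, J i → K) :
    form (th.p c) (fun i x => lam i * v i x) (fun i x => lam i * t i x) =
      (∏ i, lam i ^ w i) * (∏ i, lam i) ^ th.N * form (th.p c) v t := by
  rw [form_eq, form_eq]
  unfold al
  rw [Finset.mul_sum]
  refine Finset.sum_congr rfl fun x _ => ?_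
  have h := aeval_scale (p_BD th c x) lam (unc v)
  have h2 := prod_zpow_aux (w := w) lam hlam th.N x.1
  change MvPolynomial.aeval (fun x : Σ i, J i => lam x.1 * unc v x) (th.p c x) *
    (lam x.1 * unc t x) = _
  rw [h, ← h2]
  ring

/-- the numerator of `dθ` in the chart `c`. -/
noncomputable def om (th : CForm E w) {A : Type*} [CommRing A] [Algebra k A] (c : ∀ i, J i)
    (v s t : ∀ i, J i → A) (a b : A) : A :=
  dthN (th.p c) (dpol k c th.N) (unc v) (unc s) (unc t) a b

theorem dal_scale (th : CForm E w) (c : ∀ i, J i) (lam : I → K) (hlam : ∀ i, lam i ≠ 0)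
    (v s t : ∀ i, J i → K) :
    dal (th.p c) (fun x : Σ i, J i => lam x.1 * unc v x) (fun x => lam x.1 * unc s x)
        (fun x => lam x.1 * unc t x) =
      (∏ i, lam i ^ w i) * (∏ i, lam i) ^ th.N * dal (th.p c) (unc v) (unc s) (unc t) := by
  unfold dal
  rw [Finset.mul_sum]
  refine Finset.sum_congr rfl fun x _ => ?_
  rw [dfun_scale (p_BD th c x), dfun_scale (p_BD th c x),
    ← prod_zpow_aux (w := w) lam hlam th.N x.1]
  ring

theorem om_scale (th : CForm E w) (c : ∀ i, J i) (lam : I → K) (hlam : ∀ i, lam i ≠ 0)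
    (v s t : ∀ i, J i → K) (a b : K) :
    om th c (fun i x => lam i * v i x) (fun i x => lam i * s i x) (fun i x => lam i * t i x)
        ((∏ i, lam i ^ w i) * a) ((∏ i, lam i ^ w i) * b) =
      (∏ i, lam i ^ w i) * (∏ i, lam i) ^ th.N * om th c v s t a b := by
  have h1 := dal_scale th c lam hlam v s t
  have h2 := dfun_scale (dpol_BD (k := k) c th.N) lam (unc v) (unc s)
  have h3 := dfun_scale (dpol_BD (k := k) c th.N) lam (unc v) (unc t)
  have h4 : ∏ i, lam i ^ ((th.N : ℕ) : ℤ) = (∏ i, lam i) ^ th.N := by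
    simp only [zpow_natCast, Finset.prod_pow]
  rw [h4] at h2 h3
  unfold om dthN
  change dal (th.p c) (fun x : Σ i, J i => lam x.1 * unc v x) (fun x => lam x.1 * unc s x)
        (fun x => lam x.1 * unc t x) -
      dfun (dpol k c th.N) (fun x : Σ i, J i => lam x.1 * unc v x)
        (fun x => lam x.1 * unc s x) * _ +
      dfun (dpol k c th.N) (fun x : Σ i, J i => lam x.1 * unc v x)
        (fun x => lam x.1 * unc t x) * _ = _
  rw [h1, h2, h3]
  ring

end scale

end Crest.Agent.R260.Pd_365
end

-- ▼ part R260/Pd2_365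
section

/-!
# Row 260 (S0398), helper365: frame-free LIN / K', part 2

The pairing of the velocity of the moving conic with the Euler fields and with the variations of
its value at `0`; the local estimate; the general theorem (G).
-/

set_option autoImplicit false
set_option linter.unusedSectionVars false

namespace Crest.Agent.R260.Pd_365

open Polynomial Crest.Agent.R270.BM_360 Crest.Agent.R260.Lin_678
open Crest.Agent.R270.Fin_305 (VMax)
open Crest.Agent.R270.Fr_928 (dX coeff_dX)
open Crest.Agent.R260.Alg0_661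

universe u

variable {I : Type} {J : I → Type} [Fintype I] [∀ i, Fintype (J i)]

section euler

variable {k : Type u} [Field k] {K : Type u} [Field K] [Algebra k K]
  {E : Set (MvPolynomial (Σ i, J i) k)} {w : I → ℤ}

/-- the velocity at `0`. -/
noncomputable def vel (F : ∀ i, J i → K[X]) : ∀ i, J i → K := fun i x => (F i x).coeff 1

theorem form_bot (th : CForm E w) {F : ∀ i, J i → K[X]} {c : K}
    (hc : th.Val F (fun i a => derivative (F i a)) (C c)) (ch : ∀ i, J i) :
    den ch (bot F) ^ th.N * c = form (th.p ch) (bot F) (vel F) := by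
  have h := congrArg (ev0 k K) (hc ch)
  rw [map_mul, form_eq, al_map] at h
  simp only [ev0_apply, coeff_den_zero, coeff_C_zero] at h
  rw [h, form_eq]
  congr 1
  funext x
  simp [unc, vel, coeff_derivative]

/-- the derivative of the Euler relation of the block `i` at `z = 0`. -/
theorem euler_bot (th : CForm E w) {F : ∀ i, J i → K[X]} (hF : OnX E F) (ch : ∀ i, J i) (i : I) :
    ∑ a : J i, (dfun (th.p ch ⟨i, a⟩) (unc (bot F)) (unc (vel F)) * bot F i a +
      MvPolynomial.aeval (unc (bot F)) (th.p ch ⟨i, a⟩) * vel F i a) = 0 := by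
  have h := congrArg (fun f : K[X] => ev0 k K (dz k K f)) (th.euler K[X] F hF ch i)
  simp only [map_zero, map_sum] at h
  rw [← h]
  refine Finset.sum_congr rfl fun a _ => ?_
  rw [Derivation.leibniz, map_add, smul_eq_mul, smul_eq_mul, map_mul, map_mul]
  have h1 : dz k K (MvPolynomial.aeval (fun y : Σ i, J i => F y.1 y.2) (th.p ch ⟨i, a⟩)) =
      dfun (th.p ch ⟨i, a⟩) (unc F) (fun x => dz k K (unc F x)) :=
    der_aeval (dz k K) (unc F) (th.p ch ⟨i, a⟩)
  have h2 : (fun x : Σ i, J i => ev0 k K (unc F x)) = unc (bot F) := by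
    funext x
    simp [ev0_apply, unc, bot]
  have h3 : (fun x : Σ i, J i => ev0 k K (dz k K (unc F x))) = unc (vel F) := by
    funext x
    simp [ev0_apply, unc, vel, dz_apply, coeff_derivative]
  have h4 : ev0 k K (MvPolynomial.aeval (fun y : Σ i, J i => F y.1 y.2) (th.p ch ⟨i, a⟩)) =
      MvPolynomial.aeval (unc (bot F)) (th.p ch ⟨i, a⟩) := by
    rw [← AlgHom.comp_apply, ← h2]
    congr 1
    ext x
    simp [ev0_apply, unc]
  rw [h1, dfun_map, h2, h3, h4]
  have h5 : ev0 k K (F i a) = bot F i a := by simp [ev0_apply, bot]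
  have h6 : ev0 k K (dz k K (F i a)) = vel F i a := by
    simp [ev0_apply, vel, dz_apply, coeff_derivative]
  rw [h5, h6]
  ring

/-- **`dθ` on an Euler field and the velocity.** -/
theorem om_euler (th : CForm E w) {F : ∀ i, J i → K[X]} (hF : OnX E F) {c : K}
    (hc : th.Val F (fun i a => derivative (F i a)) (C c)) (ch : ∀ i, J i) (a : I → K) :
    om th ch (bot F) (fun i x => a i * bot F i x) (vel F) 0 c =
      (∑ i, a i * (w i : K)) * (den ch (bot F) ^ th.N * c) := by
  classical
  have h0 := form_bot th hc ch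
  have h1 : dal (th.p ch) (unc (bot F)) (fun x => a x.1 * unc (bot F) x) (unc (vel F)) =
      (∑ i, a i * ((th.N : K) + (w i : K))) * form (th.p ch) (bot F) (vel F) := by
    have h2 : ∀ x : Σ i, J i,
        dfun (th.p ch x) (unc (bot F)) (fun x => a x.1 * unc (bot F) x) * unc (vel F) x -
          dfun (th.p ch x) (unc (bot F)) (unc (vel F)) * (a x.1 * unc (bot F) x) =
        (∑ i, a i * ((th.N : K) + (w i : K))) *
            (MvPolynomial.aeval (unc (bot F)) (th.p ch x) * unc (vel F) x) -
          a x.1 * (dfun (th.p ch x) (unc (bot F)) (unc (vel F)) * unc (bot F) x +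
            MvPolynomial.aeval (unc (bot F)) (th.p ch x) * unc (vel F) x) := by
      intro x
      rw [dfun_euler (p_BD th ch x)]
      have h3 : (∑ i, a i * (((th.N + w i - (if x.1 = i then 1 else 0) : ℤ)) : K)) =
          (∑ i, a i * ((th.N : K) + (w i : K))) - a x.1 := by
        have h4 : ∀ i, a i * (((th.N + w i - (if x.1 = i then 1 else 0) : ℤ)) : K) =
            a i * ((th.N : K) + (w i : K)) - (if x.1 = i then a i else 0) := by
          intro i
          push_cast
          split_ifs <;> ring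
        rw [Finset.sum_congr rfl fun i _ => h4 i, Finset.sum_sub_distrib]
        simp
      have h5 : (∑ i, a i * (((th.N + w i - (open Classical in if x.1 = i then 1 else 0) : ℤ)) : K)) =
          (∑ i, a i * ((th.N : K) + (w i : K))) - a x.1 := by
        rw [← h3]
      rw [h5]
      ring
    unfold dal
    rw [Finset.sum_congr rfl fun x _ => h2 x, Finset.sum_sub_distrib, ← Finset.mul_sum]
    have h6 : ∑ x : Σ i, J i, a x.1 * (dfun (th.p ch x) (unc (bot F)) (unc (vel F)) *
        unc (bot F) x + MvPolynomial.aeval (unc (bot F)) (th.p ch x) * unc (vel F) x) = 0 := by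
      rw [Fintype.sum_sigma]
      refine Finset.sum_eq_zero fun i _ => ?_
      change ∑ y : J i, a i * (dfun (th.p ch ⟨i, y⟩) (unc (bot F)) (unc (vel F)) *
        bot F i y + MvPolynomial.aeval (unc (bot F)) (th.p ch ⟨i, y⟩) * vel F i y) = 0
      rw [← Finset.mul_sum, euler_bot th hF ch i, mul_zero]
    rw [h6, sub_zero, form_eq]
    rfl
  have h7 := dfun_euler (dpol_BD (k := k) ch th.N) (unc (bot F)) a
  rw [aeval_dpol] at h7
  unfold om dthN
  change dal (th.p ch) (unc (bot F)) (fun x => a x.1 * unc (bot F) x) (unc (vel F)) -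
    dfun (dpol k ch th.N) (unc (bot F)) (fun x => a x.1 * unc (bot F) x) * c +
    dfun (dpol k ch th.N) (unc (bot F)) (unc (vel F)) * 0 = _
  rw [h1, h7, ← h0]
  have h8 : (∑ i, a i * ((th.N : K) + (w i : K))) =
      (∑ i, a i * (((th.N : ℕ) : ℤ) : K)) + ∑ i, a i * (w i : K) := by
    rw [← Finset.sum_add_distrib]
    refine Finset.sum_congr rfl fun i _ => ?_
    push_cast
    ring
  rw [h8]
  ring

/-- **(P)**: the value of `dθ` on the variation of the value at `0` and the velocity is the same in
all charts. -/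
theorem om_var (th : CForm E w) {F : ∀ i, J i → K[X]} (hF : IsMap E F) {c : K}
    (hc : th.Val F (fun i a => derivative (F i a)) (C c)) (δ : Derivation k K K) :
    ∃ Q0 Q1 : K, (∀ ch : ∀ i, J i,
      den ch (bot F) ^ th.N * Q0 = form (th.p ch) (bot F) (fun i x => δ (bot F i x))) ∧
      ∀ ch : ∀ i, J i, den ch (bot F) ^ th.N * Q1 =
        om th ch (bot F) (fun i x => δ (bot F i x)) (vel F) Q0 c := by
  obtain ⟨Q, hQ⟩ := exists_val th hF.cop hF.on (tan_der hF.on (dX δ))
  refine ⟨Q.coeff 0, δ c - Q.coeff 1, fun ch => ?_, fun ch => ?_⟩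
  · have h := congrArg (ev0 k K) (hQ ch)
    rw [map_mul, form_eq, al_map] at h
    simp only [ev0_apply, coeff_den_zero] at h
    rw [h, form_eq]
    congr 1
  · have h := at_zero δ (unc F) (th.p ch) (dpol k ch th.N) (c := c) (Q := Q)
      (by rw [aeval_dpol]; exact hc ch) (by rw [aeval_dpol]; exact hQ ch)
    have h2 : MvPolynomial.aeval (fun x => (unc F x).coeff 0) (dpol k ch th.N) =
        den ch (bot F) ^ th.N := aeval_dpol ch th.N (bot F)
    rw [h2] at h
    exact h

end euler

/-! ### the local estimate -/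

section loc

variable {k : Type u} [Field k] {K : Type u} [Field K] [Algebra k K]
  {E : Set (MvPolynomial (Σ i, J i) k)} {w : I → ℤ}

theorem aeval_mem (O : ValuationSubring K) (hO : ∀ c : k, algebraMap k K c ∈ O)
    {v : (Σ i, J i) → K} (hv : ∀ x, v x ∈ O) (q : MvPolynomial (Σ i, J i) k) :
    MvPolynomial.aeval v q ∈ O := by
  induction q using MvPolynomial.induction_on with
  | C a => rw [MvPolynomial.aeval_C]; exact hO a
  | add p q hp hq => rw [map_add]; exact O.add_mem _ _ hp hq
  | mul_X p n hp => rw [map_mul, MvPolynomial.aeval_X]; exact O.mul_mem _ _ hp (hv n)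

theorem sum_mem' (O : ValuationSubring K) {ι : Type*} (S : Finset ι) (f : ι → K)
    (h : ∀ x ∈ S, f x ∈ O) : ∑ x ∈ S, f x ∈ O := O.toSubring.sum_mem h

theorem al_mem (O : ValuationSubring K) (hO : ∀ c : k, algebraMap k K c ∈ O)
    {v t : (Σ i, J i) → K} (hv : ∀ x, v x ∈ O) (ht : ∀ x, t x ∈ O)
    (p : (Σ i, J i) → MvPolynomial (Σ i, J i) k) : al p v t ∈ O :=
  sum_mem' O _ _ fun x _ => O.mul_mem _ _ (aeval_mem O hO hv _) (ht x)

theorem dfun_mem (O : ValuationSubring K) (hO : ∀ c : k, algebraMap k K c ∈ O)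
    {v t : (Σ i, J i) → K} (hv : ∀ x, v x ∈ O) (ht : ∀ x, t x ∈ O)
    (q : MvPolynomial (Σ i, J i) k) : dfun q v t ∈ O :=
  sum_mem' O _ _ fun x _ => O.mul_mem _ _ (aeval_mem O hO hv _) (ht x)

theorem om_mem (O : ValuationSubring K) (hO : ∀ c : k, algebraMap k K c ∈ O) (th : CForm E w)
    (ch : ∀ i, J i) {v s t : ∀ i, J i → K} (hv : ∀ i x, v i x ∈ O) (hs : ∀ i x, s i x ∈ O)
    (ht : ∀ i x, t i x ∈ O) {a b : K} (ha : a ∈ O) (hb : b ∈ O) : om th ch v s t a b ∈ O := by
  have hv' : ∀ x, unc v x ∈ O := fun x => hv x.1 x.2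
  have hs' : ∀ x, unc s x ∈ O := fun x => hs x.1 x.2
  have ht' : ∀ x, unc t x ∈ O := fun x => ht x.1 x.2
  refine add_mem (sub_mem ?_ (mul_mem (dfun_mem O hO hv' hs' _) hb))
    (mul_mem (dfun_mem O hO hv' ht' _) ha)
  exact sum_mem' O _ _ fun x _ => sub_mem (mul_mem (dfun_mem O hO hv' hs' _) (ht' x))
    (mul_mem (dfun_mem O hO hv' ht' _) (hs' x))

theorem mem_of_unit_mul (O : ValuationSubring K) {u x : K} (hu : O.valuation u = 1)
    (h : u * x ∈ O) : x ∈ O := by
  rw [← O.valuation_le_one_iff] at h ⊢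
  rwa [map_mul, hu, one_mul] at h

/-- bilinearity in the scalars. -/
theorem om_smul (th : CForm E w) (ch : ∀ i, J i) (v s t : ∀ i, J i → K) (a b m₁ m₂ : K) :
    om th ch v (fun i x => m₁ * s i x) (fun i x => m₂ * t i x) (m₁ * a) (m₂ * b) =
      m₁ * m₂ * om th ch v s t a b := by
  have h : ∀ (q : MvPolynomial (Σ i, J i) k) (m : K) (r : ∀ i, J i → K),
      dfun q (unc v) (unc fun i x => m * r i x) = m * dfun q (unc v) (unc r) := by
    intro q m r
    unfold dfun
    rw [Finset.mul_sum]
    exact Finset.sum_congr rfl fun x _ => by simp only [unc]; ring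
  unfold om dthN dal
  simp only [h]
  have h2 : ∀ x : Σ i, J i, m₁ * dfun (th.p ch x) (unc v) (unc s) * unc (fun i x => m₂ * t i x) x -
      m₂ * dfun (th.p ch x) (unc v) (unc t) * unc (fun i x => m₁ * s i x) x =
      m₁ * m₂ * (dfun (th.p ch x) (unc v) (unc s) * unc t x -
        dfun (th.p ch x) (unc v) (unc t) * unc s x) := by
    intro x
    simp only [unc]
    ring
  rw [Finset.sum_congr rfl fun x _ => h2 x, ← Finset.mul_sum]
  ring

theorem om_sub (th : CForm E w) (ch : ∀ i, J i) (v s s' t : ∀ i, J i → K) (a a' b : K) :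
    om th ch v (fun i x => s i x - s' i x) t (a - a') b =
      om th ch v s t a b - om th ch v s' t a' b := by
  have h : ∀ (q : MvPolynomial (Σ i, J i) k),
      dfun q (unc v) (unc fun i x => s i x - s' i x) =
        dfun q (unc v) (unc s) - dfun q (unc v) (unc s') := by
    intro q
    unfold dfun
    rw [← Finset.sum_sub_distrib]
    exact Finset.sum_congr rfl fun x _ => by simp only [unc]; ring
  unfold om dthN dal
  simp only [h]
  have h2 : ∀ x : Σ i, J i, (dfun (th.p ch x) (unc v) (unc s) -
      dfun (th.p ch x) (unc v) (unc s')) * unc t x -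
      dfun (th.p ch x) (unc v) (unc t) * unc (fun i x => s i x - s' i x) x =
      (dfun (th.p ch x) (unc v) (unc s) * unc t x - dfun (th.p ch x) (unc v) (unc t) * unc s x) -
        (dfun (th.p ch x) (unc v) (unc s') * unc t x -
          dfun (th.p ch x) (unc v) (unc t) * unc s' x) := by
    intro x
    simp only [unc]
    ring
  rw [Finset.sum_congr rfl fun x _ => h2 x, Finset.sum_sub_distrib]
  ring

/-- **local estimate** at one valuation ring. -/
theorem loc (O : ValuationSubring K) (hO : ∀ c : k, algebraMap k K c ∈ O) (th : CForm E w)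
    {v S T : ∀ i, J i → K} {a b Q : K}
    (ha : ∀ ch : ∀ i, J i, den ch v ^ th.N * a = form (th.p ch) v S)
    (hb : ∀ ch : ∀ i, J i, den ch v ^ th.N * b = form (th.p ch) v T)
    (hQ : ∀ ch : ∀ i, J i, den ch v ^ th.N * Q = om th ch v S T a b)
    (lam : I → K) (hlam : ∀ i, lam i ≠ 0) (m₁ m₂ : K)
    (h1 : ∀ i x, lam i * v i x ∈ O) (hu : ∀ i, ∃ x, O.valuation (lam i * v i x) = 1)
    (h2 : ∀ i x, m₁ * (lam i * S i x) ∈ O) (h3 : ∀ i x, m₂ * (lam i * T i x) ∈ O) :
    (∏ i, lam i ^ w i) * m₁ * m₂ * Q ∈ O := by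
  choose ch hch using hu
  set R : K := ∏ i, lam i ^ w i with hR
  have hden : O.valuation (den ch (fun i x => lam i * v i x) ^ th.N) = 1 := by
    rw [map_pow]
    unfold den
    rw [map_prod, Finset.prod_congr rfl fun i _ => hch i, Finset.prod_const_one, one_pow]
  have e1 : den ch (fun i x => lam i * v i x) ^ th.N = (∏ i, lam i) ^ th.N * den ch v ^ th.N := by
    rw [den_scale, mul_pow]
  have fsm : ∀ (m : K) (r : ∀ i, J i → K) (v' : ∀ i, J i → K),
      form (th.p ch) v' (fun i x => m * r i x) = m * form (th.p ch) v' r := by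
    intro m r v'
    unfold form
    rw [Finset.mul_sum]
    exact Finset.sum_congr rfl fun x _ => by ring
  have mem1 : m₁ * (R * a) ∈ O := by
    refine mem_of_unit_mul O hden ?_
    have h4 : den ch (fun i x => lam i * v i x) ^ th.N * (m₁ * (R * a)) =
        form (th.p ch) (fun i x => lam i * v i x) (fun i x => m₁ * (lam i * S i x)) := by
      rw [fsm, form_scale th ch lam hlam, e1, ← ha ch]
      ring
    rw [h4]
    exact al_mem O hO (fun x => h1 x.1 x.2) (fun x => h2 x.1 x.2) _
  have mem2 : m₂ * (R * b) ∈ O := by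
    refine mem_of_unit_mul O hden ?_
    have h4 : den ch (fun i x => lam i * v i x) ^ th.N * (m₂ * (R * b)) =
        form (th.p ch) (fun i x => lam i * v i x) (fun i x => m₂ * (lam i * T i x)) := by
      rw [fsm, form_scale th ch lam hlam, e1, ← hb ch]
      ring
    rw [h4]
    exact al_mem O hO (fun x => h1 x.1 x.2) (fun x => h3 x.1 x.2) _
  refine mem_of_unit_mul O hden ?_
  have h5 := om_mem O hO th ch h1 h2 h3 mem1 mem2
  rw [om_smul th ch (fun i x => lam i * v i x) (fun i x => lam i * S i x)
    (fun i x => lam i * T i x) (R * a) (R * b) m₁ m₂, hR, om_scale th ch lam hlam, ← hR,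
    ← hQ ch] at h5
  rw [e1]
  have h6 : (∏ i, lam i) ^ th.N * den ch v ^ th.N * (R * m₁ * m₂ * Q) =
      m₁ * m₂ * (R * (∏ i, lam i) ^ th.N * (den ch v ^ th.N * Q)) := by ring
  rw [h6]
  exact h5

end loc

end Crest.Agent.R260.Pd_365
end

-- ▼ part R260/Pd3_365
section

/-!
# Row 260 (S0398), helper365: frame-free LIN / K', part 3

The general theorem (G): `(e + 1) g c = (∏ r_i ^ w_i) (a₀ + a₁ s)`.
-/

set_option autoImplicit false
set_option linter.unusedSectionVars false

namespace Crest.Agent.R260.Pd_365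

open Polynomial Crest.Agent.R270.BM_360 Crest.Agent.R260.Lin_678
open Crest.Agent.R270.Fin_305 (VMax)
open Crest.Agent.R270.Fr_928 (dX coeff_dX)
open Crest.Agent.R260.Alg0_661
open Crest.Agent.R260.Nl1_997 (vmax_const val_aeval_le)

universe u

/- `k₀` is the field of the equations and of the contact form, `k` the field of the test curve. -/
variable {I : Type} {J : I → Type} [Fintype I] [∀ i, Fintype (J i)]
  {k₀ : Type u} [Field k₀] {k : Type u} [Field k] {K : Type u} [Field K] [Algebra k₀ k]
  [Algebra k₀ K] [Algebra k K] [IsScalarTower k₀ k K]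
  {E : Set (MvPolynomial (Σ i, J i) k₀)} {w : I → ℤ}

theorem prod_zpow_pow {s : K} (hs : s ≠ 0) (n : I → ℕ) (e : ℕ)
    (he : ∑ i, w i * (n i : ℤ) = e + 1) :
    ∏ i, ((s ^ n i)⁻¹) ^ w i = (s ^ (e + 1))⁻¹ := by
  have h1 : ∀ i, ((s ^ n i)⁻¹) ^ w i = s ^ (-(w i * (n i : ℤ))) := by
    intro i
    rw [← zpow_natCast, ← zpow_neg, ← zpow_mul]
    congr 1
    ring
  rw [Finset.prod_congr rfl fun i _ => h1 i]
  have h2 : ∀ S : Finset I, ∏ i ∈ S, s ^ (-(w i * (n i : ℤ))) =
      s ^ (-(∑ i ∈ S, w i * (n i : ℤ))) := by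
    classical
    intro S
    induction S using Finset.induction_on with
    | empty => simp
    | insert a S ha ih =>
      rw [Finset.prod_insert ha, Finset.sum_insert ha, ih, neg_add, zpow_add₀ hs]
  rw [h2, he, zpow_neg]
  norm_cast

/-- from local to global. -/
theorem glob [IsAlgClosed k] (th : CForm E w) {l : ∀ i, J i → k[X]} (hl : ∀ i, Cop (l i))
    {n : I → ℕ} (hn : ∀ i, vdeg (l i) = n i) {e : ℕ} (he : ∑ i, w i * (n i : ℤ) = e + 1)
    {s : K} {T : ∀ i, J i → k[X]} (hT : ∀ i x, (T i x).natDegree + 1 ≤ n i)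
    {Y : ∀ i, J i → K} {g : K}
    (hfin : ∀ O : ValuationSubring K, (∀ c : k, algebraMap k K c ∈ O) → s ∈ O →
      ∀ i x, g * Y i x ∈ O)
    (hinf : ∀ O : ValuationSubring K, (∀ c : k, algebraMap k K c ∈ O) → s ∉ O →
      ∀ i x, g * s ^ e * ((s ^ n i)⁻¹ * Y i x) ∈ O)
    {a b Q : K}
    (ha : ∀ ch : ∀ i, J i, den ch (fun i x => aeval s (l i x)) ^ th.N * a =
      form (th.p ch) (fun i x => aeval s (l i x)) (fun i x => aeval s (T i x)))
    (hb : ∀ ch : ∀ i, J i, den ch (fun i x => aeval s (l i x)) ^ th.N * b =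
      form (th.p ch) (fun i x => aeval s (l i x)) Y)
    (hQ : ∀ ch : ∀ i, J i, den ch (fun i x => aeval s (l i x)) ^ th.N * Q =
      om th ch (fun i x => aeval s (l i x)) (fun i x => aeval s (T i x)) Y a b) :
    ∃ z : k, algebraMap k K z = g * Q := by
  refine mem_range_of_forall_val _ fun O hO => ?_
  have hO₀ : ∀ c : k₀, algebraMap k₀ K c ∈ O := fun c => by
    rw [IsScalarTower.algebraMap_apply k₀ k K]
    exact hO _
  by_cases hs : s ∈ O
  · have hs1 : max 1 (O.valuation s) = 1 := max_eq_left ((O.valuation_le_one_iff s).mpr hs)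
    have hmem : ∀ p : k[X], aeval s p ∈ O := by
      intro p
      rw [← O.valuation_le_one_iff]
      have := val_aeval_le O hO s (le_refl p.natDegree)
      rwa [hs1, one_pow] at this
    have h := loc O hO₀ th ha hb hQ (fun _ => 1) (fun _ => one_ne_zero) 1 g
      (fun i x => by rw [one_mul]; exact hmem _)
      (fun i => by
        obtain ⟨x, hx⟩ := (vmax_const O hO (hl i) s).1
        refine ⟨x, ?_⟩
        rw [one_mul]
        rwa [hs1, one_pow] at hx)
      (fun i x => by rw [one_mul, one_mul]; exact hmem _)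
      (fun i x => by rw [one_mul]; exact hfin O hO hs i x)
    simpa using h
  · have hs1 : 1 < O.valuation s := by
      rw [← not_le, O.valuation_le_one_iff]
      exact hs
    have hs2 : max 1 (O.valuation s) = O.valuation s := max_eq_right hs1.le
    have hs0 : s ≠ 0 := by
      rintro rfl
      exact hs O.zero_mem
    have hv0 : 0 < O.valuation s := lt_trans zero_lt_one hs1
    have h := loc O hO₀ th ha hb hQ (fun i => (s ^ n i)⁻¹)
      (fun i => inv_ne_zero (pow_ne_zero _ hs0)) s (g * s ^ e)
      (fun i x => by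
        rw [← O.valuation_le_one_iff, map_mul, map_inv₀, map_pow,
          inv_mul_le_one₀ (pow_pos hv0 _), ← hs2]
        refine val_aeval_le O hO s ?_
        rw [← hn i]
        exact Finset.le_sup (f := fun a => (l i a).natDegree) (Finset.mem_univ x))
      (fun i => by
        obtain ⟨x, hx⟩ := (vmax_const O hO (hl i) s).1
        refine ⟨x, ?_⟩
        rw [map_mul, map_inv₀, map_pow]
        rw [hs2, hn i] at hx
        rw [hx, inv_mul_cancel₀ (pow_ne_zero _ hv0.ne')])
      (fun i x => by
        rw [← O.valuation_le_one_iff, map_mul, map_mul, map_inv₀, map_pow]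
        have h1 : O.valuation (aeval s (T i x)) ≤ O.valuation s ^ (n i - 1) := by
          have := val_aeval_le O hO s (p := T i x) (n := n i - 1) (by
            have := hT i x
            omega)
          rwa [hs2] at this
        have h2 : O.valuation s ^ n i = O.valuation s ^ (n i - 1) * O.valuation s := by
          rw [← pow_succ]
          congr 1
          have := hT i x
          omega
        calc O.valuation s * ((O.valuation s ^ n i)⁻¹ * O.valuation (aeval s (T i x)))
            ≤ O.valuation s * ((O.valuation s ^ n i)⁻¹ * O.valuation s ^ (n i - 1)) := by gcongr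
          _ = 1 := by
            rw [h2, mul_inv, mul_comm (O.valuation s ^ (n i - 1))⁻¹, mul_assoc,
              inv_mul_cancel₀ (pow_ne_zero _ hv0.ne'), mul_one, mul_inv_cancel₀ hv0.ne'])
      (fun i x => hinf O hO hs i x)
    rw [prod_zpow_pow hs0 n e he] at h
    have h3 : (s ^ (e + 1))⁻¹ * s * (g * s ^ e) * Q = g * Q := by
      have h4 : (s ^ (e + 1))⁻¹ * (s ^ (e + 1)) = 1 := inv_mul_cancel₀ (pow_ne_zero _ hs0)
      calc _ = ((s ^ (e + 1))⁻¹ * (s ^ (e + 1))) * (g * Q) := by rw [pow_succ]; ring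
        _ = _ := by rw [h4, one_mul]
    rwa [h3] at h

theorem onX_bot {F : ∀ i, J i → K[X]} (hF : OnX E F) : OnX E (bot F) := by
  intro p hp
  have h := congrArg (ev0 k₀ K) (hF p hp)
  rw [map_zero] at h
  rw [← h, ← AlgHom.comp_apply]
  congr 1
  ext x
  simp [ev0_apply, bot]

theorem form_euler (th : CForm E w) {y : ∀ i, J i → K} (hy : OnX E y) (ch : ∀ i, J i)
    (a : I → K) : form (th.p ch) y (fun i x => a i * y i x) = 0 := by
  unfold form
  rw [Fintype.sum_sigma]
  refine Finset.sum_eq_zero fun i _ => ?_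
  have h := th.euler K y hy ch i
  have h2 : ∀ x : J i, MvPolynomial.aeval (fun z : Σ i, J i => y z.1 z.2) (th.p ch ⟨i, x⟩) *
      (a i * y i x) =
      a i * (MvPolynomial.aeval (fun z : Σ i, J i => y z.1 z.2) (th.p ch ⟨i, x⟩) * y i x) :=
    fun x => by ring
  change ∑ x : J i, MvPolynomial.aeval (fun z : Σ i, J i => y z.1 z.2) (th.p ch ⟨i, x⟩) *
      (a i * y i x) = 0
  rw [Finset.sum_congr rfl fun x _ => h2 x, ← Finset.mul_sum, h, mul_zero]

theorem form_sub' (p : (Σ i, J i) → MvPolynomial (Σ i, J i) k₀) (v s t : ∀ i, J i → K) :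
    form p v (fun i x => s i x - t i x) = form p v s - form p v t := by
  unfold form
  rw [← Finset.sum_sub_distrib]
  exact Finset.sum_congr rfl fun x _ => by ring

theorem form_smul' (p : (Σ i, J i) → MvPolynomial (Σ i, J i) k₀) (v t : ∀ i, J i → K) (m : K) :
    form p v (fun i x => m * t i x) = m * form p v t := by
  unfold form
  rw [Finset.mul_sum]
  exact Finset.sum_congr rfl fun x _ => by ring

theorem om_smul_left (th : CForm E w) (ch : ∀ i, J i) (v s t : ∀ i, J i → K) (a b m : K) :
    om th ch v (fun i x => m * s i x) t (m * a) b = m * om th ch v s t a b := by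
  have h := om_smul th ch v s t a b m 1
  simpa using h

/-- the complementary partial derivative `n l - X l'`. -/
noncomputable def comp0 (n : ℕ) (p : k[X]) : k[X] := (n : k[X]) * p - X * derivative p

theorem comp0_degree {n : ℕ} (hn : 0 < n) {p : k[X]} (hp : p.natDegree ≤ n) :
    (comp0 n p).natDegree + 1 ≤ n := by
  have h : (comp0 n p).natDegree ≤ n - 1 := by
    rw [natDegree_le_iff_coeff_eq_zero]
    intro N hN
    unfold comp0
    have hX : (X * derivative p).coeff N = (N : k) * p.coeff N := by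
      cases N with
      | zero => simp
      | succ N => rw [coeff_X_mul, coeff_derivative]; push_cast; ring
    rw [coeff_sub, hX, ← C_eq_natCast, coeff_C_mul]
    rcases eq_or_lt_of_le (show n ≤ N by omega) with h | h
    · rw [h]; ring
    · rw [coeff_eq_zero_of_natDegree_lt (lt_of_le_of_lt hp h)]; simp
  omega

/-- **Theorem (G).** `F` a moving conic (any map) with contact constant `c` whose value at `0` is
`r_i` times the point `s` of the test curve `l` over `k` of `L`-degree `e + 1`; `g` a scalar such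
that `g F'(0)` is integral at every place in the coordinates normalised at `l(s)`. Then
`(e + 1) g c / ∏ r_i ^ w_i` is a polynomial of degree at most one in `s`. -/
theorem general [IsAlgClosed k] [CharZero k] (th : CForm E w) {F : ∀ i, J i → K[X]}
    (hF : IsMap E F) {c : K} (hc : th.Val F (fun i a => derivative (F i a)) (C c))
    {l : ∀ i, J i → k[X]} (hl : ∀ i, Cop (l i)) {n : I → ℕ} (hn : ∀ i, vdeg (l i) = n i)
    (hn0 : ∀ i, 0 < n i) {e : ℕ} (he : ∑ i, w i * (n i : ℤ) = e + 1)
    {s : K} (hs : ∀ a : k, algebraMap k K a ≠ s) {r : I → K} (hr : ∀ i, r i ≠ 0)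
    (h0 : ∀ i x, (F i x).coeff 0 = r i * aeval s (l i x)) {g : K}
    (hfin : ∀ O : ValuationSubring K, (∀ c : k, algebraMap k K c ∈ O) → s ∈ O →
      ∀ i x, g * ((r i)⁻¹ * (F i x).coeff 1) ∈ O)
    (hinf : ∀ O : ValuationSubring K, (∀ c : k, algebraMap k K c ∈ O) → s ∉ O →
      ∀ i x, g * s ^ e * ((s ^ n i)⁻¹ * ((r i)⁻¹ * (F i x).coeff 1)) ∈ O) :
    ∃ a₀ a₁ : k, ((e : K) + 1) * (g * c) =
      (∏ i, r i ^ w i) * (algebraMap k K a₀ + algebraMap k K a₁ * s) := by
  obtain ⟨δ, hδ⟩ := exists_der_one (transcendental_of hs)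
  obtain ⟨Q0, Q1, hQ0, hQ1⟩ := om_var th hF hc (δ.restrictScalars k₀)
  change ∀ ch : ∀ i, J i, den ch (bot F) ^ th.N * Q0 =
    form (th.p ch) (bot F) (fun i x => δ (bot F i x)) at hQ0
  change ∀ ch : ∀ i, J i, den ch (bot F) ^ th.N * Q1 =
    om th ch (bot F) (fun i x => δ (bot F i x)) (vel F) Q0 c at hQ1
  have hX := onX_bot hF.on
  set v : ∀ i, J i → K := fun i x => aeval s (l i x) with hv
  have hbot : bot F = fun i x => r i * v i x := by
    funext i x
    exact h0 i x
  have hri : ∀ i, (r i)⁻¹ ≠ 0 := fun i => inv_ne_zero (hr i)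
  have hvb : v = fun i x => (r i)⁻¹ * bot F i x := by
    funext i x
    rw [hbot, ← mul_assoc, inv_mul_cancel₀ (hr i), one_mul]
  set T1 : ∀ i, J i → K := fun i x => aeval s (derivative (l i x)) with hT1
  -- the variation of the value at `0`
  have hvar : (fun i x => r i * T1 i x) =
      fun i x => δ (bot F i x) - δ (r i) * (r i)⁻¹ * bot F i x := by
    funext i x
    rw [hbot]
    simp only
    rw [Derivation.leibniz, hv]
    simp only [smul_eq_mul]
    rw [Derivation.map_aeval, hδ, smul_eq_mul, mul_one]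
    have := hr i
    field_simp
    ring
  set σ : K := ∑ i, δ (r i) * (r i)⁻¹ * (w i : K) with hσ
  set P1 : K := Q1 - σ * c with hP1
  -- values at the vector `r • v`
  have f1 : ∀ ch : ∀ i, J i, form (th.p ch) (bot F) (fun i x => r i * T1 i x) =
      den ch (bot F) ^ th.N * Q0 := by
    intro ch
    rw [hvar, form_sub', ← hQ0 ch, form_euler th hX ch (fun i => δ (r i) * (r i)⁻¹), sub_zero]
  have o1 : ∀ ch : ∀ i, J i, om th ch (bot F) (fun i x => r i * T1 i x) (vel F) Q0 c =
      den ch (bot F) ^ th.N * P1 := by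
    intro ch
    rw [hvar]
    have h1 := om_sub th ch (bot F) (fun i x => δ (bot F i x))
      (fun i x => δ (r i) * (r i)⁻¹ * bot F i x) (vel F) Q0 0 c
    rw [sub_zero] at h1
    rw [h1, ← hQ1 ch, om_euler th hF.on hc ch (fun i => δ (r i) * (r i)⁻¹), hP1]
    ring
  -- values at `v`
  set R : K := ∏ i, ((r i)⁻¹) ^ w i with hR
  set Y : ∀ i, J i → K := fun i x => (r i)⁻¹ * (F i x).coeff 1 with hY
  have hdv : ∀ ch : ∀ i, J i, den ch v ^ th.N =
      (∏ i, (r i)⁻¹) ^ th.N * den ch (bot F) ^ th.N := by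
    intro ch
    rw [hvb, den_scale, mul_pow]
  have hT1' : T1 = fun i x => (r i)⁻¹ * (r i * T1 i x) := by
    funext i x
    rw [← mul_assoc, inv_mul_cancel₀ (hr i), one_mul]
  have A1 : ∀ ch : ∀ i, J i, den ch v ^ th.N * (R * Q0) = form (th.p ch) v T1 := by
    intro ch
    have h1 := form_scale th ch (fun i => (r i)⁻¹) hri (bot F) (fun i x => r i * T1 i x)
    rw [← hvb, ← hT1', f1 ch] at h1
    rw [h1, hdv ch]
    ring
  have B1 : ∀ ch : ∀ i, J i, den ch v ^ th.N * (R * c) = form (th.p ch) v Y := by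
    intro ch
    have h1 := form_scale th ch (fun i => (r i)⁻¹) hri (bot F) (vel F)
    rw [← hvb, ← form_bot th hc ch] at h1
    have h2 : Y = fun i x => (r i)⁻¹ * vel F i x := rfl
    rw [h2, h1, hdv ch]
    ring
  have C1 : ∀ ch : ∀ i, J i, den ch v ^ th.N * (R * P1) = om th ch v T1 Y (R * Q0) (R * c) := by
    intro ch
    have h1 := om_scale th ch (fun i => (r i)⁻¹) hri (bot F) (fun i x => r i * T1 i x) (vel F) Q0 c
    rw [← hvb, ← hT1', o1 ch] at h1
    have h2 : Y = fun i x => (r i)⁻¹ * vel F i x := rfl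
    rw [h2, h1, hdv ch]
    ring
  -- the Euler field of the test curve
  have hEu : (fun i x => (n i : K) * v i x) = fun i x => (r i)⁻¹ * ((n i : K) * bot F i x) := by
    funext i x
    rw [hvb]
    simp only
    ring
  have A2 : ∀ ch : ∀ i, J i, form (th.p ch) v (fun i x => (n i : K) * v i x) = 0 := by
    intro ch
    have h1 := form_scale th ch (fun i => (r i)⁻¹) hri (bot F) (fun i x => (n i : K) * bot F i x)
    rw [← hvb, ← hEu, form_euler th hX ch (fun i => (n i : K)), mul_zero] at h1
    exact h1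
  have hsum : (∑ i, (n i : K) * (w i : K)) = (e : K) + 1 := by
    have h1 := congrArg (fun z : ℤ => (z : K)) he
    push_cast at h1
    rw [← h1]
    exact Finset.sum_congr rfl fun i _ => mul_comm _ _
  have C2 : ∀ ch : ∀ i, J i, den ch v ^ th.N * (((e : K) + 1) * (R * c)) =
      om th ch v (fun i x => (n i : K) * v i x) Y 0 (R * c) := by
    intro ch
    have h1 := om_scale th ch (fun i => (r i)⁻¹) hri (bot F) (fun i x => (n i : K) * bot F i x)
      (vel F) 0 c
    rw [← hvb, ← hEu, om_euler th hF.on hc ch (fun i => (n i : K)), hsum, mul_zero] at h1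
    have h2 : Y = fun i x => (r i)⁻¹ * vel F i x := rfl
    rw [h2, h1, hdv ch]
    ring
  -- the second partial derivative
  have hT0 : (fun i x => aeval s (comp0 (n i) (l i x))) =
      fun i x => (n i : K) * v i x - s * T1 i x := by
    funext i x
    unfold comp0
    rw [map_sub, map_mul, map_mul, aeval_X, map_natCast]
  have A3 : ∀ ch : ∀ i, J i, den ch v ^ th.N * (0 - s * (R * Q0)) =
      form (th.p ch) v (fun i x => aeval s (comp0 (n i) (l i x))) := by
    intro ch
    rw [hT0, form_sub', A2 ch, form_smul', ← A1 ch]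
    ring
  have C3 : ∀ ch : ∀ i, J i, den ch v ^ th.N * (((e : K) + 1) * (R * c) - s * (R * P1)) =
      om th ch v (fun i x => aeval s (comp0 (n i) (l i x))) Y (0 - s * (R * Q0)) (R * c) := by
    intro ch
    rw [hT0, om_sub, om_smul_left, ← C1 ch, ← C2 ch]
    ring
  have hdl : ∀ i x, (l i x).natDegree ≤ n i := by
    intro i x
    rw [← hn i]
    exact Finset.le_sup (f := fun a => (l i a).natDegree) (Finset.mem_univ x)
  obtain ⟨a₁, ha₁⟩ := glob th hl hn he (T := fun i x => derivative (l i x))
    (fun i x => by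
      have h1 := natDegree_derivative_le (l i x)
      have h2 := hdl i x
      have h3 := hn0 i
      change (derivative (l i x)).natDegree + 1 ≤ n i
      omega)
    hfin hinf A1 B1 C1
  obtain ⟨a₀, ha₀⟩ := glob th hl hn he (T := fun i x => comp0 (n i) (l i x))
    (fun i x => comp0_degree (hn0 i) (hdl i x)) hfin hinf A3 B1 C3
  refine ⟨a₀, a₁, ?_⟩
  rw [ha₀, ha₁]
  have hRR : (∏ i, r i ^ w i) * R = 1 := by
    rw [hR, ← Finset.prod_mul_distrib]
    refine Finset.prod_eq_one fun i _ => ?_
    rw [inv_zpow, mul_inv_cancel₀ (zpow_ne_zero _ (hr i))]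
  calc ((e : K) + 1) * (g * c) = ((∏ i, r i ^ w i) * R) * (((e : K) + 1) * (g * c)) := by
        rw [hRR, one_mul]
    _ = _ := by ring

end Crest.Agent.R260.Pd_365
end

-- ▼ part R260/Pd4_365
section

/-!
# Row 260 (S0398), helper365: LIN and K' from the local bounds
-/

set_option autoImplicit false
set_option linter.unusedSectionVars false

namespace Crest.Agent.R260.Pd_365

open Polynomial Crest.Agent.R270.BM_360 Crest.Agent.R260.Lin_678
open Crest.Agent.R270.Fin_305 (VMax VMax.unique)
open Crest.Agent.R260.Nl1_997 (vmax_const)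

universe u

/- `k₀` is the field of the equations and of the contact form, `k` the field of the test curve. -/
variable {I : Type} {J : I → Type} [Fintype I] [∀ i, Fintype (J i)]
  {k₀ : Type u} [Field k₀] {k : Type u} [Field k] {K : Type u} [Field K] [Algebra k₀ k]
  [Algebra k₀ K] [Algebra k K] [IsScalarTower k₀ k K]

/-- **LIN.** The contact constant of the moving conic along a line over `k`. -/
theorem lin [IsAlgClosed k] [CharZero k] (D : CData k₀ I J) {F : ∀ i, J i → K[X]}
    (hF : IsMap D.E F) {c : K} (hc : D.th.Val F (fun i a => derivative (F i a)) (C c))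
    (hREG : ∀ O : ValuationSubring K, (∀ a : k, algebraMap k K a ∈ O) →
      ∀ (r : I → K) (y : ∀ i, J i → K), (∀ i, r i ≠ 0) →
        (∀ i x, (F i x).coeff 0 = r i * y i x) → (∀ i x, y i x ∈ O) →
        (∀ i, ∃ x, O.valuation (y i x) = 1) → ∀ i x, c * (F i x).coeff 1 / r i ∈ O)
    {l : ∀ i, J i → k[X]} (hl : ∀ i, Cop (l i)) (hcl : cls l = D.β) {s : K}
    (hs : ∀ a : k, algebraMap k K a ≠ s) {r : I → K} (hr : ∀ i, r i ≠ 0)
    (h0 : ∀ i x, (F i x).coeff 0 = r i * aeval s (l i x)) :
    ∃ a₀ a₁ : k, c ^ 2 = (∏ i, r i ^ D.w i) * (algebraMap k K a₀ + algebraMap k K a₁ * s) := by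
  have hn : ∀ i, vdeg (l i) = D.β i := fun i => congrFun hcl i
  have hfin : ∀ O : ValuationSubring K, (∀ a : k, algebraMap k K a ∈ O) → s ∈ O →
      ∀ i x, c * ((r i)⁻¹ * (F i x).coeff 1) ∈ O := by
    intro O hO hsO i x
    have hs1 : max 1 (O.valuation s) = 1 := max_eq_left ((O.valuation_le_one_iff s).mpr hsO)
    have h1 := hREG O hO r (fun i x => aeval s (l i x)) hr h0
      (fun i x => by
        have := (vmax_const O hO (hl i) s).2 x
        rw [hs1, one_pow] at this
        exact (O.valuation_le_one_iff _).mp this)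
      (fun i => by
        obtain ⟨x, hx⟩ := (vmax_const O hO (hl i) s).1
        rw [hs1, one_pow] at hx
        exact ⟨x, hx⟩) i x
    have h2 : c * ((r i)⁻¹ * (F i x).coeff 1) = c * (F i x).coeff 1 / r i := by
      rw [div_eq_mul_inv]; ring
    rw [h2]
    exact h1
  have hinf : ∀ O : ValuationSubring K, (∀ a : k, algebraMap k K a ∈ O) → s ∉ O →
      ∀ i x, c * s ^ 0 * ((s ^ D.β i)⁻¹ * ((r i)⁻¹ * (F i x).coeff 1)) ∈ O := by
    intro O hO hsO i x
    have hs1 : 1 < O.valuation s := by
      rw [← not_le, O.valuation_le_one_iff]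
      exact hsO
    have hs2 : max 1 (O.valuation s) = O.valuation s := max_eq_right hs1.le
    have hs0 : s ≠ 0 := by
      rintro rfl
      exact hsO O.zero_mem
    have hv0 : 0 < O.valuation s := lt_trans zero_lt_one hs1
    have h1 := hREG O hO (fun i => r i * s ^ D.β i)
      (fun i x => (s ^ D.β i)⁻¹ * aeval s (l i x))
      (fun i => mul_ne_zero (hr i) (pow_ne_zero _ hs0))
      (fun i x => by
        rw [h0, mul_assoc, ← mul_assoc (s ^ D.β i), mul_inv_cancel₀ (pow_ne_zero _ hs0), one_mul])
      (fun i x => by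
        have h3 := (vmax_const O hO (hl i) s).2 x
        rw [hs2, hn i] at h3
        rw [← O.valuation_le_one_iff, map_mul, map_inv₀, map_pow,
          inv_mul_le_one₀ (pow_pos hv0 _)]
        exact h3)
      (fun i => by
        obtain ⟨x, hx⟩ := (vmax_const O hO (hl i) s).1
        rw [hs2, hn i] at hx
        refine ⟨x, ?_⟩
        rw [map_mul, map_inv₀, map_pow, hx, inv_mul_cancel₀ (pow_ne_zero _ hv0.ne')]) i x
    have h2 : c * s ^ 0 * ((s ^ D.β i)⁻¹ * ((r i)⁻¹ * (F i x).coeff 1)) =
        c * (F i x).coeff 1 / (r i * s ^ D.β i) := by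
      rw [div_eq_mul_inv, mul_inv]; ring
    rw [h2]
    exact h1
  obtain ⟨a₀, a₁, h⟩ := general D.th hF hc hl hn D.β_pos (e := 0)
    (by rw [D.wβ]; simp) hs hr h0 (g := c) hfin hinf
  refine ⟨a₀, a₁, ?_⟩
  rw [← h]
  push_cast
  ring


end Crest.Agent.R260.Pd_365
end

-- ▼ part R260/Bc_678
section

/-!
Row 260: base change of the common data `CData k` to an extension field `k'`.
-/

set_option autoImplicit false

namespace Crest.Agent.R260.Bc_678

open Crest.Agent.R270.BM_360 Crest.Agent.R260.Lin_678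

universe u

variable {I : Type} {J : I → Type}
variable {k : Type u} [Field k] (k' : Type u) [Field k'] [Algebra k k']

/-- equations over the bigger field. -/
def bcE (E : Set (MvPolynomial (Σ i, J i) k)) : Set (MvPolynomial (Σ i, J i) k') :=
  MvPolynomial.map (algebraMap k k') '' E

section tower

variable {k'} {E : Set (MvPolynomial (Σ i, J i) k)}
variable {A : Type*} [CommRing A] [Algebra k A] [Algebra k' A] [IsScalarTower k k' A]

theorem onX_bc {v : ∀ i, J i → A} : OnX (bcE k' E) v ↔ OnX E v := by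
  constructor
  · intro h p hp
    have h1 := h _ ⟨p, hp, rfl⟩
    rwa [MvPolynomial.aeval_map_algebraMap] at h1
  · rintro h _ ⟨p, hp, rfl⟩
    rw [MvPolynomial.aeval_map_algebraMap]
    exact h p hp

variable [Fintype I] [∀ i, Fintype (J i)]

theorem tan_bc {v t : ∀ i, J i → A} : Tan (bcE k' E) v t ↔ Tan E v t := by
  constructor
  · intro h p hp
    have h1 := h _ ⟨p, hp, rfl⟩
    simpa only [MvPolynomial.pderiv_map, MvPolynomial.aeval_map_algebraMap] using h1
  · rintro h _ ⟨p, hp, rfl⟩
    simpa only [MvPolynomial.pderiv_map, MvPolynomial.aeval_map_algebraMap] using h p hp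

theorem form_bc (p : (Σ i, J i) → MvPolynomial (Σ i, J i) k) (v t : ∀ i, J i → A) :
    form (fun x => MvPolynomial.map (algebraMap k k') (p x)) v t = form p v t := by
  simp only [form, MvPolynomial.aeval_map_algebraMap]

theorem dform_bc (p : (Σ i, J i) → MvPolynomial (Σ i, J i) k) (v s t : ∀ i, J i → A) :
    dform (fun x => MvPolynomial.map (algebraMap k k') (p x)) v s t = dform p v s t := by
  simp only [dform, MvPolynomial.pderiv_map, MvPolynomial.aeval_map_algebraMap]

end tower

theorem isMap_bc {k'} [Field k'] [Algebra k k'] {E : Set (MvPolynomial (Σ i, J i) k)}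
    {κ : Type u} [Field κ] [Algebra k κ] [Algebra k' κ] [IsScalarTower k k' κ]
    {F : ∀ i, J i → Polynomial κ} : IsMap (bcE k' E) F ↔ IsMap E F :=
  ⟨fun h => ⟨onX_bc.mp h.on, h.cop⟩, fun h => ⟨onX_bc.mpr h.on, h.cop⟩⟩

theorem mHom_bc {E : Set (MvPolynomial (Σ i, J i) k)} (hE : MHom E) : MHom (bcE k' E) := by
  classical
  rintro _ ⟨p, hp, rfl⟩
  obtain ⟨d, hd⟩ := hE p hp
  refine ⟨d, ?_⟩
  intro m hm
  apply hd
  intro h0
  apply hm
  rw [MvPolynomial.coeff_map, h0, map_zero]

variable [Fintype I] [∀ i, Fintype (J i)]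

/-- the contact form over the bigger field. -/
noncomputable def cForm_bc {E : Set (MvPolynomial (Σ i, J i) k)} {w : I → ℤ} (th : CForm E w) :
    CForm (bcE k' E) w where
  N := th.N
  p := fun c x => MvPolynomial.map (algebraMap k k') (th.p c x)
  hom := fun c x m hm i => th.hom c x m (MvPolynomial.support_map_subset _ _ hm) i
  agree := by
    intro A _ _ _ v t hv ht c c'
    let _ : Algebra k A := ((algebraMap k' A).comp (algebraMap k k')).toAlgebra
    have _ : IsScalarTower k k' A := IsScalarTower.of_algebraMap_eq fun _ => rfl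
    simpa only [form_bc] using th.agree A v t (onX_bc.mp hv) (tan_bc.mp ht) c c'
  euler := by
    intro A _ _ _ v hv c i
    let _ : Algebra k A := ((algebraMap k' A).comp (algebraMap k k')).toAlgebra
    have _ : IsScalarTower k k' A := IsScalarTower.of_algebraMap_eq fun _ => rfl
    simpa only [MvPolynomial.aeval_map_algebraMap] using th.euler A v (onX_bc.mp hv) c i

theorem val_bc {E : Set (MvPolynomial (Σ i, J i) k)} {w : I → ℤ} (th : CForm E w)
    {A : Type*} [CommRing A] [Algebra k A] [Algebra k' A] [IsScalarTower k k' A]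
    {v t : ∀ i, J i → A} {q : A} : (cForm_bc k' th).Val v t q ↔ th.Val v t q := by
  unfold CForm.Val
  refine forall_congr' fun c => ?_
  have h : form ((cForm_bc k' th).p c) v t = form (th.p c) v t := form_bc _ _ _
  rw [h]
  rfl

/-- **base change** of the common data. -/
noncomputable def cData_bc (D : CData k I J) : CData k' I J where
  E := bcE k' D.E
  hom := mHom_bc k' D.hom
  β := D.β
  β_pos := D.β_pos
  w := D.w
  wβ := D.wβ
  cls_eq := by
    intro κ _ _ F hF
    let _ : Algebra k κ := ((algebraMap k' κ).comp (algebraMap k k')).toAlgebra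
    have _ : IsScalarTower k k' κ := IsScalarTower.of_algebraMap_eq fun _ => rfl
    exact D.cls_eq κ F (isMap_bc.mp hF)
  m := D.m
  tan_dim := by
    intro κ _ _ v hv h0
    let _ : Algebra k κ := ((algebraMap k' κ).comp (algebraMap k k')).toAlgebra
    have _ : IsScalarTower k k' κ := IsScalarTower.of_algebraMap_eq fun _ => rfl
    have h1 : TanSp (bcE k' D.E) v = TanSp D.E v := by
      ext t
      exact tan_bc
    rw [h1]
    exact D.tan_dim κ v (onX_bc.mp hv) h0
  th := cForm_bc k' D.th
  nondeg := by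
    intro κ _ _ v c hv h0 t ht hf hd
    let _ : Algebra k κ := ((algebraMap k' κ).comp (algebraMap k k')).toAlgebra
    have _ : IsScalarTower k k' κ := IsScalarTower.of_algebraMap_eq fun _ => rfl
    have h1 : ∀ t, form ((cForm_bc k' D.th).p c) v t = form (D.th.p c) v t :=
      fun t => form_bc _ _ _
    have h2 : ∀ s t, dform ((cForm_bc k' D.th).p c) v s t = dform (D.th.p c) v s t :=
      fun s t => dform_bc _ _ _ _
    refine D.nondeg κ v c (onX_bc.mp hv) h0 t (tan_bc.mp ht) (by rw [← h1]; exact hf)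
      fun t' ht' hf' => ?_
    rw [← h2]
    exact hd t' (tan_bc.mpr ht') (by rw [h1]; exact hf')
  th_ne := by
    intro κ _ _ v c hv h0
    let _ : Algebra k κ := ((algebraMap k' κ).comp (algebraMap k k')).toAlgebra
    have _ : IsScalarTower k k' κ := IsScalarTower.of_algebraMap_eq fun _ => rfl
    obtain ⟨t, ht, hne⟩ := D.th_ne κ v c (onX_bc.mp hv) h0
    refine ⟨t, tan_bc.mpr ht, ?_⟩
    have h1 : form ((cForm_bc k' D.th).p c) v t = form (D.th.p c) v t := form_bc _ _ _
    rw [h1]
    exact hne

end Crest.Agent.R260.Bc_678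
end

-- ▼ part R260/Lp_678
section

/-!
Row 260: LIN in the literal form `LinP` of `QuadDefs_517`.
-/

set_option autoImplicit false

namespace Crest.Agent.R260.Lp_678

open Polynomial
open Crest.Agent.R270.BM_360 Crest.Agent.R260.Lin_678 Crest.Agent.R260.QuadDefs_517
open Crest.Agent.R260.Scl_678 Crest.Agent.R260.Bc_678

universe u

variable {I : Type} {J : I → Type} [Fintype I] [∀ i, Fintype (J i)]
variable {k : Type u} [Field k]

/-- **LIN**: the number `Φ` of the conic joining `x₀` to the point `s` of a line is a polynomial of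
degree at most one in `s`. -/
theorem linP [CharZero k] (D : CData k I J) : LinP D := by
  intro F₀ kl M _ _ _ _ _ _ _ _ _ _ _ _ _ _ _ _ x₀ l s f a b c hx₀ hx0 hl hlc hs hf hfc hj
  obtain ⟨hj', hphi⟩ := joins_normalise D hj
  set f' : ∀ i, J i → M[X] := fun i j => C (a i)⁻¹ * f i j with hf'
  set c' : M := (∏ i, (a i)⁻¹ ^ D.w i) * c with hc'
  have ha : ∀ i, (a i)⁻¹ ≠ 0 := fun i => inv_ne_zero (hj.a0 i)
  have hfm : IsMap D.E f' := isMap_scale D.hom hf ha
  have hfcl : cls f' = 2 • D.β := by rw [hf', cls_scale ha, hfc]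
  have : CharZero kl := charZero_of_injective_algebraMap (algebraMap k kl).injective
  have hb : ∀ i, (a i)⁻¹ * b i ≠ 0 := fun i => mul_ne_zero (ha i) (hj.b0 i)
  have hvd : ∀ i, vdeg (f' i) = 2 * D.β i := fun i => by
    have := congrFun hfcl i
    simpa [cls] using this
  have hbased : Based x₀ f' := by
    intro i j
    rw [hvd i, hj'.lead i j, one_mul]
    rfl
  have hval : (cData_bc kl D).th.Val f' (fun i j => derivative (f' i j)) (C c') :=
    (val_bc kl D.th).mpr hj'.val
  obtain ⟨a₀, a₁, h⟩ := Crest.Agent.R260.Pd_365.lin (cData_bc kl D) (F := f')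
    ((isMap_bc (E := D.E)).mpr hfm) (c := c') hval
    (fun O hO r y hr hy hyO hy1 i x => by
      have hOk : ∀ z : k, algebraMap k M z ∈ O := fun z => by
        rw [IsScalarTower.algebraMap_apply k kl M]
        exact hO _
      have hOF : ∀ z : F₀, algebraMap F₀ M z ∈ O := fun z => by
        rw [IsScalarTower.algebraMap_apply F₀ kl M]
        exact hO _
      obtain ⟨hl1, hl2⟩ := based_lead hOF hfcl hx0 hbased
      obtain ⟨z, hz⟩ := D.reg_aux hOk hfm hfcl hl1 hl2 hj'.val i x
      have hrv : 0 < O.valuation (r i) := by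
        rw [zero_lt_iff, Ne, Valuation.zero_iff]
        exact hr i
      rw [← O.valuation_le_one_iff, map_div₀, div_le_one₀ hrv]
      refine hz.trans ?_
      rw [hy, map_mul]
      exact mul_le_of_le_one_right' ((O.valuation_le_one_iff _).mpr (hyO i z)))
    (l := l) hl.cop hlc (s := s)
    (fun z hz => hs (by rw [← hz]; exact isAlgebraic_algebraMap z))
    (r := fun i => (a i)⁻¹ * b i) hb hj'.bot
  refine ⟨a₀, a₁, ?_⟩
  rw [← hphi]
  unfold phi
  rw [h]
  have h1 : (∏ i, ((a i)⁻¹ * b i) ^ (cData_bc kl D).w i) *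
      ∏ i, ((a i)⁻¹ * b i) ^ (-D.w i) = 1 := by
    rw [← Finset.prod_mul_distrib]
    refine Finset.prod_eq_one fun i _ => ?_
    change ((a i)⁻¹ * b i) ^ D.w i * ((a i)⁻¹ * b i) ^ (-D.w i) = 1
    rw [← zpow_add₀ (hb i), add_neg_cancel, zpow_zero]
  have h2 : ∏ i, (1 : M) ^ (-D.w i) = 1 := by simp
  rw [h2, mul_one]
  calc _ = ((∏ i, ((a i)⁻¹ * b i) ^ (cData_bc kl D).w i) *
      ∏ i, ((a i)⁻¹ * b i) ^ (-D.w i)) * (algebraMap kl M a₀ + algebraMap kl M a₁ * s) := by ring
    _ = _ := by rw [h1, one_mul]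

end Crest.Agent.R260.Lp_678
end

-- ▼ part R260/Kp1_997
section

/-!
Row 260 (S0398), helper997: Theorem K' in the literal form `KprimeP` of `QuadDefs_517`, from the
general pairing theorem (G) of helper365 (`GP`).
-/

set_option autoImplicit false

namespace Crest.Agent.R260.Kp_997

open Polynomial Crest.Agent.R270.BM_360 Crest.Agent.R260.Lin_678 Crest.Agent.R260.QuadDefs_517
open Crest.Agent.R270.Fin_305

universe u

variable {I : Type} {J : I → Type} [Fintype I] [∀ i, Fintype (J i)] {k : Type u} [Field k]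

/-- (G) of helper365: the pairing of the variation of the end point with the tangent vector. -/
def GP (D : CData k I J) : Prop :=
  ∀ (kl M : Type u) [Field kl] [Field M] [IsAlgClosed kl] [IsAlgClosed M] [Algebra k kl]
    [Algebra k M] [Algebra kl M] [IsScalarTower k kl M] (l : ∀ i, J i → kl[X]) (s : M)
    (f : ∀ i, J i → M[X]) (c : M) (r : I → M) (e : ℕ) (g : M),
    1 ≤ e → IsMap D.E l → cls l = e • D.β → Transcendental kl s →
    IsMap D.E f → cls f = 2 • D.β → D.th.Val f (dd f) (C c) → (∀ i, r i ≠ 0) →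
    (∀ i j, (f i j).coeff 0 = r i * aeval s (l i j)) →
    (∀ O : ValuationSubring M, (∀ z : kl, algebraMap kl M z ∈ O) →
      (s ∈ O → ∀ i j, g * (f i j).coeff 1 / r i ∈ O) ∧
      (s ∉ O → ∀ i j, g * s ^ (e - 1) * (f i j).coeff 1 / (r i * s ^ (e * D.β i)) ∈ O)) →
    ∃ a0 a1 : kl, (e : M) * g * c =
      (∏ i, r i ^ D.w i) * (algebraMap kl M a0 + algebraMap kl M a1 * s)

/-- the size of the square root of the scalar -/
theorem val_sigma (D : CData k I J) {K : Type u} [Field K] (O : ValuationSubring K)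
    {t : I → K} {q : O.ValueGroup} (hq : 0 < q) (ht : ∀ i, O.valuation (t i) = q ^ (2 * D.β i))
    {σ : K} (hσ : σ ^ 2 = ∏ i, t i ^ D.w i) : O.valuation σ = q := by
  classical
  have h2 : O.valuation σ ^ 2 = q ^ 2 := by
    rw [← map_pow, hσ, map_prod]
    simp_rw [map_zpow₀, ht]
    have h3 : ∀ i, (q ^ (2 * D.β i)) ^ D.w i = q ^ (D.w i * ((2 * D.β i : ℕ) : ℤ)) := by
      intro i
      rw [← zpow_natCast, ← zpow_mul, mul_comm]
    simp_rw [h3]
    have h4 : ∀ S : Finset I, ∏ i ∈ S, q ^ (D.w i * ((2 * D.β i : ℕ) : ℤ)) =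
        q ^ (∑ i ∈ S, D.w i * ((2 * D.β i : ℕ) : ℤ)) := by
      intro S
      induction S using Finset.induction_on with
      | empty => simp
      | insert a S ha ih =>
        rw [Finset.prod_insert ha, Finset.sum_insert ha, ih, zpow_add₀ hq.ne']
    have h5 : ∑ i, D.w i * ((2 * D.β i : ℕ) : ℤ) = 2 := by
      have h6 : ∑ i, D.w i * ((2 * D.β i : ℕ) : ℤ) = 2 * ∑ i, D.w i * (D.β i : ℤ) := by
        rw [Finset.mul_sum]
        refine Finset.sum_congr rfl fun i _ => ?_
        push_cast
        ring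
      rw [h6, D.wβ, mul_one]
    rw [h4, h5]
    rfl
  exact (pow_left_inj₀ zero_le hq.le two_ne_zero).mp h2

/-- **Theorem K'** in the form of `QuadDefs_517`. -/
theorem kprime_of (D : CData k I J) [CharZero k] (hG : GP D) : KprimeP D := by
  intro F₁ k₁ L₁ _ _ _ _ _ _ _ _ _ _ _ _ _ _ _ _ x H u f a b c _ _ hH hclsH hu hf hclsf hj hO1
  classical
  obtain ⟨σ, hσ⟩ := IsAlgClosed.exists_pow_nat_eq (∏ i, (b i / a i) ^ D.w i) (n := 2) two_pos
  have hclsHi : ∀ i, vdeg (H i) = 2 * D.β i := fun i => by
    have := congrFun hclsH i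
    rw [Pi.smul_apply, smul_eq_mul] at this
    exact this
  -- the sizes at `O`
  have key : ∀ O : ValuationSubring L₁, (∀ z : k₁, algebraMap k₁ L₁ z ∈ O) →
      ∃ r : O.ValueGroup, 0 < r ∧ O.valuation σ = r / max 1 (O.valuation u) ∧
        (∀ i, O.valuation (b i / a i) = (r / max 1 (O.valuation u)) ^ (2 * D.β i)) ∧
        ∀ i j, O.valuation ((f i j).coeff 1) ≤ O.valuation (a i) * r ^ (2 * D.β i - 1) := by
    intro O hO
    obtain ⟨r, hr, h0, h1⟩ := hO1 O hO
    have hM0 : 0 < max 1 (O.valuation u) := lt_of_lt_of_le zero_lt_one (le_max_left _ _)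
    have hq : 0 < r / max 1 (O.valuation u) := div_pos hr hM0
    have hba : ∀ i, O.valuation (b i / a i) = (r / max 1 (O.valuation u)) ^ (2 * D.β i) := by
      intro i
      have h2 := Nl1_997.vmax_const O hO (hH.cop i) u
      rw [hclsHi i] at h2
      have h3 : VMax O (fun j => (f i j).coeff 0)
          (O.valuation (b i) * max 1 (O.valuation u) ^ (2 * D.β i)) := by
        refine ⟨?_, fun j => ?_⟩
        · obtain ⟨j, hj'⟩ := h2.1
          refine ⟨j, ?_⟩
          show O.valuation ((f i j).coeff 0) = _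
          rw [hj.bot, map_mul]
          congr 1
        · show O.valuation ((f i j).coeff 0) ≤ _
          rw [hj.bot, map_mul]
          gcongr
          exact h2.2 j
      have h4 : VMax O (fun j => (f i j).coeff 0) (O.valuation (a i) * r ^ (2 * D.β i)) :=
        ⟨(h0 i).2, (h0 i).1⟩
      have h5 := h3.unique h4
      have ha : O.valuation (a i) ≠ 0 := by rw [Ne, Valuation.zero_iff]; exact hj.a0 i
      rw [map_div₀, div_pow, div_eq_div_iff ha (pow_ne_zero _ hM0.ne'), h5, mul_comm]
    exact ⟨r, hr, val_sigma D O hq hba hσ, hba, h1⟩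
  have hbnd : ∀ O : ValuationSubring L₁, (∀ z : k₁, algebraMap k₁ L₁ z ∈ O) →
      (u ∈ O → ∀ i j, σ * (f i j).coeff 1 / b i ∈ O) ∧
      (u ∉ O → ∀ i j, σ * u ^ (2 - 1) * (f i j).coeff 1 / (b i * u ^ (2 * D.β i)) ∈ O) := by
    intro O hO
    obtain ⟨r, hr, h1, h2, h3⟩ := key O hO
    have hmain : ∀ i j, O.valuation (σ * (f i j).coeff 1 / b i) ≤
        max 1 (O.valuation u) ^ (2 * D.β i - 1) := by
      intro i j
      set M := max 1 (O.valuation u) with hM
      have hM0 : 0 < M := lt_of_lt_of_le zero_lt_one (le_max_left _ _)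
      have ha : 0 < O.valuation (a i) := by
        rw [zero_lt_iff, Ne, Valuation.zero_iff]; exact hj.a0 i
      have hb : 0 < O.valuation (b i) := by
        rw [zero_lt_iff, Ne, Valuation.zero_iff]; exact hj.b0 i
      have hβ : 1 ≤ 2 * D.β i := by have := D.β_pos i; omega
      have h4 : O.valuation (b i) = O.valuation (a i) * (r / M) ^ (2 * D.β i) := by
        have h5 := h2 i
        rw [map_div₀, div_eq_iff ha.ne'] at h5
        rw [h5, mul_comm]
      rw [map_div₀, map_mul, h1, div_le_iff₀ hb]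
      calc r / M * O.valuation ((f i j).coeff 1)
          ≤ r / M * (O.valuation (a i) * r ^ (2 * D.β i - 1)) := by gcongr; exact h3 i j
        _ = M ^ (2 * D.β i - 1) * O.valuation (b i) := by
          rw [h4]
          have h6 : (r / M) ^ (2 * D.β i) = (r / M) ^ (2 * D.β i - 1) * (r / M) := by
            rw [← pow_succ, Nat.sub_add_cancel hβ]
          have h7 : M ^ (2 * D.β i - 1) * (r / M) ^ (2 * D.β i - 1) = r ^ (2 * D.β i - 1) := by
            rw [← mul_pow, mul_div_cancel₀ _ hM0.ne']
          rw [h6, ← h7]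
          ac_rfl
    refine ⟨fun hu' i j => ?_, fun hu' i j => ?_⟩
    · rw [← O.valuation_le_one_iff]
      have h4 := hmain i j
      rwa [max_eq_left ((O.valuation_le_one_iff _).mpr hu'), one_pow] at h4
    · rw [← O.valuation_le_one_iff]
      have hu1 : 1 < O.valuation u := by
        rw [← not_le, O.valuation_le_one_iff]; exact hu'
      have hu0 : 0 < O.valuation u := lt_trans zero_lt_one hu1
      have h4 := hmain i j
      rw [max_eq_right hu1.le] at h4
      have hβ : 1 ≤ 2 * D.β i := by have := D.β_pos i; omega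
      have h5 : σ * u ^ (2 - 1) * (f i j).coeff 1 / (b i * u ^ (2 * D.β i)) =
          (σ * (f i j).coeff 1 / b i) * (u * (u ^ (2 * D.β i))⁻¹) := by
        rw [div_eq_mul_inv, div_eq_mul_inv, mul_inv]
        ring
      rw [h5, map_mul]
      calc O.valuation (σ * (f i j).coeff 1 / b i) * O.valuation (u * (u ^ (2 * D.β i))⁻¹)
          ≤ O.valuation u ^ (2 * D.β i - 1) * O.valuation (u * (u ^ (2 * D.β i))⁻¹) := by gcongr
        _ = 1 := by
          rw [map_mul, map_inv₀, map_pow, ← mul_assoc, ← pow_succ, Nat.sub_add_cancel hβ,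
            mul_inv_cancel₀ (pow_ne_zero _ hu0.ne')]
  obtain ⟨a0, a1, h⟩ := hG k₁ L₁ H u f c b 2 σ one_le_two hH hclsH hu hf hclsf hj.val hj.b0 hj.bot
    hbnd
  refine ⟨C (4 : k₁)⁻¹ * (C a0 + C a1 * X) ^ 2, ?_, ?_⟩
  · refine (natDegree_C_mul_le _ _).trans ?_
    refine natDegree_pow_le.trans ?_
    have h1 : (C a0 + C a1 * X).natDegree ≤ 1 := by
      rw [add_comm]
      exact natDegree_linear_le
    omega
  · have hk4 : (4 : k₁) ≠ 0 := by
      have _ : CharZero k₁ := charZero_of_injective_algebraMap (algebraMap k k₁).injective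
      norm_num
    have hL4 : (4 : L₁) ≠ 0 := by
      have _ : CharZero L₁ := charZero_of_injective_algebraMap (algebraMap k L₁).injective
      norm_num
    have hprod : ∏ i, (b i / a i) ^ D.w i = (∏ i, b i ^ D.w i) * ∏ i, a i ^ (-D.w i) := by
      rw [← Finset.prod_mul_distrib]
      refine Finset.prod_congr rfl fun i _ => ?_
      rw [div_zpow, zpow_neg, div_eq_mul_inv]
    have hB : (∏ i, b i ^ D.w i) ≠ 0 := Finset.prod_ne_zero_iff.mpr fun i _ =>
      zpow_ne_zero _ (hj.b0 i)
    have hA : (∏ i, a i ^ (-D.w i)) ≠ 0 := Finset.prod_ne_zero_iff.mpr fun i _ =>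
      zpow_ne_zero _ (hj.a0 i)
    have hBinv : (∏ i, b i ^ (-D.w i)) = (∏ i, b i ^ D.w i)⁻¹ := by
      rw [← Finset.prod_inv_distrib]
      refine Finset.prod_congr rfl fun i _ => ?_
      rw [zpow_neg]
    unfold phi
    rw [hBinv]
    rw [hprod] at hσ
    simp only [map_mul, map_pow, map_add, aeval_C, aeval_X, map_inv₀, map_ofNat]
    push_cast at h
    have h2 : 4 * σ ^ 2 * c ^ 2 =
        (∏ i, b i ^ D.w i) ^ 2 * (algebraMap k₁ L₁ a0 + algebraMap k₁ L₁ a1 * u) ^ 2 := by
      calc 4 * σ ^ 2 * c ^ 2 = (2 * σ * c) ^ 2 := by ring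
        _ = _ := by rw [h]; ring
    rw [hσ] at h2
    field_simp
    have h3 : (∏ i, b i ^ D.w i) * (4 * (∏ i, a i ^ (-D.w i)) * c ^ 2) =
        (∏ i, b i ^ D.w i) * ((∏ i, b i ^ D.w i) *
          (algebraMap k₁ L₁ a0 + algebraMap k₁ L₁ a1 * u) ^ 2) := by
      calc _ = 4 * ((∏ i, b i ^ D.w i) * ∏ i, a i ^ (-D.w i)) * c ^ 2 := by ring
        _ = _ := by rw [h2]; ring
    have h4 := mul_left_cancel₀ hB h3
    calc _ = 4 * (∏ i, a i ^ (-D.w i)) * c ^ 2 := by ring
      _ = _ := by rw [h4]

end Crest.Agent.R260.Kp_997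
end

-- ▼ part R260/Kp2_997
section

/-!
Row 260 (S0398), helper997: **Theorem K'** (`KprimeP` of `QuadDefs_517`) for every `CData` over a
field of characteristic zero.
-/

set_option autoImplicit false

namespace Crest.Agent.R260.Kp_997

open Polynomial Crest.Agent.R270.BM_360 Crest.Agent.R260.Lin_678 Crest.Agent.R260.QuadDefs_517
open Crest.Agent.R270.Fin_305

universe u

variable {I : Type} {J : I → Type} [Fintype I] [∀ i, Fintype (J i)] {k : Type u} [Field k]

/-- (G) in the form `GP`, from helper365's `general`. -/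
theorem gp (D : CData k I J) [CharZero k] : GP D := by
  intro kl M _ _ _ _ _ _ _ _ l s f c r e g he hl hcl hs hf hclf hval hr h0 hb
  obtain ⟨e, rfl⟩ : ∃ e', e = e' + 1 := ⟨e - 1, by omega⟩
  have _ : CharZero kl := charZero_of_injective_algebraMap (algebraMap k kl).injective
  have hn : ∀ i, vdeg (l i) = (e + 1) * D.β i := fun i => by
    have := congrFun hcl i
    rw [Pi.smul_apply, smul_eq_mul] at this
    exact this
  have hsum : ∑ i, D.w i * (((e + 1) * D.β i : ℕ) : ℤ) = e + 1 := by
    have h6 : ∑ i, D.w i * (((e + 1) * D.β i : ℕ) : ℤ) =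
        ((e : ℤ) + 1) * ∑ i, D.w i * (D.β i : ℤ) := by
      rw [Finset.mul_sum]
      refine Finset.sum_congr rfl fun i _ => ?_
      push_cast
      ring
    rw [h6, D.wβ, mul_one]
  have hs' : ∀ a : kl, algebraMap kl M a ≠ s := by
    rintro a rfl
    exact hs (isAlgebraic_algebraMap a)
  obtain ⟨a0, a1, h⟩ := Pd_365.general (k := kl) D.th hf hval (fun i => hl.cop i) hn
    (fun i => Nat.mul_pos (Nat.succ_pos e) (D.β_pos i)) hsum hs' hr h0 (g := g)
    (fun O hO hsO i x => by
      have h1 := (hb O hO).1 hsO i x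
      have h2 : g * ((r i)⁻¹ * (f i x).coeff 1) = g * (f i x).coeff 1 / r i := by
        rw [div_eq_mul_inv]; ring
      rwa [h2])
    (fun O hO hsO i x => by
      have h1 := (hb O hO).2 hsO i x
      have h2 : g * s ^ e * ((s ^ ((e + 1) * D.β i))⁻¹ * ((r i)⁻¹ * (f i x).coeff 1)) =
          g * s ^ (e + 1 - 1) * (f i x).coeff 1 / (r i * s ^ ((e + 1) * D.β i)) := by
        rw [div_eq_mul_inv, mul_inv, Nat.add_sub_cancel]; ring
      rwa [h2])
  refine ⟨a0, a1, ?_⟩
  rw [← h]
  push_cast
  ring

/-- **Theorem K'**, literally `KprimeP`. -/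
theorem kprimeP (D : CData k I J) [CharZero k] : KprimeP D := kprime_of D (gp D)

end Crest.Agent.R260.Kp_997
end

-- ▼ part R260/Irr4_33
section

/-!
# Row 260, IRR, part 4 (helper33): the leaf `IrrP` of `QuadDefs_517`
-/

set_option autoImplicit false

namespace Crest.Agent.R260.Irr_33

open Crest.Agent.R270.BM_360 Crest.Agent.R260.Lin_678 Crest.Agent.R260.QuadDefs_517

universe u

/-- **(IRR)** of `QuadDefs_517`. -/
theorem irrP {k : Type u} [Field k] [IsAlgClosed k] [CharZero k] {I : Type} {J : I → Type}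
    [Fintype I] [∀ i, Fintype (J i)] (D : CData k I J) (hP : (Ideal.span D.E).IsPrime) :
    IrrP D := by
  intro F₀ A B _ _ _ _ _ _ _ _ _ _ _ y z hy hz hy0 hz0 hty htz p
  exact (cd_irr D hP hy hy0 hty hz hz0 htz p).1

end Crest.Agent.R260.Irr_33
end

-- ▼ part R260/Alg5_661
section

/-!
# Row 260, (ALG) (helper661): the literal leaf `AlgP` of `QuadDefs_517`

The number `Φ` of a conic with leading vector `a • x`, constant vector `b • y` and contact constant
`c` is algebraic over `k(x, y)`.
-/

set_option autoImplicit false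

namespace Crest.Agent.R260.Alg0_661

open Polynomial
open Crest.Agent.R270.BM_360 Crest.Agent.R260.Lin_678

universe u

variable {I : Type} {J : I → Type} [Fintype I] [∀ i, Fintype (J i)]

/-- **(ALG)** of `QuadDefs_517`. -/
theorem algP {k : Type u} [Field k] [CharZero k] (D : CData k I J) : QuadDefs_517.AlgP D := by
  intro L _ _ f x y a b c hf hcls hj
  have he : ∑ i, D.w i * (cls f i : ℤ) = (2 : ℕ) := sum_w_cls D.wβ hcls
  have hlead : ∀ i j, lead f i j = a i * x i j := fun i j => by
    have h := hj.lead i j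
    have h2 : cls f i = 2 * D.β i := by rw [hcls]; rfl
    unfold lead
    rw [h2]
    exact h
  have h := phi_algebraic D.th hf he hj.val hj.b0 hj.a0 (x := y) (y := x) hj.bot hlead
  have e1 : phi D.w b a c = QuadDefs_517.phi D a b c := by
    unfold phi QuadDefs_517.phi
    rw [mul_assoc, ← Finset.prod_mul_distrib]
    congr 1
    refine Finset.prod_congr rfl fun i _ => ?_
    rw [mul_zpow, mul_comm]
  have e2 : ents y x = QuadDefs_517.ent x ∪ QuadDefs_517.ent y := by
    unfold ents QuadDefs_517.ent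
    rw [Set.union_comm]
  rw [e1, e2] at h
  exact h

end Crest.Agent.R260.Alg0_661
end

-- ▼ part R260/Lf_475
section

/-!
# Row 260 (S0398), lines (helper475)

A generic line `l` over `F₀` (`hl D = 3 m + 2 + |I|` parameters) evaluated at a constant `s ∈ F₀` is
a generic point (`nn D = 2 m + 1 + |I|` parameters): otherwise the Moebius image of `l` with leading
vector `l(s)` has at least `m + 2` parameters over `F₀(l(s))`, against AG-ISO (`iso_cdata`).
Then `LineFrameP` follows from the number of sections (`NumAt`) by `frameAt_line`.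
-/

set_option autoImplicit false
set_option linter.all false

namespace Crest.Agent.R260.Lf_475

open Polynomial Module
open Crest.Agent.R270.BM_360 Crest.Agent.R260.Lin_678 Crest.Agent.R260.QuadDefs_517
  Crest.Agent.R260.Cf_703 Crest.Agent.R260.Der_169
open Crest.Agent.R270.Link_131 (rev sh rev_isMap cls_rev top_rev cls_sh low_sh low top)
open Crest.Agent.R270

universe u

variable {I : Type} {J : I → Type}

/-! ### coefficients -/

section coeff

variable {F₀ L : Type u} [Field F₀] [Field L] [Algebra F₀ L]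

theorem coeff_comp_mem (K : IntermediateField F₀ L) {p : L[X]} (hp : ∀ n, p.coeff n ∈ K) (c : F₀)
    (n : ℕ) : (p.comp (X + C (algebraMap F₀ L c))).coeff n ∈ K := by
  rw [comp, eval₂_eq_sum_range, finset_sum_coeff]
  refine K.sum_mem fun i _ => ?_
  rw [coeff_C_mul, coeff_X_add_C_pow]
  refine K.mul_mem (hp i) (K.mul_mem (pow_mem (K.algebraMap_mem c) _) ?_)
  exact natCast_mem K _

theorem comp_comp_neg (p : L[X]) (c : L) : (p.comp (X + C c)).comp (X + C (-c)) = p := by
  rw [comp_assoc]
  simp

variable [∀ i, Fintype (J i)]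

/-- the coefficients of `l` are in the field of the coefficients of its Moebius image. -/
theorem coeffs_sub (l : ∀ i, J i → L[X]) (s : F₀) :
    coeffs l ⊆ (IntermediateField.adjoin F₀ (coeffs (rev (sh l (algebraMap F₀ L s)))) : Set L) := by
  set K := IntermediateField.adjoin F₀ (coeffs (rev (sh l (algebraMap F₀ L s)))) with hK
  rintro _ ⟨i, a, j, rfl⟩
  have h1 : ∀ n, (sh l (algebraMap F₀ L s) i a).coeff n ∈ K := by
    intro n
    have h2 : (sh l (algebraMap F₀ L s) i a).coeff n =
        (rev (sh l (algebraMap F₀ L s)) i a).coeff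
          (revAt (vdeg (sh l (algebraMap F₀ L s) i)) n) := by
      rw [rev, coeff_reflect, revAt_invol]
    rw [h2]
    exact IntermediateField.subset_adjoin _ _ ⟨i, a, _, rfl⟩
  have h3 := coeff_comp_mem K h1 (-s) j
  have h4 : (sh l (algebraMap F₀ L s) i a).comp (X + C (algebraMap F₀ L (-s))) = l i a := by
    rw [sh, map_neg]
    exact comp_comp_neg _ _
  rw [h4] at h3
  exact h3

end coeff

/-! ### the point of a generic line -/

variable [Fintype I] [∀ i, Fintype (J i)] {k : Type u} [Field k]

/-- **a generic line at a constant point is generic.** -/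
theorem trGe_pt_line [CharZero k] (D : CData k I J) {F₀ kl : Type u} [Field F₀] [Field kl]
    [IsAlgClosed kl] [Algebra k F₀] [Algebra k kl] [Algebra F₀ kl] [IsScalarTower k F₀ kl]
    {l : ∀ i, J i → kl[X]} (hl1 : IsMap D.E l) (hl2 : cls l = D.β)
    (hl3 : TrGe F₀ (coeffs l) (hl D)) (s : F₀) :
    TrGe F₀ (ent (QuadDefs_517.pt l (algebraMap F₀ kl s))) (nn D) := by
  by_contra hcon
  set s' : kl := algebraMap F₀ kl s with hs'
  set F' : ∀ i, J i → kl[X] := rev (sh l s') with hF'
  have hsh : IsMap D.E (sh l s') := hl1.comp (X + C s')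
  have hmap : IsMap D.E F' := rev_isMap D.hom hsh
  have hcls : cls F' = D.β := by rw [hF', cls_rev hsh, cls_sh, hl2]
  have htr : TrGe F₀ (coeffs F') (hl D) := TrM_807.TrGe.mono hl3 (coeffs_sub l s)
  have htop : ∀ i a, (F' i a).coeff (vdeg (F' i)) = QuadDefs_517.pt l s' i a := by
    intro i a
    have h1 := congrFun (congrFun (top_rev hsh) i) a
    rw [low_sh] at h1
    exact h1
  have hb := lTrBase F₀ kl (ent (QuadDefs_517.pt l s')) (coeffs F') (nn D - 1) (hl D)
    (fun m' hm' => by
      by_contra h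
      push Not at h
      exact hcon (TrM_807.TrGe.le hm' (by omega))) htr
  let κ₀ := IntermediateField.adjoin F₀ (ent (QuadDefs_517.pt l s'))
  let y : ∀ i, J i → κ₀ := fun i a =>
    ⟨QuadDefs_517.pt l s' i a, IntermediateField.subset_adjoin _ _ ⟨i, a, rfl⟩⟩
  haveI : IsScalarTower k κ₀ kl := IsScalarTower.of_algebraMap_eq fun x => rfl
  have h1 := Iso_568.iso_cdata D κ₀ kl y F' hmap hcls (fun i a => htop i a) _ hb
  have h2 : nn D = 2 * D.m + 1 + Fintype.card I := rfl
  have h3 : hl D = 3 * D.m + 2 + Fintype.card I := rfl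
  omega

/-- the number of sections along a line. -/
def NumLineP (D : CData k I J) : Prop :=
  ∀ (κ : Type u) [Field κ] [IsAlgClosed κ] [Algebra k κ] (F : ∀ i, J i → κ[X]),
    IsMap D.E F → cls F = D.β → NumAt D F 1

/-- the frame of a generic line. -/
theorem frameAt_gen_line [CharZero k] {D : CData k I J} (hN : NumLineP D) {F₀ kl : Type u}
    [Field F₀] [Field kl] [IsAlgClosed kl] [Algebra k F₀] [Algebra k kl] [Algebra F₀ kl]
    [IsScalarTower k F₀ kl] {l : ∀ i, J i → kl[X]} (hl1 : IsMap D.E l) (hl2 : cls l = D.β)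
    (hl3 : TrGe F₀ (coeffs l) (hl D)) : FrameAt D l (hl D) := by
  have hc : CharZero F₀ := charZero_of_injective_algebraMap (algebraMap k F₀).injective
  exact frameAt_line D hl1 (hN kl l hl1 hl2) (0 : F₀) (trGe_pt_line D hl1 hl2 hl3 0)

/-- **LineFrameP of `QuadDefs_517`.** -/
theorem lineFrameP [CharZero k] {D : CData k I J} (hN : NumLineP D) : LineFrameP D := by
  intro F₀ kl _ _ _ _ _ _ _ _ l t₀ hl1 hl2 hl3
  have hfr := frameAt_gen_line (F₀ := F₀) hN hl1 hl2 hl3
  refine ⟨fun V hV hVi => ?_, ?_⟩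
  · have hmem : ∀ G ∈ V, G ∈ TanL D.E l := by
      intro G hG
      rw [mem_TanL, hl2]
      exact ⟨(hV G hG).2, (hV G hG).1⟩
    let f : V → TanL D.E l := fun G => ⟨G.1, hmem G.1 G.2⟩
    have hf : LinearIndependent kl f := by
      refine LinearIndependent.of_comp (TanL D.E l).subtype ?_
      exact hVi
    have h1 := hf.fintype_card_le_finrank
    rw [Fintype.card_coe, hfr.rank] at h1
    exact h1
  · obtain ⟨t, ht1, ht2⟩ := hfr.values t₀
    refine ⟨t, fun j => ?_, ht2⟩
    have h1 := ht1 j
    rw [mem_TanL, hl2] at h1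
    exact ⟨h1.2, h1.1⟩

end Crest.Agent.R260.Lf_475
end

-- ▼ part R260/Asm_803
section

/-!
# Row 260 (S0398), MAIN (helper803): all the leaves of QUAD for a family; AGCore from QUAD
-/

set_option autoImplicit false
set_option linter.unusedSectionVars false

namespace Crest.Agent.R260.Asm_803

open Polynomial Crest.Agent.R270.BM_360 Crest.Agent.R260.Lin_678
open Crest.Agent.R260.QuadDefs_517 Crest.Agent.R260.Fam_919 Crest.Agent.R260.Gp_169

universe u

variable {I : Type} {J : I → Type} [Fintype I] [∀ i, Fintype (J i)]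

section

variable {k : Type u} [Field k] [IsAlgClosed k] [CharZero k] (D : CData k I J)
  {P : Ideal (MvPolynomial (Cx J (fun i => 2 * D.β i)) k)}

theorem numLineP (hE : (Ideal.span D.E).IsPrime) : Lf_475.NumLineP D :=
  fun _ _ _ _ _ hF hcl => Num_789.numAt D hE hF (by rw [hcl, one_smul])

theorem genMap (hF : Fam D P) : GenMapP D P := Fm3_323.gen_map hF

theorem genTr (hF : Fam D P) (hE : (Ideal.span D.E).IsPrime) : GenTrP D P :=
  Gtr_516.genTrP hF hE

theorem conFrame (hF : Fam D P) (hE : (Ideal.span D.E).IsPrime) : ConFrameP D (VC _ P) :=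
  conFrameP_fam hF hE (Num_789.numConP D hE) (genMap D hF)

theorem gen1 (hF : Fam D P) (hE : (Ideal.span D.E).IsPrime) : Gen1P D (VC _ P) :=
  gen1P_fam hF hE (Num_789.numConP D hE) (genMap D hF)

theorem gen2 (hF : Fam D P) (hE : (Ideal.span D.E).IsPrime) : Gen2P D (VC _ P) :=
  gen2P_fam hF hE (Num_789.numConP D hE) (genMap D hF)

theorem div (hm : 0 < D.m) (hF : Fam D P) (hE : (Ideal.span D.E).IsPrime) : DivP D (VC _ P) :=
  Cnt_749.divP hm hF hE (Num_789.numConP D hE) (genMap D hF)

theorem lineFrame (hE : (Ideal.span D.E).IsPrime) : LineFrameP D :=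
  Lf_475.lineFrameP (numLineP D hE)

end

/-- local rings of codimension one (517's form). -/
theorem locP : Quad_517.LocP := by
  intro F K κ _ _ _ _ _ _ σ _ E v q N h1 h2 h3 _ h5 _ h7 b
  exact Loc_33.loc_val h1 h2 h3 h5.le h7 b

/-- **AGCore** from QUAD for all families. -/
theorem agCore_of_quad
    (hQ : ∀ (I : Type) [Fintype I] (Jt : I → Type) [∀ i, Fintype (Jt i)] (D : CData ℂ I Jt),
      Fintype.card I = 2 → 2 ≤ D.m → (Ideal.span D.E).IsPrime →
      ∀ P : Ideal (MvPolynomial (Cx Jt (fun i => 2 * D.β i)) ℂ), Fam D P →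
        QUAD D (VC _ P)) : MainC_803.AGCore :=
  Fin12_600.agCore_of fun I _ Jt _ D hI hm hE P hP =>
    ⟨hQ I Jt D hI hm hE P hP, gen1 D hP hE, genMap D hP, genTr D hP hE⟩

end Crest.Agent.R260.Asm_803
end

-- ▼ part R260/QuadF_517
section

/-!
# Row 260, A-QUAD (helper517), part 6: scalings, reversal, the place theorem for conics
-/

set_option autoImplicit false
set_option linter.all false

noncomputable section

namespace Crest.Agent.R260.Quad_517

open Polynomial Module
open Crest.Agent.R270.BM_360 Crest.Agent.R260.Lin_678 Crest.Agent.R260.QuadDefs_517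
open Crest.Agent.R260.Der_169

variable {I : Type} {J : I → Type} [Fintype I] [∀ i, Fintype (J i)] {k : Type} [Field k]

/-! ### scalings -/

theorem joins_scale {D : CData k I J} {L : Type} [Field L] [Algebra k L] {f : ∀ i, J i → L[X]}
    {x y y' : ∀ i, J i → L} {a b : I → L} {c : L} (μ : I → L) (hμ : ∀ i, μ i ≠ 0)
    (hy : ∀ i j, y' i j = μ i * y i j) (hj : Joins D f x y a b c) :
    Joins D f x y' a (fun i => b i * (μ i)⁻¹) c where
  a0 := hj.a0
  b0 i := mul_ne_zero (hj.b0 i) (inv_ne_zero (hμ i))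
  lead := hj.lead
  bot i j := by
    rw [hj.bot, hy]
    field_simp [hμ i]
  val := hj.val

theorem phi_scale {D : CData k I J} {L : Type} [Field L] (a b : I → L) (c : L) (μ : I → L)
    (hμ : ∀ i, μ i ≠ 0) :
    phi D a (fun i => b i * (μ i)⁻¹) c = (∏ i, μ i ^ D.w i) * phi D a b c := by
  unfold phi
  have h1 : ∏ i, (b i * (μ i)⁻¹) ^ (-D.w i) = (∏ i, b i ^ (-D.w i)) * ∏ i, μ i ^ D.w i := by
    rw [← Finset.prod_mul_distrib]
    refine Finset.prod_congr rfl fun i _ => ?_
    rw [mul_zpow, inv_zpow', neg_neg]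
  rw [h1]
  ring

/-- multiplication of the blocks by constants -/
def scT {κ : Type} [Field κ] (lam : I → κ) (H : ∀ i, J i → κ[X]) : ∀ i, J i → κ[X] :=
  fun i j => C (lam i) * H i j

theorem isMap_scT {D : CData k I J} {κ : Type} [Field κ] [Algebra k κ] {lam : I → κ}
    (hl : ∀ i, lam i ≠ 0) {H : ∀ i, J i → κ[X]} (hH : IsMap D.E H) : IsMap D.E (scT lam H) := by
  refine ⟨hH.on.scale D.hom (fun i => C (lam i)), fun i => ?_⟩
  have h : Ideal.span (Set.range (H i)) = ⊤ := hH.cop i
  change Ideal.span (Set.range fun j => C (lam i) * H i j) = ⊤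
  rw [eq_top_iff, ← h, Ideal.span_le]
  rintro _ ⟨j, rfl⟩
  have h2 : H i j = C (lam i)⁻¹ * (C (lam i) * H i j) := by
    rw [← mul_assoc, ← C_mul, inv_mul_cancel₀ (hl i), C_1, one_mul]
  rw [h2]
  exact Ideal.mul_mem_left _ _ (Ideal.subset_span ⟨j, rfl⟩)

theorem at'_scT {κ L : Type} [Field κ] [Field L] [Algebra κ L] (lam : I → κ)
    (H : ∀ i, J i → κ[X]) (w : L) (i : I) (j : J i) :
    at' (scT lam H) w i j = algebraMap κ L (lam i) * at' H w i j := by
  simp [at', scT]

theorem pt_scT {κ : Type} [Field κ] (lam : I → κ) (H : ∀ i, J i → κ[X]) (t : κ) (i : I)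
    (j : J i) : pt (scT lam H) t i j = lam i * pt H t i j := by
  simp [pt, scT]

/-! ### genericity of the value at `w` from genericity of the value at `t` -/

theorem range_ent {A : Type} (v : ∀ i, J i → A) :
    Set.range (fun x : Σ i, J i => v x.1 x.2) = QuadDefs_517.ent v := by
  ext z
  constructor
  · rintro ⟨x, rfl⟩
    exact ⟨x.1, x.2, rfl⟩
  · rintro ⟨i, j, rfl⟩
    exact ⟨⟨i, j⟩, rfl⟩

theorem trge_at'_of_pt {F₀ k' L : Type} [Field F₀] [Field k'] [Field L] [Algebra F₀ k']
    [Algebra F₀ L] [Algebra k' L] [IsScalarTower F₀ k' L] (G : ∀ i, J i → k'[X]) (w : L)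
    (hw : Transcendental k' w) (t : k') (n : ℕ) (h : TrGe F₀ (QuadDefs_517.ent (pt G t)) n) :
    TrGe F₀ (QuadDefs_517.ent (at' G w)) n := by
  rw [← range_ent] at h ⊢
  obtain ⟨x, hx⟩ := Crest.Agent.R260.Irr_33.exists_sub h
  refine ⟨fun j => at' G w (x j).1 (x j).2, fun j =>
    IntermediateField.subset_adjoin F₀ _ ⟨x j, rfl⟩, ?_⟩
  rw [algebraicIndependent_iff]
  intro p hp
  have h1 : MvPolynomial.aeval (fun j => at' G w (x j).1 (x j).2) p =
      aeval w (MvPolynomial.aeval (fun j => G (x j).1 (x j).2) p) :=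
    (MvPolynomial.comp_aeval_apply (f := fun j => G (x j).1 (x j).2)
      ((aeval w : k'[X] →ₐ[k'] L).restrictScalars F₀) p).symm
  rw [h1] at hp
  have h2 := transcendental_iff.1 hw _ hp
  refine algebraicIndependent_iff.1 hx p ?_
  have h3 := aeval_eval (k := F₀) (fun j => G (x j).1 (x j).2) t p
  rw [h2, eval_zero] at h3
  exact h3

/-! ### constants -/

theorem intAt_mul {k' L : Type} [Field k'] [Field L] [Algebra k' L] {t : k'} {w x : L}
    (e : k') (h : IntAt t w x) : IntAt t w (algebraMap k' L e * x) := by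
  obtain ⟨P, hP, hP1, hP2⟩ := h
  refine ⟨P.scaleRoots (algebraMap k' L e), (monic_scaleRoots_iff _).2 hP, fun n => ?_, ?_⟩
  · rw [coeff_scaleRoots]
    obtain ⟨p, q, hq, h⟩ := hP1 n
    refine ⟨p * C (e ^ (P.natDegree - n)), q, hq, ?_⟩
    rw [h, map_mul, aeval_C, map_pow, div_mul_eq_mul_div]
  · have h1 := scaleRoots_eval₂_mul (RingHom.id L) (p := P) (r := x) (s := algebraMap k' L e)
    rw [RingHom.id_apply] at h1
    rw [eval, h1]
    rw [eval] at hP2
    rw [hP2, mul_zero]

/-! ### the place theorem for generic conics -/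

/-- exact points of generic conics -/
def Gen2X (D : CData k I J) (CC : Cls k J) : Prop :=
  ∀ (F₀ k' : Type) [Field F₀] [Field k'] [IsAlgClosed F₀] [IsAlgClosed k'] [Algebra k F₀]
    [Algebra k k'] [Algebra F₀ k'] [IsScalarTower k F₀ k'] (H : ∀ i, J i → k'[X]) (t : k'),
    Con D CC H → TrGe F₀ (coeffs H) (hc D) →
    TrGe F₀ (QuadDefs_517.ent (pt H t)) (2 * D.m + Fintype.card I)

/-- all the leaves -/
structure Leaves (D : CData k I J) (CC : Cls k J) : Prop where
  lin : LinP D
  kpr : KprimeP D
  div : DivP D CC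
  irr : IrrP D
  alg : AlgP D
  gen1 : Gen1P D CC
  gen2 : Gen2X D CC
  lf : LineFrameP D
  scal : ScalP.{0} I J
  exm : ExmP.{0} I J
  loc : LocP
  map : MapCC CC
  rev : ∀ (A : Type) [Field A] [IsAlgClosed A] [Algebra k A] (F : ∀ i, J i → A[X]),
    Con D CC F → Con D CC (Crest.Agent.R270.Link_131.rev F)

theorem iter_mul {k' L : Type} [Field k'] [Field L] [Algebra k' L] (dL : Derivation k' L L)
    (e : k') (x : L) (r : ℕ) :
    dL^[r] (algebraMap k' L e * x) = algebraMap k' L e * dL^[r] x := by
  induction r generalizing x with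
  | zero => rfl
  | succ r ih =>
    rw [Function.iterate_succ_apply, Function.iterate_succ_apply, ← ih]
    congr 1
    rw [← Algebra.smul_def, ← Algebra.smul_def, dL.map_smul]

theorem trge_mono {A κ : Type} [Field A] [Field κ] [Algebra A κ] {S T : Set κ} {n m : ℕ}
    (hST : S ⊆ T) (hmn : m ≤ n) (h : TrGe A S n) : TrGe A T m := by
  obtain ⟨w, hw, hi⟩ := h
  refine ⟨fun j => w (Fin.castLE hmn j), fun j => ?_, hi.comp _ (Fin.castLE_injective hmn)⟩
  exact IntermediateField.adjoin.mono A S T hST (hw _)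

theorem place_con [CharZero k] {D : CData k I J} {CC : Cls k J} (h : Leaves D CC)
    {F₀ k' L : Type} [Field F₀] [Field k'] [Field L] [IsAlgClosed F₀] [IsAlgClosed k']
    [IsAlgClosed L] [Algebra k F₀] [Algebra k k'] [Algebra k L] [Algebra F₀ k'] [Algebra F₀ L]
    [Algebra k' L] [IsScalarTower k F₀ k'] [IsScalarTower k F₀ L] [IsScalarTower k k' L]
    [IsScalarTower F₀ k' L] (hout : DivOut D CC F₀)
    (x₀ : ∀ i, J i → F₀) (hx : OnX D.E x₀) (hx0 : ∀ i, x₀ i ≠ 0)
    (H : ∀ i, J i → k'[X]) (hH : Con D CC H) (hHt : TrGe F₀ (coeffs H) (hc D))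
    (w : L) (hw : Transcendental k' w)
    (f : ∀ i, J i → L[X]) (a b : I → L) (c : L) (hf : IsMap D.E f) (hfc : cls f = 2 • D.β)
    (hj : Joins D f (up L x₀) (at' H w) a b c)
    (dL : Derivation k' L L) (hdw : dL w = 1) (t : k') (r : ℕ) :
    IntAt t w (dL^[r] (phi D a b c)) := by
  haveI hc0 : CharZero F₀ := charZero_of_injective_algebraMap (algebraMap k F₀).injective
  by_cases hr : TrGe F₀ (rat (pt H t)) (2 * D.m + 1)
  · -- generic point: choose scalars
    obtain ⟨lam, hlam0, hlam⟩ := h.scal F₀ k' (pt H t) (2 * D.m + 1) (ne_pt hH.map.cop t) hr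
      (trge_mono (Set.subset_univ _) (by unfold hc; omega) hHt)
    have hG : IsMap D.E (scT lam H) := isMap_scT hlam0 hH.map
    have hlamL : ∀ i, algebraMap k' L (lam i) ≠ 0 := fun i => (_root_.map_ne_zero _).2 (hlam0 i)
    have hptG : (fun i j => lam i * pt H t i j) = pt (scT lam H) t := by
      funext i j
      exact (pt_scT lam H t i j).symm
    have hgt : TrGe F₀ (QuadDefs_517.ent (pt (scT lam H) t)) (nn D) := by
      rw [← hptG]
      exact hlam
    have hjG := joins_scale (fun i => algebraMap k' L (lam i)) hlamL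
      (fun i j => at'_scT lam H w i j) hj
    have hp := place h.lin h.irr h.alg h.lf h.loc x₀ hx hx0 (scT lam H) hG w hw f a _ c hf hfc hjG
      (trge_at'_of_pt _ w hw t _ hgt) dL hdw t (Or.inl hgt) r
    rw [phi_scale a b c _ hlamL] at hp
    have e1 : (∏ i, algebraMap k' L (lam i) ^ D.w i) = algebraMap k' L (∏ i, lam i ^ D.w i) := by
      rw [map_prod]
      exact Finset.prod_congr rfl fun i _ => (map_zpow₀ _ _ _).symm
    rw [e1, iter_mul] at hp
    have hne : (∏ i, lam i ^ D.w i) ≠ 0 :=
      Finset.prod_ne_zero_iff.2 fun i _ => zpow_ne_zero _ (hlam0 i)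
    have h2 := intAt_mul (∏ i, lam i ^ D.w i)⁻¹ hp
    rw [← mul_assoc, ← map_mul, inv_mul_cancel₀ hne, map_one, one_mul] at h2
    exact h2
  · -- special point: a line
    obtain ⟨kl, ikl, akl, A1, A2, T3, l, t₀, hl, hlc, hlt, hle, hlm⟩ := hout k' H t hH hHt hr
    have hex : TrGe F₀ (QuadDefs_517.ent (pt H t)) (2 * D.m + Fintype.card I) :=
      h.gen2 F₀ k' H t hH hHt
    have hrel := h.exm F₀ k' kl (pt H t) (pt l t₀) (2 * D.m) (ne_pt hH.map.cop t)
      (ne_pt hl.cop t₀) hr hex hle (fun p hp => (hlm p hp).symm)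
    have hgen : TrGe F₀ (QuadDefs_517.ent (at' H w)) (nn D) := h.gen1 F₀ k' L H w hH hHt hw
    refine place h.lin h.irr h.alg h.lf h.loc x₀ hx hx0 H hH.map w hw f a b c hf hfc hj hgen dL hdw
      t (Or.inr ⟨?_, kl, ikl, akl, A1, A2, T3, l, t₀, hl, hlc, hlt, fun p => (hrel p).symm⟩) r
    refine trge_mono le_rfl ?_ hex
    unfold nn
    omega

end Crest.Agent.R260.Quad_517
end
end

-- ▼ part R260/QuadAsm_517
section

/-!
# Row 260, A-QUAD (helper517): **QUAD** from its leaves
-/

set_option autoImplicit false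
set_option linter.all false

noncomputable section

namespace Crest.Agent.R260.Quad_517

open Polynomial Module
open Crest.Agent.R270.BM_360 Crest.Agent.R260.Lin_678 Crest.Agent.R260.QuadDefs_517
open Crest.Agent.R260.Der_169 Crest.Agent.R260.Pur920 Crest.Agent.R270.Fr_928

variable {I : Type} {J : I → Type} [Fintype I] [∀ i, Fintype (J i)] {k : Type} [Field k]

/-! ### integrality -/

theorem isIntegral_of_coeffs {R L : Type} [CommRing R] [Field L] [Algebra R L] (x : L) (P : L[X])
    (hP : P.Monic) (hc : ∀ n, ∃ r : R, algebraMap R L r = P.coeff n) (h0 : P.eval x = 0) :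
    IsIntegral R x := by
  have h1 : P ∈ Polynomial.lifts (algebraMap R L) := by
    rw [Polynomial.lifts_iff_coeff_lifts]
    exact hc
  obtain ⟨Q, hQ, -, hQm⟩ := Polynomial.lifts_and_degree_eq_and_monic h1 hP
  exact ⟨Q, hQm, by rw [← eval_map, hQ, h0]⟩

section refl

variable {k' L : Type} [Field k'] [Field L] [Algebra k' L]

theorem aeval_inv_eq (u : L) (hu : u ≠ 0) (N : ℕ) (p : k'[X]) (hp : p.natDegree ≤ N) :
    aeval u⁻¹ p = aeval u (p.reflect N) * (u⁻¹) ^ N := by
  letI : Invertible (u⁻¹) := invertibleOfNonzero (inv_ne_zero hu)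
  have h := eval₂_reflect_mul_pow (algebraMap k' L) (u⁻¹) N p hp
  have h1 : ⅟(u⁻¹) = u := by rw [invOf_eq_inv, inv_inv]
  rw [h1] at h
  exact h.symm

theorem aeval_reflect_eq (u : L) (hu : u ≠ 0) (N : ℕ) (p : k'[X]) (hp : p.natDegree ≤ N) :
    aeval u⁻¹ (p.reflect N) = (u⁻¹) ^ N * aeval u p := by
  letI : Invertible u := invertibleOfNonzero hu
  have h := eval₂_reflect_mul_pow (algebraMap k' L) u N p hp
  have h1 : ⅟u = u⁻¹ := invOf_eq_inv u
  rw [h1] at h
  rw [aeval_def, aeval_def, ← h, mul_comm, mul_assoc, ← mul_pow, mul_inv_cancel₀ hu, one_pow,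
    mul_one]

end refl

section places

variable {k' L : Type} [Field k'] [Field L] [Algebra k' L] [Algebra (RatFunc k') L]

theorem int_va (u : L)
    (h : ∀ p : k'[X], algebraMap (RatFunc k') L (algebraMap k'[X] (RatFunc k') p) = aeval u p)
    (t : k') (x : L) (hx : IntAt t u x) : IsIntegral (Va (RatFunc k') t) x := by
  obtain ⟨P, hP, hc, h0⟩ := hx
  refine isIntegral_of_coeffs x P hP (fun n => ?_) h0
  obtain ⟨p, q, hq, hh⟩ := hc n
  have hq0 : algebraMap k'[X] (RatFunc k') q ≠ 0 := by
    rw [Ne, FaithfulSMul.algebraMap_eq_zero_iff]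
    rintro rfl
    simp at hq
  refine ⟨⟨algebraMap k'[X] (RatFunc k') p / algebraMap k'[X] (RatFunc k') q, ?_⟩, ?_⟩
  · exact ⟨p, q, hq, div_mul_cancel₀ _ hq0⟩
  · change algebraMap (RatFunc k') L (algebraMap k'[X] (RatFunc k') p /
      algebraMap k'[X] (RatFunc k') q) = _
    rw [map_div₀, h, h, hh]

theorem int_vinf (u : L) (hu : u ≠ 0)
    (h : ∀ p : k'[X], algebraMap (RatFunc k') L (algebraMap k'[X] (RatFunc k') p) = aeval u p)
    (x : L) (hx : IntAt (0 : k') u⁻¹ x) : IsIntegral (Vinf k' (RatFunc k')) x := by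
  obtain ⟨P, hP, hc, h0⟩ := hx
  refine isIntegral_of_coeffs x P hP (fun n => ?_) h0
  obtain ⟨p, q, hq, hh⟩ := hc n
  set N := max p.natDegree q.natDegree with hN
  have hqN : (q.reflect N).coeff N ≠ 0 := by
    rw [coeff_reflect, revAt_le le_rfl, Nat.sub_self, coeff_zero_eq_eval_zero]
    exact hq
  have hq0' : q.reflect N ≠ 0 := fun h => hqN (by rw [h, coeff_zero])
  have hq0 : algebraMap k'[X] (RatFunc k') (q.reflect N) ≠ 0 := by
    rw [Ne, FaithfulSMul.algebraMap_eq_zero_iff]
    exact hq0'
  refine ⟨⟨algebraMap k'[X] (RatFunc k') (p.reflect N) /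
    algebraMap k'[X] (RatFunc k') (q.reflect N), ?_⟩, ?_⟩
  · refine ⟨p.reflect N, q.reflect N, hq0', ?_, div_mul_cancel₀ _ hq0⟩
    refine le_trans ?_ (le_degree_of_ne_zero hqN)
    rw [degree_le_iff_coeff_zero]
    intro m hm
    have hm' : N < m := by exact_mod_cast hm
    rw [coeff_reflect, revAt_eq_self_of_lt hm']
    exact coeff_eq_zero_of_natDegree_lt (lt_of_le_of_lt (le_max_left _ _) hm')
  · change algebraMap (RatFunc k') L (algebraMap k'[X] (RatFunc k') (p.reflect N) /
      algebraMap k'[X] (RatFunc k') (q.reflect N)) = _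
    rw [map_div₀, h, h, hh, aeval_inv_eq u hu N p (le_max_left _ _),
      aeval_inv_eq u hu N q (le_max_right _ _), mul_div_mul_right]
    exact pow_ne_zero _ (inv_ne_zero hu)

end places

/-! ### the reversed conic -/

theorem coeffs_rev {κ : Type} [Field κ] (H : ∀ i, J i → κ[X]) :
    coeffs H ⊆ coeffs (Crest.Agent.R270.Link_131.rev H) := by
  rintro _ ⟨i, a, j, rfl⟩
  refine ⟨i, a, revAt (vdeg (H i)) j, ?_⟩
  change ((H i a).reflect (vdeg (H i))).coeff _ = _
  rw [coeff_reflect, revAt_invol]

theorem at'_rev {D : CData k I J} {κ L : Type} [Field κ] [Field L] [Algebra κ L]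
    (H : ∀ i, J i → κ[X]) (hH : cls H = 2 • D.β) (u : L) (hu : u ≠ 0) (i : I) (j : J i) :
    at' (Crest.Agent.R270.Link_131.rev H) u⁻¹ i j = (u⁻¹) ^ (2 * D.β i) * at' H u i j := by
  have h1 : vdeg (H i) = 2 * D.β i := by
    have := congrFun hH i
    simpa [cls] using this
  change aeval u⁻¹ ((H i j).reflect (vdeg (H i))) = _
  rw [h1, aeval_reflect_eq u hu]
  · rfl
  · rw [← h1]
    exact Finset.le_sup (f := fun a => (H i a).natDegree) (Finset.mem_univ j)

theorem prod_w {D : CData k I J} {L : Type} [Field L] (z : L) (hz : z ≠ 0) :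
    ∏ i, (z ^ (2 * D.β i)) ^ D.w i = z ^ 2 := by
  have h1 : ∀ i, (z ^ (2 * D.β i)) ^ D.w i = z ^ ((2 * D.β i : ℤ) * D.w i) := by
    intro i
    rw [zpow_mul]
    congr 1
    norm_cast
  simp only [h1]
  rw [← zpow_natCast z 2]
  have h2 : ∀ s : Finset I, ∏ i ∈ s, z ^ ((2 * D.β i : ℤ) * D.w i) =
      z ^ (∑ i ∈ s, (2 * D.β i : ℤ) * D.w i) := by
    classical
    intro s
    induction s using Finset.induction_on with
    | empty => simp
    | insert i s hi ih => rw [Finset.prod_insert hi, Finset.sum_insert hi, zpow_add₀ hz, ih]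
  rw [h2]
  congr 1
  have h3 : ∑ i, (2 * D.β i : ℤ) * D.w i = 2 * ∑ i, D.w i * (D.β i : ℤ) := by
    rw [Finset.mul_sum]
    exact Finset.sum_congr rfl fun i _ => by ring
  rw [h3, D.wβ]
  norm_num

theorem trans_inv {κ L : Type} [Field κ] [Field L] [Algebra κ L] {u : L}
    (hu : Transcendental κ u) : Transcendental κ u⁻¹ := fun h => hu (by
  have := h.inv
  rwa [inv_inv] at this)

/-! ### **QUAD** -/

theorem quad [IsAlgClosed k] [CharZero k] {D : CData k I J} {CC : Cls k J} (h : Leaves D CC) :
    QUAD D CC := by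
  intro F₀ k' L iF ik iL aF ak aL A1 A2 A3 A4 A5 A6 T1 T2 T3 T4 x₀ H u f a b c hx hx0 hxt hxalg hH
    hHt hHalg hu hLalg hf hj
  rcases dichotomy h.map h.kpr h.div x₀ H u f a b c hx hx0 hxt hH hHt hu hLalg hf hj with hq | hout
  · exact hq
  haveI hck : CharZero k' := charZero_of_injective_algebraMap (algebraMap k k').injective
  have hu0 : u ≠ 0 := by
    rintro rfl
    exact hu isAlgebraic_zero
  -- the derivation
  obtain ⟨dL, hdL⟩ := Crest.Agent.R260.Gp_169.exists_ext (F₀ := k') (κ := k') (L := L) hu 0 1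
  have hdu : dL u = 1 := by
    have h1 := hdL X
    rw [aeval_X, derivative_X, map_one, one_mul] at h1
    have h2 : dX (0 : Derivation k' k' k') X = 0 := by
      ext n
      rw [coeff_dX]
      simp
    rw [h2, map_zero, zero_add] at h1
    exact h1
  -- rational functions
  letI ARL : Algebra (RatFunc k') L := (rf u hu).toAlgebra
  have hRp : ∀ p : k'[X], algebraMap (RatFunc k') L (algebraMap k'[X] (RatFunc k') p) =
      aeval u p := fun p => rf_poly u hu p
  haveI halg : Algebra.IsAlgebraic (RatFunc k') L := by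
    refine ⟨fun z => alg_of_adjoin (k := k') (K := RatFunc k') {u} (fun r => ?_) ?_ z
      (hLalg.isAlgebraic z)⟩
    · refine ⟨algebraMap k'[X] (RatFunc k') (C r), ?_⟩
      rw [hRp, aeval_C]
    · rintro s rfl
      refine ⟨algebraMap k'[X] (RatFunc k') X, ?_⟩
      rw [hRp, aeval_X]
  have hU : U k' (RatFunc k') L = u := by
    change algebraMap (RatFunc k') L (algebraMap k'[X] (RatFunc k') X) = u
    rw [hRp, aeval_X]
  let dZ : Derivation ℤ L L := dL.restrictScalars ℤ
  have hdZ : ∀ p : k'[X], dZ (algebraMap (RatFunc k') L (algebraMap k'[X] (RatFunc k') p)) =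
      algebraMap (RatFunc k') L (algebraMap k'[X] (RatFunc k') (derivative p)) := by
    intro p
    rw [hRp, hRp]
    change dL (aeval u p) = _
    rw [Derivation.map_aeval, hdu, smul_eq_mul, mul_one]
  -- finite places
  have hfin : ∀ t : k', IsIntegral (Va (RatFunc k') t) (dZ^[3] (phi D a b c)) := by
    intro t
    exact int_va u hRp t _ (place_con h hout x₀ hx hx0 H hH hHt u hu f a b c hf.map hf.cls hj dL
      hdu t 3)
  -- the place at infinity
  have hinf : IsIntegral (Vinf k' (RatFunc k'))
      ((dw (k := k') (Kr := RatFunc k') dZ)^[3] ((U k' (RatFunc k') L)⁻¹ ^ 2 * phi D a b c)) := by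
    have hu' : u⁻¹ ≠ 0 := inv_ne_zero hu0
    have hμ : ∀ i, (u⁻¹) ^ (2 * D.β i) ≠ 0 := fun i => pow_ne_zero _ hu'
    have hjr := joins_scale (fun i => (u⁻¹) ^ (2 * D.β i)) hμ
      (fun i j => at'_rev (D := D) H hH.cls u hu0 i j) hj
    let dW : Derivation k' L L := (-(u ^ 2)) • dL
    have hdW : dW u⁻¹ = 1 := by
      change -(u ^ 2) * dL u⁻¹ = 1
      rw [Derivation.leibniz_inv, hdu]
      simp only [smul_eq_mul]
      field_simp
    have hp := place_con h hout x₀ hx hx0 (Crest.Agent.R270.Link_131.rev H) (h.rev k' H hH)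
      (trge_mono (coeffs_rev H) le_rfl hHt) u⁻¹ (trans_inv hu) f a _ c hf.map hf.cls hjr dW hdW 0 3
    rw [phi_scale a b c _ hμ, prod_w (D := D) (u⁻¹) hu'] at hp
    have h1 := int_vinf u hu0 hRp _ hp
    have h2 : ∀ z, dw (k := k') (Kr := RatFunc k') dZ z = dW z := by
      intro z
      rw [dw_apply, hU]
      rfl
    have h3 : (dw (k := k') (Kr := RatFunc k') dZ : L → L) = dW := funext h2
    rw [h3, hU]
    exact h1
  obtain ⟨a0, a1, a2, hfin'⟩ := quad_of_int' dZ hdZ (phi D a b c) hfin hinf
  refine ⟨C a0 + C a1 * X + C a2 * X ^ 2, ?_, ?_⟩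
  · compute_degree
  · rw [hfin', hRp]

end Crest.Agent.R260.Quad_517
end
end

-- ▼ part R260/AsmQ_803

/-!
# Row 260 (S0398), MAIN (helper803): QUAD for a family, `AGCore`, the statement
-/

set_option autoImplicit false
set_option linter.unusedSectionVars false

namespace Crest.Agent.R260.Asm_803

open Polynomial Crest.Agent.R270.BM_360 Crest.Agent.R260.Lin_678
open Crest.Agent.R260.QuadDefs_517 Crest.Agent.R260.Fam_919 Crest.Agent.R260.Gp_169

variable {I : Type} {J : I → Type} [Fintype I] [∀ i, Fintype (J i)]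
  {k : Type} [Field k] [IsAlgClosed k] [CharZero k] (D : CData k I J)
  {P : Ideal (MvPolynomial (Cx J (fun i => 2 * D.β i)) k)}

/-- all the leaves of QUAD for the family. -/
theorem leaves (hm : 0 < D.m) (hF : Fam D P) (hE : (Ideal.span D.E).IsPrime) :
    Quad_517.Leaves D (VC _ P) where
  lin := Lp_678.linP D
  kpr := Kp_997.kprimeP D
  div := div D hm hF hE
  irr := Irr_33.irrP D hE
  alg := Alg0_661.algP D
  gen1 := gen1 D hF hE
  gen2 := by
    intro F₀ k' _ _ _ _ _ _ _ _ H t h1 h2
    exact Gp_169.gen2_exact (conFrame D hF hE) F₀ k' H t h1 h2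
  lf := lineFrame D hE
  scal := Scal_661.scalP
  exm := Scal_661.exmP
  loc := locP
  map := fun _ _ _ _ _ _ g _ h => InC.mapT _ h g
  rev := fun _ _ _ _ _ h => Cc_564.con_rev hF h

/-- **QUAD** for the family. -/
theorem quad (hm : 0 < D.m) (hF : Fam D P) (hE : (Ideal.span D.E).IsPrime) :
    QUAD D (VC _ P) := Quad_517.quad (leaves D hm hF hE)

/-- **AGCore**. -/
theorem agCore : MainC_803.AGCore :=
  agCore_of_quad fun _ _ _ _ D _ hm hE _ hP => quad D (by omega) hP hE

end Crest.Agent.R260.Asm_803
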