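import Mathlib
import Crest.Agent.R260.LinDefs_678

-- ▼ part R260/Mob1_919
section

/-!
# Row 260 (S0398), Moebius library part 1 (helper919): binary forms and linear substitutions

`hev N s t f = ∑_{n ≤ N} f_n s^n t^(N-n)` : value of the form of degree `N` attached to `f` at
`[s : t]` (in any algebra); `mob N a b c d f = (c X + d)^N f ((a X + b) / (c X + d))`.
-/

set_option autoImplicit false

namespace Crest.Agent.R260.Mob_919

open Polynomial

universe u v

section basic

variable {R : Type u} [CommRing R] {A : Type v} [CommRing A] [Algebra R A]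

/-- value at `[s : t]` of the binary form of degree `N` attached to `f`. -/
noncomputable def hev (N : ℕ) (s t : A) (f : R[X]) : A :=
  ∑ n ∈ Finset.range (N + 1), algebraMap R A (f.coeff n) * s ^ n * t ^ (N - n)

theorem hev_add (N : ℕ) (s t : A) (f g : R[X]) : hev N s t (f + g) = hev N s t f + hev N s t g := by
  simp only [hev, coeff_add, map_add, add_mul, Finset.sum_add_distrib]

@[simp] theorem hev_zero (N : ℕ) (s t : A) : hev N s t (0 : R[X]) = 0 := by
  simp [hev]

theorem hev_C_mul (N : ℕ) (s t : A) (r : R) (f : R[X]) :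
    hev N s t (C r * f) = algebraMap R A r * hev N s t f := by
  simp only [hev, coeff_C_mul, map_mul, Finset.mul_sum]
  exact Finset.sum_congr rfl fun _ _ => by ring



theorem hev_sum {ι : Type*} (N : ℕ) (s t : A) (S : Finset ι) (f : ι → R[X]) :
    hev N s t (∑ i ∈ S, f i) = ∑ i ∈ S, hev N s t (f i) := by
  classical
  induction S using Finset.induction_on with
  | empty => simp
  | insert i S hi ih => rw [Finset.sum_insert hi, Finset.sum_insert hi, hev_add, ih]

theorem hev_monomial {N n : ℕ} (hn : n ≤ N) (s t : A) (r : R) :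
    hev N s t (monomial n r) = algebraMap R A r * s ^ n * t ^ (N - n) := by
  unfold hev
  rw [Finset.sum_eq_single n]
  · rw [coeff_monomial, if_pos rfl]
  · intro m _ hm
    rw [coeff_monomial, if_neg (Ne.symm hm), map_zero, zero_mul, zero_mul]
  · intro h
    exact absurd (Finset.mem_range.2 (Nat.lt_succ_of_le hn)) h

/-- multiplicativity. -/
theorem hev_mul {N M : ℕ} (s t : A) {f g : R[X]} (hf : f.natDegree ≤ N) (hg : g.natDegree ≤ M) :
    hev (N + M) s t (f * g) = hev N s t f * hev M s t g := by
  have ef := f.as_sum_range' (N + 1) (Nat.lt_succ_of_le hf)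
  have eg := g.as_sum_range' (M + 1) (Nat.lt_succ_of_le hg)
  have h1 : f * g = ∑ n ∈ Finset.range (N + 1), ∑ m ∈ Finset.range (M + 1),
      monomial (n + m) (f.coeff n * g.coeff m) := by
    conv_lhs => rw [ef, eg]
    rw [Finset.sum_mul_sum]
    exact Finset.sum_congr rfl fun n _ => Finset.sum_congr rfl fun m _ => by
      rw [monomial_mul_monomial]
  rw [h1, hev_sum]
  simp only [hev_sum]
  unfold hev
  rw [Finset.sum_mul_sum]
  refine Finset.sum_congr rfl fun n hn => Finset.sum_congr rfl fun m hm => ?_
  have hn' := Nat.lt_succ_iff.1 (Finset.mem_range.1 hn)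
  have hm' := Nat.lt_succ_iff.1 (Finset.mem_range.1 hm)
  have h2 := hev_monomial (add_le_add hn' hm') s t (f.coeff n * g.coeff m)
  unfold hev at h2
  rw [h2, map_mul]
  have e : N + M - (n + m) = (N - n) + (M - m) := by omega
  rw [e, pow_add, pow_add]; ring

theorem hev_one (s t : A) (a b : R) :
    hev 1 s t (C a * X + C b) = algebraMap R A a * s + algebraMap R A b * t := by
  have h1 : (C a * X + C b : R[X]) = monomial 1 a + monomial 0 b := by
    rw [← C_mul_X_pow_eq_monomial, pow_one, monomial_zero_left]
  rw [h1, hev_add, hev_monomial le_rfl, hev_monomial (Nat.zero_le 1)]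
  simp

theorem hev_C (s t : A) (r : R) : hev 0 s t (C r) = algebraMap R A r := by
  rw [← monomial_zero_left, hev_monomial le_rfl]; simp

theorem natDegree_lin_le (a b : R) : (C a * X + C b : R[X]).natDegree ≤ 1 :=
  natDegree_linear_le

theorem hev_pow (s t : A) (a b : R) (n : ℕ) :
    hev n s t ((C a * X + C b) ^ n) = (algebraMap R A a * s + algebraMap R A b * t) ^ n := by
  induction n with
  | zero =>
    have := hev_C (A := A) s t (1 : R)
    simpa using this
  | succ n ih =>
    have hd : ((C a * X + C b : R[X]) ^ n).natDegree ≤ n := by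
      have := natDegree_pow_le_of_le n (natDegree_lin_le a b)
      simpa using this
    rw [pow_succ, hev_mul s t hd (natDegree_lin_le a b), ih, hev_one, pow_succ]

/-- `(c X + d)^N f ((a X + b) / (c X + d))`. -/
noncomputable def mob (N : ℕ) (a b c d : R) (f : R[X]) : R[X] :=
  hev N (C a * X + C b : R[X]) (C c * X + C d) f

theorem mob_def (N : ℕ) (a b c d : R) (f : R[X]) :
    mob N a b c d f = ∑ n ∈ Finset.range (N + 1),
      C (f.coeff n) * (C a * X + C b) ^ n * (C c * X + C d) ^ (N - n) := rfl

theorem mob_add (N : ℕ) (a b c d : R) (f g : R[X]) :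
    mob N a b c d (f + g) = mob N a b c d f + mob N a b c d g := hev_add ..

theorem mob_C_mul (N : ℕ) (a b c d r : R) (f : R[X]) :
    mob N a b c d (C r * f) = C r * mob N a b c d f := hev_C_mul ..

@[simp] theorem mob_zero (N : ℕ) (a b c d : R) : mob N a b c d 0 = 0 := hev_zero ..


theorem mob_sum {ι : Type*} (N : ℕ) (a b c d : R) (S : Finset ι) (f : ι → R[X]) :
    mob N a b c d (∑ i ∈ S, f i) = ∑ i ∈ S, mob N a b c d (f i) := hev_sum ..


theorem natDegree_mob_le (N : ℕ) (a b c d : R) (f : R[X]) : (mob N a b c d f).natDegree ≤ N := by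
  rw [mob_def]
  refine natDegree_sum_le_of_forall_le _ _ fun n hn => ?_
  have hn' := Nat.lt_succ_iff.1 (Finset.mem_range.1 hn)
  have h1 : ((C a * X + C b : R[X]) ^ n).natDegree ≤ n := by
    simpa using natDegree_pow_le_of_le n (natDegree_lin_le a b)
  have h2 : ((C c * X + C d : R[X]) ^ (N - n)).natDegree ≤ N - n := by
    simpa using natDegree_pow_le_of_le (N - n) (natDegree_lin_le c d)
  have h3 : (C (f.coeff n) * (C a * X + C b) ^ n : R[X]).natDegree ≤ n :=
    (natDegree_C_mul_le _ _).trans h1
  have h4 := natDegree_mul_le_of_le h3 h2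
  omega

/-- composition law. -/
theorem hev_mob (N : ℕ) (a b c d : R) (s t : A) (f : R[X]) :
    hev N s t (mob N a b c d f)
      = hev N (algebraMap R A a * s + algebraMap R A b * t)
          (algebraMap R A c * s + algebraMap R A d * t) f := by
  rw [mob_def, hev_sum]
  conv_rhs => unfold hev
  refine Finset.sum_congr rfl fun n hn => ?_
  have hn' := Nat.lt_succ_iff.1 (Finset.mem_range.1 hn)
  have h1 : ((C a * X + C b : R[X]) ^ n).natDegree ≤ n := by
    simpa using natDegree_pow_le_of_le n (natDegree_lin_le a b)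
  have h2 : ((C c * X + C d : R[X]) ^ (N - n)).natDegree ≤ N - n := by
    simpa using natDegree_pow_le_of_le (N - n) (natDegree_lin_le c d)
  have e : N = n + (N - n) := by omega
  rw [mul_assoc, hev_C_mul]
  conv_lhs => rw [e]
  rw [show n + (N - n) - n = N - n by omega, hev_mul s t h1 h2, hev_pow, hev_pow]
  ring

theorem mob_mob (N : ℕ) (a b c d a' b' c' d' : R) (f : R[X]) :
    mob N a' b' c' d' (mob N a b c d f)
      = mob N (a * a' + b * c') (a * b' + b * d') (c * a' + d * c') (c * b' + d * d') f := by
  unfold mob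
  have h := hev_mob (A := R[X]) N a b c d (C a' * X + C b') (C c' * X + C d') f
  unfold mob at h
  rw [h]
  congr 1
  · simp only [algebraMap_eq, C_add, C_mul]; ring
  · simp only [algebraMap_eq, C_add, C_mul]; ring

theorem mob_id {N : ℕ} {f : R[X]} (hf : f.natDegree ≤ N) : mob N 1 0 0 1 f = f := by
  rw [mob_def]
  simp only [map_one, one_mul, map_zero, add_zero, zero_mul, zero_add, one_pow, mul_one]
  conv_rhs => rw [f.as_sum_range' (N + 1) (Nat.lt_succ_of_le hf)]
  exact Finset.sum_congr rfl fun n _ => by rw [C_mul_X_pow_eq_monomial]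

theorem hev_scale (N : ℕ) (l s t : A) (f : R[X]) :
    hev N (l * s) (l * t) f = l ^ N * hev N s t f := by
  unfold hev
  rw [Finset.mul_sum]
  refine Finset.sum_congr rfl fun n hn => ?_
  have hn' := Nat.lt_succ_iff.1 (Finset.mem_range.1 hn)
  have e : l ^ N = l ^ n * l ^ (N - n) := by rw [← pow_add]; congr 1; omega
  rw [mul_pow, mul_pow, e]; ring

theorem hev_t_one {N : ℕ} (s : A) {f : R[X]} (hf : f.natDegree ≤ N) :
    hev N s 1 f = aeval s f := by
  rw [aeval_eq_sum_range' (Nat.lt_succ_of_le hf)]
  unfold hev
  exact Finset.sum_congr rfl fun n _ => by rw [one_pow, mul_one, Algebra.smul_def]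

theorem hev_t_zero (N : ℕ) (s : A) (f : R[X]) :
    hev N s 0 f = algebraMap R A (f.coeff N) * s ^ N := by
  unfold hev
  rw [Finset.sum_eq_single N]
  · simp
  · intro n hn hne
    have hn' := Nat.lt_succ_iff.1 (Finset.mem_range.1 hn)
    rw [zero_pow (by omega), mul_zero]
  · intro h
    exact absurd (Finset.mem_range.2 (Nat.lt_succ_self N)) h

theorem eval_mob (N : ℕ) (a b c d t : R) (f : R[X]) :
    (mob N a b c d f).eval t = hev N (a * t + b) (c * t + d) f := by
  have h1 := hev_t_one (A := R) t (natDegree_mob_le N a b c d f)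
  rw [hev_mob] at h1
  simp only [mul_one, Algebra.algebraMap_self, RingHom.id_apply] at h1
  rw [h1]; rfl


theorem coeff_mob_top (N : ℕ) (a b c d : R) (f : R[X]) :
    (mob N a b c d f).coeff N = hev N a c f := by
  have h := hev_mob (A := R) N a b c d 1 0 f
  simp only [mul_one, mul_zero, add_zero, Algebra.algebraMap_self, RingHom.id_apply] at h
  rw [hev_t_zero] at h
  simpa using h

theorem coeff_mob_zero (N : ℕ) (a b c d : R) (f : R[X]) :
    (mob N a b c d f).coeff 0 = hev N b d f := by
  have h := eval_mob N a b c d 0 f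
  rw [mul_zero, mul_zero, zero_add, zero_add] at h
  rw [← h, coeff_zero_eq_eval_zero]



theorem map_mob {S : Type*} [CommRing S] (φ : R →+* S) (N : ℕ) (a b c d : R) (f : R[X]) :
    (mob N a b c d f).map φ = mob N (φ a) (φ b) (φ c) (φ d) (f.map φ) := by
  rw [mob_def, mob_def, Polynomial.map_sum]
  refine Finset.sum_congr rfl fun n _ => ?_
  simp only [Polynomial.map_mul, Polynomial.map_pow, Polynomial.map_add, map_C, map_X, coeff_map]


end basic

section field

variable {K : Type u} [Field K]

theorem hev_div {N : ℕ} (s : K) {t : K} (ht : t ≠ 0) {f : K[X]} (hf : f.natDegree ≤ N) :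
    hev N s t f = t ^ N * f.eval (s / t) := by
  have h := hev_scale (A := K) N t (s / t) 1 f
  rw [mul_div_cancel₀ _ ht, mul_one, hev_t_one _ hf] at h
  rw [h]; rfl

theorem eval_mob_div {N : ℕ} (a b c d : K) {t : K} (ht : c * t + d ≠ 0) {f : K[X]}
    (hf : f.natDegree ≤ N) :
    (mob N a b c d f).eval t = (c * t + d) ^ N * f.eval ((a * t + b) / (c * t + d)) := by
  rw [eval_mob, hev_div _ ht hf]


/-- derivative of `mob`, evaluated at a point `t` with `c t + d ≠ 0`. -/
theorem eval_derivative_mob {N : ℕ} (a b c d : K) {t : K} (ht : c * t + d ≠ 0) {f : K[X]}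
    (hf : f.natDegree ≤ N) :
    (derivative (mob N a b c d f)).eval t * (c * t + d)
      = N * c * (mob N a b c d f).eval t
        + (c * t + d) ^ N * ((a * d - b * c) / (c * t + d))
          * (derivative f).eval ((a * t + b) / (c * t + d)) := by
  -- linear in `f`: check on monomials
  have key : ∀ n ≤ N, ∀ r : K,
      (derivative (mob N a b c d (monomial n r))).eval t * (c * t + d)
      = N * c * (mob N a b c d (monomial n r)).eval t
        + (c * t + d) ^ N * ((a * d - b * c) / (c * t + d))
          * (derivative (monomial n r)).eval ((a * t + b) / (c * t + d)) := by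
    intro n hn r
    have e1 : mob N a b c d (monomial n r)
        = C r * (C a * X + C b) ^ n * (C c * X + C d) ^ (N - n) := by
      unfold mob
      rw [hev_monomial hn]; rfl
    rw [e1]
    have e2 : derivative (C r * (C a * X + C b) ^ n * (C c * X + C d) ^ (N - n))
        = C r * (C (n : K) * (C a * X + C b) ^ (n - 1) * C a) * (C c * X + C d) ^ (N - n)
          + C r * (C a * X + C b) ^ n
            * (C ((N - n : ℕ) : K) * (C c * X + C d) ^ (N - n - 1) * C c) := by
      simp only [derivative_mul, derivative_C, zero_mul, zero_add, derivative_pow, derivative_add,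
        derivative_X, mul_one, add_zero]
    rw [e2]
    simp only [eval_add, eval_mul, eval_pow, eval_C, eval_X, derivative_monomial, eval_monomial]
    set p := a * t + b with hp
    set q := c * t + d with hq
    have hdet : a * q - c * p = a * d - b * c := by rw [hp, hq]; ring
    rw [← hdet]
    obtain ⟨m, rfl⟩ : ∃ m, N = n + m := ⟨N - n, by omega⟩
    have e3 : n + m - n = m := by omega
    rw [e3]
    rcases n with _ | n
    · rcases m with _ | m
      · simp
      · simp only [Nat.cast_zero, zero_mul, mul_zero, pow_zero, Nat.add_sub_cancel, zero_add,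
          Nat.zero_add, mul_one, add_zero]
        push_cast
        ring
    · rcases m with _ | m
      · simp only [Nat.cast_zero, zero_mul, mul_zero, pow_zero, Nat.add_sub_cancel, add_zero,
          mul_one]
        rw [div_pow]
        field_simp
        ring
      · simp only [Nat.add_sub_cancel]
        rw [div_pow]
        push_cast
        field_simp
        ring
  have e := f.as_sum_range' (N + 1) (Nat.lt_succ_of_le hf)
  have hs : ∀ S : Finset ℕ, S ⊆ Finset.range (N + 1) →
      (derivative (mob N a b c d (∑ n ∈ S, monomial n (f.coeff n)))).eval t * (c * t + d)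
      = N * c * (mob N a b c d (∑ n ∈ S, monomial n (f.coeff n))).eval t
        + (c * t + d) ^ N * ((a * d - b * c) / (c * t + d))
          * (derivative (∑ n ∈ S, monomial n (f.coeff n))).eval ((a * t + b) / (c * t + d)) := by
    classical
    intro S
    induction S using Finset.induction_on with
    | empty => intro _; simp
    | insert i S hi ih =>
      intro hS
      have h1 := ih (fun x hx => hS (Finset.mem_insert_of_mem hx))
      have h2 := key i (Nat.lt_succ_iff.1 (Finset.mem_range.1 (hS (Finset.mem_insert_self i S))))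
        (f.coeff i)
      rw [Finset.sum_insert hi, mob_add, derivative_add, derivative_add, eval_add, eval_add,
        eval_add]
      linear_combination h1 + h2
  have h := hs (Finset.range (N + 1)) (Finset.Subset.refl _)
  rw [← e] at h
  exact h

end field

end Crest.Agent.R260.Mob_919
end

-- ▼ part R260/FamDefs_919

/-!
# Row 260 (S0398), GENFAM (helper919): the irreducible family `CC = V(P)` of tuples of class `2β`
(plan of record #6327 (I)), frozen definitions

`N i = 2 β i`. A tuple `F : ∀ i, J i → R[X]` of degrees `≤ N i` is the point `cfv N F` of the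
coefficient space with variables `Cx J N`.
-/

set_option autoImplicit false

namespace Crest.Agent.R260.Fam_919

open Polynomial
open Crest.Agent.R270.BM_360 Crest.Agent.R260.Lin_678 Crest.Agent.R260.Mob_919

universe u v w

variable {I : Type} {J : I → Type} [Fintype I] [∀ i, Fintype (J i)]

/-- coefficient variables of tuples of degree `≤ N`. -/
abbrev Cx (J : I → Type) (N : I → ℕ) : Type := Σ x : (Σ i, J i), Fin (N x.1 + 1)

/-- the coefficient vector of a tuple. -/
def cfv {R : Type v} [CommRing R] (N : I → ℕ) (F : ∀ i, J i → R[X]) : Cx J N → R :=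
  fun y => (F y.1.1 y.1.2).coeff y.2

/-- `μ · (F ∘ g)`, `g = (a, b; c, d)`. -/
noncomputable def mobT {R : Type v} [CommRing R] (N : I → ℕ) (μ : I → R) (a b c d : R)
    (F : ∀ i, J i → R[X]) : ∀ i, J i → R[X] :=
  fun i x => C (μ i) * mob (N i) a b c d (F i x)

/-- `F` is a point of `V(P)` with values in the `k`-algebra `R`. -/
structure InC {k : Type u} [Field k] (N : I → ℕ) (P : Ideal (MvPolynomial (Cx J N) k))
    {R : Type v} [CommRing R] [Algebra k R] (F : ∀ i, J i → R[X]) : Prop where
  deg : ∀ i x, (F i x).natDegree ≤ N i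
  mem : ∀ p ∈ P, MvPolynomial.aeval (cfv N F) p = 0

/-- `H` is a generic point of `V(P)` over the field `F₀ ⊇ k`: its relations over `F₀` are exactly
the elements of the extended ideal `P F₀`. -/
structure Gen {k : Type u} [Field k] (N : I → ℕ) (P : Ideal (MvPolynomial (Cx J N) k))
    (F₀ : Type v) [Field F₀] [Algebra k F₀] {κ : Type w} [Field κ] [Algebra F₀ κ]
    (H : ∀ i, J i → κ[X]) : Prop where
  deg : ∀ i x, (H i x).natDegree ≤ N i
  iff : ∀ p : MvPolynomial (Cx J N) F₀,
    MvPolynomial.aeval (cfv N H) p = 0 ↔ p ∈ P.map (MvPolynomial.map (algebraMap k F₀))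

/-- value of a polynomial on a pair of points. -/
noncomputable def pval {k : Type u} [Field k] {A : Type v} [CommRing A] [Algebra k A]
    (Δ : MvPolynomial ((Σ i, J i) ⊕ (Σ i, J i)) k) (v v' : ∀ i, J i → A) : A :=
  MvPolynomial.aeval (Sum.elim (fun x : Σ i, J i => v x.1 x.2) (fun x : Σ i, J i => v' x.1 x.2)) Δ

open Classical in
/-- bihomogeneous polynomials on pairs of points (803's `BHom` over any field). -/
def BH {k : Type u} [Field k] (Δ : MvPolynomial ((Σ i, J i) ⊕ (Σ i, J i)) k) : Prop :=
  ∃ d : I ⊕ I → ℕ, MvPolynomial.IsWeightedHomogeneous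
    (fun x : (Σ i, J i) ⊕ (Σ i, J i) => (Pi.single (Sum.map Sigma.fst Sigma.fst x) 1 : I ⊕ I → ℕ))
    Δ d

/-- **The irreducible family `CC = V(P)`** of tuples of class `2β` containing the twistor lines. -/
structure Fam {k : Type u} [Field k] (D : CData k I J)
    (P : Ideal (MvPolynomial (Cx J (fun i => 2 * D.β i)) k)) : Prop where
  prime : P.IsPrime
  /-- invariance under linear substitutions and scalings, over every `k`-algebra -/
  inv : ∀ (R : Type u) [CommRing R] [Algebra k R] (F : ∀ i, J i → R[X]),
    InC (fun i => 2 * D.β i) P F → ∀ (μ : I → R) (a b c d : R),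
      InC (fun i => 2 * D.β i) P (mobT (fun i => 2 * D.β i) μ a b c d F)
  /-- all members lie on `Z` -/
  onX : ∀ (R : Type u) [CommRing R] [Algebra k R] (F : ∀ i, J i → R[X]),
    InC (fun i => 2 * D.β i) P F → OnX D.E F
  /-- one member over `k` is an honest transversal map of class `2β` -/
  good : ∃ F : ∀ i, J i → k[X], InC (fun i => 2 * D.β i) P F ∧ IsMap D.E F ∧ cls F = 2 • D.β ∧
    ∃ c : k, c ≠ 0 ∧ D.th.Val F (fun i x => derivative (F i x)) (C c)
  /-- the pairs of points of the members over `k` are Zariski dense in `Z × Z` -/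
  pairs : ∀ Δ : MvPolynomial ((Σ i, J i) ⊕ (Σ i, J i)) k, BH Δ →
    (∀ F : ∀ i, J i → k[X], InC (fun i => 2 * D.β i) P F → ∀ s t : k,
      pval Δ (fun i x => (F i x).eval s) (fun i x => (F i x).eval t) = 0) →
    ∀ v v' : ∀ i, J i → k, OnX D.E v → (∀ i, v i ≠ 0) → OnX D.E v' → (∀ i, v' i ≠ 0) →
      pval Δ v v' = 0

end Crest.Agent.R260.Fam_919
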