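import Crest.Agent.R260.Qk7_151
import Crest.Agent.R260.QKm_838
import Crest.Agent.R260.OutDefs_516
import Crest.Agent.R260.MainC_803

-- ▼ part R260/Qk9_151
section

/-!
# Row 260, QK-LOC file 9 (helper151): the `Dat` instance of division K

`dat_all` : under the hypotheses of S0398 there is `ν₀ > 0` such that every atlas chart carries
`QKm_838.Dat (G.g e) e.target (Q.J e) (cf (G.g e) (Q.J e)) (-ν₀)`.
-/

set_option autoImplicit false
set_option linter.unusedSimpArgs false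

open scoped Manifold ContDiff Topology
open Filter Set
open Crest.GeometryTopology.CoordMetric
open Crest.GeometryTopology.ChartRiem

noncomputable section

namespace Crest.Agent.R260.Qk9_151

open Crest.Agent.R260.Qk4_151 Crest.Agent.R260.Qk5_151
open Crest.Agent.R260.Qk6_151 Crest.Agent.R260.Qk7_151
open Crest.Agent.R260.QKm_838

variable {n : ℕ}

local notation "𝔼" => EuclideanSpace ℝ (Fin n)

section

variable {g : MetricField n} {J : Fin 3 → EuclideanSpace ℝ (Fin n) → Matrix (Fin n) (Fin n) ℝ}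
  {U : Set (EuclideanSpace ℝ (Fin n))} {x : EuclideanSpace ℝ (Fin n)}

/-- `g J_a` is antisymmetric. -/
lemma gJ_antisymm (h : QKOn g J U) (hx : x ∈ U) (a : Fin 3) (i j : Fin n) :
    (g x * J a x) i j = -(g x * J a x) j i := by
  have hs : (g x).transpose = g x := by
    have h0 := (h.riem.posDef x hx).isHermitian
    rwa [Matrix.IsHermitian, Matrix.conjTranspose_eq_transpose_of_trivial] at h0
  have h1 : (J a x).transpose * g x = -(g x * J a x) := by
    have h2 := congrArg (fun A => A * J a x) (h.orth x hx a)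
    simp only [Matrix.mul_assoc, h.sq x hx a] at h2
    simp only [Matrix.mul_neg, Matrix.mul_one, neg_eq_iff_eq_neg] at h2
    exact h2
  have h3 : (g x * J a x).transpose = -(g x * J a x) := by
    rw [Matrix.transpose_mul, hs, h1]
  have h4 := congrFun (congrFun h3 j) i
  simpa [Matrix.transpose_apply] using h4

lemma E3_eq (J' : Fin 3 → Matrix (Fin n) (Fin n) ℝ) (a b : Fin 3) :
    E3 J' a b = ∑ c, eps a b c • J' c := by
  fin_cases a <;> fin_cases b <;> simp [E3, Fin.sum_univ_three, eps]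

/-- the local data of division K. -/
theorem dat {m : ℕ} (hm : 2 ≤ m) (hnm : n = 4 * m) (h : QKOn g J U) {ν₀ : ℝ}
    (hν : ∀ x ∈ U, nu g m x = ν₀) : Dat g U J (cf g J) (-ν₀) where
  riem := h.riem
  smJ := h.smooth
  sq := h.sq
  mul := h.mul
  orth := h.orth
  cov := fun _ hx i a => h.cf_spec hx i a
  smc := fun i a b => h.cf_smooth i a b
  skc := fun _ hx i a b => h.cf_antisymm hx i a b
  curv := by
    intro x hx i j a b
    have h1 := Fc_eq hm hnm h hx j i a b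
    rw [hν x hx] at h1
    have h2 : (g x * E3 (fun d => J d x) a b) i j = ∑ c, eps a b c * (g x * J c x) i j := by
      rw [E3_eq, Matrix.mul_sum, Matrix.sum_apply]
      refine Finset.sum_congr rfl fun c _ => ?_
      rw [Matrix.mul_smul, Matrix.smul_apply, smul_eq_mul]
    have h3 : ∑ c, eps a b c * (g x * J c x) j i = -∑ c, eps a b c * (g x * J c x) i j := by
      rw [← Finset.sum_neg_distrib]
      refine Finset.sum_congr rfl fun c _ => ?_
      rw [gJ_antisymm h hx c j i]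
      ring
    rw [h2]
    rw [h3] at h1
    rw [show -ν₀ * ∑ c, eps a b c * (g x * J c x) i j =
      ν₀ * -∑ c, eps a b c * (g x * J c x) i j by ring, ← h1]
    rfl

end

section

variable {M : Type} [TopologicalSpace M] [ChartedSpace (EuclideanSpace ℝ (Fin n)) M]
  [IsManifold 𝓘(ℝ, EuclideanSpace ℝ (Fin n)) ∞ M]

/-- **all charts, one constant** -/
theorem dat_all {m : ℕ} (hm : 2 ≤ m) (hnm : n = 4 * m) [ConnectedSpace M] (G : ChartMetric n M)
    (Q : QuaternionicStructure n M G)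
    (hpos : ∀ e ∈ atlas (EuclideanSpace ℝ (Fin n)) M, ∀ x ∈ e.target, 0 < scalarCurv (G.g e) x) :
    ∃ ν₀ : ℝ, 0 < ν₀ ∧ ∀ e ∈ atlas (EuclideanSpace ℝ (Fin n)) M,
      Dat (G.g e) e.target (Q.J e) (cf (G.g e) (Q.J e)) (-ν₀) := by
  obtain ⟨ν₀, h0, h1⟩ := nu_const hm hnm G Q hpos
  exact ⟨ν₀, h0, fun e he => dat hm hnm (qkOn G Q he) (h1 e he)⟩

end

end Crest.Agent.R260.Qk9_151
end
end

-- ▼ part R260/Out3_516
section

/-!
# R260 (S0398), AG-OUT part 3 (helper516): the biquadratic germ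

Near a pair `(S p u₁, S p v₁)` with `D ≠ 0` the algebraic input gives a holomorphic function `Φ` and
smooth coefficients `g_ij(x, y)` with `Φ(S x u, S y v) = ∑ g_ij(x,y) u^i v^j`, and
`∑ g_ij(x, x) u^i v^j = κ (u - v)²`.
-/

set_option autoImplicit false
set_option linter.unusedSectionVars false

open Set Filter Topology Metric
open scoped ContDiff
open Crest.GeometryTopology.CoordMetric Crest.GeometryTopology.ChartRiem
open Crest.Agent.R260.Tw_979 Crest.Agent.R260.TwPen_389 Crest.Agent.R260.End_919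
open Crest.Agent.R270.BM_360

noncomputable section

namespace Crest.Agent.R260.Out_516

variable {n : ℕ} {I : Type} [Fintype I] {Jt : I → Type} [∀ i, Fintype (Jt i)]

/-- a biquadratic polynomial vanishing on a product of two balls is zero -/
theorem bq_zero_of_balls (m : Fin 3 → Fin 3 → ℂ) {u1 v1 : ℂ} {r : ℝ} (hr : 0 < r)
    (h : ∀ u ∈ ball u1 r, ∀ v ∈ ball v1 r, bq m u v = 0) : ∀ i j, m i j = 0 := by
  have hinf : ∀ c : ℂ, (ball c r).Infinite := by
    intro c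
    refine (infinite_seg r hr c 1 one_ne_zero).mono ?_
    rintro _ ⟨t, ht, rfl⟩
    rw [mem_ball, dist_eq_norm]
    simpa using ht
  intro i j
  refine coef_zero (fun i => m i j) (ball u1 r) (hinf u1) (fun u hu => ?_) i
  refine coef_zero (fun j => ∑ i : Fin 3, m i j * u ^ (i : ℕ)) (ball v1 r) (hinf v1)
    (fun v hv => ?_) j
  have := h u hu v hv
  unfold bq at this
  rw [Finset.sum_comm] at this
  rw [← this]
  refine Finset.sum_congr rfl fun j _ => ?_
  rw [Finset.sum_mul]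

/-- the matrix of `(u - v)²` -/
def sqm : Fin 3 → Fin 3 → ℂ := ![![0, 0, 1], ![0, -2, 0], ![1, 0, 0]]

theorem bq_sqm (κ u v : ℂ) : bq (fun i j => κ * sqm i j) u v = κ * (u - v) ^ 2 := by
  simp only [bq, sqm, Fin.sum_univ_three]
  simp
  ring

/-- interpolation in both variables -/
theorem bq_interp {u1 v1 : ℂ} {r : ℝ} (hr : 0 < r) (h : ℂ → ℂ → ℂ)
    (h2 : ∀ u ∈ ball u1 r, ∃ q : Polynomial ℂ, q.natDegree ≤ 2 ∧ ∀ v ∈ ball v1 r, h u v = q.eval v)
    (h1 : ∀ v ∈ ball v1 r, ∃ q : Polynomial ℂ, q.natDegree ≤ 2 ∧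
      ∀ u ∈ ball u1 r, h u v = q.eval u) :
    ∀ u ∈ ball u1 r, ∀ v ∈ ball v1 r,
      h u v = bq (fun i j => ∑ a, ∑ b, h (nd u1 r a) (nd v1 r b) *
        ((lg u1 r a).coeff i * (lg v1 r b).coeff j)) u v := by
  intro u hu v hv
  obtain ⟨q, hq, hqe⟩ := h2 u hu
  rw [hqe v hv, interp hr q hq v]
  have e1 : ∀ b : Fin 3, q.eval (nd v1 r b) =
      ∑ a : Fin 3, h (nd u1 r a) (nd v1 r b) * (lg u1 r a).eval u := by
    intro b
    rw [← hqe _ (nd_mem v1 hr b)]
    obtain ⟨q', hq', hqe'⟩ := h1 _ (nd_mem v1 hr b)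
    rw [hqe' u hu, interp hr q' hq' u]
    refine Finset.sum_congr rfl fun a _ => ?_
    rw [← hqe' _ (nd_mem u1 hr a)]
  have e2 : ∀ b : Fin 3, q.eval (nd v1 r b) * (lg v1 r b).eval v =
      ∑ a : Fin 3, ∑ i : Fin 3, ∑ j : Fin 3, h (nd u1 r a) (nd v1 r b) *
        ((lg u1 r a).coeff i * (lg v1 r b).coeff j) * u ^ (i : ℕ) * v ^ (j : ℕ) := by
    intro b
    rw [e1 b, Finset.sum_mul]
    refine Finset.sum_congr rfl fun a _ => ?_
    rw [lg_eval u1 hr a u, lg_eval v1 hr b v, mul_assoc, Finset.sum_mul_sum, Finset.mul_sum]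
    refine Finset.sum_congr rfl fun i _ => ?_
    rw [Finset.mul_sum]
    refine Finset.sum_congr rfl fun j _ => ?_
    ring
  rw [Finset.sum_congr rfl fun b _ => e2 b]
  unfold bq
  simp only [Finset.sum_mul]
  -- reorder the sums
  rw [Finset.sum_comm]
  rw [Finset.sum_congr rfl fun a _ => Finset.sum_comm]
  rw [Finset.sum_comm]
  refine Finset.sum_congr rfl fun i _ => ?_
  rw [Finset.sum_congr rfl fun a _ => Finset.sum_comm]
  rw [Finset.sum_comm]

/-- the germ of the holomorphic two-point function along the family `S` -/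
structure Germ (w : I → ℤ) (S : EuclideanSpace ℝ (Fin n) → ℂ → Pt Jt) (κ : ℂ)
    (V : Set (EuclideanSpace ℝ (Fin n))) (u1 v1 : ℂ) (r : ℝ) (Φ : Pt Jt × Pt Jt → ℂ) : Prop where
  ana : ∀ x ∈ V, ∀ y ∈ V, ∀ u ∈ ball u1 r, ∀ v ∈ ball v1 r, ContDiffAt ℂ ω Φ (S x u, S y v)
  quad2 : ∀ x ∈ V, ∀ y ∈ V, ∀ u ∈ ball u1 r, ∃ q : Polynomial ℂ, q.natDegree ≤ 2 ∧
    ∀ v ∈ ball v1 r, Φ (S x u, S y v) = q.eval v
  quad1 : ∀ x ∈ V, ∀ y ∈ V, ∀ v ∈ ball v1 r, ∃ q : Polynomial ℂ, q.natDegree ≤ 2 ∧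
    ∀ u ∈ ball u1 r, Φ (S x u, S y v) = q.eval u
  diag : ∀ x ∈ V, ∀ u ∈ ball u1 r, ∀ v ∈ ball v1 r, Φ (S x u, S x v) = κ * (u - v) ^ 2
  hom1 : ∀ x ∈ V, ∀ y ∈ V, ∀ u ∈ ball u1 r, ∀ v ∈ ball v1 r, ∀ᶠ l in 𝓝 (1 : I → ℂ),
    Φ (scl l (S x u), S y v) = (∏ i, l i ^ w i) * Φ (S x u, S y v)
  hom2 : ∀ x ∈ V, ∀ y ∈ V, ∀ u ∈ ball u1 r, ∀ v ∈ ball v1 r, ∀ᶠ l in 𝓝 (1 : I → ℂ),
    Φ (S x u, scl l (S y v)) = (∏ i, l i ^ w i) * Φ (S x u, S y v)

/-- the pair of vectors -/
def prS (S : EuclideanSpace ℝ (Fin n) → ℂ → Pt Jt)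
    (z : (EuclideanSpace ℝ (Fin n) × ℂ) × (EuclideanSpace ℝ (Fin n) × ℂ)) : Pt Jt × Pt Jt :=
  (S z.1.1 z.1.2, S z.2.1 z.2.2)

theorem scl_one (v : Pt Jt) : scl (1 : I → ℂ) v = v := by
  funext y
  simp [scl]

theorem continuous_scl (v : Pt Jt) : Continuous (fun l : I → ℂ => scl l v) := by
  refine continuous_pi fun y => ?_
  exact (continuous_apply y.1).mul continuous_const

theorem continuousAt_wt (w : I → ℤ) : ContinuousAt (fun l : I → ℂ => ∏ i, l i ^ w i) 1 := by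
  have h : ∀ i, ContinuousAt (fun l : I → ℂ => l i ^ w i) 1 := fun i =>
    (continuous_apply i).continuousAt.zpow₀ (w i) (Or.inl (by simp))
  exact tendsto_finsetProd _ fun i _ => h i

theorem wt_one (w : I → ℤ) : ∏ i, (1 : I → ℂ) i ^ w i = 1 := by simp

theorem eventually_ne_zero : ∀ᶠ l in 𝓝 (1 : I → ℂ), ∀ i, l i ≠ 0 := by
  rw [eventually_all]
  intro i
  exact (continuous_apply i).continuousAt.eventually_ne (by simp)

section GermEx

variable {g : MetricField n} {J : Fin 3 → EuclideanSpace ℝ (Fin n) → Matrix (Fin n) (Fin n) ℝ}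
  {c : EuclideanSpace ℝ (Fin n) → Fin n → Fin 3 → Fin 3 → ℝ}
  {U : Set (EuclideanSpace ℝ (Fin n))} {w : I → ℤ}
  {S : EuclideanSpace ℝ (Fin n) → ℂ → Pt Jt} {κ : ℂ}
  {P : Polynomial (MvPolynomial ((Σ i, Jt i) ⊕ (Σ i, Jt i)) ℂ)}
  {D : MvPolynomial ((Σ i, Jt i) ⊕ (Σ i, Jt i)) ℂ}

theorem TwIn.contDiffAt (hT : TwIn g J c U w S) {x : EuclideanSpace ℝ (Fin n)} (hx : x ∈ U)
    (u : ℂ) : ContDiffAt ℝ ∞ (fun z : EuclideanSpace ℝ (Fin n) × ℂ => S z.1 z.2) (x, u) := by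
  rw [contDiffAt_pi]
  intro y
  refine (hT.sm y).contDiffAt ?_
  exact (hT.qh.isOpen.prod isOpen_univ).mem_nhds ⟨hx, mem_univ _⟩

theorem TwIn.contDiffAt_prS (hT : TwIn g J c U w S) {x y : EuclideanSpace ℝ (Fin n)} (hx : x ∈ U)
    (hy : y ∈ U) (u v : ℂ) : ContDiffAt ℝ ∞ (prS S) ((x, u), (y, v)) := by
  unfold prS
  refine ContDiffAt.prodMk ?_ ?_
  · exact ContDiffAt.comp (g := fun z : EuclideanSpace ℝ (Fin n) × ℂ => S z.1 z.2)
      (f := fun z : (EuclideanSpace ℝ (Fin n) × ℂ) × (EuclideanSpace ℝ (Fin n) × ℂ) => z.1) _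
      (hT.contDiffAt hx u) contDiffAt_fst
  · exact ContDiffAt.comp (g := fun z : EuclideanSpace ℝ (Fin n) × ℂ => S z.1 z.2)
      (f := fun z : (EuclideanSpace ℝ (Fin n) × ℂ) × (EuclideanSpace ℝ (Fin n) × ℂ) => z.2) _
      (hT.contDiffAt hy v) contDiffAt_snd

theorem TwIn.diff2 (hT : TwIn g J c U w S) {x : EuclideanSpace ℝ (Fin n)} (hx : x ∈ U) :
    Differentiable ℂ (fun u => S x u) := by
  rw [differentiable_pi]
  exact hT.hol x hx

theorem exists_germ (hT : TwIn g J c U w S) (hA : AgIn U w S κ P D)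
    {W : Set (EuclideanSpace ℝ (Fin n))} (hW : IsOpen W) (hne : W.Nonempty) (hWU : W ⊆ U) :
    ∃ V : Set (EuclideanSpace ℝ (Fin n)), IsOpen V ∧ V.Nonempty ∧ V ⊆ W ∧
      ∃ (u1 v1 : ℂ) (r : ℝ) (Φ : Pt Jt × Pt Jt → ℂ), 0 < r ∧ Germ w S κ V u1 v1 r Φ := by
  obtain ⟨p, hpW, u1, v1, huv, hD⟩ := hA.dens W hW hne hWU
  have hpU : p ∈ U := hWU hpW
  set q0 : Pt Jt × Pt Jt := (S p u1, S p v1) with hq0
  set t0 : ℂ := κ * (u1 - v1) ^ 2 with ht0
  have hr0 : (evP P q0).eval t0 = 0 := hA.root p hpU u1 v1 huv hD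
  have hr1 : (evP P q0).derivative.eval t0 ≠ 0 := hA.simple p hpU p hpU u1 v1 hD t0 hr0
  obtain ⟨Φ, hΦa, hΦ0, hΦr, hΦu⟩ := root_germ P q0 t0 hr0 hr1
  -- eventually near `q0`
  have hΦc : ContinuousAt Φ q0 := hΦa.continuousAt
  have e1 : ∀ᶠ q in 𝓝 q0, ContDiffAt ℂ ω Φ q := hΦa.eventually (by simp)
  have e2 : ∀ᶠ q in 𝓝 q0, ∀ᶠ z in 𝓝 (q, Φ q), (evP P z.1).eval z.2 = 0 → z.2 = Φ z.1 := by
    have h1 : Tendsto (fun q => (q, Φ q)) (𝓝 q0) (𝓝 (q0, t0)) := by
      rw [← hΦ0]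
      exact (continuousAt_id.prodMk hΦc)
    exact h1.eventually hΦu.eventually_nhds
  have e3 : ∀ᶠ q in 𝓝 q0, valD D q.1 q.2 ≠ 0 := by
    have hc : Continuous (fun q : Pt Jt × Pt Jt => valD D q.1 q.2) := (contDiff_aeval D).continuous
    exact hc.continuousAt.eventually_ne hD
  -- pull back by `prS`
  have hpr : ContinuousAt (prS S) ((p, u1), (p, v1)) := (hT.contDiffAt_prS hpU hpU u1 v1).continuousAt
  have e4 : ∀ᶠ z in 𝓝 (((p, u1), (p, v1)) : (EuclideanSpace ℝ (Fin n) × ℂ) × (EuclideanSpace ℝ (Fin n) × ℂ)),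
      ContDiffAt ℂ ω Φ (prS S z) ∧ (evP P (prS S z)).eval (Φ (prS S z)) = 0 ∧
      (∀ᶠ z' in 𝓝 (prS S z, Φ (prS S z)), (evP P z'.1).eval z'.2 = 0 → z'.2 = Φ z'.1) ∧
      valD D (prS S z).1 (prS S z).2 ≠ 0 :=
    hpr.eventually (e1.and (hΦr.and (e2.and e3)))
  have e5 : ∀ᶠ z in 𝓝 (((p, u1), (p, v1)) : (EuclideanSpace ℝ (Fin n) × ℂ) × (EuclideanSpace ℝ (Fin n) × ℂ)),
      (evP P (prS S z)).eval (κ * (z.1.2 - z.2.2) ^ 2) = 0 →
        κ * (z.1.2 - z.2.2) ^ 2 = Φ (prS S z) := by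
    have h1 : Tendsto (fun z : (EuclideanSpace ℝ (Fin n) × ℂ) × (EuclideanSpace ℝ (Fin n) × ℂ) =>
        (prS S z, κ * (z.1.2 - z.2.2) ^ 2)) (𝓝 ((p, u1), (p, v1))) (𝓝 (q0, t0)) := by
      refine hpr.prodMk_nhds ?_
      have : Continuous (fun z : (EuclideanSpace ℝ (Fin n) × ℂ) × (EuclideanSpace ℝ (Fin n) × ℂ) =>
        κ * (z.1.2 - z.2.2) ^ 2) := by fun_prop
      exact this.continuousAt
    exact h1.eventually hΦu
  have e6 : ∀ᶠ z in 𝓝 (((p, u1), (p, v1)) : (EuclideanSpace ℝ (Fin n) × ℂ) × (EuclideanSpace ℝ (Fin n) × ℂ)),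
      z.1.2 ≠ z.2.2 := by
    have : Continuous (fun z : (EuclideanSpace ℝ (Fin n) × ℂ) × (EuclideanSpace ℝ (Fin n) × ℂ) =>
        z.1.2 - z.2.2) := by fun_prop
    filter_upwards [this.continuousAt.eventually_ne (show u1 - v1 ≠ 0 from sub_ne_zero.2 huv)]
      with z hz
    exact sub_ne_zero.1 hz
  obtain ⟨ε, hε, hball⟩ := Metric.eventually_nhds_iff_ball.1 (e4.and (e5.and e6))
  have hmem : ∀ {x y : EuclideanSpace ℝ (Fin n)} {u v : ℂ}, x ∈ ball p ε → y ∈ ball p ε →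
      u ∈ ball u1 ε → v ∈ ball v1 ε → ((x, u), (y, v)) ∈ ball (((p, u1), (p, v1)) :
        (EuclideanSpace ℝ (Fin n) × ℂ) × (EuclideanSpace ℝ (Fin n) × ℂ)) ε := by
    intro x y u v hx hy hu hv
    rw [mem_ball] at *
    rw [Prod.dist_eq, Prod.dist_eq, Prod.dist_eq]
    exact max_lt (max_lt hx hu) (max_lt hy hv)
  have hHd : ∀ x ∈ ball p ε ∩ W, ∀ y ∈ ball p ε ∩ W, ∀ u ∈ ball u1 ε, ∀ v ∈ ball v1 ε,
      DifferentiableAt ℂ Φ (S x u, S y v) := fun x hx y hy u hu v hv =>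
    (hball _ (hmem hx.1 hy.1 hu hv)).1.1.differentiableAt (by simp)
  refine ⟨ball p ε ∩ W, isOpen_ball.inter hW, ⟨p, mem_ball_self hε, hpW⟩, inter_subset_right,
    u1, v1, ε, Φ, hε, ?_⟩
  constructor
  · intro x hx y hy u hu v hv
    exact (hball _ (hmem hx.1 hy.1 hu hv)).1.1
  · intro x hx y hy u hu
    have hd : DifferentiableOn ℂ (fun v => Φ (S x u, S y v)) (ball v1 ε) := by
      intro v hv
      have h1 := hHd x hx y hy u hu v hv
      have h2 : DifferentiableAt ℂ (fun v => (S x u, S y v)) v :=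
        (differentiableAt_const _).prodMk (hT.diff2 (hWU hy.2) v)
      exact (h1.comp v h2).differentiableWithinAt
    exact hA.quad2 x (hWU hx.2) y (hWU hy.2) u
      ⟨v1, (hball _ (hmem hx.1 hy.1 hu (mem_ball_self hε))).1.2.2.2⟩ v1 ε hε _ hd
      (fun v hv => (hball _ (hmem hx.1 hy.1 hu hv)).1.2.1)
  · intro x hx y hy v hv
    have hd : DifferentiableOn ℂ (fun u => Φ (S x u, S y v)) (ball u1 ε) := by
      intro u hu
      have h1 := hHd x hx y hy u hu v hv
      have h2 : DifferentiableAt ℂ (fun u => (S x u, S y v)) u :=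
        (hT.diff2 (hWU hx.2) u).prodMk (differentiableAt_const _)
      exact (h1.comp u h2).differentiableWithinAt
    exact hA.quad1 x (hWU hx.2) y (hWU hy.2) v
      ⟨u1, (hball _ (hmem hx.1 hy.1 (mem_ball_self hε) hv)).1.2.2.2⟩ u1 ε hε _ hd
      (fun u hu => (hball _ (hmem hx.1 hy.1 hu hv)).1.2.1)
  · intro x hx u hu v hv
    have h := hball _ (hmem hx.1 hx.1 hu hv)
    exact (h.2.1 (hA.root x (hWU hx.2) u v h.2.2 h.1.2.2.2)).symm
  · intro x hx y hy u hu v hv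
    have h := (hball _ (hmem hx.1 hy.1 hu hv)).1
    have h1 : Tendsto (fun l : I → ℂ => (((scl l (S x u), S y v) : Pt Jt × Pt Jt),
        (∏ i, l i ^ w i) * Φ (S x u, S y v))) (𝓝 1) (𝓝 ((S x u, S y v), Φ (S x u, S y v))) := by
      have c1 : ContinuousAt (fun l : I → ℂ => (((scl l (S x u), S y v) : Pt Jt × Pt Jt),
        (∏ i, l i ^ w i) * Φ (S x u, S y v))) 1 :=
        ((continuous_scl (S x u)).continuousAt.prodMk continuousAt_const).prodMk
          ((continuousAt_wt w).mul continuousAt_const)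
      have := c1.tendsto
      simpa [scl_one] using this
    have h2 := h1.eventually h.2.2.1
    filter_upwards [h2, eventually_ne_zero (I := I)] with l hl hl0
    have h3 := hA.hom x (hWU hx.2) y (hWU hy.2) u v l 1 hl0 (by simp) _ h.2.1
    rw [scl_one, wt_one, mul_one] at h3
    exact (hl h3).symm
  · intro x hx y hy u hu v hv
    have h := (hball _ (hmem hx.1 hy.1 hu hv)).1
    have h1 : Tendsto (fun l : I → ℂ => (((S x u, scl l (S y v)) : Pt Jt × Pt Jt),
        (∏ i, l i ^ w i) * Φ (S x u, S y v))) (𝓝 1) (𝓝 ((S x u, S y v), Φ (S x u, S y v))) := by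
      have c1 : ContinuousAt (fun l : I → ℂ => (((S x u, scl l (S y v)) : Pt Jt × Pt Jt),
        (∏ i, l i ^ w i) * Φ (S x u, S y v))) 1 :=
        (continuousAt_const.prodMk (continuous_scl (S y v)).continuousAt).prodMk
          ((continuousAt_wt w).mul continuousAt_const)
      have := c1.tendsto
      simpa [scl_one] using this
    have h2 := h1.eventually h.2.2.1
    filter_upwards [h2, eventually_ne_zero (I := I)] with l hl hl0
    have h3 := hA.hom x (hWU hx.2) y (hWU hy.2) u v 1 l (by simp) hl0 _ h.2.1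
    rw [scl_one, wt_one, one_mul] at h3
    exact (hl h3).symm

end GermEx

end Crest.Agent.R260.Out_516
end
end

-- ▼ part R260/Out4_516
section

/-!
# R260 (S0398), AG-OUT part 4 (helper516): from the germ to the two-point tensor

`out_of_in` : `TwIn` and `AgIn` ⟹ `OutProp`.
-/

set_option autoImplicit false
set_option linter.unusedSectionVars false

open Set Filter Topology Metric Complex
open scoped ContDiff
open Crest.GeometryTopology.CoordMetric Crest.GeometryTopology.ChartRiem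
open Crest.Agent.R260.Tw_979 Crest.Agent.R260.TwPen_389 Crest.Agent.R260.End_919
open Crest.Agent.R270.BM_360

noncomputable section

namespace Crest.Agent.R260.Out_516

variable {n : ℕ} {I : Type} [Fintype I] {Jt : I → Type} [∀ i, Fintype (Jt i)]

/-- from monomials to `nn` -/
def Bm : Fin 3 → Fin 3 → ℂ :=
  ![![0, 1 / 2, -Complex.I / 2], ![-1 / 2, 0, 0], ![0, -1 / 2, -Complex.I / 2]]

theorem sum_Bm (i : Fin 3) (u : ℂ) : ∑ a, Bm i a * nn u a = u ^ (i : ℕ) := by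
  fin_cases i
  · simp [Bm, nn, Fin.sum_univ_three]
    ring_nf
    simp
    ring
  · simp [Bm, nn, Fin.sum_univ_three]
    ring
  · simp [Bm, nn, Fin.sum_univ_three]
    ring_nf
    simp
    ring

/-- tensor of a biquadratic polynomial -/
def tn (m : Fin 3 → Fin 3 → ℂ) (a b : Fin 3) : ℂ := ∑ i, ∑ j, m i j * (Bm i a * Bm j b)

theorem sum_tn (m : Fin 3 → Fin 3 → ℂ) (u v : ℂ) :
    ∑ a, (∑ b, nn v b * tn m a b) * nn u a = bq m u v := by
  unfold bq
  simp only [← sum_Bm, tn, Fin.sum_univ_three]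
  ring

theorem tn_sqm (κ : ℂ) (a b : Fin 3) :
    tn (fun i j => κ * sqm i j) a b = if a = b then -κ / 2 else 0 := by
  fin_cases a <;> fin_cases b <;>
    (simp [tn, sqm, Bm, Fin.sum_univ_three]; try ring_nf; try (simp; ring))

theorem tn_swap (m : Fin 3 → Fin 3 → ℂ) (a b : Fin 3) :
    tn (fun i j => m j i) a b = tn m b a := by
  unfold tn
  rw [Finset.sum_comm]
  refine Finset.sum_congr rfl fun i _ => Finset.sum_congr rfl fun j _ => ?_
  ring

theorem nn_comb_zero {X : Fin 3 → ℂ} {v1 : ℂ} {r : ℝ} (hr : 0 < r)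
    (h : ∀ v ∈ ball v1 r, ∑ b, nn v b * X b = 0) : ∀ b, X b = 0 := by
  have hinf : (ball v1 r).Infinite := by
    refine (infinite_seg r hr v1 1 one_ne_zero).mono ?_
    rintro _ ⟨t, ht, rfl⟩
    rw [mem_ball, dist_eq_norm]
    simpa using ht
  have hc := coef_zero (n := 3) ![X 1 + Complex.I * X 2, -2 * X 0, -X 1 + Complex.I * X 2]
    (ball v1 r) hinf (by
      intro v hv
      have := h v hv
      simp [Fin.sum_univ_three, nn] at this ⊢
      linear_combination this)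
  have h0 := hc 0
  have h1 := hc 1
  have h2 := hc 2
  simp at h0 h1 h2
  have hI : Complex.I ≠ 0 := Complex.I_ne_zero
  have h3 : Complex.I * X 2 = 0 := by linear_combination (h0 + h2) / 2
  have h4 : X 2 = 0 := by
    rcases mul_eq_zero.1 h3 with h | h
    · exact absurd h hI
    · exact h
  intro b
  fin_cases b
  · exact h1
  · simp
    linear_combination h0 - Complex.I * h4
  · exact h4

/-- a quadratic expression in `nn u` vanishing on a ball vanishes -/
theorem nn_quad_zero {X : Fin 3 → Fin 3 → ℂ} {u1 : ℂ} {r : ℝ} (hr : 0 < r)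
    (h : ∀ u ∈ ball u1 r, ∑ a, ∑ b, nn u a * nn u b * X a b = 0) (u : ℂ) :
    ∑ a, ∑ b, nn u a * nn u b * X a b = 0 := by
  have hinf : (ball u1 r).Infinite := by
    refine (infinite_seg r hr u1 1 one_ne_zero).mono ?_
    rintro _ ⟨t, ht, rfl⟩
    rw [mem_ball, dist_eq_norm]
    simpa using ht
  let np : Fin 3 → Polynomial ℂ :=
    ![Polynomial.C (-2) * Polynomial.X, 1 - Polynomial.X ^ 2,
      Polynomial.C Complex.I * (1 + Polynomial.X ^ 2)]
  have hnp : ∀ (u : ℂ) a, (np a).eval u = nn u a := by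
    intro u a
    fin_cases a
    · simp [np, nn]
    · simp [np, nn]
    · simp [np, nn]
  set p : Polynomial ℂ := ∑ a, ∑ b, np a * np b * Polynomial.C (X a b) with hp
  have hpe : ∀ u : ℂ, p.eval u = ∑ a, ∑ b, nn u a * nn u b * X a b := by
    intro u
    rw [hp]
    simp only [Polynomial.eval_finsetSum, Polynomial.eval_mul, Polynomial.eval_C, hnp]
  have hp0 : p = 0 := by
    apply Polynomial.eq_zero_of_infinite_isRoot
    refine hinf.mono ?_
    intro u hu
    change p.eval u = 0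
    rw [hpe]
    exact h u hu
  rw [← hpe, hp0, Polynomial.eval_zero]

theorem qd_nn_zero {ι : Type*} [Fintype ι] [DecidableEq ι] (J : Fin 3 → Matrix ι ι ℂ) (τ : Fin 3 → ι → ℂ) {u1 : ℂ} {r : ℝ}
    (hr : 0 < r) (h : ∀ u ∈ ball u1 r, qd J τ (nn u) = 0) (u : ℂ) : qd J τ (nn u) = 0 := by
  have he : ∀ (u : ℂ) j, qd J τ (nn u) j =
      ∑ a, ∑ b, nn u a * nn u b * (∑ i, J a i j * τ b i) := by
    intro u j
    rw [qd_apply]
    have e1 : ∀ i, Nq J (nn u) i j * ∑ b, nn u b * τ b i =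
        ∑ a, ∑ b, (nn u a * J a i j) * (nn u b * τ b i) := by
      intro i
      rw [Nq_apply, Finset.sum_mul_sum]
    rw [Finset.sum_congr rfl fun i _ => e1 i, Finset.sum_comm]
    refine Finset.sum_congr rfl fun a _ => ?_
    rw [Finset.sum_comm]
    refine Finset.sum_congr rfl fun b _ => ?_
    rw [Finset.mul_sum]
    refine Finset.sum_congr rfl fun i _ => ?_
    ring
  funext j
  rw [he u j, Pi.zero_apply]
  refine nn_quad_zero (u1 := u1) (X := fun a b => ∑ i, J a i j * τ b i) hr (fun u hu => ?_) u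
  rw [← he u j, h u hu]
  rfl

section Main

variable {g : MetricField n} {J : Fin 3 → EuclideanSpace ℝ (Fin n) → Matrix (Fin n) (Fin n) ℝ}
  {c : EuclideanSpace ℝ (Fin n) → Fin n → Fin 3 → Fin 3 → ℝ}
  {U V : Set (EuclideanSpace ℝ (Fin n))} {w : I → ℤ}
  {S : EuclideanSpace ℝ (Fin n) → ℂ → Pt Jt} {κ : ℂ} {u1 v1 : ℂ} {r : ℝ}
  {Φ : Pt Jt × Pt Jt → ℂ}

/-- the coefficients of the germ -/
def gm (S : EuclideanSpace ℝ (Fin n) → ℂ → Pt Jt) (u1 v1 : ℂ) (r : ℝ) (Φ : Pt Jt × Pt Jt → ℂ)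
    (x y : EuclideanSpace ℝ (Fin n)) (i j : Fin 3) : ℂ :=
  ∑ a, ∑ b, Φ (S x (nd u1 r a), S y (nd v1 r b)) * ((lg u1 r a).coeff i * (lg v1 r b).coeff j)

/-- the complex two-point tensor of the germ -/
def gc (S : EuclideanSpace ℝ (Fin n) → ℂ → Pt Jt) (u1 v1 : ℂ) (r : ℝ) (Φ : Pt Jt × Pt Jt → ℂ)
    (a b : Fin 3) (x y : EuclideanSpace ℝ (Fin n)) : ℂ :=
  tn (gm S u1 v1 r Φ x y) a b

theorem Germ.eq_bq (h : Germ w S κ V u1 v1 r Φ) (hr : 0 < r) {x y : EuclideanSpace ℝ (Fin n)}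
    (hx : x ∈ V) (hy : y ∈ V) : ∀ u ∈ ball u1 r, ∀ v ∈ ball v1 r,
      Φ (S x u, S y v) = bq (gm S u1 v1 r Φ x y) u v :=
  bq_interp hr (fun u v => Φ (S x u, S y v)) (h.quad2 x hx y hy) (h.quad1 x hx y hy)

theorem Germ.eq_gc (h : Germ w S κ V u1 v1 r Φ) (hr : 0 < r) {x y : EuclideanSpace ℝ (Fin n)}
    (hx : x ∈ V) (hy : y ∈ V) : ∀ u ∈ ball u1 r, ∀ v ∈ ball v1 r,
      Φ (S x u, S y v) = ∑ a, (∑ b, nn v b * gc S u1 v1 r Φ a b x y) * nn u a := by
  intro u hu v hv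
  rw [h.eq_bq hr hx hy u hu v hv, ← sum_tn]
  rfl

/-- swapping the two slots -/
theorem Germ.swap (h : Germ w S κ V u1 v1 r Φ) :
    Germ w S κ V v1 u1 r (fun q => Φ (q.2, q.1)) where
  ana x hx y hy u hu v hv := ContDiffAt.comp (g := Φ) (f := fun q : Pt Jt × Pt Jt => (q.2, q.1))
    (S x u, S y v) (h.ana y hy x hx v hv u hu) (contDiffAt_snd.prodMk contDiffAt_fst)
  quad2 x hx y hy u hu := h.quad1 y hy x hx u hu
  quad1 x hx y hy v hv := h.quad2 y hy x hx v hv
  diag x hx u hu v hv := by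
    change Φ (S x v, S x u) = _
    rw [h.diag x hx v hv u hu]
    ring
  hom1 x hx y hy u hu v hv := h.hom2 y hy x hx v hv u hu
  hom2 x hx y hy u hu v hv := h.hom1 y hy x hx v hv u hu

theorem gm_swap (x y : EuclideanSpace ℝ (Fin n)) (i j : Fin 3) :
    gm S v1 u1 r (fun q => Φ (q.2, q.1)) x y i j = gm S u1 v1 r Φ y x j i := by
  unfold gm
  rw [Finset.sum_comm]
  refine Finset.sum_congr rfl fun a _ => Finset.sum_congr rfl fun b _ => ?_
  ring

theorem gc_swap (a b : Fin 3) (x y : EuclideanSpace ℝ (Fin n)) :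
    gc S v1 u1 r (fun q => Φ (q.2, q.1)) a b x y = gc S u1 v1 r Φ b a y x := by
  have h : gm S v1 u1 r (fun q => Φ (q.2, q.1)) x y = fun i j => gm S u1 v1 r Φ y x j i := by
    funext i j
    exact gm_swap x y i j
  unfold gc
  rw [h]
  exact tn_swap _ a b

/-- diagonal values -/
theorem Germ.gc_diag (h : Germ w S κ V u1 v1 r Φ) (hr : 0 < r) {x : EuclideanSpace ℝ (Fin n)}
    (hx : x ∈ V) (a b : Fin 3) : gc S u1 v1 r Φ a b x x = if a = b then -κ / 2 else 0 := by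
  have h1 : ∀ i j, gm S u1 v1 r Φ x x i j - κ * sqm i j = 0 := by
    refine bq_zero_of_balls (fun i j => gm S u1 v1 r Φ x x i j - κ * sqm i j) (u1 := u1) (v1 := v1)
      hr (fun u hu v hv => ?_)
    have h2 := h.eq_bq hr hx hx u hu v hv
    have h3 := h.diag x hx u hu v hv
    have h4 := bq_sqm κ u v
    have h5 : bq (fun i j => gm S u1 v1 r Φ x x i j - κ * sqm i j) u v =
        bq (gm S u1 v1 r Φ x x) u v - bq (fun i j => κ * sqm i j) u v := by
      unfold bq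
      rw [← Finset.sum_sub_distrib]
      refine Finset.sum_congr rfl fun i _ => ?_
      rw [← Finset.sum_sub_distrib]
      refine Finset.sum_congr rfl fun j _ => ?_
      ring
    rw [h5, h4, ← h2, h3, sub_self]
  have h2 : gm S u1 v1 r Φ x x = fun i j => κ * sqm i j := by
    funext i j
    exact sub_eq_zero.1 (h1 i j)
  unfold gc
  rw [h2, tn_sqm]

/-- smoothness -/
theorem Germ.sm_phi (h : Germ w S κ V u1 v1 r Φ) (hT : TwIn g J c U w S) (hVU : V ⊆ U)
    {u v : ℂ} (hu : u ∈ ball u1 r) (hv : v ∈ ball v1 r) :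
    ContDiffOn ℝ ∞ (fun z : EuclideanSpace ℝ (Fin n) × EuclideanSpace ℝ (Fin n) =>
      Φ (S z.1 u, S z.2 v)) (V ×ˢ V) := by
  rintro ⟨x, y⟩ ⟨hx, hy⟩
  have h1 : ContDiffAt ℝ ∞ Φ (S x u, S y v) :=
    ((h.ana x hx y hy u hu v hv).restrict_scalars ℝ).of_le (by simp)
  have h2 : ContDiffAt ℝ ∞ (fun z : EuclideanSpace ℝ (Fin n) × EuclideanSpace ℝ (Fin n) =>
      prS S ((z.1, u), (z.2, v))) (x, y) := by
    refine ContDiffAt.comp (g := prS S) (x, y) (hT.contDiffAt_prS (hVU hx) (hVU hy) u v) ?_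
    exact (contDiffAt_fst.prodMk contDiffAt_const).prodMk (contDiffAt_snd.prodMk contDiffAt_const)
  exact (ContDiffAt.comp (g := Φ) (x, y) h1 h2).contDiffWithinAt

theorem Germ.sm_gc (h : Germ w S κ V u1 v1 r Φ) (hr : 0 < r) (hT : TwIn g J c U w S) (hVU : V ⊆ U)
    (a b : Fin 3) : ContDiffOn ℝ ∞ (fun z : EuclideanSpace ℝ (Fin n) × EuclideanSpace ℝ (Fin n) =>
      gc S u1 v1 r Φ a b z.1 z.2) (V ×ˢ V) := by
  unfold gc tn gm
  refine ContDiffOn.sum fun i _ => ContDiffOn.sum fun j _ => ContDiffOn.mul ?_ contDiffOn_const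
  refine ContDiffOn.sum fun a' _ => ContDiffOn.sum fun b' _ => ContDiffOn.mul ?_ contDiffOn_const
  exact h.sm_phi hT hVU (nd_mem u1 hr a') (nd_mem v1 hr b')

theorem Germ.sm_gc1 (h : Germ w S κ V u1 v1 r Φ) (hr : 0 < r) (hT : TwIn g J c U w S)
    (hVU : V ⊆ U) (a b : Fin 3) {y : EuclideanSpace ℝ (Fin n)} (hy : y ∈ V) :
    ContDiffOn ℝ ∞ (fun x => gc S u1 v1 r Φ a b x y) V :=
  ContDiffOn.comp (g := fun z : EuclideanSpace ℝ (Fin n) × EuclideanSpace ℝ (Fin n) =>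
      gc S u1 v1 r Φ a b z.1 z.2) (f := fun x => (x, y)) (h.sm_gc hr hT hVU a b)
    (contDiffOn_id.prodMk contDiffOn_const) (fun x hx => ⟨hx, hy⟩)

/-- `hor` is local -/
theorem hor_congr {f f' : EuclideanSpace ℝ (Fin n) → ℂ → ℂ} (hV : IsOpen V)
    (hf : ∀ x ∈ V, ∀ u ∈ ball u1 r, f x u = f' x u) {x : EuclideanSpace ℝ (Fin n)} (hx : x ∈ V)
    {u : ℂ} (hu : u ∈ ball u1 r) (i : Fin n) : hor c f x u i = hor c f' x u i := by
  have h1 : cpd i (fun y => f y u) x = cpd i (fun y => f' y u) x := by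
    apply cpd_congr
    filter_upwards [hV.mem_nhds hx] with y hy
    exact hf y hy u hu
  have h2 : deriv (f x) u = deriv (f' x) u := by
    apply Filter.EventuallyEq.deriv_eq
    filter_upwards [isOpen_ball.mem_nhds hu] with v hv
    exact hf x hx v hv
  unfold hor
  rw [h1, h2, hf x hx u hu]

/-- **(T1)**, complex form -/
theorem Germ.tw1 (h : Germ w S κ V u1 v1 r Φ) (hr : 0 < r) (hT : TwIn g J c U w S) (hV : IsOpen V)
    (hVU : V ⊆ U) {x y : EuclideanSpace ℝ (Fin n)} (hx : x ∈ V) (hy : y ∈ V) (b a : Fin 3)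
    (i : Fin n) :
    nab c (fun a x' => gc S u1 v1 r Φ a b x' y) x a i =
      ∑ k, ((g x * J a x) i k : ℂ) * KK g J c (fun a x' => gc S u1 v1 r Φ a b x' y) x k := by
  refine tw_of_qd (hT.qh.mono hV hVU) hx (fun u => ?_) a i
  refine qd_nn_zero (u1 := u1) _ _ hr (fun u hu => ?_) u
  have hdiff : ∀ a b, DifferentiableAt ℝ (fun x' => gc S u1 v1 r Φ a b x' y) x := fun a b =>
    ((h.sm_gc1 hr hT hVU a b hy).contDiffAt (hV.mem_nhds hx)).differentiableAt (by simp)
  -- the equation for `∑ b, nn v b * gc a b`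
  have key : ∀ v ∈ ball v1 r, ∀ j, ∑ b, nn v b *
      qd (fun a => cm (J a x)) (fun a => nab c (fun a x' => gc S u1 v1 r Φ a b x' y) x a)
        (nn u) j = 0 := by
    intro v hv j
    set s : Fin 3 → EuclideanSpace ℝ (Fin n) → ℂ :=
      fun a x' => ∑ b, nn v b * gc S u1 v1 r Φ a b x' y with hs
    have hcr := hT.cr x (hVU hx) u (fun q => Φ (q, S y v))
      (ContDiffAt.comp (g := Φ) (f := fun q : Pt Jt => (q, S y v)) (S x u)
        (h.ana x hx y hy u hu v hv) (contDiffAt_id.prodMk contDiffAt_const))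
      (h.hom1 x hx y hy u hu v hv) j
    have hsd : ∀ a, DifferentiableAt ℝ (s a) x := fun a =>
      DifferentiableAt.fun_sum fun b _ => (hdiff a b).const_mul (nn v b)
    have e1 : ∀ i, hor c (fun y' v' => Φ (S y' v', S y v)) x u i =
        ∑ a, nn u a * nab c s x a i := by
      intro i
      rw [hor_congr (f' := fun x' u' => ∑ a, s a x' * nn u' a) hV
        (fun x' hx' u' hu' => h.eq_gc hr hx' hy u' hu' v hv) hx hu i]
      exact hor_sum hV (fun _ _ _ => rfl) hx hsd (fun i a b => hT.qh.skew x (hVU hx) i a b) u i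
    have e2 : ∀ a i, nab c s x a i =
        ∑ b, nn v b * nab c (fun a x' => gc S u1 v1 r Φ a b x' y) x a i := by
      intro a i
      have e3 : cpd i (s a) x = ∑ b, nn v b * cpd i (fun x' => gc S u1 v1 r Φ a b x' y) x := by
        have := cpd_sum (s := fun b x' => gc S u1 v1 r Φ a b x' y) (x := x)
          (fun b => hdiff a b) i (fun b => nn v b)
        have e4 : s a = fun x' => ∑ b, gc S u1 v1 r Φ a b x' y * nn v b := by
          funext x'
          exact Finset.sum_congr rfl fun b _ => mul_comm _ _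
        rw [e4, this]
        exact Finset.sum_congr rfl fun b _ => mul_comm _ _
      unfold nab
      rw [e3]
      simp only [mul_add, Finset.sum_add_distrib, hs]
      congr 1
      simp only [Finset.sum_mul, Finset.mul_sum]
      rw [Finset.sum_comm]
      refine Finset.sum_congr rfl fun b _ => Finset.sum_congr rfl fun d _ => ?_
      ring
    have e5 : ∑ i, Nq (fun a => cm (J a x)) (nn u) i j * ∑ a, nn u a * nab c s x a i = 0 := by
      rw [← hcr]
      exact Finset.sum_congr rfl fun i _ => by rw [e1 i]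
    rw [← e5]
    simp only [qd_apply, e2, Finset.mul_sum]
    rw [Finset.sum_comm]
    refine Finset.sum_congr rfl fun i _ => ?_
    rw [Finset.sum_comm]
    refine Finset.sum_congr rfl fun a _ => Finset.sum_congr rfl fun b _ => ?_
    ring
  funext j
  exact nn_comb_zero hr (fun v hv => key v hv j) b

/-- the real two-point tensor -/
def gr (κ : ℂ) (S : EuclideanSpace ℝ (Fin n) → ℂ → Pt Jt) (u1 v1 : ℂ) (r : ℝ)
    (Φ : Pt Jt × Pt Jt → ℂ) (a b : Fin 3) (x y : EuclideanSpace ℝ (Fin n)) : ℝ :=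
  ((-2 / κ) * gc S u1 v1 r Φ a b x y).re

theorem gr_swap (a b : Fin 3) (x y : EuclideanSpace ℝ (Fin n)) :
    gr κ S v1 u1 r (fun q => Φ (q.2, q.1)) a b x y = gr κ S u1 v1 r Φ b a y x := by
  unfold gr
  rw [gc_swap]

theorem pderiv_re (e : ℂ) {f : EuclideanSpace ℝ (Fin n) → ℂ} {x : EuclideanSpace ℝ (Fin n)}
    (hf : DifferentiableAt ℝ f x) (i : Fin n) :
    pderiv i (fun x' => (e * f x').re) x = (e * cpd i f x).re := by
  have h1 : HasFDerivAt (fun x' => e * f x') (e • fderiv ℝ f x) x := hf.hasFDerivAt.const_mul e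
  have h2 : HasFDerivAt (fun x' => (e * f x').re) (Complex.reCLM.comp (e • fderiv ℝ f x)) x :=
    Complex.reCLM.hasFDerivAt.comp x h1
  unfold pderiv cpd
  rw [h2.fderiv]
  simp

/-- **(T1)**, real form -/
theorem Germ.twr (h : Germ w S κ V u1 v1 r Φ) (hr : 0 < r) (hT : TwIn g J c U w S) (hV : IsOpen V)
    (hVU : V ⊆ U) {x y : EuclideanSpace ℝ (Fin n)} (hx : x ∈ V) (hy : y ∈ V) (b : Fin 3) :
    ∃ K : Fin n → ℝ, ∀ i a,
      pderiv i (fun x' => gr κ S u1 v1 r Φ a b x' y) x +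
        ∑ d, gr κ S u1 v1 r Φ d b x y * c x i d a = ∑ l, ∑ p, g x i l * J a x l p * K p := by
  refine ⟨fun k => ((-2 / κ) * KK g J c (fun a x' => gc S u1 v1 r Φ a b x' y) x k).re,
    fun i a => ?_⟩
  have h1 := h.tw1 hr hT hV hVU hx hy b a i
  have hdiff : ∀ a b, DifferentiableAt ℝ (fun x' => gc S u1 v1 r Φ a b x' y) x := fun a b =>
    ((h.sm_gc1 hr hT hVU a b hy).contDiffAt (hV.mem_nhds hx)).differentiableAt (by simp)
  have h2 : pderiv i (fun x' => gr κ S u1 v1 r Φ a b x' y) x =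
      ((-2 / κ) * cpd i (fun x' => gc S u1 v1 r Φ a b x' y) x).re :=
    pderiv_re _ (hdiff a b) i
  have h3 := congrArg (fun z : ℂ => ((-2 / κ) * z).re) h1
  simp only [nab] at h3
  rw [mul_add, Complex.add_re, Finset.mul_sum, Complex.re_sum, Finset.mul_sum,
    Complex.re_sum] at h3
  rw [h2]
  have h4 : ∀ d, gr κ S u1 v1 r Φ d b x y * c x i d a =
      ((-2 / κ) * (gc S u1 v1 r Φ d b x y * (c x i d a : ℂ))).re := by
    intro d
    rw [← mul_assoc, Complex.re_mul_ofReal]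
    rfl
  rw [Finset.sum_congr rfl fun d _ => h4 d, h3, Finset.sum_comm]
  refine Finset.sum_congr rfl fun k _ => ?_
  rw [← mul_assoc, mul_comm (-2 / κ), mul_assoc, Complex.re_ofReal_mul, Matrix.mul_apply,
    Finset.sum_mul]

theorem Germ.twoPt (h : Germ w S κ V u1 v1 r Φ) (hκ : κ ≠ 0) (hr : 0 < r)
    (hT : TwIn g J c U w S) (hV : IsOpen V) (hVU : V ⊆ U) :
    TwoPt g V J c (gr κ S u1 v1 r Φ) where
  smG a b := Complex.reCLM.contDiff.comp_contDiffOn
    (contDiffOn_const.mul (h.sm_gc hr hT hVU a b))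
  t1 x hx y hy b := h.twr hr hT hV hVU hx hy b
  t2 x hx y hy a := by
    obtain ⟨K, hK⟩ := h.swap.twr hr hT hV hVU hy hx a
    refine ⟨K, fun i b => ?_⟩
    have := hK i b
    simp only [gr_swap] at this
    exact this
  diag x hx a b := by
    unfold gr
    rw [h.gc_diag hr hx]
    by_cases hab : a = b
    · rw [if_pos hab, if_pos hab]
      have : -2 / κ * (-κ / 2) = 1 := by field_simp
      rw [this]
      rfl
    · rw [if_neg hab, if_neg hab, mul_zero]
      rfl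

end Main

/-- **AG-OUT.** -/
theorem out_of_in {g : MetricField n}
    {J : Fin 3 → EuclideanSpace ℝ (Fin n) → Matrix (Fin n) (Fin n) ℝ}
    {c : EuclideanSpace ℝ (Fin n) → Fin n → Fin 3 → Fin 3 → ℝ}
    {U : Set (EuclideanSpace ℝ (Fin n))} {w : I → ℤ}
    {S : EuclideanSpace ℝ (Fin n) → ℂ → Pt Jt} {κ : ℂ}
    {P : Polynomial (MvPolynomial ((Σ i, Jt i) ⊕ (Σ i, Jt i)) ℂ)}
    {D : MvPolynomial ((Σ i, Jt i) ⊕ (Σ i, Jt i)) ℂ}
    (hT : TwIn g J c U w S) (hA : AgIn U w S κ P D) : OutProp g J c U := by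
  intro W hW hne hWU
  obtain ⟨V, hV, hVn, hVW, u1, v1, r, Φ, hr, h⟩ := exists_germ hT hA hW hne hWU
  exact ⟨V, hV, hVn, hVW, _, h.twoPt hA.κ0 hr hT hV (hVW.trans hWU)⟩

end Crest.Agent.R260.Out_516
end
end

-- ▼ part R260/MainD_803

/-!
# Row 260 (S0398), MAIN (helper803): the closed Props `DatAll` (151) and `OutT` (516)
-/

set_option autoImplicit false

open Set Filter Topology Polynomial
open scoped ContDiff Matrix Manifold

namespace Crest.Agent.R260.MainC_803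

theorem datAll : DatAll := by
  intro m hm M _ _ _ _ _ _ G Q hpos
  exact Qk9_151.dat_all hm rfl G Q hpos

theorem outT : OutT := by
  intro I _ Jt _ n g J c U w S κ P Dn _ hT hA
  exact Out_516.out_of_in hT hA

end Crest.Agent.R260.MainC_803
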